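import Vale.Agent.P347.Interface

/-!
P347: algorithms whose seed is finitely many random reals.
-/

namespace Vale.Agent.P347

open MeasureTheory

/-- The seed is computed measurably from finitely many independent standard Gaussian reals. -/
def UsesReals {d q : ℕ} (A : Algo d q) : Prop :=
  ∃ m : ℕ, ∃ T : E m → A.Seed, Measurable T ∧ A.law = (gam m).map T

/-- `AlgoExists` with the seed made of random reals. -/
def AlgoExistsReals : Prop :=
  ∀ d q n m : ℕ, ∀ Q : Quad q, ∀ η : ℝ, 0 < η →
    ∃ A : Algo d ((n + m) * (2 * q + 3) + 1), UsesReals A ∧ ∀ V : E d → ℝ, Admissible d V →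
      ∀ B : Set (E d), MeasurableSet B →
        (A.law {s | run A V s ∈ B}).toReal
          = (mhat V Q η)^[n]
              (((List.range m).map fun i => stage V Q (η / 2 ^ i)).foldr (fun T f => T f)
                (lastDraw V (η / 2 ^ m) (B.indicator fun _ => 1))) 0

end Vale.Agent.P347
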