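import Vale.Agent.P347.Basic
import Vale.Agent.P347.Seed

/-!
P347, seat F: a chain of proximal steps, halving stages and a last draw is a first order algorithm.

`Realizable k F` says that the map `s ↦ F V s` is computed by `k` adaptive oracle queries with
measurable rules which do not depend on `V`; `Impl k T` says that the operator `T V` is the
averaging operator of such a map with an independent random seed.
-/

namespace Vale.Agent.P347

open MeasureTheory ProbabilityTheory

namespace AlgoRun

variable {d q : ℕ}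

/-- Computed by `k` adaptive queries. -/
def Realizable (d : ℕ) : (k : ℕ) → ∀ {S T : Type} [MeasurableSpace S] [MeasurableSpace T],
    ((E d → ℝ) → S → T) → Prop
  | 0, _, _, _, _, F => ∃ h, Measurable h ∧ ∀ V, Admissible d V → ∀ s, F V s = h s
  | k + 1, S, T, _, _, F => ∃ (pre : S → E d) (G : (E d → ℝ) → S × (ℝ × E d) → T),
      Measurable pre ∧ Realizable d k G ∧
        ∀ V, Admissible d V → ∀ s, F V s = G V (s, oracle V (pre s))

variable {S T W : Type} [MeasurableSpace S] [MeasurableSpace T] [MeasurableSpace W]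

lemma measurable_oracle {V : E d → ℝ} (hV : Admissible d V) : Measurable (oracle V) :=
  hV.1.continuous.measurable.prodMk hV.contDiff_gradient.continuous.measurable

lemma Realizable.congr {k : ℕ} {F G : (E d → ℝ) → S → T} (h : Realizable d k F)
    (e : ∀ V, Admissible d V → ∀ s, G V s = F V s) : Realizable d k G := by
  cases k with
  | zero =>
    obtain ⟨f, hf, hF⟩ := h
    exact ⟨f, hf, fun V hV s => (e V hV s).trans (hF V hV s)⟩
  | succ k =>
    obtain ⟨pre, H, hp, hH, hF⟩ := h
    exact ⟨pre, H, hp, hH, fun V hV s => (e V hV s).trans (hF V hV s)⟩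

lemma Realizable.measurable {k : ℕ} {F : (E d → ℝ) → S → T} (h : Realizable d k F)
    {V : E d → ℝ} (hV : Admissible d V) : Measurable (F V) := by
  induction k generalizing S with
  | zero =>
    obtain ⟨f, hf, hF⟩ := h
    rw [show F V = f from funext (hF V hV)]
    exact hf
  | succ k ih =>
    obtain ⟨pre, H, hp, hH, hF⟩ := h
    rw [show F V = fun s => H V (s, oracle V (pre s)) from funext (hF V hV)]
    exact (ih hH).comp (measurable_id.prodMk ((measurable_oracle hV).comp hp))

lemma Realizable.precomp {k : ℕ} {F : (E d → ℝ) → T → W} (h : Realizable d k F)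
    {g : S → T} (hg : Measurable g) : Realizable d k fun V s => F V (g s) := by
  induction k generalizing S T with
  | zero =>
    obtain ⟨f, hf, hF⟩ := h
    exact ⟨fun s => f (g s), hf.comp hg, fun V hV s => hF V hV (g s)⟩
  | succ k ih =>
    obtain ⟨pre, H, hp, hH, hF⟩ := h
    exact ⟨fun s => pre (g s), fun V p => H V (g p.1, p.2), hp.comp hg,
      ih hH ((hg.comp measurable_fst).prodMk measurable_snd), fun V hV s => hF V hV (g s)⟩

lemma Realizable.comp {k l : ℕ} {F : (E d → ℝ) → S → T} {G : (E d → ℝ) → T → W}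
    (hF : Realizable d k F) (hG : Realizable d l G) :
    Realizable d (k + l) fun V s => G V (F V s) := by
  induction k generalizing S with
  | zero =>
    obtain ⟨f, hf, hF⟩ := hF
    rw [Nat.zero_add]
    exact (hG.precomp hf).congr fun V hV s => congrArg (G V) (hF V hV s)
  | succ k ih =>
    obtain ⟨pre, H, hp, hH, hF⟩ := hF
    rw [Nat.succ_add]
    exact ⟨pre, fun V p => G V (H V p), hp, ih hH, fun V hV s => congrArg (G V) (hF V hV s)⟩

lemma realizable_pure {g : S → T} (hg : Measurable g) :
    Realizable d 0 fun (_ : E d → ℝ) s => g s :=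
  ⟨g, hg, fun _ _ _ => rfl⟩

lemma Realizable.postcomp {k : ℕ} {F : (E d → ℝ) → S → T} (hF : Realizable d k F)
    {g : T → W} (hg : Measurable g) : Realizable d k fun V s => g (F V s) :=
  hF.comp (realizable_pure hg)

lemma Realizable.carry {k : ℕ} {F : (E d → ℝ) → S → T} (h : Realizable d k F) :
    Realizable d k fun V (p : S × W) => (p.2, F V p.1) := by
  induction k generalizing S with
  | zero =>
    obtain ⟨f, hf, hF⟩ := h
    exact ⟨fun p : S × W => (p.2, f p.1), measurable_snd.prodMk (hf.comp measurable_fst),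
      fun V hV p => congrArg (Prod.mk p.2) (hF V hV p.1)⟩
  | succ k ih =>
    obtain ⟨pre, H, hp, hH, hF⟩ := h
    exact ⟨fun p => pre p.1, fun V x => (x.1.2, H V (x.1.1, x.2)), hp.comp measurable_fst,
      (ih hH).precomp
        (((measurable_fst.comp measurable_fst).prodMk measurable_snd).prodMk
          (measurable_snd.comp measurable_fst)),
      fun V hV p => congrArg (Prod.mk p.2) (hF V hV p.1)⟩

lemma realizable_ask {pre : S → E d} (hp : Measurable pre) :
    Realizable d 1 fun V s => (s, oracle V (pre s)) :=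
  ⟨pre, fun _ x => x, hp, realizable_pure measurable_id, fun _ _ _ => rfl⟩

lemma realizable_many : ∀ {n : ℕ} {pre : Fin n → S → E d}, (∀ i, Measurable (pre i)) →
    Realizable d n fun V s => (s, fun i => oracle V (pre i s))
  | 0, pre, _ => ⟨fun s => (s, Fin.elim0), measurable_id.prodMk measurable_const,
      fun V _ s => Prod.ext rfl (funext fun i => i.elim0)⟩
  | n + 1, pre, hp => by
    have h := ((realizable_many fun i : Fin n => hp i.castSucc).comp
      (realizable_ask ((hp (Fin.last n)).comp measurable_fst))).postcomp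
      (g := fun x : (S × (Fin n → ℝ × E d)) × (ℝ × E d) =>
        (x.1.1, (Fin.snoc x.1.2 x.2 : Fin (n + 1) → ℝ × E d)))
      ((measurable_fst.comp measurable_fst).prodMk (measurable_pi_lambda _ fun i => by
        refine Fin.lastCases ?_ (fun j => ?_) i
        · simpa using measurable_snd
        · simp only [Fin.snoc_castSucc]
          exact (measurable_pi_apply j).comp (measurable_snd.comp measurable_fst)))
    refine h.congr fun V _ s => Prod.ext rfl (funext fun i => ?_)
    refine Fin.lastCases ?_ (fun j => ?_) i <;> simp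

/-! ### From a realizable map to an algorithm -/

lemma exists_queries : ∀ {N : ℕ} {S T : Type} [MeasurableSpace S] [MeasurableSpace T]
    {F : (E d → ℝ) → S → T}, Realizable d N F →
    ∃ (qu : (k : Fin N) → S × (Fin (k : ℕ) → ℝ × E d) → E d)
      (out : S × (Fin N → ℝ × E d) → T), (∀ k, Measurable (qu k)) ∧ Measurable out ∧
      ∀ V, Admissible d V → ∀ s, ∃ a : Fin N → ℝ × E d,
        (∀ k : Fin N, a k = oracle V (qu k (s, fun i => a (Fin.castLE k.2.le i)))) ∧
          out (s, a) = F V s
  | 0, S, T, _, _, F, ⟨f, hf, hF⟩ =>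
    ⟨fun k => k.elim0, fun p => f p.1, fun k => k.elim0, hf.comp measurable_fst,
      fun V hV s => ⟨Fin.elim0, fun k => k.elim0, (hF V hV s).symm⟩⟩
  | N + 1, S, T, _, _, F, ⟨pre, G, hp, hG, hF⟩ => by
    obtain ⟨qu, out, hqu, hout, h⟩ := exists_queries hG
    refine ⟨fun k => Fin.cases (motive := fun k => S × (Fin (k : ℕ) → ℝ × E d) → E d)
        (fun p => pre p.1) (fun j p => qu j ((p.1, p.2 ⟨0, Nat.succ_pos _⟩), fun i => p.2 i.succ)) k,
      fun p => out ((p.1, p.2 0), fun i => p.2 i.succ), fun k => ?_, ?_, fun V hV s => ?_⟩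
    · refine Fin.cases ?_ (fun j => ?_) k
      · exact hp.comp measurable_fst
      · exact (hqu j).comp ((measurable_fst.prodMk
          ((measurable_pi_apply _).comp measurable_snd)).prodMk
          (measurable_pi_lambda _ fun i => (measurable_pi_apply _).comp measurable_snd))
    · exact hout.comp ((measurable_fst.prodMk ((measurable_pi_apply _).comp measurable_snd)).prodMk
        (measurable_pi_lambda _ fun i => (measurable_pi_apply _).comp measurable_snd))
    · obtain ⟨a, ha, ho⟩ := h V hV (s, oracle V (pre s))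
      refine ⟨Fin.cons (oracle V (pre s)) a, fun k => ?_, ?_⟩
      · refine Fin.cases ?_ (fun j => ?_) k
        · rfl
        · simp only [Fin.cons_succ]
          exact ha j
      · simp only [Fin.cons_zero, Fin.cons_succ]
        exact ho.trans (hF V hV s).symm

lemma answers_eq {N : ℕ} (A : Algo d N) (V : E d → ℝ) (s : A.Seed) (a : Fin N → ℝ × E d)
    (ha : ∀ k : Fin N, a k = oracle V (A.query k (s, fun i => a (Fin.castLE k.2.le i)))) :
    ∀ (k : ℕ) (h : k ≤ N), answers A V s k h = fun i => a (Fin.castLE h i)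
  | 0, _ => funext fun i => i.elim0
  | k + 1, h => by
    funext i
    rw [answers, answers_eq A V s a ha k (Nat.le_of_succ_le h)]
    refine Fin.lastCases ?_ (fun j => ?_) i
    · rw [Fin.snoc_last]
      exact (ha ⟨k, h⟩).symm
    · rw [Fin.snoc_castSucc]
      rfl

theorem exists_algo {N : ℕ} {Ω : Type} [MeasurableSpace Ω] (μ : Measure Ω)
    [IsProbabilityMeasure μ] {F : (E d → ℝ) → Ω → E d} (h : Realizable d N F) :
    ∃ A : Algo d N, ((∃ (m : ℕ) (g : E m → Ω), Measurable g ∧ μ = (gam m).map g) → UsesReals A) ∧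
      ∀ V, Admissible d V → ∀ B : Set (E d),
        A.law {s | run A V s ∈ B} = μ {ω | F V ω ∈ B} := by
  obtain ⟨qu, out, hqu, hout, hrun⟩ := exists_queries h
  refine ⟨⟨Ω, μ, inferInstance, qu, out, hqu, hout⟩, fun hm => hm, fun V hV B => ?_⟩
  congr 1
  ext s
  obtain ⟨a, ha, ho⟩ := hrun V hV s
  simp only [Set.mem_ofPred_eq, run]
  rw [answers_eq _ V s a ha, ← ho]
  simp

/-! ### Averaging operators of random realizable maps -/

/-- The law is the image of a standard Gaussian vector under a measurable map. -/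
def Gen (μ : Measure S) : Prop := ∃ (m : ℕ) (g : E m → S), Measurable g ∧ μ = (gam m).map g

lemma gen_gam (m : ℕ) : Gen (gam m) := ⟨m, id, measurable_id, Measure.map_id.symm⟩

lemma map_split (a b : ℕ) : ∃ g : E (a + b) → E a × E b, Measurable g ∧
    (gam (a + b)).map g = (gam a).prod (gam b) := by
  have e : ∀ m : ℕ, gam m = (Measure.pi fun _ : Fin m => gaussianReal 0 1).map (WithLp.toLp 2) :=
    fun m => map_pi_eq_stdGaussian.symm
  let c := MeasurableEquiv.piCongrLeft (fun _ : Fin (a + b) => ℝ) finSumFinEquiv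
  let sp := MeasurableEquiv.sumPiEquivProdPi fun _ : Fin a ⊕ Fin b => ℝ
  let lp : (Fin a → ℝ) × (Fin b → ℝ) → E a × E b :=
    fun u => (WithLp.toLp 2 u.1, WithLp.toLp 2 u.2)
  have hlp : Measurable lp := by simp only [lp]; fun_prop
  have hg : Measurable fun x : E (a + b) => lp (sp (c.symm (WithLp.ofLp x))) :=
    hlp.comp (sp.measurable.comp (c.symm.measurable.comp (by fun_prop)))
  refine ⟨_, hg, ?_⟩
  have h1 := (measurePreserving_sumPiEquivProdPi
      fun _ : Fin a ⊕ Fin b => gaussianReal 0 1).comp
    ((measurePreserving_piCongrLeft (fun _ : Fin (a + b) => gaussianReal 0 1)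
      finSumFinEquiv).symm)
  rw [e (a + b), e a, e b, Measure.map_map hg (by fun_prop),
    Measure.map_prod_map _ _ (by fun_prop) (by fun_prop)]
  rw [← h1.map_eq, Measure.map_map (by fun_prop) h1.measurable]
  rfl

lemma gen_prod {μ : Measure S} {ν : Measure T} (h₁ : Gen μ) (h₂ : Gen ν) :
    Gen (μ.prod ν) := by
  obtain ⟨a, f, hf, rfl⟩ := h₁
  obtain ⟨b, g, hg, rfl⟩ := h₂
  obtain ⟨sp, hsp, e⟩ := map_split a b
  refine ⟨a + b, Prod.map f g ∘ sp, (hf.prodMap hg).comp hsp, ?_⟩
  have : IsProbabilityMeasure (gam a) := by unfold gam; infer_instance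
  have : IsProbabilityMeasure (gam b) := by unfold gam; infer_instance
  rw [← Measure.map_map (hf.prodMap hg) hsp, e, Measure.map_prod_map _ _ hf hg]

/-- `T V f y` is the mean of `f` at a realizable random point computed from `y`. -/
def Impl (d k : ℕ) (T : (E d → ℝ) → (E d → ℝ) → E d → ℝ) : Prop :=
  ∃ (Ω : Type) (_ : MeasurableSpace Ω) (μ : Measure Ω) (_ : IsProbabilityMeasure μ)
    (F : (E d → ℝ) → Ω × E d → E d), Gen μ ∧ Realizable d k F ∧
    ∀ V, Admissible d V → ∀ f : E d → ℝ, Measurable f → (∀ x, |f x| ≤ 1) →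
      ∀ y, T V f y = ∫ ω, f (F V (ω, y)) ∂μ

lemma impl_comp {k l : ℕ} {T₁ T₂ : (E d → ℝ) → (E d → ℝ) → E d → ℝ} (h₁ : Impl d k T₁)
    (h₂ : Impl d l T₂) : Impl d (k + l) fun V f => T₁ V (T₂ V f) := by
  obtain ⟨Ω₁, _, μ₁, _, F₁, hG₁, hF₁, e₁⟩ := h₁
  obtain ⟨Ω₂, _, μ₂, _, F₂, hG₂, hF₂, e₂⟩ := h₂
  refine ⟨Ω₁ × Ω₂, inferInstance, μ₁.prod μ₂, inferInstance,
    fun V p => F₂ V (p.1.2, F₁ V (p.1.1, p.2)), gen_prod hG₁ hG₂, ?_, fun V hV f hf hb y => ?_⟩
  · exact ((hF₁.carry (W := Ω₂)).precomp
      (((measurable_fst.comp measurable_fst).prodMk measurable_snd).prodMk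
        (measurable_snd.comp measurable_fst))).comp hF₂
  · have hm : Measurable fun p : Ω₂ × E d => f (F₂ V p) := hf.comp (hF₂.measurable hV)
    have hg : Measurable (T₂ V f) := by
      rw [show T₂ V f = fun x => ∫ ω, f (F₂ V (ω, x)) ∂μ₂ from funext (e₂ V hV f hf hb)]
      exact (hm.stronglyMeasurable.comp_measurable measurable_swap).integral_prod_right'.measurable
    have hg1 : ∀ x, |T₂ V f x| ≤ 1 := fun x => by
      rw [e₂ V hV f hf hb x, ← Real.norm_eq_abs]
      refine (norm_integral_le_of_norm_le_const (C := 1) (ae_of_all _ fun ω => ?_)).trans (by simp)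
      rw [Real.norm_eq_abs]
      exact hb _
    have h3 : Measurable fun ω : Ω₁ × Ω₂ => f (F₂ V (ω.2, F₁ V (ω.1, y))) :=
      hm.comp (measurable_snd.prodMk
        ((hF₁.measurable hV).comp (measurable_fst.prodMk measurable_const)))
    have hi : Integrable (fun ω : Ω₁ × Ω₂ => f (F₂ V (ω.2, F₁ V (ω.1, y)))) (μ₁.prod μ₂) :=
      Integrable.of_bound h3.aestronglyMeasurable 1 (ae_of_all _ fun ω => by
        rw [Real.norm_eq_abs]; exact hb _)
    dsimp only
    rw [e₁ V hV _ hg hg1 y, integral_prod _ hi]
    exact integral_congr_ae (ae_of_all _ fun ω => e₂ V hV f hf hb _)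

/-! ### The pieces -/

lemma measurable_blk (i : Fin (2 * q + 4)) :
    Measurable fun x : E ((2 * q + 4) * d) => blk x i := by
  unfold blk
  fun_prop

/-- The state of a step after the first query: noise, point, first answer. -/
abbrev St (d q : ℕ) := (E ((2 * q + 4) * d) × E d) × (ℝ × E d)

/-- The centre `c1`, computed from the first answer. -/
noncomputable def cA (η : ℝ) (s : St d q) : E d :=
  (1 + η)⁻¹ • (s.1.2 - η • (s.2.2 - c0 η s.1.2))

/-- The point to be queried for the normalised coordinate `u`. -/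
noncomputable def node (η : ℝ) (s : St d q) (u : E d) : E d := cA η s + sg η • u

/-- The normalised gradient at `u`, computed from the answer `a` at its node. -/
noncomputable def gval (η : ℝ) (s : St d q) (u : E d) (a : ℝ × E d) : E d :=
  (sg η)⁻¹ • (a.2 - node η s u - (s.2.2 - c0 η s.1.2))

/-- The node `i` of the drift at `z`. -/
noncomputable def pz (Q : Quad q) (i : Fin q) (s : St d q) : E d :=
  ouPt (Q.r i) (blk s.1.1 ⟨0, by omega⟩) (blk s.1.1 ⟨4 + i, by omega⟩)

/-- The node `i` of the drift at `z'`. -/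
noncomputable def pz' (Q : Quad q) (i : Fin q) (s : St d q) : E d :=
  ouPt (Q.r i) (blk s.1.1 ⟨1, by omega⟩) (blk s.1.1 ⟨4 + q + i, by omega⟩)

/-- The state after the two batches of queries. -/
abbrev St2 (d q : ℕ) := (St d q × (Fin q → ℝ × E d)) × (Fin q → ℝ × E d)

/-- The point `B̃` of the mean correction. -/
noncomputable def ptB (Q : Quad q) (η : ℝ) (x : St2 d q) : E d :=
  ouPt (sg η ^ 2) (blk x.1.1.1.1 ⟨1, by omega⟩
    - sg η ^ 2 • ∑ i, Q.a i • gval η x.1.1 (pz' Q i x.1.1) (x.2 i)) (blk x.1.1.1.1 ⟨2, by omega⟩)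

/-- The output of a step, computed from all the answers. -/
noncomputable def outX (Q : Quad q) (η : ℝ) (x : (St2 d q × (ℝ × E d)) × (ℝ × E d)) : E d :=
  cA η x.1.1.1.1 + sg η • (blk x.1.1.1.1.1.1 ⟨0, by omega⟩ - sg η ^ 2 •
    ((∑ i, Q.a i • gval η x.1.1.1.1 (pz Q i x.1.1.1.1) (x.1.1.1.2 i))
      + (gval η x.1.1.1.1 (ptB Q η x.1.1) x.2
        - gval η x.1.1.1.1 (blk x.1.1.1.1.1.1 ⟨3, by omega⟩) x.1.2)))

lemma realizable_xout (Q : Quad q) (η : ℝ) :
    Realizable d (2 * q + 3) fun V (p : E ((2 * q + 4) * d) × E d) => xout V Q η p.2 p.1 := by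
  have hc0 : Measurable fun p : E ((2 * q + 4) * d) × E d => c0 η p.2 := by unfold c0; fun_prop
  have hb : ∀ i, Measurable fun s : St d q => blk s.1.1 i := fun i =>
    (measurable_blk i).comp (measurable_fst.comp measurable_fst)
  have hc : Measurable (cA η : St d q → E d) := by unfold cA c0; fun_prop
  have hnode : ∀ {Y : Type} [MeasurableSpace Y] {s : Y → St d q} {u : Y → E d},
      Measurable s → Measurable u → Measurable fun y => node η (s y) (u y) := fun hs hu =>
    (hc.comp hs).add (hu.const_smul (sg η))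
  have hval : ∀ {Y : Type} [MeasurableSpace Y] {s : Y → St d q} {u : Y → E d}
      {a : Y → ℝ × E d}, Measurable s → Measurable u → Measurable a →
      Measurable fun y => gval η (s y) (u y) (a y) := fun hs hu ha => by
    have := hnode hs hu
    unfold gval c0
    fun_prop
  have hz : ∀ i, Measurable (pz Q i : St d q → E d) := fun i => by
    have h0 := hb ⟨0, by omega⟩
    have h1 := hb ⟨4 + i, by omega⟩
    unfold pz ouPt
    fun_prop
  have hz' : ∀ i, Measurable (pz' Q i : St d q → E d) := fun i => by
    have h0 := hb ⟨1, by omega⟩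
    have h1 := hb ⟨4 + q + i, by omega⟩
    unfold pz' ouPt
    fun_prop
  have hs2 : Measurable fun x : St2 d q => x.1.1 := measurable_fst.comp measurable_fst
  have hB : Measurable (ptB Q η : St2 d q → E d) := by
    have h1 := (hb ⟨1, by omega⟩).comp hs2
    have h2 := (hb ⟨2, by omega⟩).comp hs2
    have h3 : Measurable fun x : St2 d q =>
        ∑ i, Q.a i • gval η x.1.1 (pz' Q i x.1.1) (x.2 i) :=
      Finset.measurable_sum _ fun i _ => (hval hs2 ((hz' i).comp hs2)
        ((measurable_pi_apply i).comp measurable_snd)).const_smul (Q.a i)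
    simp only [Function.comp_def] at h1 h2
    unfold ptB ouPt
    fun_prop
  have hs3 : Measurable fun x : (St2 d q × (ℝ × E d)) × (ℝ × E d) => x.1.1.1.1 :=
    hs2.comp (measurable_fst.comp measurable_fst)
  have hout : Measurable (outX Q η : (St2 d q × (ℝ × E d)) × (ℝ × E d) → E d) := by
    have h0 := (hb ⟨0, by omega⟩).comp hs3
    have h1 : Measurable fun x : (St2 d q × (ℝ × E d)) × (ℝ × E d) =>
        ∑ i, Q.a i • gval η x.1.1.1.1 (pz Q i x.1.1.1.1) (x.1.1.1.2 i) :=
      Finset.measurable_sum _ fun i _ => (hval hs3 ((hz i).comp hs3)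
        ((measurable_pi_apply i).comp
          (measurable_snd.comp (measurable_fst.comp (measurable_fst.comp measurable_fst))))).const_smul
        (Q.a i)
    have h2 := hval hs3 (hB.comp (measurable_fst.comp measurable_fst)) measurable_snd
    have h3 := hval hs3 ((hb ⟨3, by omega⟩).comp hs3) (measurable_snd.comp measurable_fst)
    have h4 := hc.comp hs3
    simp only [Function.comp_def] at h0 h2 h3 h4
    unfold outX
    fun_prop
  have h := (((((realizable_ask hc0).comp
    (realizable_many fun i => hnode measurable_id (hz i))).comp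
    (realizable_many fun i => hnode measurable_fst ((hz' i).comp measurable_fst))).comp
    (realizable_ask (hnode hs2 ((hb ⟨3, by omega⟩).comp hs2)))).comp
    (realizable_ask (hnode (hs2.comp measurable_fst) (hB.comp measurable_fst)))).postcomp hout
  rw [show 2 * q + 3 = 1 + q + q + 1 + 1 by omega]
  exact h.congr fun V _ p => rfl

lemma integral_pair {μ : Measure S} [IsProbabilityMeasure μ] {ν : Measure T}
    [IsProbabilityMeasure ν] {Φ : S → E d} (hΦ : Measurable Φ) {f : E d → ℝ} (hf : Measurable f)
    (hb : ∀ x, |f x| ≤ 1) {g : E d → T → E d} (hg : Measurable fun p : E d × T => g p.1 p.2) :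
    ∫ x, ∫ w, f (g (Φ x) w) ∂ν ∂μ = ∫ p : S × T, f (g (Φ p.1) p.2) ∂μ.prod ν := by
  have h1 : Measurable fun p : S × T => f (g (Φ p.1) p.2) :=
    hf.comp (hg.comp ((hΦ.comp measurable_fst).prodMk measurable_snd))
  exact (integral_prod _ (Integrable.of_bound h1.aestronglyMeasurable 1
    (ae_of_all _ fun ω => by rw [Real.norm_eq_abs]; exact hb _))).symm

attribute [local irreducible] xout in
lemma impl_mhat (Q : Quad q) (η : ℝ) :
    Impl d (2 * q + 3) fun V f => mhat V Q η f := by
  refine ⟨E ((2 * q + 4) * d) × E d, inferInstance, (noise d q).prod (gam d),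
    by unfold noise gam; infer_instance,
    fun V p => xout V Q η p.2 p.1.1 + Real.sqrt η • p.1.2, gen_prod (gen_gam _) (gen_gam _), ?_,
    fun V hV f hf hb y => ?_⟩
  · exact ((((realizable_xout Q η).carry (W := E d)).precomp
      (g := fun p : (E ((2 * q + 4) * d) × E d) × E d => ((p.1.1, p.2), p.1.2))
      (by fun_prop)).postcomp (g := fun x : E d × E d => x.2 + Real.sqrt η • x.1) (by fun_prop))
  · have hm : Measurable fun x => xout V Q η y x :=
      ((realizable_xout Q η).measurable hV).comp (measurable_id.prodMk measurable_const)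
    have : IsProbabilityMeasure (noise d q) := by unfold noise gam; infer_instance
    have : IsProbabilityMeasure (gam d) := by unfold gam; infer_instance
    exact integral_pair (μ := noise d q) (ν := gam d) hm hf hb (g := fun u w => u + Real.sqrt η • w)
      (by fun_prop)

attribute [local irreducible] xout in
lemma impl_stage (Q : Quad q) (η : ℝ) :
    Impl d (2 * q + 3) fun V f => stage V Q η f := by
  refine ⟨E ((2 * q + 4) * d) × E d, inferInstance, (noise d q).prod (gam d),
    by unfold noise gam; infer_instance,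
    fun V p => (2 : ℝ)⁻¹ • ((xout V Q η p.2 p.1.1 + Real.sqrt η • p.1.2) + p.2),
    gen_prod (gen_gam _) (gen_gam _), ?_,
    fun V hV f hf hb y => ?_⟩
  · exact ((((realizable_xout Q η).carry (W := E d × E d)).precomp
      (g := fun p : (E ((2 * q + 4) * d) × E d) × E d => ((p.1.1, p.2), p.1.2, p.2))
      (by fun_prop)).postcomp
      (g := fun x : (E d × E d) × E d => (2 : ℝ)⁻¹ • ((x.2 + Real.sqrt η • x.1.1) + x.1.2))
      (by fun_prop))
  · have hm : Measurable fun x => xout V Q η y x :=
      ((realizable_xout Q η).measurable hV).comp (measurable_id.prodMk measurable_const)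
    have : IsProbabilityMeasure (noise d q) := by unfold noise gam; infer_instance
    have : IsProbabilityMeasure (gam d) := by unfold gam; infer_instance
    exact integral_pair (μ := noise d q) (ν := gam d) hm hf hb
      (g := fun u w => (2 : ℝ)⁻¹ • (u + Real.sqrt η • w + y))
      (by fun_prop)

lemma impl_lastDraw (η : ℝ) : Impl d 1 fun V f => lastDraw V η f := by
  refine ⟨E d, inferInstance, gam d, by unfold gam; infer_instance,
    fun V p => c1 V η p.2 + sg η • p.1, gen_gam d, ?_, fun _ _ _ _ _ _ => rfl⟩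
  have hp : Measurable fun p : E d × E d => c0 η p.2 := by unfold c0; fun_prop
  exact ((realizable_ask hp).postcomp
    (g := fun x : (E d × E d) × (ℝ × E d) =>
      (1 + η)⁻¹ • (x.1.2 - η • (x.2.2 - c0 η x.1.2)) + sg η • x.1.1)
    (by simp only [c0]; fun_prop)).congr fun V _ p => rfl

lemma impl_foldr (Q : Quad q) {η' : ℕ → ℝ} {last : ℝ} : ∀ l : List ℕ,
    Impl d (l.length * (2 * q + 3) + 1) fun V f =>
      (l.map fun i => stage V Q (η' i)).foldr (fun T g => T g) (lastDraw V last f)
  | [] => by simpa using impl_lastDraw last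
  | i :: l => by
    rw [List.length_cons, show (l.length + 1) * (2 * q + 3) + 1
      = (2 * q + 3) + (l.length * (2 * q + 3) + 1) by ring]
    exact impl_comp (impl_stage Q (η' i)) (impl_foldr Q l)

lemma impl_iterate (Q : Quad q) (η : ℝ) {k : ℕ} {T : (E d → ℝ) → (E d → ℝ) → E d → ℝ}
    (hT : Impl d k T) : ∀ n : ℕ,
    Impl d (n * (2 * q + 3) + k) fun V f => (mhat V Q η)^[n] (T V f)
  | 0 => by simpa using hT
  | n + 1 => by
    rw [show (n + 1) * (2 * q + 3) + k = (2 * q + 3) + (n * (2 * q + 3) + k) by ring]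
    simpa only [Function.iterate_succ_apply'] using
      impl_comp (impl_mhat Q η) (impl_iterate Q η hT n)

end AlgoRun

open AlgoRun in
theorem algoExistsReals : AlgoExistsReals := by
  intro d q n m Q η _
  have h := impl_iterate Q η
    (impl_foldr (d := d) Q (η' := fun i => η / 2 ^ i) (last := η / 2 ^ m) (List.range m)) n
  rw [List.length_range, ← add_assoc, ← add_mul] at h
  obtain ⟨Ω, _, μ, _, F, hG, hF, e⟩ := h
  obtain ⟨A, hAr, hA⟩ := exists_algo μ
    (hF.precomp (measurable_id.prodMk (measurable_const (a := (0 : E d)))))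
  refine ⟨A, hAr hG, fun V hV B hB => ?_⟩
  have hm : MeasurableSet {ω | F V (ω, (0 : E d)) ∈ B} :=
    ((hF.measurable hV).comp (measurable_id.prodMk measurable_const)) hB
  have e' := e V hV (B.indicator fun _ => (1 : ℝ)) (measurable_const.indicator hB)
    (fun x => by by_cases hx : x ∈ B <;> simp [hx]) 0
  dsimp only at e'
  rw [hA V hV B, e',
    show (fun ω => B.indicator (fun _ => (1 : ℝ)) (F V (ω, 0)))
      = {ω | F V (ω, (0 : E d)) ∈ B}.indicator fun _ => (1 : ℝ) from rfl,
    integral_indicator_const _ hm]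
  simp [Measure.real]

theorem algoExists : AlgoExists := fun d q n m Q η hη =>
  (algoExistsReals d q n m Q η hη).imp fun _ h => h.2

end Vale.Agent.P347
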