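import Vale.Agent.P347.Coord

/-!
P347: one step at one point in original coordinates, from the bounds in normalised coordinates.
-/

namespace Vale.Agent.P347

open MeasureTheory ProbabilityTheory
open scoped RealInnerProductSpace

namespace Per

variable {d : ℕ}

lemma frob_smul (c : ℝ) (T : E d →L[ℝ] E d) : frob (c • T) = |c| * frob T := by
  simp only [frob, smul_apply, norm_smul, Real.norm_eq_abs, mul_pow, ← Finset.mul_sum]
  rw [Real.sqrt_mul (sq_nonneg _), Real.sqrt_sq (abs_nonneg c)]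

lemma frob_nonneg (T : E d →L[ℝ] E d) : 0 ≤ frob T := Real.sqrt_nonneg _

lemma continuous_frob : Continuous (frob (d := d)) :=
  Real.continuous_sqrt.comp (continuous_finsetSum _ fun i _ =>
    ((ContinuousLinearMap.apply ℝ (E d) (EuclideanSpace.single i (1 : ℝ))).continuous.norm).pow 2)

lemma sq_integral_le {α : Type*} [MeasurableSpace α] (μ : Measure α) [IsProbabilityMeasure μ]
    {u : α → ℝ} (hu : AEStronglyMeasurable u μ) {B : ℝ} (hb : ∀ x, |u x| ≤ B) :
    (∫ x, u x ∂μ) ^ 2 ≤ ∫ x, u x ^ 2 ∂μ := by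
  have hi : Integrable u μ := Integrable.of_bound hu B (Filter.Eventually.of_forall fun x => by
    simpa using hb x)
  have hi2 : Integrable (fun x => u x ^ 2) μ :=
    Integrable.of_bound (hu.pow 2) (B ^ 2) (Filter.Eventually.of_forall fun x => by
      simp only [Real.norm_eq_abs, abs_pow, sq_abs]
      nlinarith [hb x, abs_nonneg (u x), sq_abs (u x)])
  set m := ∫ x, u x ∂μ with hm
  have h : 0 ≤ ∫ x, (u x - m) ^ 2 ∂μ := integral_nonneg fun x => sq_nonneg _
  have e : ∫ x, (u x - m) ^ 2 ∂μ = (∫ x, u x ^ 2 ∂μ) - m ^ 2 := by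
    rw [show (fun x => (u x - m) ^ 2) = fun x => u x ^ 2 - 2 * m * u x + m ^ 2 from
      funext fun x => by ring, integral_add (f := fun x => u x ^ 2 - 2 * m * u x) (hi2.sub (hi.const_mul _)) (integrable_const _),
      integral_sub hi2 (hi.const_mul _), integral_const_mul, integral_const, ← hm]
    simp
    ring
  linarith

lemma measurable_sm {X : Type*} [NormedAddCommGroup X] [NormedSpace ℝ X]
    [MeasurableSpace X] [BorelSpace X] [SecondCountableTopology X]
    (τ : ℝ) {f : E d → X} (hf : Measurable f) : Measurable (sm τ f) :=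
  (StronglyMeasurable.integral_prod_right' (ν := gam d)
    (f := fun p : E d × E d => f (p.1 + Real.sqrt τ • p.2))
    (hf.comp (by fun_prop)).stronglyMeasurable).measurable

lemma sm_affine (τ : ℝ) (φ : E d → ℝ) (a : E d) {s : ℝ} (hs : 0 < s) (c : ℝ) (u : E d) :
    sm (τ / s ^ 2) (fun v => c * φ (a + s • v)) u = c * sm τ φ (a + s • u) := by
  simp only [sm, integral_const_mul]
  congr 1
  refine integral_congr_ae (Filter.Eventually.of_forall fun w => ?_)
  dsimp only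
  rw [smul_add, smul_smul, ← add_assoc, Real.sqrt_div' τ (sq_nonneg s), Real.sqrt_sq hs.le,
    mul_div_cancel₀ _ hs.ne']

lemma norm_le_of_mul_sq {η B : ℝ} (hη : 0 < η) (hB : 0 ≤ B) {v : E d} (h : η * ‖v‖ ^ 2 ≤ B ^ 2) :
    Real.sqrt η * ‖v‖ ≤ B := by
  refine (pow_le_pow_iff_left₀ (by positivity) hB two_ne_zero).1 ?_
  rw [mul_pow, Real.sq_sqrt hη.le]
  exact h

end Per

open Per in
/-- One step at one point. -/
theorem perPoint (hStep : StepBound) (hMean : MeanBound) (hS : SmoothFacts) (hP : GibbsProb) :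
    PerPoint := by
  intro k hk A hA
  obtain ⟨c₀, Cs, hc₀, hCs, hStep⟩ := hStep k hk A hA
  obtain ⟨Cm, hCm, hMean⟩ := hMean A hA
  refine ⟨c₀, 4 * (Cs + Cm), hc₀, by positivity,
    fun d q hd Q K hQ V hV η hη hη2 y hy f hf hf1 => ?_⟩
  obtain ⟨hwt, hgood⟩ := hQ
  have hU := hV.pot_at hη y
  obtain ⟨hΛd, hΛg, hΛ0⟩ := size_facts hV hη y
  have hd1 : (1 : ℝ) ≤ d := by exact_mod_cast hd
  set Λ := size η y
  have hΛ1 : 1 ≤ Λ := (Real.one_le_sqrt.2 hd1).trans hΛd
  set s := sg η with hsdef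
  set a := c1 V η y
  have hs : 0 < s := sg_pos hη
  have hs2 : s ^ 2 ≤ η := sg_sq_le hη
  have hs4 : (s ^ 2) ^ 2 ≤ η ^ 2 := pow_le_pow_left₀ (by positivity) hs2 2
  have hsη : s ≤ Real.sqrt η := sg_le_sqrt hη
  set ζ := Λ / (d : ℝ) ^ K
  have hζ : QuadErr Q (gAt V η y) ζ := hgood _ _ hU Λ hΛd hΛg
  obtain ⟨⟨heF, BF, hF, hfrob⟩, hsemG, hsemH, hgb, hhb⟩ := hS d f 1 η hf hf1 hη
  obtain ⟨⟨he2, B2, hF2, hfrob2⟩, -, -, hgb2, hhb2⟩ := hS d f 1 (η / 2) hf hf1 (by linarith)
  have hgrad : ∀ x, Real.sqrt η * ‖smGrad η f x‖ ≤ 1 := fun x =>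
    norm_le_of_mul_sq hη zero_le_one (hgb x)
  have hgrad2 : ∀ x, Real.sqrt η * ‖smGrad (η / 2) f x‖ ≤ 2 := fun x =>
    norm_le_of_mul_sq hη zero_le_two (by nlinarith [hgb2 x, sq_nonneg ‖smGrad (η / 2) f x‖])
  have hprob : IsProbabilityMeasure (prox V η y) := (hP d _ _ _ (hV.logConc_prox hη y)).1
  have hη' : 0 < Real.sqrt η := Real.sqrt_pos.2 hη
  set cB := cBar V η f y with hcB
  have hcb : Real.sqrt η * ‖cB‖ ≤ 1 := by
    rw [← le_div_iff₀' hη', hcB, cBar]
    have h := norm_integral_le_of_norm_le_const (μ := prox V η y) (f := smGrad η f)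
      (C := 1 / Real.sqrt η) (Filter.Eventually.of_forall fun x => by
        rw [le_div_iff₀' hη']; exact hgrad x)
    simpa using h
  -- the test function
  set h : E d → ℝ := fun u => (1 / 4) * sm η f (a + s • u) with hh
  set gr : E d → E d := fun u => (s / 4) • smGrad η f (a + s • u) with hgr
  set he : E d → E d →L[ℝ] E d := fun u => (s ^ 2 / 4) • heF (a + s • u) with hhe
  have hl : ∀ u : E d, HasFDerivAt (fun v : E d => a + s • v)
      (s • ContinuousLinearMap.id ℝ (E d)) u := fun u =>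
    ((hasFDerivAt_id u).const_smul s).const_add a
  have hTest : Test h gr he 1 := by
    refine ⟨fun u => ?_, fun u => ?_, ?_, fun u => ?_, fun u => ?_⟩
    · rw [hasGradientAt_iff_hasFDerivAt]
      refine (((hF.grad (a + s • u)).hasFDerivAt.comp u (hl u)).const_mul (1 / 4 : ℝ)).congr_fderiv ?_
      ext v
      simp [hgr, InnerProductSpace.toDual_apply_apply]
      ring
    · refine (((hF.hess (a + s • u)).comp u (hl u)).const_smul (s / 4)).congr_fderiv ?_
      ext v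
      simp [hhe, smul_smul]
      ring_nf
      simp
    · exact (hF.hess_cont.comp (by fun_prop : Continuous fun u : E d => a + s • u)).const_smul (s ^ 2 / 4)
    · rw [hgr, norm_smul, Real.norm_eq_abs, abs_of_pos (by positivity)]
      have := mul_le_mul_of_nonneg_right hsη (norm_nonneg (smGrad η f (a + s • u)))
      linarith [hgrad (a + s • u)]
    · rw [hhe, frob_smul, abs_of_pos (by positivity)]
      have h1 : (η * frob (heF (a + s • u))) ^ 2 ≤ 2 := by
        rw [mul_pow, hfrob]; simpa using hhb (a + s • u)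
      have h2 : η * frob (heF (a + s • u)) ≤ 2 := by
        nlinarith [mul_nonneg hη.le (frob_nonneg (heF (a + s • u)))]
      have h3 := mul_le_mul_of_nonneg_right hs2 (frob_nonneg (heF (a + s • u)))
      linarith
  set c : E d := (s / 4) • cB with hc
  have hcn : ‖c‖ ≤ Real.sqrt η * ‖cB‖ / 4 := by
    rw [hc, norm_smul, Real.norm_eq_abs, abs_of_pos (by positivity)]
    have := mul_le_mul_of_nonneg_right hsη (norm_nonneg cB)
    linarith
  -- the two dominating functions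
  set φ₁ : E d → ℝ := fun x => ‖smGrad (η / 2) f x - cB‖ ^ 2 with hφ₁
  set φ₂ : E d → ℝ := smHessSq (η / 2) f with hφ₂
  have hgm : Measurable (smGrad (η / 2) f) :=
    (continuous_iff_continuousAt.2 fun x => (hF2.hess x).continuousAt).measurable
  have hm₁ : Measurable φ₁ := ((hgm.sub_const _).norm).pow_const 2
  have hm₂ : Measurable φ₂ := by
    rw [hφ₂, show smHessSq (η / 2) f = fun x => frob (he2 x) ^ 2 from funext fun x => (hfrob2 x).symm]
    exact (((continuous_frob).comp hF2.hess_cont).pow 2).measurable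
  have hb₁ : ∀ x, s ^ 2 * φ₁ x ≤ 9 := fun x => by
    have h1 : Real.sqrt η * ‖smGrad (η / 2) f x - cB‖ ≤ 3 := by
      have := mul_le_mul_of_nonneg_left (norm_sub_le (smGrad (η / 2) f x) cB) hη'.le
      linarith [hgrad2 x]
    have h2 := pow_le_pow_left₀ (by positivity)
      ((mul_le_mul_of_nonneg_right hsη (norm_nonneg _)).trans h1) 2
    rw [mul_pow] at h2
    simp only [hφ₁]
    linarith
  have hφ₂0 : ∀ x, 0 ≤ φ₂ x := fun x => Finset.sum_nonneg fun i _ =>
    Finset.sum_nonneg fun j _ => sq_nonneg _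
  have hb₂ : ∀ x, (s ^ 2) ^ 2 * φ₂ x ≤ 8 := fun x => by
    have h1 := mul_le_mul_of_nonneg_right hs4 (hφ₂0 x)
    have h2 := hhb2 x
    simp only [div_pow, one_pow] at h2
    simp only [hφ₂] at h1 ⊢
    linarith
  set τ := η / 2 / s ^ 2 with hτdef
  set Φ₁ : E d → ℝ := fun u => s ^ 2 / 16 * φ₁ (a + s • u) with hΦ₁
  set Φ₂ : E d → ℝ := fun u => (s ^ 2) ^ 2 / 16 * φ₂ (a + s • u) with hΦ₂
  have hτ : τ = (1 + η) / 2 := by
    rw [hτdef, hsdef, sg_sq hη]; field_simp
  have hd1' : ∀ u, ‖gr u - c‖ ^ 2 ≤ sm τ Φ₁ u := fun u => by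
    rw [hΦ₁, hτdef, sm_affine _ _ _ hs, hgr, hc, ← smul_sub, norm_smul, mul_pow, Real.norm_eq_abs,
      sq_abs, show (s / 4) ^ 2 = s ^ 2 / 16 by ring]
    refine mul_le_mul_of_nonneg_left ?_ (by positivity)
    set x := a + s • u
    rw [hsemG x]
    set v : E d → E d := fun w => smGrad (η / 2) f (x + Real.sqrt (η / 2) • w) with hv
    have hvm : Measurable v := hgm.comp (by fun_prop)
    have hvb : ∀ w, ‖v w‖ ≤ 2 / Real.sqrt η := fun w => by
      rw [le_div_iff₀' hη']; exact hgrad2 _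
    have hvi : Integrable v (gam d) := Integrable.of_bound hvm.aestronglyMeasurable _
      (Filter.Eventually.of_forall hvb)
    have hsub : sm (η / 2) (smGrad (η / 2) f) x - cB = ∫ w, (v w - cB) ∂gam d := by
      rw [integral_sub hvi (integrable_const _), integral_const]
      simp [sm, hv]
    rw [hsub]
    refine (pow_le_pow_left₀ (norm_nonneg _) (norm_integral_le_integral_norm _) 2).trans ?_
    exact sq_integral_le (gam d) ((hvm.sub_const cB).norm.aestronglyMeasurable)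
      (B := 2 / Real.sqrt η + ‖cB‖) fun w => by
        rw [abs_of_nonneg (norm_nonneg _)]
        exact (norm_sub_le _ _).trans (by linarith [hvb w])
  have hd2' : ∀ u, frob (he u) ^ 2 ≤ sm τ Φ₂ u := fun u => by
    rw [hΦ₂, hτdef, sm_affine _ _ _ hs, hhe, frob_smul, mul_pow, sq_abs,
      show (s ^ 2 / 4) ^ 2 = (s ^ 2) ^ 2 / 16 by ring, hfrob]
    exact mul_le_mul_of_nonneg_left (hsemH _) (by positivity)
  have hε : s ^ 2 ≤ 1 / 2 := hs2.trans hη2
  have hδ : (s ^ 2) ^ 2 * Λ ≤ η ^ 2 * Λ := mul_le_mul_of_nonneg_right hs4 hΛ0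
  have hmΦ₁ : Measurable Φ₁ := (hm₁.comp (by fun_prop)).const_mul _
  have hmΦ₂ : Measurable Φ₂ := (hm₂.comp (by fun_prop)).const_mul _
  have key := hStep d q Q hwt _ _ hU (s ^ 2) Λ ζ (by positivity) hε hΛ1 hΛd hΛg (hδ.trans hy) hζ
    h gr he hTest c (hcn.trans (by linarith)) Φ₁ Φ₂ τ hmΦ₁ hmΦ₂
    (fun u => by simp only [hΦ₁, hφ₁]; positivity)
    (fun u => by simp only [hΦ₁]; linarith [hb₁ (a + s • u)])
    (fun u => mul_nonneg (by positivity) (hφ₂0 _))
    (fun u => by simp only [hΦ₂]; linarith [hb₂ (a + s • u)])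
    (by rw [hτ]; linarith) (by rw [hτ]; linarith) hd1' hd2'
  have hmean := hMean d q Q hwt _ _ hU (s ^ 2) Λ ζ (by positivity) hε hΛ1 hΛd hΛg hζ
  -- the smoothed functions in original coordinates
  set T₁ := ∫ x, sm (η / 2) φ₁ x ∂prox V η y
  set T₂ := ∫ x, sm (η / 2) φ₂ x ∂prox V η y
  have hT₁0 : 0 ≤ T₁ := integral_nonneg fun x => integral_nonneg fun w => sq_nonneg _
  have hT₂0 : 0 ≤ T₂ := integral_nonneg fun x => integral_nonneg fun w => hφ₂0 _
  have hD : dTerm V η f y = η * T₁ + η ^ 2 * T₂ := rfl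
  have e₁ : ∫ u, sm τ Φ₁ u ∂tilt (uAt V η y) (s ^ 2) = s ^ 2 / 16 * T₁ := by
    simp only [hΦ₁, hτdef, sm_affine _ _ _ hs, integral_const_mul]
    rw [← integral_prox hV hη y (measurable_sm _ hm₁)]
  have e₂ : ∫ u, sm τ Φ₂ u ∂tilt (uAt V η y) (s ^ 2) = (s ^ 2) ^ 2 / 16 * T₂ := by
    simp only [hΦ₂, hτdef, sm_affine _ _ _ hs, integral_const_mul]
    rw [← integral_prox hV hη y (measurable_sm _ hm₂)]
  rw [e₁, e₂] at key
  set lin := ⟪c, (∫ x, xhat Q (gAt V η y) (s ^ 2) (blocks x) ∂noise d q)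
    - ∫ u, u ∂tilt (uAt V η y) (s ^ 2)⟫
  have eh : ∫ x, h (xhat Q (gAt V η y) (s ^ 2) (blocks x)) ∂noise d q
      = (1 / 4) * ∫ x, sm η f (xout V Q η y x) ∂noise d q := by
    simp only [hh, xout, integral_const_mul]
    rfl
  have et : ∫ u, h u ∂tilt (uAt V η y) (s ^ 2) = (1 / 4) * ∫ x, sm η f x ∂prox V η y := by
    simp only [hh, integral_const_mul]
    rw [← integral_prox hV hη y (measurable_sm _ hf)]
  rw [eh, et] at key
  have hζ0 : 0 ≤ ζ := hζ.1
  have hsqrt : Real.sqrt (s ^ 2) ≤ Real.sqrt η := Real.sqrt_le_sqrt hs2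
  have hlin : |lin| ≤ Cm * (η ^ 2 * Real.sqrt η * Λ) * (Real.sqrt η * ‖cB‖) + Cm * ζ := by
    have hr : (s ^ 2) ^ 2 * Real.sqrt (s ^ 2) * Λ ≤ η ^ 2 * Real.sqrt η * Λ :=
      mul_le_mul_of_nonneg_right
        (mul_le_mul hs4 hsqrt (Real.sqrt_nonneg _) (by positivity)) hΛ0
    refine (abs_real_inner_le_norm _ _).trans
      ((mul_le_mul hcn hmean (norm_nonneg _) (by positivity)).trans ?_)
    have h1 : Real.sqrt η * ‖cB‖ / 4 * (Cm * ζ) ≤ Cm * ζ :=
      mul_le_of_le_one_left (by positivity) (by linarith)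
    have h2 : Real.sqrt η * ‖cB‖ / 4 * (Cm * ((s ^ 2) ^ 2 * Real.sqrt (s ^ 2) * Λ))
        ≤ Cm * (η ^ 2 * Real.sqrt η * Λ) * (Real.sqrt η * ‖cB‖) := by
      have h3 := mul_le_mul_of_nonneg_left hr hCm
      have h4 := mul_le_mul_of_nonneg_left h3
        (show 0 ≤ Real.sqrt η * ‖cB‖ / 4 by positivity)
      have : 0 ≤ Real.sqrt η * ‖cB‖ * (Cm * (η ^ 2 * Real.sqrt η * Λ)) := by positivity
      linarith
    linarith
  have hin : s ^ 2 / 16 * T₁ + (s ^ 2) ^ 2 / 16 * T₂ + ((s ^ 2) ^ 2 * Λ) ^ k + ζ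
      ≤ dTerm V η f y + (η ^ 2 * Λ) ^ k + ζ := by
    have h1 := mul_le_mul_of_nonneg_right hs2 hT₁0
    have h2 := mul_le_mul_of_nonneg_right hs4 hT₂0
    have h3 := pow_le_pow_left₀ (by positivity) hδ k
    have h4 : 0 ≤ η * T₁ := by positivity
    have h5 : 0 ≤ η ^ 2 * T₂ := by positivity
    rw [hD]
    linarith
  have hmain := mul_le_mul (mul_le_mul_of_nonneg_left hδ hCs) (Real.sqrt_le_sqrt hin)
    (Real.sqrt_nonneg _) (by positivity)
  set S := Real.sqrt (dTerm V η f y + (η ^ 2 * Λ) ^ k + ζ)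
  have p1 : 0 ≤ Cm * (η ^ 2 * Λ) * S := by positivity
  have p2 : 0 ≤ Cs * (η ^ 2 * Real.sqrt η * Λ) * (Real.sqrt η * ‖cB‖) := by positivity
  have hkey := abs_le.1 key
  have hlin' := abs_le.1 hlin
  rw [abs_le]
  constructor <;> linarith

end Vale.Agent.P347
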