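import Vale.Agent.P347.Phases
import Vale.Agent.P347.Seed
import Vale.Agent.P347.PerPoint

/-!
P347: from the two phases to the bound on the query complexity.
-/

namespace Vale.Agent.P347

open MeasureTheory ProbabilityTheory Filter

namespace Assembly

variable {d q : ℕ}

/-- `m` halving stages from level `η`, then the last draw. -/
noncomputable def tailPhase (V : E d → ℝ) (Q : Quad q) (η : ℝ) (m : ℕ) (f : E d → ℝ) : E d → ℝ :=
  ((List.range m).map fun i => stage V Q (η / 2 ^ i)).foldr (fun T f => T f)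
    (lastDraw V (η / 2 ^ m) f)

lemma tailPhase_succ (V : E d → ℝ) (Q : Quad q) (η : ℝ) (m : ℕ) (f : E d → ℝ) :
    tailPhase V Q η (m + 1) f = stage V Q η (tailPhase V Q (η / 2) m f) := by
  simp only [tailPhase, List.range_succ_eq_map, List.map_cons, List.map_map, List.foldr_cons,
    pow_zero, div_one]
  congr 1
  have h : ∀ i : ℕ, η / 2 ^ (i + 1) = η / 2 / 2 ^ i := fun i => by
    rw [pow_succ]; field_simp
  rw [h m]
  congr 1
  exact List.map_congr_left fun i _ => by simp only [Function.comp, Nat.succ_eq_add_one, h i]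

lemma continuous_blk (i : Fin (2 * q + 4)) :
    Continuous fun x : E ((2 * q + 4) * d) => blk x i :=
  (PiLp.continuous_toLp 2 _).comp (continuous_pi fun _ => PiLp.continuous_apply 2 _ _)

lemma continuous_xout {V : E d → ℝ} (hV : Admissible d V) (Q : Quad q) (η : ℝ) :
    Continuous fun p : E d × E ((2 * q + 4) * d) => xout V Q η p.1 p.2 := by
  have hR : Continuous (gradR V) := hV.lipschitz_gradR.continuous
  have hb : ∀ i, Continuous fun p : E d × E ((2 * q + 4) * d) => blk p.2 i := fun i =>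
    (continuous_blk i).comp continuous_snd
  have h1 : Continuous fun p : E d × E ((2 * q + 4) * d) => c1 V η p.1 := by
    unfold c1 c0; fun_prop
  have hg : ∀ u : E d × E ((2 * q + 4) * d) → E d, Continuous u →
      Continuous fun p => gAt V η p.1 (u p) := fun u hu => by
    unfold gAt c0; fun_prop
  have ho : ∀ (r : ℝ) (u v : E d × E ((2 * q + 4) * d) → E d), Continuous u → Continuous v →
      Continuous fun p => ouPt r (u p) (v p) := fun r u v hu hv => by
    unfold ouPt; fun_prop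
  unfold xout xhat drift corr drift blocks
  dsimp only
  have hdr : ∀ (u : E d × E ((2 * q + 4) * d) → E d) (i' : Fin q → Fin (2 * q + 4)), Continuous u →
      Continuous fun p => ∑ i, Q.a i • gAt V η p.1 (ouPt (Q.r i) (u p) (blk p.2 (i' i))) :=
    fun u i' hu => continuous_finsetSum _ fun i _ =>
      (hg _ (ho (Q.r i) _ _ hu (hb (i' i)))).const_smul (Q.a i)
  exact h1.add (((hb ⟨0, by omega⟩).sub (((hdr _ (fun i => ⟨4 + i, by omega⟩) (hb ⟨0, by omega⟩)).add
    ((hg _ (ho (sg η ^ 2) _ _ ((hb ⟨1, by omega⟩).sub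
      ((hdr _ (fun i => ⟨4 + q + i, by omega⟩) (hb ⟨1, by omega⟩)).const_smul (sg η ^ 2)))
      (hb ⟨2, by omega⟩))).sub (hg _ (hb ⟨3, by omega⟩)))).const_smul (sg η ^ 2))).const_smul (sg η))

lemma abs_integral_le_one {α : Type*} [MeasurableSpace α] (μ : Measure α) [IsProbabilityMeasure μ]
    {g : α → ℝ} (hg : ∀ x, |g x| ≤ 1) : |∫ x, g x ∂μ| ≤ 1 := by
  simpa [Real.norm_eq_abs] using norm_integral_le_of_norm_le_const (μ := μ) (f := g) (C := 1)
    (Eventually.of_forall fun x => by simpa [Real.norm_eq_abs] using hg x)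

lemma stage_good {V : E d → ℝ} (hV : Admissible d V) (Q : Quad q) (η : ℝ) {f : E d → ℝ}
    (hf : Measurable f) (hb : ∀ x, |f x| ≤ 1) :
    Measurable (stage V Q η f) ∧ ∀ y, |stage V Q η f y| ≤ 1 := by
  have : IsProbabilityMeasure (noise d q) := by unfold noise; infer_instance
  constructor
  · have hk : Measurable fun p : (E d × E ((2 * q + 4) * d)) × E d =>
        f ((2 : ℝ)⁻¹ • (xout V Q η p.1.1 p.1.2 + Real.sqrt η • p.2 + p.1.1)) :=
      hf.comp ((((((continuous_xout hV Q η).comp continuous_fst).add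
        (continuous_snd.const_smul (Real.sqrt η))).add
          (continuous_fst.comp continuous_fst)).const_smul ((2 : ℝ)⁻¹)).measurable)
    have h1 := (StronglyMeasurable.integral_prod_right' (ν := gam d) hk.stronglyMeasurable)
    exact (StronglyMeasurable.integral_prod_right' (ν := noise d q) h1).measurable
  · exact fun y => abs_integral_le_one _ fun x => abs_integral_le_one _ fun w => hb _

lemma lastDraw_good {V : E d → ℝ} (hV : Admissible d V) (η : ℝ) {f : E d → ℝ}
    (hf : Measurable f) (hb : ∀ x, |f x| ≤ 1) :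
    Measurable (lastDraw V η f) ∧ ∀ y, |lastDraw V η f y| ≤ 1 := by
  constructor
  · have hR : Continuous (gradR V) := hV.lipschitz_gradR.continuous
    have h1 : Continuous fun p : E d × E d => c1 V η p.1 + sg η • p.2 := by
      unfold c1 c0; fun_prop
    exact (StronglyMeasurable.integral_prod_right' (ν := gam d)
      (hf.comp h1.measurable).stronglyMeasurable).measurable
  · exact fun y => abs_integral_le_one _ fun w => hb _

lemma tailPhase_good {V : E d → ℝ} (hV : Admissible d V) (Q : Quad q) {f : E d → ℝ}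
    (hf : Measurable f) (hb : ∀ x, |f x| ≤ 1) :
    ∀ (m : ℕ) (η : ℝ), Measurable (tailPhase V Q η m f) ∧ ∀ y, |tailPhase V Q η m f y| ≤ 1
  | 0, η => by simpa [tailPhase] using lastDraw_good hV η hf hb
  | m + 1, η => by
      rw [tailPhase_succ]
      obtain ⟨h1, h2⟩ := tailPhase_good hV Q hf hb m (η / 2)
      exact stage_good hV Q η h1 h2

/-- The halving stages telescope. -/
lemma tailPhase_error {V : E d → ℝ} (hV : Admissible d V) (Q : Quad q) {η₀ C e : ℝ}
    (hst : ∀ g : E d → ℝ, Measurable g → (∀ x, |g x| ≤ 1) → ∀ η₁, 0 < η₁ → η₁ ≤ η₀ →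
      |(∫ y, stage V Q η₁ g y ∂pLaw V η₁) - ∫ y, g y ∂pLaw V (η₁ / 2)| ≤ e ∧
      |(∫ y, lastDraw V η₁ g y ∂pLaw V η₁) - ∫ x, g x ∂gibbs V| ≤ C * (η₁ * Real.sqrt d))
    {f : E d → ℝ} (hf : Measurable f) (hb : ∀ x, |f x| ≤ 1) :
    ∀ (m : ℕ) (η : ℝ), 0 < η → η ≤ η₀ →
      |(∫ y, tailPhase V Q η m f y ∂pLaw V η) - ∫ x, f x ∂gibbs V|
        ≤ m * e + C * (η / 2 ^ m * Real.sqrt d)
  | 0, η, h, h' => by simpa [tailPhase] using (hst f hf hb η h h').2
  | m + 1, η, h, h' => by
      rw [tailPhase_succ]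
      obtain ⟨h1, h2⟩ := tailPhase_good hV Q hf hb m (η / 2)
      have ih := tailPhase_error hV Q hst hf hb m (η / 2) (by linarith) (by linarith)
      have hs := (hst _ h1 h2 η h h').1
      rw [show η / 2 ^ (m + 1) = η / 2 / 2 ^ m by rw [pow_succ]; field_simp]
      refine (abs_sub_le _ (∫ y, tailPhase V Q (η / 2) m f y ∂pLaw V (η / 2)) _).trans ?_
      push_cast
      linarith

lemma quadGood_mono {Q : Quad q} {A : ℝ} {K K' : ℕ} (hd : 1 ≤ d) (h : K ≤ K')
    (hQ : QuadGood d Q A K') : QuadGood d Q A K := by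
  refine ⟨hQ.1, fun U g hU Λ hΛ hg => ?_⟩
  obtain ⟨h0, h1⟩ := hQ.2 U g hU Λ hΛ hg
  have hd' : (1 : ℝ) ≤ d := by exact_mod_cast hd
  have hΛ0 : 0 ≤ Λ := (Real.sqrt_nonneg _).trans hΛ
  have hle : Λ / (d : ℝ) ^ K' ≤ Λ / (d : ℝ) ^ K :=
    div_le_div_of_nonneg_left hΛ0 (by positivity) (pow_le_pow_right₀ hd' h)
  exact ⟨by positivity, h1.trans (pow_le_pow_left₀ h0 hle 2)⟩

/-- Eventually `log d ≤ c d^ι`. -/
lemma log_le_eventually {ι c : ℝ} (hι : 0 < ι) (hc : 0 < c) :
    ∀ᶠ d : ℕ in atTop, Real.log d ≤ c * (d : ℝ) ^ ι := by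
  filter_upwards [tendsto_natCast_atTop_atTop.eventually ((isLittleO_log_rpow_atTop hι).def hc)]
    with d h
  refine (le_abs_self _).trans ?_
  simpa [Real.norm_eq_abs, abs_of_nonneg (Real.rpow_nonneg (Nat.cast_nonneg d) ι)] using h

end Assembly

open Assembly in
/-- For every `a > 1/4` and all large `d`, at most `d^a` queries suffice. -/
theorem queryBound (hQ : QuadExists) (hC : ChainPhase) (hF : FinalPhase) (hA : AlgoExistsReals)
    (a : ℝ) (ha : 1 / 4 < a) :
    ∀ᶠ d : ℕ in atTop, ∃ N : ℕ, (N : ℝ) ≤ (d : ℝ) ^ a ∧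
      ∃ G : Algo d N, UsesReals G ∧ Succeeds G := by
  obtain ⟨ι, hι, hι2, hιa⟩ : ∃ ι : ℝ, 0 < ι ∧ ι ≤ 1 / 20 ∧ 1 / 4 + 4 * ι ≤ a :=
    ⟨min ((a - 1 / 4) / 4) (1 / 20), lt_min (by linarith) (by norm_num), min_le_right _ _, by
      linarith [min_le_left ((a - 1 / 4) / 4) (1 / 20 : ℝ)]⟩
  obtain ⟨K₁, hC⟩ := hC ι hι hι2
  obtain ⟨K₂, hF⟩ := hF ι hι hι2
  obtain ⟨A, hA1, D₀, hQ⟩ := hQ ι hι (max K₁ K₂)
  obtain ⟨D₁, hC⟩ := hC A hA1
  obtain ⟨D₂, C, hC0, hF⟩ := hF A hA1
  have hsmall : ∀ᶠ d : ℕ in atTop, 200 ≤ (d : ℝ) ^ ι :=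
    tendsto_natCast_atTop_atTop.eventually ((tendsto_rpow_atTop hι).eventually_ge_atTop 200)
  filter_upwards [eventually_ge_atTop (max (max D₀ D₁) (max D₂ 3)), hsmall,
    log_le_eventually hι one_pos,
    log_le_eventually hι (show (0 : ℝ) < 1 / (400 * (C + 1)) by positivity)] with d hd hbig hlog hlogC
  simp only [max_le_iff] at hd
  obtain ⟨⟨hd0, hd1⟩, hd2, hd3⟩ := hd
  obtain ⟨q, Q, hq, hgood⟩ := hQ d hd0
  have hdR : (3 : ℝ) ≤ d := by exact_mod_cast hd3
  have hdpos : (0 : ℝ) < d := by linarith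
  set η := etaOf ι d with hη
  set n := stepsOf ι d with hn
  set m := Nat.log 2 d + 1 with hm
  have hηpos : 0 < η := Real.rpow_pos_of_pos hdpos _
  have hη1 : η ≤ 1 := Real.rpow_le_one_of_one_le_of_nonpos (by linarith) (by linarith)
  obtain ⟨G, hGr, hG⟩ := hA d q n m Q η hηpos
  refine ⟨_, ?_, G, hGr, fun V hV B hB => ?_⟩
  · have hL1 : 1 ≤ Real.log d := by
      rw [Real.le_log_iff_exp_le hdpos]
      linarith [Real.exp_one_lt_d9]
    have hinv : η⁻¹ = (d : ℝ) ^ (1 / 4 + ι) := by
      rw [hη, etaOf, ← Real.rpow_neg hdpos.le, neg_neg]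
    have hP1 : 1 ≤ (d : ℝ) ^ (1 / 4 + ι) := Real.one_le_rpow (by linarith) (by linarith)
    have hn' : (n : ℝ) ≤ 13 * Real.log d * (d : ℝ) ^ (1 / 4 + ι) := by
      have h := (Nat.ceil_lt_add_one (show 0 ≤ 12 * Real.log d / η by positivity)).le
      rw [div_eq_mul_inv, hinv] at h
      rw [hn, stepsOf, ← hη, div_eq_mul_inv, hinv]
      have : 1 ≤ Real.log d * (d : ℝ) ^ (1 / 4 + ι) := one_le_mul_of_one_le_of_one_le hL1 hP1
      linarith
    have hm' : (m : ℝ) ≤ 3 * Real.log d := by
      have h1 : (2 : ℝ) ^ Nat.log 2 d ≤ d := by exact_mod_cast Nat.pow_log_le_self 2 (by omega)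
      have h2 := Real.log_le_log (by positivity) h1
      rw [Real.log_pow] at h2
      have h3 := Real.log_two_gt_d9
      rw [hm]; push_cast
      nlinarith [(Nat.cast_nonneg (Nat.log 2 d) : (0 : ℝ) ≤ _)]
    set L := Real.log (d : ℝ)
    set P := (d : ℝ) ^ (1 / 4 + ι) with hP
    set T := (d : ℝ) ^ ι with hT
    have hLP : L ≤ L * P := le_mul_of_one_le_right (by linarith) hP1
    push_cast
    calc ((n : ℝ) + m) * (2 * q + 3) + 1 ≤ 16 * (L * P) * (5 * T) + 1 := by
          have h1 : (2 : ℝ) * q + 3 ≤ 5 * T := by linarith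
          have h2 : (n : ℝ) + m ≤ 16 * (L * P) := by linarith
          have h3 := mul_le_mul h2 h1 (by positivity) (by positivity)
          linarith
      _ ≤ 16 * (T * P) * (5 * T) + 1 := by gcongr; linarith
      _ ≤ 81 * (T * P * T) := by
          have : 1 ≤ T * P * T := by
            have hT1 : 1 ≤ T := by linarith
            exact one_le_mul_of_one_le_of_one_le (one_le_mul_of_one_le_of_one_le hT1 hP1) hT1
          linarith
      _ ≤ T * (T * P * T) := mul_le_mul_of_nonneg_right (by linarith) (by positivity)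
      _ = (d : ℝ) ^ (1 / 4 + 4 * ι) := by
          simp only [hT, hP, ← Real.rpow_add hdpos]; ring_nf
      _ ≤ (d : ℝ) ^ a := Real.rpow_le_rpow_of_exponent_le (by linarith) hιa
  · rw [hG V hV B hB]
    set f : E d → ℝ := B.indicator fun _ => 1 with hf
    have hfm : Measurable f := measurable_const.indicator hB
    have hfb : ∀ x, |f x| ≤ 1 := fun x => by
      by_cases hx : x ∈ B <;> simp [hf, hx]
    change |(mhat V Q η)^[n] (tailPhase V Q η m f) 0 - _| ≤ _
    obtain ⟨hgm, hgb⟩ := tailPhase_good hV Q hfm hfb m η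
    have h1 := hC d q hd1 Q (quadGood_mono (by omega) (le_max_left _ _) hgood) V hV _ hgm hgb
    have h2 := tailPhase_error hV Q (η₀ := η) (C := C) (e := C * (d : ℝ) ^ (-ι))
      (fun g hg hgb η₁ p1 p2 => hF d q hd2 Q (quadGood_mono (by omega) (le_max_right _ _) hgood)
        V hV g hg hgb η₁ p1 p2) hfm hfb m η hηpos le_rfl
    have hint : ∫ x, f x ∂gibbs V = (gibbs V B).toReal := by
      rw [hf, integral_indicator_const _ hB]; simp [measureReal_def]
    rw [hint] at h2
    have hTpos : 0 < (d : ℝ) ^ ι := Real.rpow_pos_of_pos hdpos _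
    have hsmall1 : (m : ℝ) * (C * (d : ℝ) ^ (-ι)) ≤ 1 / 40 := by
      have hm' : (m : ℝ) ≤ 3 * Real.log d := by
        have h1 : (2 : ℝ) ^ Nat.log 2 d ≤ d := by exact_mod_cast Nat.pow_log_le_self 2 (by omega)
        have h2 := Real.log_le_log (by positivity) h1
        rw [Real.log_pow] at h2
        have hL1 : 1 ≤ Real.log d := by
          rw [Real.le_log_iff_exp_le hdpos]
          linarith [Real.exp_one_lt_d9]
        have h3 := Real.log_two_gt_d9
        rw [hm]; push_cast
        nlinarith [(Nat.cast_nonneg (Nat.log 2 d) : (0 : ℝ) ≤ _)]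
      rw [Real.rpow_neg hdpos.le]
      calc (m : ℝ) * (C * ((d : ℝ) ^ ι)⁻¹) ≤ (3 * Real.log d) * ((C + 1) * ((d : ℝ) ^ ι)⁻¹) := by
            refine mul_le_mul hm' (mul_le_mul_of_nonneg_right (by linarith) (by positivity))
              (by positivity) ?_
            have := Real.log_nonneg (show (1 : ℝ) ≤ d by linarith)
            positivity
        _ ≤ 3 * (1 / (400 * (C + 1)) * (d : ℝ) ^ ι) * ((C + 1) * ((d : ℝ) ^ ι)⁻¹) := by gcongr
        _ = 3 / 400 := by field_simp
        _ ≤ 1 / 40 := by norm_num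
    have hsmall2 : C * (η / 2 ^ m * Real.sqrt d) ≤ 1 / 40 := by
      have h2m : (d : ℝ) ≤ 2 ^ m := by
        exact_mod_cast (Nat.lt_pow_succ_log_self one_lt_two d).le
      have h1' : η / 2 ^ m * Real.sqrt d ≤ 1 / Real.sqrt d := by
        calc η / 2 ^ m * Real.sqrt d ≤ 1 / d * Real.sqrt d := by gcongr
          _ = 1 / Real.sqrt d := by
              field_simp
              rw [Real.sq_sqrt hdpos.le]
      refine (mul_le_mul_of_nonneg_left h1' hC0).trans ?_
      have hd' : (d : ℝ) ^ ι ≤ Real.sqrt d := by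
        rw [Real.sqrt_eq_rpow]; exact Real.rpow_le_rpow_of_exponent_le (by linarith) (by linarith)
      have hlog1 : 1 ≤ Real.log d := by
        rw [Real.le_log_iff_exp_le hdpos]
        linarith [Real.exp_one_lt_d9]
      have h400 : 400 * (C + 1) ≤ Real.sqrt d := by
        have := hlog1.trans hlogC
        rw [one_div_mul_eq_div, one_le_div (by positivity)] at this
        linarith
      rw [mul_one_div, div_le_iff₀ (Real.sqrt_pos.2 hdpos)]
      linarith
    have h3 := abs_sub_le ((mhat V Q η)^[n] (tailPhase V Q η m f) 0)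
      (∫ y, tailPhase V Q η m f y ∂pLaw V η) (gibbs V B).toReal
    linarith

/-- In particular the exponent `γ*` is at most `1/4`. -/
theorem exponent_le_quarter (hQ : QuadExists) (hC : ChainPhase) (hF : FinalPhase)
    (hA : AlgoExistsReals) :
    limsup (fun d : ℕ => Real.log (queryComplexity d) / Real.log d) atTop ≤ 1 / 4 := by
  refine le_of_forall_gt_imp_ge_of_dense fun a ha => limsup_le_of_le ?_ ?_
  · refine IsCoboundedUnder.of_frequently_ge (a := 0)
      (Frequently.of_forall fun d => div_nonneg (Real.log_natCast_nonneg _)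
        (Real.log_natCast_nonneg _))
  · filter_upwards [queryBound hQ hC hF hA a ha, eventually_ge_atTop 2] with d hd hd2
    obtain ⟨N, hN, G, -, hG⟩ := hd
    have hle : queryComplexity d ≤ N := Nat.sInf_le ⟨G, hG⟩
    have hlog : 0 < Real.log d := Real.log_pos (by exact_mod_cast hd2)
    rw [div_le_iff₀ hlog]
    rcases Nat.eq_zero_or_pos (queryComplexity d) with h0 | h0
    · rw [h0]; simp; positivity
    · have h1 : (queryComplexity d : ℝ) ≤ (d : ℝ) ^ a := (Nat.cast_le.2 hle).trans hN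
      have h2 := Real.log_le_log (by exact_mod_cast h0) h1
      rwa [Real.log_rpow (by positivity)] at h2

end Vale.Agent.P347
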