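import Vale.Agent.P347.Interface

/-!
P347: elementary facts about admissible potentials and the normalised coordinates.
-/

namespace Vale.Agent.P347

open MeasureTheory ProbabilityTheory
open scoped RealInnerProductSpace

variable {d : ℕ} {V : E d → ℝ}

/-- `R = V - ‖·‖²/2`. -/
noncomputable def potR (V : E d → ℝ) (x : E d) : ℝ := V x - ‖x‖ ^ 2 / 2

/-- The Riesz map. -/
noncomputable def riesz (d : ℕ) : StrongDual ℝ (E d) →L[ℝ] E d where
  toFun := (InnerProductSpace.toDual ℝ (E d)).symm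
  map_add' := map_add _
  map_smul' c x := by simp
  cont := (InnerProductSpace.toDual ℝ (E d)).symm.continuous

lemma hasFDerivAt_sq_div (y x : E d) (c : ℝ) :
    HasFDerivAt (fun u : E d => ‖u - y‖ ^ 2 / c)
      (InnerProductSpace.toDual ℝ (E d) ((2 / c) • (x - y))) x := by
  have h := ((hasFDerivAt_id (𝕜 := ℝ) x).sub_const y).norm_sq.mul_const c⁻¹
  simp only [id_eq] at h
  simp only [div_eq_mul_inv]
  refine h.congr_fderiv ?_
  ext u
  simp [InnerProductSpace.toDual_apply_apply]
  ring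

lemma hasFDerivAt_half_sq (x : E d) :
    HasFDerivAt (fun u : E d => ‖u‖ ^ 2 / 2) (InnerProductSpace.toDual ℝ (E d) x) x := by
  simpa using hasFDerivAt_sq_div 0 x 2

/-- The Hessian of `V` as an operator. -/
noncomputable def hessOp (V : E d → ℝ) (x : E d) : E d →L[ℝ] E d :=
  (riesz d).comp (fderiv ℝ (fderiv ℝ V) x)

lemma hessOp_inner (V : E d → ℝ) (x v u : E d) :
    ⟪hessOp V x v, u⟫ = fderiv ℝ (fderiv ℝ V) x v u :=
  InnerProductSpace.toDual_symm_apply

namespace Admissible

variable (hV : Admissible d V)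
include hV

lemma hasGradientAt (x : E d) : HasGradientAt V (gradient V x) x :=
  ((hV.1.differentiable (by norm_num)) x).hasGradientAt

lemma hasFDerivAt_gradient (x : E d) : HasFDerivAt (gradient V) (hessOp V x) x := by
  have h : HasFDerivAt (fderiv ℝ V) (fderiv ℝ (fderiv ℝ V) x) x :=
    (((hV.1.fderiv_right (m := 1) (by norm_num)).differentiable (by norm_num)) x).hasFDerivAt
  exact (riesz d).hasFDerivAt.comp x h

lemma contDiff_gradient : ContDiff ℝ 1 (gradient V) :=
  (riesz d).contDiff.comp (hV.1.fderiv_right (by norm_num))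

lemma hessOp_bounds (x v : E d) :
    ‖v‖ ^ 2 ≤ ⟪hessOp V x v, v⟫ ∧ ⟪hessOp V x v, v⟫ ≤ 2 * ‖v‖ ^ 2 := by
  have h := hV.2.2.2 x v
  rw [iteratedFDeriv_two_apply] at h
  simpa [hessOp_inner] using h

lemma hessOp_symm (x v u : E d) : ⟪hessOp V x v, u⟫ = ⟪hessOp V x u, v⟫ := by
  simp only [hessOp_inner]
  exact (hV.1.contDiffAt.isSymmSndFDerivAt (by simp)).eq v u

lemma norm_hessOp_sub_le (x : E d) : ‖hessOp V x - ContinuousLinearMap.id ℝ (E d)‖ ≤ 1 := by
  refine ContinuousLinearMap.opNorm_le_bound _ zero_le_one fun v => ?_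
  set A := hessOp V x - ContinuousLinearMap.id ℝ (E d) with hA
  have hb : ∀ w, 0 ≤ ⟪A w, w⟫ ∧ ⟪A w, w⟫ ≤ ‖w‖ ^ 2 := fun w => by
    have h := hV.hessOp_bounds x w
    simp only [hA, sub_apply, ContinuousLinearMap.id_apply, inner_sub_left,
      real_inner_self_eq_norm_sq]
    constructor <;> linarith
  have hs : ∀ w u, ⟪A w, u⟫ = ⟪A u, w⟫ := fun w u => by
    simp only [hA, sub_apply, ContinuousLinearMap.id_apply, inner_sub_left,
      hV.hessOp_symm x w u, real_inner_comm w u]
  have key : ‖A v‖ ^ 2 * ‖A v‖ ^ 2 ≤ ‖v‖ ^ 2 * ‖A v‖ ^ 2 := by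
    have hq : ∀ t : ℝ, 0 ≤ ⟪A (A v), A v⟫ * (t * t) + 2 * ‖A v‖ ^ 2 * t + ⟪A v, v⟫ := fun t => by
      have h := (hb (t • A v + v)).1
      simp only [map_add, map_smul, inner_add_left, inner_add_right, real_inner_smul_left,
        real_inner_smul_right, hs (A v) v, real_inner_self_eq_norm_sq] at h
      linarith
    have hd := discrim_le_zero hq
    rw [discrim] at hd
    have h1 := hb v
    have h2 := hb (A v)
    nlinarith [mul_le_mul h2.2 h1.2 h1.1 (sq_nonneg ‖A v‖)]
  rcases eq_or_ne ‖A v‖ 0 with h0 | h0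
  · rw [h0]; positivity
  · have h3 : ‖A v‖ ^ 2 ≤ ‖v‖ ^ 2 := le_of_mul_le_mul_right key (by positivity)
    rw [one_mul]
    exact (pow_le_pow_iff_left₀ (norm_nonneg _) (norm_nonneg _) two_ne_zero).1 h3

lemma hasFDerivAt_gradR (x : E d) :
    HasFDerivAt (gradR V) (hessOp V x - ContinuousLinearMap.id ℝ (E d)) x :=
  (hV.hasFDerivAt_gradient x).sub (hasFDerivAt_id x)

lemma lipschitz_gradR : LipschitzWith 1 (gradR V) :=
  lipschitzWith_of_nnnorm_fderiv_le (fun x => (hV.hasFDerivAt_gradR x).differentiableAt) fun x => by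
    rw [(hV.hasFDerivAt_gradR x).fderiv]
    exact_mod_cast hV.norm_hessOp_sub_le x

lemma gradR_zero : gradR V 0 = 0 := by simp [gradR, hV.2.2.1]

lemma norm_gradR_le (x : E d) : ‖gradR V x‖ ≤ ‖x‖ := by
  simpa [hV.gradR_zero] using hV.lipschitz_gradR.dist_le_mul x 0

lemma mono_gradR (x y : E d) : 0 ≤ ⟪gradR V x - gradR V y, x - y⟫ := by
  set f : ℝ → ℝ := fun t => ⟪gradR V (y + t • (x - y)), x - y⟫ with hf
  have hd : ∀ t, HasDerivAt f
      ⟪(hessOp V (y + t • (x - y)) - ContinuousLinearMap.id ℝ (E d)) (x - y), x - y⟫ t := fun t => by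
    have hl : HasDerivAt (fun t : ℝ => y + t • (x - y)) (x - y) t := by
      simpa using ((hasDerivAt_id t).smul_const (x - y)).const_add y
    simpa [hf] using ((hV.hasFDerivAt_gradR _).comp_hasDerivAt t hl).inner ℝ
      (hasDerivAt_const t (x - y))
  have hm : Monotone f := by
    refine monotone_of_deriv_nonneg (fun t => (hd t).differentiableAt) fun t => ?_
    rw [(hd t).deriv, sub_apply, ContinuousLinearMap.id_apply, inner_sub_left,
      real_inner_self_eq_norm_sq]
    linarith [(hV.hessOp_bounds (y + t • (x - y)) (x - y)).1]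
  simpa [hf, inner_sub_left] using hm (zero_le_one : (0 : ℝ) ≤ 1)

lemma contDiff_potR : ContDiff ℝ 2 (potR V) :=
  hV.1.sub ((contDiff_norm_sq ℝ).div_const 2)

lemma hasGradientAt_potR (x : E d) : HasGradientAt (potR V) (gradR V x) x := by
  have h2 : HasFDerivAt (fun u : E d => ‖u‖ ^ 2 / 2) (InnerProductSpace.toDual ℝ (E d) x) x := by
    exact hasFDerivAt_half_sq x
  rw [hasGradientAt_iff_hasFDerivAt, gradR, map_sub]
  exact (hV.hasGradientAt x).hasFDerivAt.sub h2

lemma pot : Pot (potR V) (gradR V) :=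
  ⟨hV.contDiff_potR, hV.hasGradientAt_potR, hV.lipschitz_gradR, hV.mono_gradR⟩

end Admissible

lemma Pot.logConc {U : E d → ℝ} {g : E d → E d} (h : Pot U g) {t : ℝ} (ht : 0 ≤ t) :
    LogConc (fun z => ‖z‖ ^ 2 / 2 + t * U z) (fun z => z + t • g z) 1 where
  contDiff := ((contDiff_norm_sq ℝ).div_const 2).add (contDiff_const.mul h.contDiff)
  grad z := by
    have h2 := hasFDerivAt_half_sq z
    rw [hasGradientAt_iff_hasFDerivAt, map_add, map_smulₛₗ]
    exact h2.add ((h.grad z).hasFDerivAt.const_mul t)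
  pos := one_pos
  lip := ⟨1 + Real.toNNReal t * 1, LipschitzWith.id.add
    ((lipschitzWith_smul t).comp h.lip |>.weaken (by simp [← Real.toNNReal_eq_nnnorm_of_nonneg ht]))⟩
  mono x y := by
    have h2 : 0 ≤ t * ⟪g x - g y, x - y⟫ := mul_nonneg ht (h.mono x y)
    rw [one_mul, show x + t • g x - (y + t • g y) = (x - y) + t • (g x - g y) by module,
      inner_add_left, real_inner_smul_left, real_inner_self_eq_norm_sq]
    linarith

/-- The Gibbs law is a tilt. -/
lemma gibbs_eq_tilt (V : E d → ℝ) : gibbs V = tilt (potR V) 1 := by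
  unfold tilt
  congr 1
  funext z
  simp [potR]

/-- The restricted Gaussian oracle law as a strongly log-concave law. -/
lemma Admissible.logConc_prox (hV : Admissible d V) {η : ℝ} (hη : 0 < η) (y : E d) :
    LogConc (fun x => V x + ‖x - y‖ ^ 2 / (2 * η))
      (fun x => gradient V x + η⁻¹ • (x - y)) (1 + η⁻¹) where
  contDiff := hV.1.add (((contDiff_norm_sq ℝ).comp (contDiff_id.sub contDiff_const)).div_const _)
  grad x := by
    have h2 : HasFDerivAt (fun u : E d => ‖u - y‖ ^ 2 / (2 * η))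
        (InnerProductSpace.toDual ℝ (E d) (η⁻¹ • (x - y))) x := by
      convert hasFDerivAt_sq_div y x (2 * η) using 3
      rw [show (2 : ℝ) / (2 * η) = η⁻¹ by field_simp]
    rw [hasGradientAt_iff_hasFDerivAt, map_add]
    exact (hV.hasGradientAt x).hasFDerivAt.add h2
  pos := by positivity
  lip := by
    refine ⟨1 + 1 + ‖η⁻¹‖₊ * (1 + 0), ?_⟩
    have h1 : LipschitzWith (1 + 1) (gradient V) := by
      simpa [gradR] using hV.lipschitz_gradR.add LipschitzWith.id
    exact h1.add ((lipschitzWith_smul η⁻¹).comp (LipschitzWith.id.sub (LipschitzWith.const y)))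
  mono x z := by
    have h := hV.mono_gradR x z
    rw [gradR, gradR, show gradient V x - x - (gradient V z - z) =
      (gradient V x - gradient V z) - (x - z) by abel, inner_sub_left,
      real_inner_self_eq_norm_sq] at h
    rw [show gradient V x + η⁻¹ • (x - y) - (gradient V z + η⁻¹ • (z - y)) =
      (gradient V x - gradient V z) + η⁻¹ • (x - z) by module, inner_add_left, real_inner_smul_left,
      real_inner_self_eq_norm_sq]
    linarith

end Vale.Agent.P347
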