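import Vale.Agent.P347.Defs

/-!
P347: notation and the statements (as propositions) of the parts of the proof of
`Q(d) ≤ d^(1/4 + o(1))`.
-/

namespace Vale.Agent.P347

open MeasureTheory ProbabilityTheory
open scoped RealInnerProductSpace

variable {d q : ℕ}

/-- The standard Gaussian law. -/
noncomputable def gam (d : ℕ) : Measure (E d) := stdGaussian (E d)

/-- A convex potential with gradient `g` and Hessian at most one. -/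
structure Pot (U : E d → ℝ) (g : E d → E d) : Prop where
  contDiff : ContDiff ℝ 2 U
  grad : ∀ x, HasGradientAt U (g x) x
  lip : LipschitzWith 1 g
  mono : ∀ x y, 0 ≤ ⟪g x - g y, x - y⟫

/-- The law `∝ exp (-‖z‖²/2 - t U z)`. -/
noncomputable def tilt (U : E d → ℝ) (t : ℝ) : Measure (E d) :=
  gibbs fun z => ‖z‖ ^ 2 / 2 + t * U z

/-- The point at Ornstein-Uhlenbeck time `r` from `z`, driven by the Gaussian vector `w`. -/
noncomputable def ouPt (r : ℝ) (z w : E d) : E d :=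
  Real.exp (-r) • z + Real.sqrt (1 - Real.exp (-(2 * r))) • w

/-- The Ornstein-Uhlenbeck semigroup. -/
noncomputable def ou {X : Type*} [NormedAddCommGroup X] [NormedSpace ℝ X] (r : ℝ) (u : E d → X)
    (z : E d) : X :=
  ∫ w, u (ouPt r z w) ∂gam d

/-- The exact first order drift `∫₀^∞ e^{-r} P_r g dr`. -/
noncomputable def gStar (g : E d → E d) (z : E d) : E d :=
  ∫ r in Set.Ioi (0 : ℝ), Real.exp (-r) • ou r g z

/-- Gaussian smoothing with variance `τ`. -/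
noncomputable def sm {X : Type*} [NormedAddCommGroup X] [NormedSpace ℝ X] (τ : ℝ) (f : E d → X)
    (x : E d) : X :=
  ∫ w, f (x + Real.sqrt τ • w) ∂gam d

/-- The gradient of `sm τ f`. -/
noncomputable def smGrad (τ : ℝ) (f : E d → ℝ) (x : E d) : E d :=
  (Real.sqrt τ)⁻¹ • ∫ w, f (x + Real.sqrt τ • w) • w ∂gam d

/-- The Hessian of `sm τ f`, in coordinates. -/
noncomputable def smHess (τ : ℝ) (f : E d → ℝ) (x : E d) (i j : Fin d) : ℝ :=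
  τ⁻¹ * ∫ w, f (x + Real.sqrt τ • w) * (w i * w j - if i = j then 1 else 0) ∂gam d

/-- The squared Frobenius norm of the Hessian of `sm τ f`. -/
noncomputable def smHessSq (τ : ℝ) (f : E d → ℝ) (x : E d) : ℝ :=
  ∑ i, ∑ j, smHess τ f x i j ^ 2

/-- The Frobenius norm of an operator. -/
noncomputable def frob (T : E d →L[ℝ] E d) : ℝ :=
  Real.sqrt (∑ i, ‖T (EuclideanSpace.single i (1 : ℝ))‖ ^ 2)

/-- A test function with its gradient and Hessian, both bounded by `B`. -/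
structure Test (h : E d → ℝ) (gr : E d → E d) (he : E d → E d →L[ℝ] E d) (B : ℝ) : Prop where
  grad : ∀ x, HasGradientAt h (gr x) x
  hess : ∀ x, HasFDerivAt gr (he x) x
  hess_cont : Continuous he
  grad_le : ∀ x, ‖gr x‖ ≤ B
  hess_le : ∀ x, frob (he x) ≤ B

/-- Covariance. -/
noncomputable def cov' (μ : Measure (E d)) (φ ψ : E d → ℝ) : ℝ :=
  (∫ x, φ x * ψ x ∂μ) - (∫ x, φ x ∂μ) * ∫ x, ψ x ∂μ

/-! ### Seat A: Gaussian calculus -/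

/-- Gaussian covariance by interpolation, on any Euclidean space. -/
def GaussCov : Prop :=
  ∀ m : ℕ, ∀ φ ψ : E m → ℝ, ∀ gφ gψ : E m → E m, ∀ K : ℝ,
    Continuous gφ → Continuous gψ →
    (∀ x, HasGradientAt φ (gφ x) x) → (∀ x, HasGradientAt ψ (gψ x) x) →
    (∀ x, |φ x| ≤ K * Real.exp (K * ‖x‖)) → (∀ x, ‖gφ x‖ ≤ K * Real.exp (K * ‖x‖)) →
    (∀ x, |ψ x| ≤ K * Real.exp (K * ‖x‖)) → (∀ x, ‖gψ x‖ ≤ K * Real.exp (K * ‖x‖)) →
    cov' (gam m) φ ψ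
      = ∫ r in Set.Ioi (0 : ℝ), Real.exp (-r) * ∫ z, ⟪gφ z, ou r gψ z⟫ ∂gam m

/-- The exact drift has derivative at most `1/2`. -/
def StarDeriv : Prop :=
  ∀ d : ℕ, ∀ U : E d → ℝ, ∀ g : E d → E d, Pot U g → ∃ DG : E d → E d →L[ℝ] E d,
    Continuous DG ∧ ∀ z, HasFDerivAt (gStar g) (DG z) z ∧ ‖DG z‖ ≤ 1 / 2

/-- A Lipschitz centred random shift changes an expectation at second order only. -/
def GaussShift : Prop :=
  ∀ d m : ℕ, ∀ ξ : E m → E d, ∀ L : NNReal, ContDiff ℝ 1 ξ → LipschitzWith L ξ →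
    ∫ w, ξ w ∂gam m = 0 →
    ∀ h gr he B, Test h gr he B → ∀ a : E d,
      |(∫ w, h (a + ξ w) ∂gam m) - h a|
        ≤ (L : ℝ) ^ 2 * Real.sqrt d *
          ∫ r in Set.Icc (0 : ℝ) 1, ∫ w, frob (he (a + r • ξ w)) ∂gam m

/-- Derivatives of smoothed bounded functions and the semigroup identities. -/
def SmoothFacts : Prop :=
  ∀ d : ℕ, ∀ f : E d → ℝ, ∀ M τ : ℝ, Measurable f → (∀ x, |f x| ≤ M) → 0 < τ →
    (∃ he B, Test (sm τ f) (smGrad τ f) he B ∧ ∀ x, frob (he x) ^ 2 = smHessSq τ f x) ∧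
      (∀ x, smGrad τ f x = sm (τ / 2) (smGrad (τ / 2) f) x) ∧
      (∀ x, smHessSq τ f x ≤ sm (τ / 2) (smHessSq (τ / 2) f) x) ∧
      (∀ x, τ * ‖smGrad τ f x‖ ^ 2 ≤ M ^ 2) ∧ (∀ x, τ ^ 2 * smHessSq τ f x ≤ 2 * M ^ 2)

/-- The first two Hermite levels are at most the variance. -/
def GaussBessel : Prop :=
  ∀ d : ℕ, ∀ f : E d → ℝ, ∀ M : ℝ, Measurable f → (∀ x, |f x| ≤ M) →
    ‖∫ w, f w • w ∂gam d‖ ^ 2
        + (∑ i, ∑ j, (∫ w, f w * (w i * w j - if i = j then 1 else 0) ∂gam d) ^ 2) / 2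
      ≤ cov' (gam d) f f

/-- A smoothed nonnegative bounded function controls its own derivatives. -/
def SelfBound : Prop :=
  ∀ k : ℕ, 1 ≤ k → ∃ C : ℝ, 0 ≤ C ∧ ∀ d : ℕ, ∀ Φ : E d → ℝ, ∀ τ : ℝ, Measurable Φ →
    (∀ x, 0 ≤ Φ x) → (∀ x, Φ x ≤ 1) → 1 / 4 ≤ τ → τ ≤ 4 →
    ∃ gr he, Test (sm τ Φ) gr he C ∧ ∀ x, ∀ b l : ℝ, 0 ≤ b → 0 < l →
      b * (‖gr x‖ + frob (he x)) ≤ l * sm τ Φ x + C * b ^ k / l ^ (k - 1)

/-! ### Seat B: strongly log-concave laws -/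

/-- A potential with `m ≤ Hessian ≤ M`. -/
structure LogConc (W : E d → ℝ) (gW : E d → E d) (m : ℝ) : Prop where
  contDiff : ContDiff ℝ 2 W
  grad : ∀ x, HasGradientAt W (gW x) x
  pos : 0 < m
  lip : ∃ M, LipschitzWith M gW
  mono : ∀ x y, m * ‖x - y‖ ^ 2 ≤ ⟪gW x - gW y, x - y⟫

def GibbsProb : Prop :=
  ∀ d : ℕ, ∀ W : E d → ℝ, ∀ gW m, LogConc W gW m → IsProbabilityMeasure (gibbs W) ∧
    ∀ N : ℕ, Integrable (fun x : E d => (1 + ‖x‖) ^ N) (gibbs W)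

def Poincare : Prop :=
  ∀ d : ℕ, ∀ W : E d → ℝ, ∀ gW m, LogConc W gW m →
    ∀ f : E d → ℝ, ∀ gf : E d → E d, Continuous gf → (∀ x, HasGradientAt f (gf x) x) →
      ∀ K : ℝ, ∀ N : ℕ, (∀ x, ‖gf x‖ ≤ K * (1 + ‖x‖) ^ N) →
        cov' (gibbs W) f f ≤ (∫ x, ‖gf x‖ ^ 2 ∂gibbs W) / m

def CentralMoments : Prop :=
  ∀ j : ℕ, 1 ≤ j → ∃ C : ℝ, 0 ≤ C ∧ ∀ d : ℕ, ∀ W : E d → ℝ, ∀ gW m, LogConc W gW m →
    ∀ f : E d → ℝ, ∀ gf : E d → E d, Continuous gf → (∀ x, HasGradientAt f (gf x) x) →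
      ∀ K : ℝ, ∀ N : ℕ, (∀ x, ‖gf x‖ ≤ K * (1 + ‖x‖) ^ N) →
        ∫ x, (f x - ∫ u, f u ∂gibbs W) ^ (2 * j) ∂gibbs W
          ≤ C / m ^ j * ∫ x, ‖gf x‖ ^ (2 * j) ∂gibbs W

def TiltFacts : Prop :=
  ∀ j : ℕ, ∃ C : ℝ, 0 ≤ C ∧ ∀ d : ℕ, ∀ U : E d → ℝ, ∀ g : E d → E d, Pot U g →
    tilt U 0 = gam d ∧
    (∀ Λ t : ℝ, Real.sqrt d ≤ Λ → ‖g 0‖ ≤ Λ → 0 ≤ t → t ≤ 1 →
      ∫ z, ‖z‖ ^ (2 * j) ∂tilt U t ≤ C * Λ ^ (2 * j)) ∧
    ∀ ψ : E d → ℝ, ∀ K : ℝ, Measurable ψ → (∀ x, |ψ x| ≤ K * (1 + ‖x‖) ^ j) →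
      ∀ t : ℝ, 0 ≤ t →
        HasDerivWithinAt (fun u => ∫ x, ψ x ∂tilt U u) (-cov' (tilt U t) ψ U) (Set.Ici 0) t

/-! ### Seat C: quadrature -/

/-- Nodes and weights in Ornstein-Uhlenbeck time. -/
structure Quad (q : ℕ) where
  r : Fin q → ℝ
  a : Fin q → ℝ
  r_nonneg : ∀ i, 0 ≤ r i
  sum_a : ∑ i, a i = 1

noncomputable def Quad.wt (Q : Quad q) : ℝ := ∑ i, |Q.a i|

/-- The quadrature of the exact drift. -/
noncomputable def gQuad (Q : Quad q) (g : E d → E d) (z : E d) : E d :=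
  ∑ i, Q.a i • ou (Q.r i) g z

/-- The error of a quadrature for a given potential. -/
def QuadErr (Q : Quad q) (g : E d → E d) (ζ : ℝ) : Prop :=
  0 ≤ ζ ∧ ∫ z, ‖gQuad Q g z - gStar g z‖ ^ 2 ∂gam d ≤ ζ ^ 2

/-- A quadrature which is good for every potential. -/
def QuadGood (d : ℕ) (Q : Quad q) (A : ℝ) (K : ℕ) : Prop :=
  Q.wt ≤ A ∧ ∀ U : E d → ℝ, ∀ g : E d → E d, Pot U g →
    ∀ Λ : ℝ, Real.sqrt d ≤ Λ → ‖g 0‖ ≤ Λ → QuadErr Q g (Λ / (d : ℝ) ^ K)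

def QuadExists : Prop :=
  ∀ ι : ℝ, 0 < ι → ∀ K : ℕ, ∃ A : ℝ, 1 ≤ A ∧ ∃ D : ℕ, ∀ d : ℕ, D ≤ d →
    ∃ q : ℕ, ∃ Q : Quad q, (q : ℝ) ≤ (d : ℝ) ^ ι ∧ QuadGood d Q A K

/-! ### Seats E: one step in normalised coordinates -/

/-- All the randomness of a step: `z`, `z'`, `ζ`, `N'` and two families of node vectors. -/
structure Blocks (d q : ℕ) where
  z : E d
  z' : E d
  zeta : E d
  n : E d
  w : Fin q → E d
  w' : Fin q → E d

/-- The inner coordinates of a noise vector. -/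
noncomputable def blk (x : E ((2 * q + 4) * d)) (i : Fin (2 * q + 4)) : E d :=
  WithLp.toLp 2 fun j => x (finProdFinEquiv (i, j))

noncomputable def blocks (x : E ((2 * q + 4) * d)) : Blocks d q where
  z := blk x ⟨0, by omega⟩
  z' := blk x ⟨1, by omega⟩
  zeta := blk x ⟨2, by omega⟩
  n := blk x ⟨3, by omega⟩
  w := fun i => blk x ⟨4 + i, by omega⟩
  w' := fun i => blk x ⟨4 + q + i, by omega⟩

/-- The quadrature estimator of the drift at `z`. -/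
noncomputable def drift (Q : Quad q) (g : E d → E d) (z : E d) (w : Fin q → E d) : E d :=
  ∑ i, Q.a i • g (ouPt (Q.r i) z (w i))

/-- The mean correction. -/
noncomputable def corr (Q : Quad q) (g : E d → E d) (ε : ℝ) (b : Blocks d q) : E d :=
  g (ouPt ε (b.z' - ε • drift Q g b.z' b.w') b.zeta) - g b.n

/-- The output of a step in normalised coordinates. -/
noncomputable def xhat (Q : Quad q) (g : E d → E d) (ε : ℝ) (b : Blocks d q) : E d :=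
  b.z - ε • (drift Q g b.z b.w + corr Q g ε b)

/-- The law of the noise. -/
noncomputable def noise (d q : ℕ) : Measure (E ((2 * q + 4) * d)) := gam _

/-- The path of maps used in the comparison with the target. -/
noncomputable def phiMap (g : E d → E d) (e : E d) (ε v : ℝ) (z : E d) : E d :=
  z - (v * ε) • (gStar g z + e)

/-- The derivative in `s` of `∫ h ∘ Φ_{1-s}` under `tilt U (s ε)`. -/
noncomputable def interpRate (U : E d → ℝ) (g : E d → E d) (DG : E d → E d →L[ℝ] E d)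
    (h : E d → ℝ) (gr : E d → E d) (e : E d) (ε s : ℝ) : ℝ :=
  ε * (∫ z, ⟪gr (phiMap g e ε (1 - s) z), e⟫ ∂tilt U (s * ε))
    + (1 - s) * ε ^ 2 * (∫ z, ⟪gr (phiMap g e ε (1 - s) z), DG z (gStar g z)⟫ ∂tilt U (s * ε))
    + s * ε ^ 2 * cov' (tilt U (s * ε)) (fun z => h (phiMap g e ε (1 - s) z))
        (fun z => ⟪g z, gStar g z⟫)

/-- The interpolation identity between the map and the target. -/
def Interp : Prop :=
  ∀ d : ℕ, ∀ U : E d → ℝ, ∀ g : E d → E d, ∀ DG : E d → E d →L[ℝ] E d, Pot U g → Continuous DG →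
    (∀ z, HasFDerivAt (gStar g) (DG z) z ∧ ‖DG z‖ ≤ 1 / 2) →
    ∀ h gr he B, Test h gr he B → ∀ e : E d, ∀ ε s₀ : ℝ, 0 ≤ ε → 0 ≤ s₀ → s₀ ≤ 1 →
      (∫ z, h z ∂tilt U ε) - ∫ z, h (phiMap g e ε (1 - s₀) z) ∂tilt U (s₀ * ε)
        = ∫ s in s₀..1, interpRate U g DG h gr e ε s

/-- One step against a smoothed test function, the linear part left apart. -/
def StepBound : Prop :=
  ∀ k : ℕ, 1 ≤ k → ∀ A : ℝ, 1 ≤ A → ∃ c₀ C : ℝ, 0 < c₀ ∧ 0 ≤ C ∧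
    ∀ d q : ℕ, ∀ Q : Quad q, Q.wt ≤ A → ∀ U : E d → ℝ, ∀ g : E d → E d, Pot U g →
    ∀ ε Λ ζ : ℝ, 0 < ε → ε ≤ 1 / 2 → 1 ≤ Λ → Real.sqrt d ≤ Λ → ‖g 0‖ ≤ Λ → ε ^ 2 * Λ ≤ c₀ →
      QuadErr Q g ζ →
    ∀ h gr he, Test h gr he 1 → ∀ c : E d, ‖c‖ ≤ 1 →
    ∀ Φ₁ Φ₂ : E d → ℝ, ∀ τ : ℝ, Measurable Φ₁ → Measurable Φ₂ →
      (∀ x, 0 ≤ Φ₁ x) → (∀ x, Φ₁ x ≤ 1) → (∀ x, 0 ≤ Φ₂ x) → (∀ x, Φ₂ x ≤ 1) →
      1 / 4 ≤ τ → τ ≤ 4 →
      (∀ x, ‖gr x - c‖ ^ 2 ≤ sm τ Φ₁ x) → (∀ x, frob (he x) ^ 2 ≤ sm τ Φ₂ x) →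
      |(∫ x, h (xhat Q g ε (blocks x)) ∂noise d q) - (∫ z, h z ∂tilt U ε)
          - ⟪c, (∫ x, xhat Q g ε (blocks x) ∂noise d q) - ∫ z, z ∂tilt U ε⟫|
        ≤ C * (ε ^ 2 * Λ) * Real.sqrt ((∫ z, sm τ Φ₁ z ∂tilt U ε) + (∫ z, sm τ Φ₂ z ∂tilt U ε)
              + (ε ^ 2 * Λ) ^ k + ζ)
          + C * ζ

/-- The mean of a step. -/
def MeanBound : Prop :=
  ∀ A : ℝ, 1 ≤ A → ∃ C : ℝ, 0 ≤ C ∧
    ∀ d q : ℕ, ∀ Q : Quad q, Q.wt ≤ A → ∀ U : E d → ℝ, ∀ g : E d → E d, Pot U g →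
    ∀ ε Λ ζ : ℝ, 0 < ε → ε ≤ 1 / 2 → 1 ≤ Λ → Real.sqrt d ≤ Λ → ‖g 0‖ ≤ Λ → QuadErr Q g ζ →
      ‖(∫ x, xhat Q g ε (blocks x) ∂noise d q) - ∫ z, z ∂tilt U ε‖
        ≤ C * (ε ^ 2 * Real.sqrt ε * Λ + ζ)

/-! ### Original coordinates -/

/-- The restricted Gaussian oracle law `∝ exp (-V x - ‖x-y‖²/2η)`. -/
noncomputable def prox (V : E d → ℝ) (η : ℝ) (y : E d) : Measure (E d) :=
  gibbs fun x => V x + ‖x - y‖ ^ 2 / (2 * η)

/-- The law of `x + √η Z`, `x` from the Gibbs law. -/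
noncomputable def pLaw (V : E d → ℝ) (η : ℝ) : Measure (E d) :=
  ((gibbs V).prod (gam d)).map fun p => p.1 + Real.sqrt η • p.2

/-- The exact proximal chain on `y`. -/
noncomputable def mop (V : E d → ℝ) (η : ℝ) (f : E d → ℝ) (y : E d) : ℝ :=
  ∫ x, sm η f x ∂prox V η y

/-- The gradient of `V - ‖·‖²/2`. -/
noncomputable def gradR (V : E d → ℝ) (x : E d) : E d := gradient V x - x

noncomputable def c0 (η : ℝ) (y : E d) : E d := (1 + η)⁻¹ • y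

noncomputable def c1 (V : E d → ℝ) (η : ℝ) (y : E d) : E d :=
  (1 + η)⁻¹ • (y - η • gradR V (c0 η y))

noncomputable def sg (η : ℝ) : ℝ := Real.sqrt (η / (1 + η))

/-- The normalised gradient at `y`. -/
noncomputable def gAt (V : E d → ℝ) (η : ℝ) (y u : E d) : E d :=
  (sg η)⁻¹ • (gradR V (c1 V η y + sg η • u) - gradR V (c0 η y))

/-- The approximate restricted Gaussian oracle. -/
noncomputable def xout (V : E d → ℝ) (Q : Quad q) (η : ℝ) (y : E d)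
    (x : E ((2 * q + 4) * d)) : E d :=
  c1 V η y + sg η • xhat Q (gAt V η y) (sg η ^ 2) (blocks x)

/-- The approximate chain on `y`. -/
noncomputable def mhat (V : E d → ℝ) (Q : Quad q) (η : ℝ) (f : E d → ℝ) (y : E d) : ℝ :=
  ∫ x, sm η f (xout V Q η y x) ∂noise d q

/-- One halving stage: from `y` at level `η` to level `η/2`. -/
noncomputable def stage (V : E d → ℝ) (Q : Quad q) (η : ℝ) (f : E d → ℝ) (y : E d) : ℝ :=
  ∫ x, sm η (fun u => f ((2 : ℝ)⁻¹ • (u + y))) (xout V Q η y x) ∂noise d q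

/-- The last draw. -/
noncomputable def lastDraw (V : E d → ℝ) (η : ℝ) (f : E d → ℝ) (y : E d) : ℝ :=
  ∫ w, f (c1 V η y + sg η • w) ∂gam d

/-! ### Seat D: the exact chain -/

def MopFacts : Prop :=
  ∀ d : ℕ, ∀ V : E d → ℝ, Admissible d V → ∀ η : ℝ, 0 < η → η ≤ 1 →
    IsProbabilityMeasure (pLaw V η) ∧
    (∀ f : E d → ℝ, Measurable f → (∀ x, |f x| ≤ 1) →
      Measurable (mop V η f) ∧ (∀ y, |mop V η f y| ≤ 1) ∧
      ∫ y, mop V η f y ^ 2 ∂pLaw V η ≤ ∫ y, f y ^ 2 ∂pLaw V η ∧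
      0 ≤ ∫ y, f y * mop V η f y ∂pLaw V η ∧
      ∫ y, (∫ x, f x ∂prox V η y) ∂pLaw V η = ∫ x, f x ∂gibbs V ∧
      ∫ y, mop V η f y ∂pLaw V η = ∫ y, f y ∂pLaw V η) ∧
    ∀ f h : E d → ℝ, Measurable f → Measurable h → (∀ x, |f x| ≤ 1) → (∀ x, |h x| ≤ 1) →
      ∫ y, f y * mop V η h y ∂pLaw V η = ∫ y, mop V η f y * h y ∂pLaw V η

/-- Perturbed iteration of a symmetric positive contraction: the errors add up logarithmically. -/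
def NeumannBound : Prop :=
  ∃ c C : ℝ, 0 < c ∧ 0 ≤ C ∧ ∀ (H : Type) [AddCommGroup H] [Module ℝ H]
    (B : H →ₗ[ℝ] H →ₗ[ℝ] ℝ) (M : H →ₗ[ℝ] H),
    (∀ x y, B x y = B y x) → (∀ x, 0 ≤ B x x) → (∀ x y, B (M x) y = B x (M y)) →
    (∀ x, 0 ≤ B x (M x)) → (∀ x, B (M x) (M x) ≤ B x x) →
    ∀ f : ℕ → H, ∀ n : ℕ, ∀ δ r τ : ℝ, 0 ≤ δ → 0 ≤ r → 0 ≤ τ →
      δ * (1 + Real.log (n + 1)) ≤ c → r * Real.sqrt n * (1 + Real.log (n + 1)) ≤ c →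
      τ * n * (1 + Real.log (n + 1)) ≤ c →
      (∀ i < n, B (f i) (f i) ≤ 1) →
      (∀ i < n, Real.sqrt (B (f (i + 1) - M (f i)) (f (i + 1) - M (f i)))
          ≤ δ * Real.sqrt (B (f i - M (f i)) (f i - M (f i)))
            + r * Real.sqrt (B (f i) (f i - M (f i))) + τ) →
      ∑ i ∈ Finset.range n, Real.sqrt (B (f (i + 1) - M (f i)) (f (i + 1) - M (f i)))
        ≤ C * (δ * (1 + Real.log (n + 1)) + r * Real.sqrt n * (1 + Real.log (n + 1)) + τ * n)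

/-- The mean gradient of the smoothed test function. -/
noncomputable def cBar (V : E d → ℝ) (η : ℝ) (f : E d → ℝ) (y : E d) : E d :=
  ∫ x, smGrad η f x ∂prox V η y

/-- The two terms which the inner sampler error is measured against. -/
noncomputable def dTerm (V : E d → ℝ) (η : ℝ) (f : E d → ℝ) (y : E d) : ℝ :=
  η * (∫ x, sm (η / 2) (fun u => ‖smGrad (η / 2) f u - cBar V η f y‖ ^ 2) x ∂prox V η y)
    + η ^ 2 * ∫ x, sm (η / 2) (smHessSq (η / 2) f) x ∂prox V η y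

def KeyBound : Prop :=
  ∀ d : ℕ, ∀ V : E d → ℝ, Admissible d V → ∀ η : ℝ, 0 < η → η ≤ 1 →
    ∀ f : E d → ℝ, Measurable f → (∀ x, |f x| ≤ 1) →
      ∫ y, dTerm V η f y ∂pLaw V η ≤ 40 * ∫ y, (f y - mop V η f y) ^ 2 ∂pLaw V η ∧
      η * (∫ y, ‖cBar V η f y‖ ^ 2 ∂pLaw V η)
        ≤ ∫ y, f y * (f y - mop V η f y) ∂pLaw V η

/-! ### Seats F: the algorithm -/

/-- The size of the normalised drift at `y`. -/
noncomputable def size (η : ℝ) (y : E d) : ℝ := Real.sqrt d + 2 * Real.sqrt η * ‖y‖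

/-- One step at one point, in original coordinates. -/
def PerPoint : Prop :=
  ∀ k : ℕ, 1 ≤ k → ∀ A : ℝ, 1 ≤ A → ∃ c₀ C : ℝ, 0 < c₀ ∧ 0 ≤ C ∧
    ∀ d q : ℕ, 1 ≤ d → ∀ Q : Quad q, ∀ K : ℕ, QuadGood d Q A K →
    ∀ V : E d → ℝ, Admissible d V → ∀ η : ℝ, 0 < η → η ≤ 1 / 2 →
    ∀ y : E d, η ^ 2 * size η y ≤ c₀ →
    ∀ f : E d → ℝ, Measurable f → (∀ x, |f x| ≤ 1) →
      |(∫ x, sm η f (xout V Q η y x) ∂noise d q) - ∫ x, sm η f x ∂prox V η y|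
        ≤ C * (η ^ 2 * size η y) * Real.sqrt (dTerm V η f y + (η ^ 2 * size η y) ^ k
              + size η y / (d : ℝ) ^ K)
          + C * (η ^ 2 * Real.sqrt η * size η y) * (Real.sqrt η * ‖cBar V η f y‖)
          + C * (size η y / (d : ℝ) ^ K)

/-- The error of one step of the chain in `L²(p)`. -/
def ChainError : Prop :=
  ∀ ι : ℝ, 0 < ι → ι ≤ 1 / 20 → ∃ K : ℕ, ∀ A : ℝ, 1 ≤ A → ∃ D : ℕ, ∃ C : ℝ, 0 ≤ C ∧
    ∀ d q : ℕ, D ≤ d → ∀ Q : Quad q, QuadGood d Q A K →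
    ∀ V : E d → ℝ, Admissible d V → ∀ f : E d → ℝ, Measurable f → (∀ x, |f x| ≤ 1) →
      let η : ℝ := (d : ℝ) ^ (-(1 / 4 + ι))
      ∫ y, (mhat V Q η f y - mop V η f y) ^ 2 ∂pLaw V η
        ≤ C * (d : ℝ) ^ (-(4 * ι)) * (∫ y, (f y - mop V η f y) ^ 2 ∂pLaw V η)
          + C * η * (d : ℝ) ^ (-(4 * ι)) * (∫ y, f y * (f y - mop V η f y) ∂pLaw V η)
          + C * (d : ℝ) ^ (-(10 : ℝ))

/-- The approximate chain started from any two points forgets its start. -/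
def Contraction : Prop :=
  ∀ A : ℝ, 1 ≤ A → ∃ η₀ C : ℝ, 0 < η₀ ∧ 0 ≤ C ∧
    ∀ d q : ℕ, ∀ Q : Quad q, Q.wt ≤ A → ∀ V : E d → ℝ, Admissible d V →
    ∀ η : ℝ, 0 < η → η ≤ η₀ → ∀ f : E d → ℝ, Measurable f → (∀ x, |f x| ≤ 1) →
    ∀ n : ℕ, ∀ y y' : E d,
      |(mhat V Q η)^[n + 1] f y - (mhat V Q η)^[n + 1] f y'|
        ≤ C / Real.sqrt η * (1 - η / 4) ^ n * ‖y - y'‖

/-- The halving stages and the last draw. -/
def FinalPhase : Prop :=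
  ∀ ι : ℝ, 0 < ι → ι ≤ 1 / 20 → ∃ K : ℕ, ∀ A : ℝ, 1 ≤ A → ∃ D : ℕ, ∃ C : ℝ, 0 ≤ C ∧
    ∀ d q : ℕ, D ≤ d → ∀ Q : Quad q, QuadGood d Q A K →
    ∀ V : E d → ℝ, Admissible d V → ∀ f : E d → ℝ, Measurable f → (∀ x, |f x| ≤ 1) →
      let η : ℝ := (d : ℝ) ^ (-(1 / 4 + ι))
      ∀ η₁ : ℝ, 0 < η₁ → η₁ ≤ η →
        (|(∫ y, stage V Q η₁ f y ∂pLaw V η₁) - ∫ y, f y ∂pLaw V (η₁ / 2)|
            ≤ C * (d : ℝ) ^ (-ι)) ∧
        (|(∫ y, lastDraw V η₁ f y ∂pLaw V η₁) - ∫ x, f x ∂gibbs V|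
            ≤ C * (η₁ * Real.sqrt d))

/-- A chain of `n` steps, `m` stages and a last draw is a first order algorithm. -/
def AlgoExists : Prop :=
  ∀ d q n m : ℕ, ∀ Q : Quad q, ∀ η : ℝ, 0 < η →
    ∃ A : Algo d ((n + m) * (2 * q + 3) + 1), ∀ V : E d → ℝ, Admissible d V →
      ∀ B : Set (E d), MeasurableSet B →
        (A.law {s | run A V s ∈ B}).toReal
          = (mhat V Q η)^[n]
              (((List.range m).map fun i => stage V Q (η / 2 ^ i)).foldr (fun T f => T f)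
                (lastDraw V (η / 2 ^ m) (B.indicator fun _ => 1))) 0

end Vale.Agent.P347
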