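import Vale.Agent.P157.Gauss
import Vale.Agent.P347.Interface

/-!
P347: the coordinates of a noise vector are independent standard Gaussian vectors.
-/

namespace Vale.Agent.P347

open MeasureTheory ProbabilityTheory Complex
open scoped RealInnerProductSpace

namespace BlockLaw

variable {d q m : ℕ}

lemma blk_apply (x : E ((2 * q + 4) * d)) (i : Fin (2 * q + 4)) (j : Fin d) :
    blk x i j = x (finProdFinEquiv (i, j)) := rfl

/-- The inner coordinates as a linear map. -/
noncomputable def blkL (i : Fin (2 * q + 4)) : E ((2 * q + 4) * d) →L[ℝ] E d :=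
  LinearMap.toContinuousLinearMap
    { toFun := fun x => blk x i
      map_add' := fun x y => by ext j; simp [blk_apply]
      map_smul' := fun c x => by ext j; simp [blk_apply] }

@[simp] lemma blkL_apply (i : Fin (2 * q + 4)) (x : E ((2 * q + 4) * d)) :
    blkL i x = blk x i := rfl

@[fun_prop] lemma continuous_blk (i : Fin (2 * q + 4)) :
    Continuous fun x : E ((2 * q + 4) * d) => blk x i := (blkL i).continuous

lemma blk_add (x y : E ((2 * q + 4) * d)) (i : Fin (2 * q + 4)) :
    blk (x + y) i = blk x i + blk y i := (blkL i).map_add x y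

lemma blk_sub (x y : E ((2 * q + 4) * d)) (i : Fin (2 * q + 4)) :
    blk (x - y) i = blk x i - blk y i := (blkL i).map_sub x y

/-- The noise vector with inner coordinates `t` in place `i` and zero elsewhere. -/
noncomputable def emb (i : Fin (2 * q + 4)) (t : E d) : E ((2 * q + 4) * d) :=
  WithLp.toLp 2 fun j =>
    if (finProdFinEquiv.symm j).1 = i then t (finProdFinEquiv.symm j).2 else 0

lemma blk_emb (i i' : Fin (2 * q + 4)) (t : E d) :
    blk (emb i t) i' = if i' = i then t else 0 := by
  ext j
  simp only [blk_apply, emb, Equiv.symm_apply_apply]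
  split_ifs <;> simp

lemma inner_emb (x : E ((2 * q + 4) * d)) (i : Fin (2 * q + 4)) (t : E d) :
    ⟪x, emb i t⟫ = ⟪blk x i, t⟫ := by
  rw [PiLp.inner_apply, PiLp.inner_apply, ← finProdFinEquiv.sum_comp, Fintype.sum_prod_type]
  rw [Finset.sum_eq_single i]
  · refine Finset.sum_congr rfl fun j _ => ?_
    simp only [emb, blk_apply, Equiv.symm_apply_apply]
    simp
  · intro b _ hb
    refine Finset.sum_eq_zero fun j _ => ?_
    simp only [emb, Equiv.symm_apply_apply]
    simp [hb]
  · simp

lemma norm_emb (i : Fin (2 * q + 4)) (t : E d) : ‖emb i t‖ = ‖t‖ := by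
  have : ‖emb i t‖ ^ 2 = ‖t‖ ^ 2 := by
    rw [← real_inner_self_eq_norm_sq, inner_emb, blk_emb, if_pos rfl,
      real_inner_self_eq_norm_sq]
  exact (sq_eq_sq₀ (norm_nonneg _) (norm_nonneg _)).mp this

lemma inner_emb_of_ne {i i' : Fin (2 * q + 4)} (h : i ≠ i') (t t' : E d) :
    ⟪emb i t, emb i' t'⟫ = 0 := by
  rw [inner_emb, blk_emb, if_neg (Ne.symm h), inner_zero_left]

lemma norm_blk_le (x : E ((2 * q + 4) * d)) (i : Fin (2 * q + 4)) : ‖blk x i‖ ≤ ‖x‖ := by
  have h := real_inner_le_norm x (emb i (blk x i))
  rw [inner_emb, real_inner_self_eq_norm_sq, norm_emb, sq] at h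
  rcases (norm_nonneg (blk x i)).eq_or_lt with h0 | h0
  · rw [← h0]; exact norm_nonneg x
  · exact le_of_mul_le_mul_right h h0

/-- A map whose adjoint is an isometry preserves the standard Gaussian law. -/
lemma map_gam {N : ℕ} (T : E N → E d) (hT : Continuous T) (S : E d → E N)
    (h : ∀ x t, ⟪T x, t⟫ = ⟪x, S t⟫) (hS : ∀ t, ‖S t‖ = ‖t‖) :
    (gam N).map T = gam d := by
  unfold gam
  have : IsProbabilityMeasure ((stdGaussian (E N)).map T) :=
    Measure.isProbabilityMeasure_map hT.aemeasurable
  refine Measure.ext_of_charFun ?_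
  funext t
  rw [charFun_apply, integral_map hT.aemeasurable (Continuous.aestronglyMeasurable (by fun_prop)),
    charFun_stdGaussian]
  simp only [h]
  rw [P157.integral_cexp_inner, hS]

lemma map_blk (i : Fin (2 * q + 4)) : (noise d q).map (fun x => blk x i) = gam d :=
  map_gam _ (continuous_blk i) (emb i) (fun x t => (inner_emb x i t).symm) (norm_emb i)

lemma integral_blk {X : Type*} [NormedAddCommGroup X] [NormedSpace ℝ X]
    (i : Fin (2 * q + 4)) (f : E d → X) (hf : Continuous f) :
    ∫ x, f (blk x i) ∂noise d q = ∫ z, f z ∂gam d := by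
  conv_rhs => rw [← map_blk i]
  rw [integral_map (continuous_blk i).aemeasurable hf.aestronglyMeasurable]

/-- An orthogonal combination of two different inner coordinates is standard Gaussian. -/
lemma integral_blk_comb {X : Type*} [NormedAddCommGroup X] [NormedSpace ℝ X]
    {i i' : Fin (2 * q + 4)} (hne : i ≠ i') {a b : ℝ} (hab : a ^ 2 + b ^ 2 = 1)
    (f : E d → X) (hf : Continuous f) :
    ∫ x, f (a • blk x i + b • blk x i') ∂noise d q = ∫ z, f z ∂gam d := by
  have hmap : (noise d q).map (fun x => a • blk x i + b • blk x i') = gam d := by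
    refine map_gam _ (by fun_prop) (fun t => a • emb i t + b • emb i' t) (fun x t => ?_) fun t => ?_
    · rw [inner_add_left, inner_add_right, real_inner_smul_left, real_inner_smul_left,
        real_inner_smul_right, real_inner_smul_right, inner_emb, inner_emb]
    · refine (sq_eq_sq₀ (norm_nonneg _) (norm_nonneg _)).mp ?_
      rw [norm_add_sq_real, norm_smul, norm_smul, real_inner_smul_left, real_inner_smul_right,
        inner_emb_of_ne hne, norm_emb, norm_emb, mul_pow, mul_pow, Real.norm_eq_abs,
        Real.norm_eq_abs, sq_abs, sq_abs]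
      linear_combination ‖t‖ ^ 2 * hab
  conv_rhs => rw [← hmap]
  rw [integral_map (Continuous.aemeasurable (by fun_prop)) hf.aestronglyMeasurable]

/-- Replace the inner coordinates in place `i`. -/
noncomputable def repl (i : Fin (2 * q + 4)) (z : E d) (x : E ((2 * q + 4) * d)) :
    E ((2 * q + 4) * d) :=
  x + emb i (z - blk x i)

lemma blk_repl (i i' : Fin (2 * q + 4)) (z : E d) (x : E ((2 * q + 4) * d)) :
    blk (repl i z x) i' = if i' = i then z else blk x i' := by
  rw [repl, blk_add, blk_emb]
  split_ifs with h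
  · rw [h]; abel
  · rw [add_zero]

lemma continuous_emb (i : Fin (2 * q + 4)) : Continuous (emb (d := d) i) := by
  unfold emb
  refine (PiLp.continuous_toLp 2 _).comp (continuous_pi fun j => ?_)
  split_ifs <;> fun_prop

lemma continuous_repl (i : Fin (2 * q + 4)) :
    Continuous fun p : E d × E ((2 * q + 4) * d) => repl i p.1 p.2 := by
  unfold repl
  exact continuous_snd.add ((continuous_emb i).comp
    (continuous_fst.sub ((continuous_blk i).comp continuous_snd)))

lemma map_repl (i : Fin (2 * q + 4)) :
    ((gam d).prod (noise d q)).map (fun p => repl i p.1 p.2) = noise d q := by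
  unfold gam noise gam
  have : IsProbabilityMeasure (((stdGaussian (E d)).prod (stdGaussian (E ((2 * q + 4) * d)))).map
      fun p : E d × E ((2 * q + 4) * d) => repl i p.1 p.2) :=
    Measure.isProbabilityMeasure_map (continuous_repl i).aemeasurable
  refine Measure.ext_of_charFun ?_
  funext t
  rw [charFun_apply, integral_map (continuous_repl i).aemeasurable
    (Continuous.aestronglyMeasurable (by fun_prop)), charFun_stdGaussian]
  have e : ∀ p : E d × E ((2 * q + 4) * d), cexp ((⟪repl i p.1 p.2, t⟫ : ℝ) * I) =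
      cexp ((⟪p.1, blk t i⟫ : ℝ) * I) * cexp ((⟪p.2, t - emb i (blk t i)⟫ : ℝ) * I) := fun p => by
    have hr : ⟪repl i p.1 p.2, t⟫ = ⟪p.1, blk t i⟫ + ⟪p.2, t - emb i (blk t i)⟫ := by
      rw [repl, inner_add_left, inner_sub_right, inner_emb, real_inner_comm t (emb i _),
        inner_emb, inner_sub_right, real_inner_comm (blk t i) p.1,
        real_inner_comm (blk t i) (blk p.2 i)]
      ring
    rw [hr, ← Complex.exp_add]
    push_cast
    ring_nf
  simp only [e]
  rw [integral_prod_mul (fun g : E d => cexp ((⟪g, blk t i⟫ : ℝ) * I))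
    (fun g : E ((2 * q + 4) * d) => cexp ((⟪g, t - emb i (blk t i)⟫ : ℝ) * I)),
    P157.integral_cexp_inner, P157.integral_cexp_inner, ← Complex.exp_add]
  congr 1
  have hn : ‖blk t i‖ ^ 2 + ‖t - emb i (blk t i)‖ ^ 2 = ‖t‖ ^ 2 := by
    rw [norm_sub_sq_real, inner_emb, norm_emb, real_inner_self_eq_norm_sq]; ring
  have hn' : ((‖blk t i‖ : ℂ)) ^ 2 + (‖t - emb i (blk t i)‖ : ℂ) ^ 2 = (‖t‖ : ℂ) ^ 2 := by
    exact_mod_cast hn
  linear_combination (-(1 : ℂ) / 2) * hn'

/-- Fubini for one of the inner coordinates. -/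
lemma integral_repl {X : Type*} [NormedAddCommGroup X] [NormedSpace ℝ X]
    (i : Fin (2 * q + 4)) (f : E ((2 * q + 4) * d) → X) (hf : Continuous f)
    (hi : Integrable f (noise d q)) :
    ∫ x, f x ∂noise d q = ∫ z, ∫ x, f (repl i z x) ∂noise d q ∂gam d := by
  have hm := (continuous_repl (d := d) i).aemeasurable (μ := (gam d).prod (noise d q))
  have hi' : Integrable f (((gam d).prod (noise d q)).map fun p => repl i p.1 p.2) := by
    rwa [map_repl]
  have : IsProbabilityMeasure (gam d) := by unfold gam; infer_instance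
  have : IsProbabilityMeasure (noise d q) := by unfold noise gam; infer_instance
  conv_lhs => rw [← map_repl i]
  rw [integral_map hm hf.aestronglyMeasurable]
  exact integral_prod _ (hi'.comp_aemeasurable hm)

end BlockLaw

end Vale.Agent.P347
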