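import Vale.Agent.P347.Joint
import Vale.Agent.P347.PerPoint
import Vale.Agent.P157.Gauss

/-!
P347: the exact proximal chain: symmetry, positivity and contraction in `L²(p)`, and the bound of
the smoothing terms by `‖(I - M) f‖²`.
-/

namespace Vale.Agent.P347

open MeasureTheory ProbabilityTheory Filter
open scoped RealInnerProductSpace

namespace Chain

variable {d : ℕ} {V : E d → ℝ} {η : ℝ} {f : E d → ℝ}

lemma abs_sm_le {τ B : ℝ} {φ : E d → ℝ} (hb : ∀ x, |φ x| ≤ B) (x : E d) : |sm τ φ x| ≤ B := by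
  refine (norm_integral_le_of_norm_le_const (μ := gam d)
    (f := fun w => φ (x + Real.sqrt τ • w)) (Eventually.of_forall fun w => hb _)).trans ?_
  simp

lemma abs_sq_le {a B : ℝ} (h : |a| ≤ B) : |a ^ 2| ≤ B ^ 2 := by
  rw [abs_pow]
  exact pow_le_pow_left₀ (abs_nonneg a) h 2

lemma measurable_comp_shift {X : Type*} [MeasurableSpace X] {φ : E d → X} (hφ : Measurable φ)
    (x : E d) (s : ℝ) : Measurable fun w : E d => φ (x + s • w) :=
  hφ.comp (by fun_prop)

/-- Integrals of functions of `x` through the law of `y`. -/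
lemma integral_prox_pLaw (hV : Admissible d V) (hη : 0 < η) {φ : E d → ℝ} (hφ : Measurable φ)
    {B : ℝ} (hb : ∀ x, |φ x| ≤ B) :
    ∫ y, (∫ x, φ x ∂prox V η y) ∂pLaw V η = ∫ x, φ x ∂gibbs V := by
  rw [Joint.disint (φ := fun x _ => φ x) (measurable_potential hV) hη (hφ.comp measurable_fst)
    fun x _ => hb x]
  exact integral_congr_ae (Eventually.of_forall fun x => by simp)

/-- The law of `y` is the smoothed Gibbs law. -/
lemma integral_pLaw_sm (V : E d → ℝ) {φ : E d → ℝ} (hφ : Measurable φ) {B : ℝ}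
    (hb : ∀ x, |φ x| ≤ B) (η : ℝ) :
    ∫ y, φ y ∂pLaw V η = ∫ x, sm η φ x ∂gibbs V := by
  rw [Joint.integral_pLaw V η hφ,
    Joint.integral_joint V η (φ := fun _ y => φ y) (hφ.comp measurable_snd) fun _ y => hb y]
  rfl

/-- The chain as a bilinear form. -/
lemma pair (hV : Admissible d V) (hη : 0 < η) {g h : E d → ℝ} (hg : Measurable g)
    (hh : Measurable h) {A B : ℝ} (hgb : ∀ x, |g x| ≤ A) (hhb : ∀ x, |h x| ≤ B) :
    ∫ y, g y * mop V η h y ∂pLaw V η = ∫ x, sm η h x * sm η g x ∂gibbs V := by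
  have hA : 0 ≤ A := (abs_nonneg _).trans (hgb 0)
  have hm : Measurable fun p : E d × E d => g p.2 * sm η h p.1 :=
    (hg.comp measurable_snd).mul ((Per.measurable_sm η hh).comp measurable_fst)
  have e := Joint.disint (φ := fun x y => g y * sm η h x) (C := A * B) (measurable_potential hV) hη
    hm fun x y => by
      rw [abs_mul]
      exact mul_le_mul (hgb y) (abs_sm_le hhb x) (abs_nonneg _) hA
  simp only [integral_const_mul, integral_mul_const] at e
  refine e.trans (integral_congr_ae (Eventually.of_forall fun x => ?_))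
  simp only [sm]
  ring

/-- Smoothing twice. -/
lemma sm_sm (hη : 0 ≤ η) {φ : E d → ℝ} (hφ : Measurable φ) {B : ℝ} (hb : ∀ x, |φ x| ≤ B)
    (x : E d) : sm η φ x = sm (η / 2) (sm (η / 2) φ) x := by
  have hsq : Real.sqrt (η / 2) ^ 2 + Real.sqrt (η / 2) ^ 2 = Real.sqrt η ^ 2 := by
    rw [Real.sq_sqrt (by linarith), Real.sq_sqrt hη]; ring
  have hg := P157.gauss_add (E := E d) hsq
  simp only [sm, gam]
  have hmx : Measurable fun z => φ (x + z) := hφ.comp (measurable_const_add x)
  have h1 : ∫ g, φ (x + Real.sqrt η • g) ∂stdGaussian (E d)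
      = ∫ z, φ (x + z) ∂(stdGaussian (E d)).map (fun g => Real.sqrt η • g) := by
    rw [integral_map (Measurable.aemeasurable (by fun_prop)) hmx.aestronglyMeasurable]
  rw [h1, ← hg, integral_map (Measurable.aemeasurable (by fun_prop)) hmx.aestronglyMeasurable,
    integral_prod]
  · simp only [add_assoc]
  · exact (integrable_const B).mono' ((hφ.comp (by fun_prop)).aestronglyMeasurable)
      (Eventually.of_forall fun p => hb _)

lemma isProb_prox (hP : GibbsProb) (hV : Admissible d V) (hη : 0 < η) (y : E d) :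
    IsProbabilityMeasure (prox V η y) :=
  (hP d _ _ _ (hV.logConc_prox hη y)).1

lemma integrable_bdd {μ : Measure (E d)} [IsFiniteMeasure μ] {φ : E d → ℝ} (hφ : Measurable φ)
    {B : ℝ} (hb : ∀ x, |φ x| ≤ B) : Integrable φ μ :=
  Integrable.of_bound hφ.aestronglyMeasurable B (Eventually.of_forall hb)

/-- The derivatives of the smoothings, their regularity and their sizes. -/
lemma smooth (hS : SmoothFacts) {τ : ℝ} (hτ : 0 < τ) (hf : Measurable f) (hb : ∀ x, |f x| ≤ 1) :
    Measurable (smGrad τ f) ∧ Measurable (smHessSq τ f) ∧ Continuous (smGrad τ f) ∧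
      (∀ x, |‖smGrad τ f x‖ ^ 2| ≤ 1 / τ) ∧ (∀ x, |smHessSq τ f x| ≤ 2 / τ ^ 2) := by
  obtain ⟨⟨he, B, hT, heq⟩, -, -, h1, h2⟩ := hS d f 1 τ hf hb hτ
  have hc : Continuous (smGrad τ f) :=
    continuous_iff_continuousAt.2 fun x => (hT.hess x).continuousAt
  have hH : smHessSq τ f = fun x => frob (he x) ^ 2 := funext fun x => (heq x).symm
  refine ⟨hc.measurable, ?_, hc, fun x => ?_, fun x => ?_⟩
  · rw [hH]; exact ((Per.continuous_frob.comp hT.hess_cont).pow 2).measurable
  · rw [abs_of_nonneg (sq_nonneg _), le_div_iff₀ hτ]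
    linarith [h1 x]
  · rw [abs_of_nonneg (by rw [← heq x]; positivity), le_div_iff₀ (by positivity)]
    linarith [h2 x]

/-- The first two Hermite levels at one point, scaled. -/
lemma bessel_at (hB : GaussBessel) {τ : ℝ} (hτ : 0 < τ) (hf : Measurable f)
    (hb : ∀ x, |f x| ≤ 1) (u : E d) :
    τ * ‖smGrad τ f u‖ ^ 2 + τ ^ 2 / 2 * smHessSq τ f u
      ≤ sm τ (fun v => f v ^ 2) u - sm τ f u ^ 2 := by
  have h := hB d (fun w => f (u + Real.sqrt τ • w)) 1 (measurable_comp_shift hf u _) fun w => hb _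
  have e1 : τ * ‖smGrad τ f u‖ ^ 2 = ‖∫ w, f (u + Real.sqrt τ • w) • w ∂gam d‖ ^ 2 := by
    rw [smGrad, norm_smul, norm_inv, Real.norm_eq_abs, abs_of_nonneg (Real.sqrt_nonneg _), mul_pow,
      inv_pow, Real.sq_sqrt hτ.le, ← mul_assoc, mul_inv_cancel₀ hτ.ne', one_mul]
  have e2 : τ ^ 2 * smHessSq τ f u = ∑ i, ∑ j,
      (∫ w, f (u + Real.sqrt τ • w) * (w i * w j - if i = j then 1 else 0) ∂gam d) ^ 2 := by
    simp only [smHessSq, smHess, Finset.mul_sum]
    refine Finset.sum_congr rfl fun i _ => Finset.sum_congr rfl fun j _ => ?_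
    field_simp
  have e3 : cov' (gam d) (fun w => f (u + Real.sqrt τ • w)) (fun w => f (u + Real.sqrt τ • w))
      = sm τ (fun v => f v ^ 2) u - sm τ f u ^ 2 := by
    simp only [cov', sm, pow_two]
  rw [e3] at h
  linarith

/-- The smoothing of `f` at half the level has gradient average `∇ G f`. -/
lemma outer_first (hS : SmoothFacts) (hη : 0 < η) (hf : Measurable f) (hb : ∀ x, |f x| ≤ 1)
    (x : E d) :
    ∫ w, sm (η / 2) f (x + Real.sqrt (η / 2) • w) • w ∂gam d
      = Real.sqrt (η / 2) • smGrad η f x := by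
  set s := Real.sqrt (η / 2) with hs_def
  have hs : 0 < s := Real.sqrt_pos.2 (by linarith)
  obtain ⟨-, hid, -, -, -⟩ := hS d f 1 η hf hb hη
  rw [hid x]
  simp only [sm, smGrad, ← hs_def]
  rw [← integral_smul]
  simp only [smul_smul, mul_inv_cancel₀ hs.ne', one_smul, ← integral_smul_const]
  have hn : Integrable (fun p : E d × E d => ‖p.1‖) ((gam d).prod (gam d)) := by
    have : Integrable (fun w : E d => ‖w‖) (gam d) := by
      simpa [gam] using P157.integrable_norm_pow (E := E d) 1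
    exact this.comp_fst _
  rw [integral_integral_swap]
  · refine integral_congr_ae (Eventually.of_forall fun v => ?_)
    refine integral_congr_ae (Eventually.of_forall fun w => ?_)
    simp only [add_right_comm x (s • w) (s • v)]
  · refine hn.mono' (((hf.comp (by fun_prop)).smul measurable_fst).aestronglyMeasurable)
      (Eventually.of_forall fun p => ?_)
    simp only [Function.uncurry, norm_smul, Real.norm_eq_abs]
    exact mul_le_of_le_one_left (norm_nonneg _) (hb _)

/-- The variance of `f (x + √η Z)` dominates the smoothing terms. -/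
lemma var_lower (hS : SmoothFacts) (hB : GaussBessel) (hη : 0 < η) (hf : Measurable f)
    (hb : ∀ x, |f x| ≤ 1) (x : E d) :
    η / 2 * sm (η / 2) (fun u => ‖smGrad (η / 2) f u‖ ^ 2) x
        + η ^ 2 / 8 * sm (η / 2) (smHessSq (η / 2) f) x + η / 2 * ‖smGrad η f x‖ ^ 2
      ≤ sm η (fun u => f u ^ 2) x - sm η f x ^ 2 := by
  set s := Real.sqrt (η / 2) with hs_def
  obtain ⟨mG, mH, -, bG, bH⟩ := smooth hS (half_pos hη) hf hb
  have hf2 : Measurable fun u => f u ^ 2 := hf.pow_const 2
  have hb2 : ∀ u, |f u ^ 2| ≤ 1 ^ 2 := fun u => abs_sq_le (hb u)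
  have m1 := Per.measurable_sm (η / 2) hf
  have m2 := Per.measurable_sm (η / 2) hf2
  have b1 : ∀ u, |sm (η / 2) f u| ≤ 1 := fun u => abs_sm_le hb u
  have b2 : ∀ u, |sm (η / 2) (fun v => f v ^ 2) u| ≤ 1 ^ 2 := fun u => abs_sm_le hb2 u
  have iG : Integrable (fun w => ‖smGrad (η / 2) f (x + s • w)‖ ^ 2) (gam d) :=
    integrable_bdd (measurable_comp_shift (mG.norm.pow_const 2) x s) fun w => bG _
  have iH : Integrable (fun w => smHessSq (η / 2) f (x + s • w)) (gam d) :=
    integrable_bdd (measurable_comp_shift mH x s) fun w => bH _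
  have i2 : Integrable (fun w => sm (η / 2) (fun v => f v ^ 2) (x + s • w)) (gam d) :=
    integrable_bdd (measurable_comp_shift m2 x s) fun w => b2 _
  have i1 : Integrable (fun w => sm (η / 2) f (x + s • w) ^ 2) (gam d) :=
    integrable_bdd (measurable_comp_shift (m1.pow_const 2) x s) fun w => abs_sq_le (b1 _)
  have inner := integral_mono
    (f := fun w => η / 2 * ‖smGrad (η / 2) f (x + s • w)‖ ^ 2
      + (η / 2) ^ 2 / 2 * smHessSq (η / 2) f (x + s • w))
    (g := fun w => sm (η / 2) (fun v => f v ^ 2) (x + s • w) - sm (η / 2) f (x + s • w) ^ 2)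
    ((iG.const_mul _).add (iH.const_mul _)) (i2.sub i1)
    fun w => bessel_at hB (half_pos hη) hf hb (x + s • w)
  rw [integral_add (iG.const_mul _) (iH.const_mul _), integral_sub i2 i1, integral_const_mul,
    integral_const_mul] at inner
  have outer : η / 2 * ‖smGrad η f x‖ ^ 2 ≤
      (∫ w, sm (η / 2) f (x + s • w) ^ 2 ∂gam d) - (∫ w, sm (η / 2) f (x + s • w) ∂gam d) ^ 2 := by
    have h := hB d (fun w => sm (η / 2) f (x + s • w)) 1 (measurable_comp_shift m1 x s)
      fun w => b1 _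
    rw [hs_def, outer_first hS hη hf hb x, ← hs_def, norm_smul, mul_pow, Real.norm_eq_abs,
      sq_abs, hs_def, Real.sq_sqrt (half_pos hη).le, ← hs_def] at h
    simp only [cov', ← pow_two] at h
    refine le_trans ?_ h
    exact le_add_of_nonneg_right (div_nonneg
      (Finset.sum_nonneg fun i _ => Finset.sum_nonneg fun j _ => sq_nonneg _) two_pos.le)
  have e2 : ∫ w, sm (η / 2) (fun v => f v ^ 2) (x + s • w) ∂gam d = sm η (fun u => f u ^ 2) x :=
    (sm_sm hη.le hf2 hb2 x).symm
  have e1 : ∫ w, sm (η / 2) f (x + s • w) ∂gam d = sm η f x := (sm_sm hη.le hf hb x).symm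
  rw [e2] at inner
  rw [e1] at outer
  have e8 : (η / 2) ^ 2 / 2 = η ^ 2 / 8 := by ring
  rw [e8] at inner
  show η / 2 * (∫ w, ‖smGrad (η / 2) f (x + s • w)‖ ^ 2 ∂gam d)
    + η ^ 2 / 8 * (∫ w, smHessSq (η / 2) f (x + s • w) ∂gam d) + _ ≤ _
  linarith

/-- Poincaré for an oracle law. -/
lemma var_prox_le (hP : GibbsProb) (hPo : Poincare) (hV : Admissible d V) (hη : 0 < η) (y : E d)
    {φ : E d → ℝ} {gφ : E d → E d} (hc : Continuous gφ) (hg : ∀ x, HasGradientAt φ (gφ x) x)
    {K : ℝ} (hK : ∀ x, ‖gφ x‖ ≤ K) :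
    (∫ x, φ x ^ 2 ∂prox V η y) - (∫ x, φ x ∂prox V η y) ^ 2
      ≤ η * ∫ x, ‖gφ x‖ ^ 2 ∂prox V η y := by
  have := isProb_prox hP hV hη y
  have h := hPo d _ _ _ (hV.logConc_prox hη y) φ gφ hc hg K 0 fun x => by simpa using hK x
  simp only [cov', ← pow_two] at h
  refine h.trans ?_
  rw [div_le_iff₀ (by positivity)]
  have h0 : 0 ≤ ∫ x, ‖gφ x‖ ^ 2 ∂gibbs fun x => V x + ‖x - y‖ ^ 2 / (2 * η) :=
    integral_nonneg fun x => sq_nonneg _
  have e : η * (1 + η⁻¹) = η + 1 := by field_simp
  calc ∫ x, ‖gφ x‖ ^ 2 ∂gibbs (fun x => V x + ‖x - y‖ ^ 2 / (2 * η))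
      ≤ (η * (1 + η⁻¹)) * ∫ x, ‖gφ x‖ ^ 2 ∂gibbs fun x => V x + ‖x - y‖ ^ 2 / (2 * η) :=
        le_mul_of_one_le_left h0 (by linarith)
    _ = _ := by rw [prox]; ring

/-- Poincaré for the gradient of the smoothed test function. -/
lemma var_grad_le (hP : GibbsProb) (hPo : Poincare) (hS : SmoothFacts) (hV : Admissible d V)
    (hη : 0 < η) (hf : Measurable f) (hb : ∀ x, |f x| ≤ 1) (y : E d) :
    (∫ x, ‖smGrad η f x‖ ^ 2 ∂prox V η y) - ‖cBar V η f y‖ ^ 2
      ≤ η * ∫ x, sm (η / 2) (smHessSq (η / 2) f) x ∂prox V η y := by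
  have := isProb_prox hP hV hη y
  obtain ⟨⟨he, B, hT, heq⟩, -, hle, -, -⟩ := hS d f 1 η hf hb hη
  obtain ⟨mG, mH, hcG, bG, bH⟩ := smooth hS hη hf hb
  set g := smGrad η f with hg_def
  set row : Fin d → E d → E d := fun i x =>
    riesz d ((EuclideanSpace.proj i).comp (he x)) with hrow
  have hrowc : ∀ i, Continuous (row i) := fun i =>
    (riesz d).continuous.comp ((continuous_const).clm_comp hT.hess_cont)
  have hgrad : ∀ i x, HasGradientAt (fun x => g x i) (row i x) x := fun i x => by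
    rw [hasGradientAt_iff_hasFDerivAt]
    refine (((EuclideanSpace.proj i).hasFDerivAt.comp x (hT.hess x))).congr_fderiv ?_
    simp [hrow, riesz]
  have hcoord : ∀ i x j, row i x j = he x (EuclideanSpace.single j (1 : ℝ)) i := fun i x j => by
    have h : ⟪row i x, EuclideanSpace.single j (1 : ℝ)⟫
        = he x (EuclideanSpace.single j (1 : ℝ)) i := InnerProductSpace.toDual_symm_apply
    rw [← h, EuclideanSpace.inner_single_right]
    simp
  have hsum : ∀ x, ∑ i, ‖row i x‖ ^ 2 = frob (he x) ^ 2 := fun x => by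
    rw [frob, Real.sq_sqrt (Finset.sum_nonneg fun _ _ => sq_nonneg _)]
    simp only [EuclideanSpace.real_norm_sq_eq, hcoord]
    exact Finset.sum_comm
  have hrowb : ∀ i x, ‖row i x‖ ≤ B := fun i x => by
    have h1 : ‖row i x‖ ^ 2 ≤ B ^ 2 := by
      refine le_trans ?_ (pow_le_pow_left₀ (Per.frob_nonneg _) (hT.hess_le x) 2)
      rw [← hsum x]
      exact Finset.single_le_sum (f := fun i => ‖row i x‖ ^ 2) (fun _ _ => sq_nonneg _)
        (Finset.mem_univ i)
    exact (pow_le_pow_iff_left₀ (norm_nonneg _)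
      ((Per.frob_nonneg _).trans (hT.hess_le x)) two_ne_zero).1 h1
  have bcoord : ∀ x i, |g x i| ≤ Real.sqrt (1 / η) := fun x i => by
    refine le_trans ?_ (Real.abs_le_sqrt ((le_abs_self _).trans (bG x)) |>.trans' (le_abs_self _))
    simpa [Real.norm_eq_abs] using PiLp.norm_apply_le (g x) i
  have ic : ∀ i, Integrable (fun x => g x i ^ 2) (prox V η y) := fun i =>
    integrable_bdd ((((EuclideanSpace.proj i).continuous.comp hcG).measurable).pow_const 2)
      fun x => abs_sq_le (bcoord x i)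
  have ig : Integrable g (prox V η y) :=
    Integrable.of_bound hcG.aestronglyMeasurable (Real.sqrt (1 / η)) (Eventually.of_forall fun x =>
      Real.abs_le_sqrt ((le_abs_self _).trans (bG x)) |>.trans' (le_abs_self _))
  have ir : ∀ i, Integrable (fun x => ‖row i x‖ ^ 2) (prox V η y) := fun i =>
    integrable_bdd ((hrowc i).measurable.norm.pow_const 2) fun x => abs_sq_le
      (by rw [abs_norm]; exact hrowb i x)
  have hcb : ∀ i, cBar V η f y i = ∫ x, g x i ∂prox V η y := fun i =>
    ((EuclideanSpace.proj i).integral_comp_comm ig).symm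
  calc (∫ x, ‖g x‖ ^ 2 ∂prox V η y) - ‖cBar V η f y‖ ^ 2
      = ∑ i, ((∫ x, g x i ^ 2 ∂prox V η y) - (∫ x, g x i ∂prox V η y) ^ 2) := by
        simp only [EuclideanSpace.real_norm_sq_eq, hcb]
        rw [integral_finsetSum _ fun i _ => ic i, Finset.sum_sub_distrib]
    _ ≤ ∑ i, η * ∫ x, ‖row i x‖ ^ 2 ∂prox V η y := Finset.sum_le_sum fun i _ =>
        var_prox_le hP hPo hV hη y (hrowc i) (hgrad i) (hrowb i)
    _ = η * ∫ x, frob (he x) ^ 2 ∂prox V η y := by
        rw [← Finset.mul_sum, ← integral_finsetSum _ fun i _ => ir i]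
        simp only [hsum]
    _ ≤ _ := by
        simp only [heq]
        obtain ⟨-, mH2, -, -, bH2⟩ := smooth hS (half_pos hη) hf hb
        exact mul_le_mul_of_nonneg_left (integral_mono (integrable_bdd mH bH)
          (integrable_bdd (Per.measurable_sm _ mH2) fun x => abs_sm_le bH2 x) hle) hη.le

/-- The smoothing term at one point. -/
lemma dTerm_eq (hP : GibbsProb) (hS : SmoothFacts) (hV : Admissible d V) (hη : 0 < η)
    (hf : Measurable f) (hb : ∀ x, |f x| ≤ 1) (y : E d) :
    dTerm V η f y = η * ((∫ x, sm (η / 2) (fun u => ‖smGrad (η / 2) f u‖ ^ 2) x ∂prox V η y)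
        - ‖cBar V η f y‖ ^ 2)
      + η ^ 2 * ∫ x, sm (η / 2) (smHessSq (η / 2) f) x ∂prox V η y := by
  have := isProb_prox hP hV hη y
  obtain ⟨-, hid, -, -, -⟩ := hS d f 1 η hf hb hη
  obtain ⟨mG, -, hcG, bG, -⟩ := smooth hS (half_pos hη) hf hb
  obtain ⟨mg, -, hcg, bg, -⟩ := smooth hS hη hf hb
  set c := cBar V η f y with hc
  set G := smGrad (η / 2) f
  set s := Real.sqrt (η / 2) with hs_def
  have hGb : ∀ u, ‖G u‖ ≤ Real.sqrt (1 / (η / 2)) := fun u =>
    Real.abs_le_sqrt ((le_abs_self _).trans (bG u)) |>.trans' (le_abs_self _)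
  have hgb : ∀ u, ‖smGrad η f u‖ ≤ Real.sqrt (1 / η) := fun u =>
    Real.abs_le_sqrt ((le_abs_self _).trans (bg u)) |>.trans' (le_abs_self _)
  have e : ∀ x, sm (η / 2) (fun u => ‖G u - c‖ ^ 2) x
      = sm (η / 2) (fun u => ‖G u‖ ^ 2) x - 2 * ⟪c, smGrad η f x⟫ + ‖c‖ ^ 2 := by
    intro x
    have iG : Integrable (fun w => G (x + s • w)) (gam d) :=
      Integrable.of_bound (measurable_comp_shift mG x s).aestronglyMeasurable _
        (Eventually.of_forall fun w => hGb _)
    have i2 : Integrable (fun w => ‖G (x + s • w)‖ ^ 2) (gam d) :=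
      integrable_bdd (measurable_comp_shift (mG.norm.pow_const 2) x s) fun w => bG _
    rw [hid x]
    simp only [sm, norm_sub_sq_real, real_inner_comm c, ← hs_def]
    rw [integral_add (f := fun w => ‖G (x + s • w)‖ ^ 2 - 2 * ⟪c, G (x + s • w)⟫)
        (i2.sub ((iG.const_inner c).const_mul 2)) (integrable_const _),
      integral_sub i2 ((iG.const_inner c).const_mul 2), integral_const_mul, integral_inner iG c,
      integral_const, probReal_univ, one_smul]
  have i1 : Integrable (fun x => sm (η / 2) (fun u => ‖G u‖ ^ 2) x) (prox V η y) :=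
    integrable_bdd (Per.measurable_sm _ (mG.norm.pow_const 2)) fun x => abs_sm_le bG x
  have i3 : Integrable (smGrad η f) (prox V η y) :=
    Integrable.of_bound hcg.aestronglyMeasurable _ (Eventually.of_forall hgb)
  have hcint : ∫ x, smGrad η f x ∂prox V η y = c := rfl
  show η * (∫ x, sm (η / 2) (fun u => ‖G u - c‖ ^ 2) x ∂prox V η y) + _ = _
  simp only [e]
  rw [integral_add (f := fun x => sm (η / 2) (fun u => ‖G u‖ ^ 2) x - 2 * ⟪c, smGrad η f x⟫)
      (i1.sub ((i3.const_inner c).const_mul 2)) (integrable_const _),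
    integral_sub i1 ((i3.const_inner c).const_mul 2), integral_const_mul, integral_inner i3 c,
    hcint, real_inner_self_eq_norm_sq, integral_const, probReal_univ, one_smul]
  ring

/-- Integrability on the laws of `y` of integrals against the oracle laws. -/
lemma integrable_prox (hP : GibbsProb) (hV : Admissible d V) (η : ℝ) {φ : E d → ℝ}
    (hφ : Measurable φ) {C : ℝ} (hC : ∀ x, |φ x| ≤ C) :
    Integrable (fun y => ∫ x, φ x ∂prox V η y) (pLaw V η) := by
  have := isProb_pLaw hP hV η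
  exact integrable_bdd (Joint.measurable_prox_integral (φ := fun x _ => φ x)
    (measurable_potential hV) η (hφ.comp measurable_fst)) fun y =>
      Joint.abs_prox_integral_le V η (measurable_potential hV) y
        ((abs_nonneg _).trans (hC 0)) hC

lemma norm_smGrad_le (hS : SmoothFacts) {τ : ℝ} (hτ : 0 < τ) (hf : Measurable f)
    (hb : ∀ x, |f x| ≤ 1) (x : E d) : ‖smGrad τ f x‖ ≤ Real.sqrt (1 / τ) := by
  obtain ⟨-, -, -, bg, -⟩ := smooth hS hτ hf hb
  exact Real.abs_le_sqrt ((le_abs_self _).trans (bg x)) |>.trans' (le_abs_self _)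

/-- The squared mean gradient is bounded and measurable. -/
lemma integrable_cBar (hP : GibbsProb) (hS : SmoothFacts) (hV : Admissible d V) (hη : 0 < η)
    (hf : Measurable f) (hb : ∀ x, |f x| ≤ 1) :
    Integrable (fun y => ‖cBar V η f y‖ ^ 2) (pLaw V η) := by
  have := isProb_pLaw hP hV η
  obtain ⟨-, -, hcg, -, -⟩ := smooth hS hη hf hb
  have hgb := norm_smGrad_le hS hη hf hb
  have he2 : (fun y => ‖cBar V η f y‖ ^ 2)
      = fun y => ∑ i, (∫ x, smGrad η f x i ∂prox V η y) ^ 2 := by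
    funext y
    have := isProb_prox hP hV hη y
    have ig : Integrable (smGrad η f) (prox V η y) :=
      Integrable.of_bound hcg.aestronglyMeasurable _ (Eventually.of_forall hgb)
    rw [EuclideanSpace.real_norm_sq_eq]
    exact Finset.sum_congr rfl fun i _ => congrArg (· ^ 2)
      ((EuclideanSpace.proj i).integral_comp_comm ig).symm
  have mc : Measurable fun y => ‖cBar V η f y‖ ^ 2 := by
    rw [he2]
    exact Finset.measurable_fun_sum _ fun i _ => (Joint.measurable_prox_integral
      (φ := fun x _ => smGrad η f x i) (measurable_potential hV) η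
      (((EuclideanSpace.proj i).continuous.comp hcg).measurable.comp measurable_fst)).pow_const 2
  refine integrable_bdd mc fun y => abs_sq_le (B := Real.sqrt (1 / η)) ?_
  have := isProb_prox hP hV hη y
  rw [abs_norm]
  refine (norm_integral_le_of_norm_le_const (Eventually.of_forall hgb)).trans ?_
  simp

/-- The inequalities integrated against the Gibbs law. -/
lemma gibbs_bounds (hP : GibbsProb) (hS : SmoothFacts) (hB : GaussBessel) (hV : Admissible d V)
    (hη : 0 < η) (hf : Measurable f) (hb : ∀ x, |f x| ≤ 1) :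
    η / 2 * (∫ x, sm (η / 2) (fun u => ‖smGrad (η / 2) f u‖ ^ 2) x ∂gibbs V)
        + η ^ 2 / 8 * (∫ x, sm (η / 2) (smHessSq (η / 2) f) x ∂gibbs V)
        + η / 2 * (∫ x, ‖smGrad η f x‖ ^ 2 ∂gibbs V)
      ≤ (∫ y, f y ^ 2 ∂pLaw V η) - ∫ x, sm η f x ^ 2 ∂gibbs V ∧
    η * (∫ x, ‖smGrad η f x‖ ^ 2 ∂gibbs V)
      ≤ (∫ y, f y ^ 2 ∂pLaw V η) - ∫ x, sm η f x ^ 2 ∂gibbs V ∧
    (∫ x, ‖smGrad η f x‖ ^ 2 ∂gibbs V)
      ≤ (∫ x, sm (η / 2) (fun u => ‖smGrad (η / 2) f u‖ ^ 2) x ∂gibbs V) ∧
    0 ≤ ∫ x, sm (η / 2) (smHessSq (η / 2) f) x ∂gibbs V := by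
  have := isProb_gibbs hP hV
  obtain ⟨mG, mH, -, bG, bH⟩ := smooth hS (half_pos hη) hf hb
  obtain ⟨mg, -, -, bg, -⟩ := smooth hS hη hf hb
  obtain ⟨-, hid, -, -, -⟩ := hS d f 1 η hf hb hη
  have iS1 : Integrable (sm (η / 2) fun u => ‖smGrad (η / 2) f u‖ ^ 2) (gibbs V) :=
    integrable_bdd (Per.measurable_sm _ (mG.norm.pow_const 2)) fun x => abs_sm_le bG x
  have iS2 : Integrable (sm (η / 2) (smHessSq (η / 2) f)) (gibbs V) :=
    integrable_bdd (Per.measurable_sm _ mH) fun x => abs_sm_le bH x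
  have iS0 : Integrable (fun x => ‖smGrad η f x‖ ^ 2) (gibbs V) :=
    integrable_bdd (mg.norm.pow_const 2) bg
  have iF : Integrable (sm η fun u => f u ^ 2) (gibbs V) :=
    integrable_bdd (Per.measurable_sm η (hf.pow_const 2))
      fun x => abs_sm_le (fun u => abs_sq_le (hb u)) x
  have ih : Integrable (fun x => sm η f x ^ 2) (gibbs V) :=
    integrable_bdd ((Per.measurable_sm η hf).pow_const 2) fun x => abs_sq_le (abs_sm_le hb x)
  have eF := integral_pLaw_sm V (hf.pow_const 2) (fun u => abs_sq_le (hb u)) η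
  have pt : ∀ x, η / 2 * sm (η / 2) (fun u => ‖smGrad (η / 2) f u‖ ^ 2) x
      + η ^ 2 / 8 * sm (η / 2) (smHessSq (η / 2) f) x + η / 2 * ‖smGrad η f x‖ ^ 2
      ≤ sm η (fun u => f u ^ 2) x - sm η f x ^ 2 := fun x => var_lower hS hB hη hf hb x
  have pt2 : ∀ x, η * ‖smGrad η f x‖ ^ 2 ≤ sm η (fun u => f u ^ 2) x - sm η f x ^ 2 := fun x => by
    have h2 := bessel_at hB hη hf hb x
    have h3 : 0 ≤ η ^ 2 / 2 * smHessSq η f x := mul_nonneg (by positivity)
      (Finset.sum_nonneg fun i _ => Finset.sum_nonneg fun j _ => sq_nonneg _)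
    linarith
  refine ⟨?_, ?_, ?_, ?_⟩
  · generalize sm (η / 2) (fun u => ‖smGrad (η / 2) f u‖ ^ 2) = S1 at iS1 pt ⊢
    generalize sm (η / 2) (smHessSq (η / 2) f) = S2 at iS2 pt ⊢
    generalize sm η (fun u => f u ^ 2) = F at iF pt eF
    generalize sm η f = H at ih pt ⊢
    generalize smGrad η f = G0 at iS0 pt ⊢
    have i12 : Integrable (fun x => η / 2 * S1 x + η ^ 2 / 8 * S2 x) (gibbs V) :=
      (iS1.const_mul _).add (iS2.const_mul _)
    have hl : Integrable (fun x => η / 2 * S1 x + η ^ 2 / 8 * S2 x + η / 2 * ‖G0 x‖ ^ 2)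
        (gibbs V) := i12.add (iS0.const_mul _)
    have hr : Integrable (fun x => F x - H x ^ 2) (gibbs V) := iF.sub ih
    have h := integral_mono hl hr pt
    rw [integral_add i12 (iS0.const_mul _), integral_add (iS1.const_mul _) (iS2.const_mul _),
      integral_sub iF ih, integral_const_mul, integral_const_mul, integral_const_mul, ← eF] at h
    exact h
  · generalize sm η (fun u => f u ^ 2) = F at iF pt2 eF
    generalize sm η f = H at ih pt2 ⊢
    generalize smGrad η f = G0 at iS0 pt2 ⊢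
    have h := integral_mono (iS0.const_mul η) (iF.sub ih) pt2
    simp only [Pi.sub_apply] at h
    rwa [integral_const_mul, integral_sub iF ih, ← eF] at h
  · refine integral_mono iS0 iS1 fun x => ?_
    show ‖smGrad η f x‖ ^ 2 ≤ sm (η / 2) (fun u => ‖smGrad (η / 2) f u‖ ^ 2) x
    rw [hid x]
    refine le_trans (pow_le_pow_left₀ (norm_nonneg _) (norm_integral_le_integral_norm _) 2) ?_
    exact Per.sq_integral_le _
      ((measurable_comp_shift mG x (Real.sqrt (η / 2))).norm.aestronglyMeasurable)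
      (B := Real.sqrt (1 / (η / 2))) fun w => by
        rw [abs_norm]
        exact norm_smGrad_le hS (half_pos hη) hf hb _
  · exact integral_nonneg fun x => integral_nonneg fun w =>
      Finset.sum_nonneg fun i _ => Finset.sum_nonneg fun j _ => sq_nonneg _

/-- The inequalities integrated against the law of `y`. -/
lemma pLaw_bounds (hP : GibbsProb) (hPo : Poincare) (hS : SmoothFacts) (hV : Admissible d V)
    (hη : 0 < η) (hf : Measurable f) (hb : ∀ x, |f x| ≤ 1) :
    (∫ x, sm η f x ^ 2 ∂gibbs V) - (∫ y, mop V η f y ^ 2 ∂pLaw V η)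
      ≤ η * (∫ x, ‖smGrad η f x‖ ^ 2 ∂gibbs V) ∧
    (∫ x, ‖smGrad η f x‖ ^ 2 ∂gibbs V) - (∫ y, ‖cBar V η f y‖ ^ 2 ∂pLaw V η)
      ≤ η * (∫ x, sm (η / 2) (smHessSq (η / 2) f) x ∂gibbs V) ∧
    (∫ y, ‖cBar V η f y‖ ^ 2 ∂pLaw V η) ≤ ∫ x, ‖smGrad η f x‖ ^ 2 ∂gibbs V := by
  have := isProb_pLaw hP hV η
  obtain ⟨mG, mH, -, bG, bH⟩ := smooth hS (half_pos hη) hf hb
  obtain ⟨mg, -, hcg, bg, -⟩ := smooth hS hη hf hb
  obtain ⟨⟨he, B, hT, -⟩, -, -, -, -⟩ := hS d f 1 η hf hb hη
  have hgb := norm_smGrad_le hS hη hf hb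
  have mh : Measurable (sm η f) := Per.measurable_sm η hf
  have bh : ∀ x, |sm η f x ^ 2| ≤ 1 ^ 2 := fun x => abs_sq_le (abs_sm_le hb x)
  have m2 : Measurable (sm (η / 2) (smHessSq (η / 2) f)) := Per.measurable_sm _ mH
  have b2 : ∀ x, |sm (η / 2) (smHessSq (η / 2) f) x| ≤ 2 / (η / 2) ^ 2 := fun x => abs_sm_le bH x
  have imm : Integrable (fun y => mop V η f y ^ 2) (pLaw V η) :=
    integrable_bdd ((Joint.measurable_prox_integral (φ := fun x _ => sm η f x)
      (measurable_potential hV) η (mh.comp measurable_fst)).pow_const 2) fun y =>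
        abs_sq_le (Joint.abs_prox_integral_le V η (measurable_potential hV) y zero_le_one
          fun x => abs_sm_le hb x)
  have ic := integrable_cBar hP hS hV hη hf hb
  have i0 := integrable_prox hP hV η (mg.norm.pow_const 2) bg
  have ih := integrable_prox hP hV η (mh.pow_const 2) bh
  have i2 := integrable_prox hP hV η m2 b2
  have e0 := integral_prox_pLaw hV hη (mg.norm.pow_const 2) bg
  refine ⟨?_, ?_, ?_⟩
  · have h := integral_mono (μ := pLaw V η)
      (f := fun y => (∫ x, sm η f x ^ 2 ∂prox V η y) - mop V η f y ^ 2)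
      (g := fun y => η * ∫ x, ‖smGrad η f x‖ ^ 2 ∂prox V η y)
      (ih.sub imm) (i0.const_mul η) fun y => var_prox_le hP hPo hV hη y hcg hT.grad hgb
    rwa [integral_sub ih imm, integral_const_mul, e0,
      integral_prox_pLaw hV hη (mh.pow_const 2) bh] at h
  · have h := integral_mono (μ := pLaw V η)
      (f := fun y => (∫ x, ‖smGrad η f x‖ ^ 2 ∂prox V η y) - ‖cBar V η f y‖ ^ 2)
      (g := fun y => η * ∫ x, sm (η / 2) (smHessSq (η / 2) f) x ∂prox V η y)
      (i0.sub ic) (i2.const_mul η) fun y => var_grad_le hP hPo hS hV hη hf hb y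
    rwa [integral_sub i0 ic, integral_const_mul, e0, integral_prox_pLaw hV hη m2 b2] at h
  · rw [← e0]
    refine integral_mono ic i0 fun y => ?_
    have := isProb_prox hP hV hη y
    refine le_trans (pow_le_pow_left₀ (norm_nonneg _) (norm_integral_le_integral_norm _) 2) ?_
    exact Per.sq_integral_le _ mg.norm.aestronglyMeasurable fun x => by rw [abs_norm]; exact hgb x

/-- The integral of the smoothing term. -/
lemma integral_dTerm (hP : GibbsProb) (hS : SmoothFacts) (hV : Admissible d V) (hη : 0 < η)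
    (hf : Measurable f) (hb : ∀ x, |f x| ≤ 1) :
    ∫ y, dTerm V η f y ∂pLaw V η
      = η * ((∫ x, sm (η / 2) (fun u => ‖smGrad (η / 2) f u‖ ^ 2) x ∂gibbs V)
          - ∫ y, ‖cBar V η f y‖ ^ 2 ∂pLaw V η)
        + η ^ 2 * ∫ x, sm (η / 2) (smHessSq (η / 2) f) x ∂gibbs V := by
  obtain ⟨mG, mH, -, bG, bH⟩ := smooth hS (half_pos hη) hf hb
  have m1 : Measurable (sm (η / 2) fun u => ‖smGrad (η / 2) f u‖ ^ 2) :=
    Per.measurable_sm _ (mG.norm.pow_const 2)
  have b1 : ∀ x, |sm (η / 2) (fun u => ‖smGrad (η / 2) f u‖ ^ 2) x| ≤ 1 / (η / 2) :=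
    fun x => abs_sm_le bG x
  have m2 : Measurable (sm (η / 2) (smHessSq (η / 2) f)) := Per.measurable_sm _ mH
  have b2 : ∀ x, |sm (η / 2) (smHessSq (η / 2) f) x| ≤ 2 / (η / 2) ^ 2 := fun x => abs_sm_le bH x
  have i1 := integrable_prox hP hV η m1 b1
  have i2 := integrable_prox hP hV η m2 b2
  have ic := integrable_cBar hP hS hV hη hf hb
  simp only [dTerm_eq hP hS hV hη hf hb]
  have i10 : Integrable (fun y => η * ((∫ x, sm (η / 2) (fun u => ‖smGrad (η / 2) f u‖ ^ 2) x
      ∂prox V η y) - ‖cBar V η f y‖ ^ 2)) (pLaw V η) := (i1.sub ic).const_mul η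
  rw [integral_add i10 (i2.const_mul _), integral_const_mul,
    integral_const_mul, integral_sub i1 ic, integral_prox_pLaw hV hη m1 b1,
    integral_prox_pLaw hV hη m2 b2]

end Chain

open Chain

/-- The exact chain is a symmetric positive contraction. -/
theorem mopFacts (hP : GibbsProb) : MopFacts := by
  intro d V hV η hη _
  have := isProb_gibbs hP hV
  have hp := isProb_pLaw hP hV η
  have hVm := measurable_potential hV
  refine ⟨hp, fun f hf hb => ?_, fun f h hf hh hfb hhb => ?_⟩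
  · have m := Per.measurable_sm η hf
    have hm : Measurable (mop V η f) :=
      Joint.measurable_prox_integral (φ := fun x _ => sm η f x) hVm η (m.comp measurable_fst)
    have hmb : ∀ y, |mop V η f y| ≤ 1 := fun y =>
      Joint.abs_prox_integral_le V η hVm y zero_le_one fun x => abs_sm_le hb x
    refine ⟨hm, hmb, ?_, ?_, integral_prox_pLaw hV hη hf hb, ?_⟩
    · have hJ : ∀ y, mop V η f y ^ 2 ≤ ∫ x, sm η f x ^ 2 ∂prox V η y := fun y => by
        have := isProb_prox hP hV hη y
        exact Per.sq_integral_le _ m.aestronglyMeasurable fun x => abs_sm_le hb x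
      have hJ2 : ∀ x, sm η f x ^ 2 ≤ sm η (fun u => f u ^ 2) x := fun x =>
        Per.sq_integral_le (gam d) (measurable_comp_shift hf x _).aestronglyMeasurable
          fun w => hb _
      calc ∫ y, mop V η f y ^ 2 ∂pLaw V η
          ≤ ∫ y, (∫ x, sm η f x ^ 2 ∂prox V η y) ∂pLaw V η :=
            integral_mono (integrable_bdd (hm.pow_const 2) fun y => abs_sq_le (hmb y))
              (integrable_bdd (Joint.measurable_prox_integral (φ := fun x _ => sm η f x ^ 2) hVm η
                ((m.pow_const 2).comp measurable_fst)) fun y =>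
                  Joint.abs_prox_integral_le V η hVm y (by norm_num) fun x =>
                    abs_sq_le (abs_sm_le hb x)) hJ
        _ = ∫ x, sm η f x ^ 2 ∂gibbs V :=
            integral_prox_pLaw hV hη (m.pow_const 2) fun x => abs_sq_le (abs_sm_le hb x)
        _ ≤ ∫ x, sm η (fun u => f u ^ 2) x ∂gibbs V :=
            integral_mono (integrable_bdd (m.pow_const 2) fun x => abs_sq_le (abs_sm_le hb x))
              (integrable_bdd (Per.measurable_sm η (hf.pow_const 2)) fun x =>
                abs_sm_le (fun u => abs_sq_le (hb u)) x) hJ2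
        _ = _ := (integral_pLaw_sm V (hf.pow_const 2) (fun u => abs_sq_le (hb u)) η).symm
    · rw [pair hV hη hf hf hb hb]
      exact integral_nonneg fun x => mul_self_nonneg _
    · have h := pair (g := fun _ => (1 : ℝ)) hV hη measurable_const hf (A := 1)
        (fun _ => le_of_eq abs_one) hb
      simp only [one_mul] at h
      rw [h, integral_pLaw_sm V hf hb η]
      exact integral_congr_ae (Eventually.of_forall fun x => by simp [sm])
  · rw [show (fun y => mop V η f y * h y) = fun y => h y * mop V η f y from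
      funext fun y => mul_comm _ _, pair hV hη hf hh hfb hhb, pair hV hη hh hf hhb hfb]
    exact integral_congr_ae (Eventually.of_forall fun x => mul_comm _ _)

/-- The smoothing terms are bounded by the defect of the chain. -/
theorem keyBound (hP : GibbsProb) (hPo : Poincare) (hS : SmoothFacts) (hB : GaussBessel) :
    KeyBound := by
  intro d V hV η hη _ f hf hb
  have hp := isProb_pLaw hP hV η
  have hmop : Measurable (mop V η f) := Joint.measurable_prox_integral (φ := fun x _ => sm η f x)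
    (measurable_potential hV) η ((Per.measurable_sm η hf).comp measurable_fst)
  have hmb : ∀ y, |mop V η f y| ≤ 1 := fun y => Joint.abs_prox_integral_le V η
    (measurable_potential hV) y zero_le_one fun x => abs_sm_le hb x
  have hfm : ∫ y, f y * mop V η f y ∂pLaw V η = ∫ x, sm η f x ^ 2 ∂gibbs V := by
    rw [pair hV hη hf hf hb hb]
    exact integral_congr_ae (Eventually.of_forall fun x => (pow_two _).symm)
  have ifm : Integrable (fun y => f y * mop V η f y) (pLaw V η) :=
    integrable_bdd (hf.mul hmop) (B := 1 * 1) fun y => by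
      rw [abs_mul]; exact mul_le_mul (hb y) (hmb y) (abs_nonneg _) zero_le_one
  have iff2 : Integrable (fun y => f y ^ 2) (pLaw V η) :=
    integrable_bdd (hf.pow_const 2) fun u => abs_sq_le (hb u)
  have imm : Integrable (fun y => mop V η f y ^ 2) (pLaw V η) :=
    integrable_bdd (hmop.pow_const 2) fun y => abs_sq_le (hmb y)
  have ea : ∫ y, (f y - mop V η f y) ^ 2 ∂pLaw V η = (∫ y, f y ^ 2 ∂pLaw V η)
      - 2 * (∫ x, sm η f x ^ 2 ∂gibbs V) + ∫ y, mop V η f y ^ 2 ∂pLaw V η := by
    rw [show (fun y => (f y - mop V η f y) ^ 2)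
      = fun y => f y ^ 2 - 2 * (f y * mop V η f y) + mop V η f y ^ 2 from funext fun y => by ring,
      integral_add (f := fun y => f y ^ 2 - 2 * (f y * mop V η f y)) (iff2.sub (ifm.const_mul 2))
        imm, integral_sub iff2 (ifm.const_mul 2), integral_const_mul, hfm]
  have eb : ∫ y, f y * (f y - mop V η f y) ∂pLaw V η = (∫ y, f y ^ 2 ∂pLaw V η)
      - ∫ x, sm η f x ^ 2 ∂gibbs V := by
    rw [show (fun y => f y * (f y - mop V η f y)) = fun y => f y ^ 2 - f y * mop V η f y from
      funext fun y => by ring, integral_sub iff2 ifm, hfm]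
  obtain ⟨hD1, hA0, hk6, hA2⟩ := gibbs_bounds hP hS hB hV hη hf hb
  obtain ⟨hD2, hD3, hJ⟩ := pLaw_bounds hP hPo hS hV hη hf hb
  refine ⟨?_, ?_⟩
  · rw [integral_dTerm hP hS hV hη hf hb, ea]
    have k2 := mul_le_mul_of_nonneg_left hD3 hη.le
    have k5 := mul_nonneg (sq_nonneg η) hA2
    have k7 := mul_nonneg hη.le (sub_nonneg.2 hk6)
    linarith
  · rw [eb]
    exact (mul_le_mul_of_nonneg_left hJ hη.le).trans hA0

end Vale.Agent.P347
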