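import Vale.Agent.P347.Coord

/-!
P347: the error of one step of the chain in `L²(p)`, from the pointwise bound.
-/

namespace Vale.Agent.P347

open MeasureTheory ProbabilityTheory Filter
open scoped RealInnerProductSpace

namespace ChainError

variable {d q : ℕ} {V f : E d → ℝ}

lemma stronglyMeasurable_prox_integral {X : Type*} [NormedAddCommGroup X] [NormedSpace ℝ X]
    [CompleteSpace X] [MeasurableSpace X] [BorelSpace X] [SecondCountableTopology X]
    (hV : Measurable V) (η : ℝ) {F : E d → E d → X}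
    (hF : StronglyMeasurable (Function.uncurry F)) :
    StronglyMeasurable fun y => ∫ x, F y x ∂prox V η y := by
  have hW : Measurable fun p : E d × E d => Real.exp (-(V p.2 + ‖p.2 - p.1‖ ^ 2 / (2 * η))) := by
    fun_prop
  have e : ∀ y, ∫ x, F y x ∂prox V η y
      = ((∫⁻ x, ENNReal.ofReal (Real.exp (-(V x + ‖x - y‖ ^ 2 / (2 * η)))))⁻¹).toReal
        • ∫ x, Real.exp (-(V x + ‖x - y‖ ^ 2 / (2 * η))) • F y x := by
    intro y
    rw [prox, gibbs, integral_smul_measure, integral_withDensity_eq_integral_toReal_smul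
      (by fun_prop) (Eventually.of_forall fun x => ENNReal.ofReal_lt_top)]
    congr 1
    refine integral_congr_ae (Eventually.of_forall fun x => ?_)
    simp only [ENNReal.toReal_ofReal (Real.exp_pos _).le]
  simp only [e]
  refine ((Measurable.lintegral_prod_right' (ν := (volume : Measure (E d))) hW.ennreal_ofReal).inv
    |>.ennreal_toReal.stronglyMeasurable).smul ?_
  exact StronglyMeasurable.integral_prod_right (ν := (volume : Measure (E d)))
    (hW.stronglyMeasurable.smul hF)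

lemma stronglyMeasurable_smGrad (hf : Measurable f) (τ : ℝ) :
    StronglyMeasurable (smGrad τ f) := by
  unfold smGrad
  exact (StronglyMeasurable.integral_prod_right (ν := gam d)
    (f := fun x w => f (x + Real.sqrt τ • w) • w) (by
      refine Measurable.stronglyMeasurable ?_
      exact (hf.comp (by fun_prop)).smul measurable_snd)).const_smul ((Real.sqrt τ)⁻¹ : ℝ)

lemma measurable_smHessSq (hf : Measurable f) (τ : ℝ) : Measurable (smHessSq τ f) := by
  have h : ∀ i j, Measurable fun x => smHess τ f x i j := fun i j => by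
    unfold smHess
    refine Measurable.const_mul ?_ _
    exact (StronglyMeasurable.integral_prod_right (ν := gam d)
      (f := fun x w => f (x + Real.sqrt τ • w) * (w i * w j - if i = j then 1 else 0)) (by
        refine Measurable.stronglyMeasurable ?_
        exact (hf.comp (by fun_prop)).mul (by fun_prop))).measurable
  exact Finset.measurable_fun_sum _ fun i _ => Finset.measurable_fun_sum _ fun j _ =>
    (h i j).pow_const 2

lemma measurable_cBar (hV : Measurable V) (hf : Measurable f) (η : ℝ) :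
    Measurable (cBar V η f) :=
  (stronglyMeasurable_prox_integral hV η (F := fun _ x => smGrad η f x)
    ((stronglyMeasurable_smGrad hf η).comp_measurable measurable_snd)).measurable

lemma measurable_dTerm (hV : Measurable V) (hf : Measurable f) (η : ℝ) :
    Measurable (dTerm V η f) := by
  unfold dTerm
  refine (Measurable.const_mul ?_ _).add (Measurable.const_mul ?_ _)
  · refine (stronglyMeasurable_prox_integral hV η
      (F := fun y x => sm (η / 2) (fun u => ‖smGrad (η / 2) f u - cBar V η f y‖ ^ 2) x) ?_).measurable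
    refine StronglyMeasurable.integral_prod_right (ν := gam d)
      (f := fun (p : E d × E d) w =>
        ‖smGrad (η / 2) f (p.2 + Real.sqrt (η / 2) • w) - cBar V η f p.1‖ ^ 2) ?_
    refine Measurable.stronglyMeasurable ?_
    exact ((((stronglyMeasurable_smGrad hf _).measurable.comp (by fun_prop)).sub
      ((measurable_cBar hV hf η).comp (by fun_prop))).norm).pow_const 2
  · refine (stronglyMeasurable_prox_integral hV η
      (F := fun _ x => sm (η / 2) (smHessSq (η / 2) f) x) ?_).measurable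
    refine StronglyMeasurable.integral_prod_right (ν := gam d)
      (f := fun (p : E d × E d) w => smHessSq (η / 2) f (p.2 + Real.sqrt (η / 2) • w)) ?_
    exact ((measurable_smHessSq hf _).comp (by fun_prop)).stronglyMeasurable

lemma isProb_prox (hP : GibbsProb) (hV : Admissible d V) {η : ℝ} (hη : 0 < η) (y : E d) :
    IsProbabilityMeasure (prox V η y) :=
  (hP d _ _ _ (hV.logConc_prox hη y)).1

lemma abs_sm_le {g : E d → ℝ} {M : ℝ} (hg : ∀ x, |g x| ≤ M) (τ : ℝ) (x : E d) :
    |sm τ g x| ≤ M := by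
  have h := norm_integral_le_of_norm_le_const (μ := gam d) (f := fun w => g (x + Real.sqrt τ • w))
    (Eventually.of_forall fun w => by simpa using hg _)
  simpa [sm] using h

lemma bounds (hP : GibbsProb) (hS : SmoothFacts) (hV : Admissible d V) {η : ℝ} (hη : 0 < η)
    (hf : Measurable f) (hb : ∀ x, |f x| ≤ 1) (y : E d) :
    0 ≤ dTerm V η f y ∧ dTerm V η f y ≤ 14 ∧ η * ‖cBar V η f y‖ ^ 2 ≤ 1 := by
  have := isProb_prox hP hV hη y
  obtain ⟨-, -, -, g1, -⟩ := hS d f 1 η hf hb hη
  obtain ⟨-, -, -, g2, h2⟩ := hS d f 1 (η / 2) hf hb (by positivity)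
  have hc : ‖cBar V η f y‖ ≤ Real.sqrt η⁻¹ := by
    have h := norm_integral_le_of_norm_le_const (μ := prox V η y) (f := fun x => smGrad η f x)
      (C := Real.sqrt η⁻¹) (Eventually.of_forall fun x => ?_)
    · simpa [cBar] using h
    · refine Real.le_sqrt_of_sq_le ?_
      rw [← one_div, le_div_iff₀ hη]
      nlinarith [g1 x]
  have hc2 : ‖cBar V η f y‖ ^ 2 ≤ η⁻¹ := by
    have := pow_le_pow_left₀ (norm_nonneg _) hc 2
    rwa [Real.sq_sqrt (by positivity)] at this
  have hA : ∀ u, |‖smGrad (η / 2) f u - cBar V η f y‖ ^ 2| ≤ 6 * η⁻¹ := fun u => by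
    rw [abs_of_nonneg (by positivity)]
    have h3 : ‖smGrad (η / 2) f u‖ ^ 2 ≤ 2 * η⁻¹ := by
      rw [← div_eq_mul_inv, le_div_iff₀ hη]
      nlinarith [g2 u]
    have h4 := pow_le_pow_left₀ (norm_nonneg _) (norm_sub_le (smGrad (η / 2) f u) (cBar V η f y)) 2
    nlinarith [add_sq_le (a := ‖smGrad (η / 2) f u‖) (b := ‖cBar V η f y‖)]
  have hB : ∀ u, |smHessSq (η / 2) f u| ≤ 8 / η ^ 2 := fun u => by
    rw [abs_of_nonneg (Finset.sum_nonneg fun i _ => Finset.sum_nonneg fun j _ => sq_nonneg _),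
      le_div_iff₀ (by positivity)]
    nlinarith [h2 u]
  have hI1 := norm_integral_le_of_norm_le_const (μ := prox V η y)
    (f := sm (η / 2) (fun u => ‖smGrad (η / 2) f u - cBar V η f y‖ ^ 2))
    (Eventually.of_forall fun x => by simpa using abs_sm_le hA (η / 2) x)
  have hI2 := norm_integral_le_of_norm_le_const (μ := prox V η y)
    (f := sm (η / 2) (smHessSq (η / 2) f))
    (Eventually.of_forall fun x => by simpa using abs_sm_le hB (η / 2) x)
  simp only [Real.norm_eq_abs, probReal_univ, mul_one] at hI1 hI2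
  refine ⟨?_, ?_, ?_⟩
  · refine add_nonneg (mul_nonneg hη.le (integral_nonneg fun x => integral_nonneg fun w => ?_))
      (mul_nonneg (by positivity) (integral_nonneg fun x => integral_nonneg fun w => ?_))
    · positivity
    · exact Finset.sum_nonneg fun i _ => Finset.sum_nonneg fun j _ => sq_nonneg _
  · have e1 := mul_le_mul_of_nonneg_left ((le_abs_self _).trans hI1) hη.le
    have e2 := mul_le_mul_of_nonneg_left ((le_abs_self _).trans hI2) (sq_nonneg η)
    have f1 : η * (6 * η⁻¹) = 6 := by field_simp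
    have f2 : η ^ 2 * (8 / η ^ 2) = 8 := by field_simp
    unfold dTerm
    linarith
  · calc η * ‖cBar V η f y‖ ^ 2 ≤ η * η⁻¹ := mul_le_mul_of_nonneg_left hc2 hη.le
      _ = 1 := mul_inv_cancel₀ hη.ne'

/-- The square of the pointwise bound on the good set. -/
lemma sq_le_good {C D η sz S N e es t P diff : ℝ} {k : ℕ} (hC : 0 ≤ C) (hD : 0 ≤ D) (hη : 0 ≤ η)
    (hsz0 : 0 ≤ sz) (hsz : sz ≤ 3 * S) (hN : 0 ≤ N) (hδ : η ^ 2 * sz ≤ 3 * e) (he0 : 0 ≤ e)
    (he1 : e ≤ 1) (hη5 : (η ^ 2 * Real.sqrt η * S) ^ 2 = es) (hek : e ^ (2 + (k + 1)) ≤ t)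
    (hK1 : S / P ^ 11 ≤ t) (hK2 : (S / P ^ 11) ^ 2 ≤ t) (hP : 0 ≤ P)
    (h : |diff| ≤ C * (η ^ 2 * sz) * Real.sqrt (D + (η ^ 2 * sz) ^ (k + 1) + sz / P ^ 11)
      + C * (η ^ 2 * Real.sqrt η * sz) * (Real.sqrt η * N) + C * (sz / P ^ 11)) :
    diff ^ 2 ≤ 27 * C ^ 2 * e ^ 2 * D + 27 * C ^ 2 * es * (η * N ^ 2)
      + 27 * C ^ 2 * ((3 ^ (k + 1) + 3 + 1) * t) := by
  have hS : 0 ≤ S := by linarith
  have hsp : 0 ≤ S / P ^ 11 := by positivity
  set R := Real.sqrt (D + (3 * e) ^ (k + 1) + 3 * S / P ^ 11) with hR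
  have hX : C * (η ^ 2 * sz) * Real.sqrt (D + (η ^ 2 * sz) ^ (k + 1) + sz / P ^ 11)
      ≤ C * (3 * e) * R := by rw [hR]; gcongr
  have hY : C * (η ^ 2 * Real.sqrt η * sz) * (Real.sqrt η * N)
      ≤ C * (η ^ 2 * Real.sqrt η * (3 * S)) * (Real.sqrt η * N) := by gcongr
  have hW : C * (sz / P ^ 11) ≤ C * (3 * S / P ^ 11) := by gcongr
  set x₁ := C * (3 * e) * R with hx₁
  set x₂ := C * (η ^ 2 * Real.sqrt η * (3 * S)) * (Real.sqrt η * N) with hx₂
  set x₃ := C * (3 * S / P ^ 11) with hx₃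
  have h1 := pow_le_pow_left₀ (abs_nonneg _) (h.trans (add_le_add (add_le_add hX hY) hW)) 2
  rw [sq_abs] at h1
  have hsq : diff ^ 2 ≤ 3 * (x₁ ^ 2 + x₂ ^ 2 + x₃ ^ 2) := by
    nlinarith [sq_nonneg (x₁ - x₂), sq_nonneg (x₁ - x₃), sq_nonneg (x₂ - x₃)]
  have e1 : x₁ ^ 2 = 9 * C ^ 2 * (e ^ 2 * D + 3 ^ (k + 1) * e ^ (2 + (k + 1))
      + e ^ 2 * (3 * (S / P ^ 11))) := by
    rw [hx₁, mul_pow, hR, Real.sq_sqrt (by positivity), pow_add e 2, mul_pow 3 e (k + 1)]
    ring
  have e2 : x₂ ^ 2 = 9 * C ^ 2 * (es * (η * N ^ 2)) := by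
    rw [hx₂, ← hη5]
    simp only [mul_pow, Real.sq_sqrt hη]
    ring
  have e3 : x₃ ^ 2 = 9 * C ^ 2 * (S / P ^ 11) ^ 2 := by rw [hx₃]; ring
  have b1 : e ^ 2 * (3 * (S / P ^ 11)) ≤ 3 * t :=
    (mul_le_of_le_one_left (by positivity) (pow_le_one₀ he0 he1)).trans
      (mul_le_mul_of_nonneg_left hK1 (by norm_num))
  have b2 : (3 : ℝ) ^ (k + 1) * e ^ (2 + (k + 1)) ≤ 3 ^ (k + 1) * t := by gcongr
  have b := mul_le_mul_of_nonneg_left (add_le_add (add_le_add b1 b2) hK2)
    (show 0 ≤ 27 * C ^ 2 by positivity)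
  rw [e1, e2, e3] at hsq
  linarith

/-- The final bookkeeping. -/
lemma combine {P T C s t η a b D Z pB X : ℝ} (hP : 0 ≤ P) (hT : 0 ≤ T) (hC : 0 ≤ C) (hs : 0 ≤ s)
    (ht : 0 ≤ t) (_hz : (0 : ℝ) ≤ 1) (hη : 0 ≤ η) (ha : 0 ≤ a) (hb : 0 ≤ b)
    (hD : P * s * D ≤ P * s * (40 * a)) (hZ : P * (η * s) * Z ≤ P * (η * s) * b)
    (hB : pB * 4 ≤ C * t * 4)
    (h : X ≤ P * s * D + P * (η * s) * Z + P * (T * t) + pB * 4) :
    X ≤ (P * 40 + P + (P * T + 4 * C)) * s * a + (P * 40 + P + (P * T + 4 * C)) * η * s * b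
      + (P * 40 + P + (P * T + 4 * C)) * t := by
  have p1 : 0 ≤ (P + (P * T + 4 * C)) * s * a := by positivity
  have p2 : 0 ≤ (P * 40 + (P * T + 4 * C)) * η * s * b := by positivity
  have p3 : 0 ≤ (P * 40 + P) * t := by positivity
  linarith

end ChainError

open ChainError in
theorem chainError (hPP : PerPoint) (hM : MopFacts) (hK : KeyBound) (hS : SmoothFacts)
    (hP : GibbsProb) (hT : TiltFacts) : ChainError := by
  intro ι hι hι'
  refine ⟨11, fun A hA => ?_⟩
  obtain ⟨k, hk⟩ := exists_nat_ge (5 / ι)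
  obtain ⟨c₀, C₁, hc₀, hC₁, hPP⟩ := hPP (k + 1) (Nat.le_add_left 1 k) A hA
  obtain ⟨C₂, hC₂, htail⟩ := pLaw_tail hP hT 40
  set a : ℝ := (3 / c₀) ^ (1 / (2 * ι)) with ha
  refine ⟨max 16 (⌈a⌉₊ + 1),
    27 * C₁ ^ 2 * 40 + 27 * C₁ ^ 2 + (27 * C₁ ^ 2 * (3 ^ (k + 1) + 3 + 1) + 4 * C₂),
    by positivity, ?_⟩
  intro d q hd Q hQ V hV f hf hb η
  have hd16 : 16 ≤ d := le_trans (le_max_left _ _) hd
  have hd0 : (0 : ℝ) < d := by exact_mod_cast (show 0 < d by omega)
  have hd1 : (1 : ℝ) ≤ d := by exact_mod_cast (show 1 ≤ d by omega)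
  have hda : a ≤ d := (Nat.le_ceil a).trans (by
    have := le_trans (le_max_right _ _) hd
    exact_mod_cast (show ⌈a⌉₊ ≤ d by omega))
  have hη : 0 < η := Real.rpow_pos_of_pos hd0 _
  have hηq : η ≤ (d : ℝ) ^ (-(1 / 4) : ℝ) :=
    Real.rpow_le_rpow_of_exponent_le hd1 (by linarith)
  have hη2 : η ≤ 1 / 2 := by
    refine hηq.trans ?_
    have h16 : ((16 : ℝ)) ≤ d := by exact_mod_cast hd16
    refine (Real.rpow_le_rpow_of_nonpos (by norm_num) h16 (by norm_num)).trans (le_of_eq ?_)
    rw [show (16 : ℝ) = 2 ^ (4 : ℝ) by norm_num, ← Real.rpow_mul (by norm_num)]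
    norm_num [Real.rpow_neg_one]
  set s := (d : ℝ) ^ (-(4 * ι)) with hs
  set t := (d : ℝ) ^ (-(10 : ℝ)) with ht
  set e := (d : ℝ) ^ (-(2 * ι)) with he
  have hδ : η ^ 2 * Real.sqrt d = e := by
    rw [he, ← Real.rpow_natCast η 2, ← Real.rpow_mul hd0.le, Real.sqrt_eq_rpow, ← Real.rpow_add hd0]
    congr 1; push_cast; ring
  have hse : e ^ 2 = s := by
    rw [he, hs, ← Real.rpow_natCast _ 2, ← Real.rpow_mul hd0.le]
    congr 1; push_cast; ring
  have he1 : e ≤ 1 := Real.rpow_le_one_of_one_le_of_nonpos hd1 (by linarith)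
  have he0 : 0 ≤ e := by positivity
  have hec : 3 * e ≤ c₀ := by
    have h1 : 3 / c₀ ≤ (d : ℝ) ^ (2 * ι) := by
      calc 3 / c₀ = a ^ (2 * ι) := by
            rw [ha, ← Real.rpow_mul (by positivity),
              div_mul_cancel₀ _ (by positivity : (2 * ι) ≠ 0), Real.rpow_one]
        _ ≤ _ := Real.rpow_le_rpow (by positivity) hda (by positivity)
    rw [div_le_iff₀ hc₀] at h1
    rw [he, Real.rpow_neg hd0.le, mul_inv_le_iff₀ (by positivity)]
    linarith
  have hek : e ^ (2 + (k + 1)) ≤ t := by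
    rw [he, ht, ← Real.rpow_natCast _ (2 + (k + 1)), ← Real.rpow_mul hd0.le]
    refine Real.rpow_le_rpow_of_exponent_le hd1 ?_
    rw [div_le_iff₀ hι] at hk
    push_cast
    nlinarith
  have hK1 : Real.sqrt d / (d : ℝ) ^ 11 ≤ t := by
    rw [div_le_iff₀ (by positivity), ht, ← Real.rpow_natCast (d : ℝ) 11, ← Real.rpow_add hd0,
      Real.sqrt_eq_rpow]
    exact Real.rpow_le_rpow_of_exponent_le hd1 (by norm_num)
  have hK2 : (Real.sqrt d / (d : ℝ) ^ 11) ^ 2 ≤ t := by
    have h0 : (0 : ℝ) ≤ Real.sqrt d / (d : ℝ) ^ 11 := by positivity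
    have ht1 : t ≤ 1 := Real.rpow_le_one_of_one_le_of_nonpos hd1 (by norm_num)
    nlinarith
  have htl : η ^ 40 ≤ t := by
    refine (pow_le_pow_left₀ hη.le hηq 40).trans (le_of_eq ?_)
    rw [ht, ← Real.rpow_natCast _ 40, ← Real.rpow_mul hd0.le]
    norm_num
  have hη5 : (η ^ 2 * Real.sqrt η * Real.sqrt d) ^ 2 = η * s := by
    rw [← hse, ← hδ]
    simp only [mul_pow, Real.sq_sqrt hη.le]
    ring
  have hpr := isProb_pLaw hP hV η
  have hMop := ((hM d V hV η hη (by linarith)).2.1 f hf hb).2.1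
  obtain ⟨hkey1, hkey2⟩ := hK d V hV η hη (by linarith) f hf hb
  set B : Set (E d) := {y | (d : ℝ) < η * ‖y‖ ^ 2} with hB
  have hBm : MeasurableSet B := measurableSet_lt measurable_const (by fun_prop)
  have hVm := measurable_potential hV
  set Z : E d → ℝ := fun y => η * ‖cBar V η f y‖ ^ 2 with hZ
  have iD : Integrable (dTerm V η f) (pLaw V η) :=
    Integrable.of_bound (measurable_dTerm hVm hf η).aestronglyMeasurable 14
      (Eventually.of_forall fun y => by
        obtain ⟨h0, h1, -⟩ := bounds hP hS hV hη hf hb y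
        rwa [Real.norm_eq_abs, abs_of_nonneg h0])
  have iZ : Integrable Z (pLaw V η) :=
    Integrable.of_bound (((measurable_cBar hVm hf η).norm.pow_const 2).const_mul η).aestronglyMeasurable 1
      (Eventually.of_forall fun y => by
        obtain ⟨-, -, h1⟩ := bounds hP hS hV hη hf hb y
        rw [Real.norm_eq_abs, abs_of_nonneg (by positivity)]; exact h1)
  have iB : Integrable (B.indicator fun _ => (4 : ℝ)) (pLaw V η) :=
    (integrable_const 4).indicator hBm
  set α := 27 * C₁ ^ 2 * s with hα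
  set β := 27 * C₁ ^ 2 * (η * s) with hβ
  set γ := 27 * C₁ ^ 2 * ((3 ^ (k + 1) + 3 + 1) * t) with hγ
  have hmain : ∀ y, (mhat V Q η f y - mop V η f y) ^ 2
      ≤ α * dTerm V η f y + β * Z y + γ + B.indicator (fun _ => (4 : ℝ)) y := by
    intro y
    obtain ⟨hD0, -, -⟩ := bounds hP hS hV hη hf hb y
    have hZ0 : 0 ≤ Z y := by positivity
    by_cases hy : y ∈ B
    · rw [Set.indicator_of_mem hy]
      have h1 : |mhat V Q η f y| ≤ 1 := by
        have : IsProbabilityMeasure (noise d q) := by unfold noise; infer_instance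
        have h := norm_integral_le_of_norm_le_const (μ := noise d q)
          (f := fun x => sm η f (xout V Q η y x))
          (Eventually.of_forall fun x => by simpa using abs_sm_le hb η _)
        simpa [mhat] using h
      have h2 := abs_le.1 (hMop y)
      have h1' := abs_le.1 h1
      have h0 : 0 ≤ α * dTerm V η f y + β * Z y + γ := by positivity
      nlinarith
    · rw [Set.indicator_of_notMem hy, add_zero]
      simp only [hB, Set.mem_ofPred_eq, not_lt] at hy
      obtain ⟨-, -, hs0⟩ := size_facts hV hη y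
      have hsz : size η y ≤ 3 * Real.sqrt d := by
        have := Real.sqrt_le_sqrt hy
        rw [Real.sqrt_mul hη.le, Real.sqrt_sq (norm_nonneg y)] at this
        unfold size; linarith
      have hδy : η ^ 2 * size η y ≤ 3 * e := by
        calc η ^ 2 * size η y ≤ η ^ 2 * (3 * Real.sqrt d) := by gcongr
          _ = 3 * e := by rw [← hδ]; ring
      have h := hPP d q (by omega) Q 11 hQ V hV η hη hη2 y (hδy.trans hec) f hf hb
      refine le_trans (sq_le_good hC₁ hD0 hη.le hs0 hsz (norm_nonneg (cBar V η f y))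
        hδy he0 he1 hη5 hek hK1 hK2 hd0.le h) (le_of_eq ?_)
      simp only [hα, hβ, hγ, hse, hZ]
  have iAll : Integrable (fun y => α * dTerm V η f y + β * Z y + γ) (pLaw V η) :=
    ((iD.const_mul α).add (iZ.const_mul β)).add (integrable_const γ)
  have hint := integral_mono_of_nonneg
    (Eventually.of_forall fun y => sq_nonneg (mhat V Q η f y - mop V η f y))
    (iAll.add iB) (Eventually.of_forall hmain)
  rw [integral_add' iAll iB, integral_add (f := fun y => α * dTerm V η f y + β * Z y)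
    ((iD.const_mul α).add (iZ.const_mul β)) (integrable_const γ),
    integral_add (iD.const_mul α) (iZ.const_mul β), integral_const_mul, integral_const_mul,
    integral_const, integral_indicator_const _ hBm, probReal_univ, one_smul, smul_eq_mul,
    show (∫ y, Z y ∂pLaw V η) = η * ∫ y, ‖cBar V η f y‖ ^ 2 ∂pLaw V η from integral_const_mul _ _]
    at hint
  have hP4 := mul_le_mul_of_nonneg_right
    ((htail d (by omega) V hV η hη (by linarith)).trans (mul_le_mul_of_nonneg_left htl hC₂))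
    (show (0 : ℝ) ≤ 4 by norm_num)
  have hA' := mul_le_mul_of_nonneg_left hkey1 (show 0 ≤ α by positivity)
  have hB' := mul_le_mul_of_nonneg_left hkey2 (show 0 ≤ β by positivity)
  have hg0 : 0 ≤ ∫ y, (f y - mop V η f y) ^ 2 ∂pLaw V η := integral_nonneg fun y => sq_nonneg _
  have hb0 : 0 ≤ ∫ y, f y * (f y - mop V η f y) ∂pLaw V η := by
    refine le_trans ?_ hkey2
    exact mul_nonneg hη.le (integral_nonneg fun y => sq_nonneg _)
  exact combine (by positivity) (by positivity) hC₂ (by positivity) (by positivity) (by positivity)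
    hη.le hg0 hb0 hA' hB' hP4 hint

end Vale.Agent.P347
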