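import Vale.Agent.P347.Basic

/-!
P347: the normalised coordinates at a point `y`, and moments of the law of `y`.
-/

namespace Vale.Agent.P347

open MeasureTheory ProbabilityTheory
open scoped RealInnerProductSpace

variable {d : ℕ} {V : E d → ℝ}

instance (d : ℕ) : IsProbabilityMeasure (gam d) := by unfold gam; infer_instance

lemma sg_pos {η : ℝ} (hη : 0 < η) : 0 < sg η := Real.sqrt_pos.2 (by positivity)

lemma sg_sq {η : ℝ} (hη : 0 < η) : sg η ^ 2 = η / (1 + η) := Real.sq_sqrt (by positivity)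

lemma sg_sq_le {η : ℝ} (hη : 0 < η) : sg η ^ 2 ≤ η := by
  rw [sg_sq hη]
  exact div_le_self hη.le (by linarith)

lemma sg_le_sqrt {η : ℝ} (hη : 0 < η) : sg η ≤ Real.sqrt η :=
  Real.sqrt_le_sqrt (div_le_self hη.le (by linarith))

lemma one_add_mul_c1 (V : E d → ℝ) {η : ℝ} (hη : 0 < η) (y : E d) :
    (1 + η) • c1 V η y = y - η • gradR V (c0 η y) := by
  rw [c1, smul_smul, mul_inv_cancel₀ (by linarith), one_smul]

/-- The normalised potential at `y`. -/
noncomputable def uAt (V : E d → ℝ) (η : ℝ) (y u : E d) : ℝ :=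
  potR V (c1 V η y + sg η • u) / sg η ^ 2 - ⟪gradR V (c0 η y), u⟫ / sg η

lemma Admissible.pot_at (hV : Admissible d V) {η : ℝ} (hη : 0 < η) (y : E d) :
    Pot (uAt V η y) (gAt V η y) where
  contDiff :=
    ((hV.contDiff_potR.comp (contDiff_const.add (contDiff_id.const_smul _))).div_const _).sub
      ((contDiff_const.inner ℝ contDiff_id).div_const _)
  grad u := by
    have hs := (sg_pos hη).ne'
    have hl : HasFDerivAt (fun v : E d => c1 V η y + sg η • v)
        (sg η • ContinuousLinearMap.id ℝ (E d)) u :=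
      ((hasFDerivAt_id u).const_smul (sg η)).const_add _
    have h1 := ((hV.hasGradientAt_potR (c1 V η y + sg η • u)).hasFDerivAt.comp u hl).mul_const
      (sg η ^ 2)⁻¹
    have h2 : HasFDerivAt (fun v : E d => ⟪gradR V (c0 η y), v⟫)
        (innerSL ℝ (gradR V (c0 η y))) u := (innerSL ℝ (gradR V (c0 η y))).hasFDerivAt
    have h := h1.sub (h2.mul_const (sg η)⁻¹)
    rw [hasGradientAt_iff_hasFDerivAt]
    refine (h.congr_fderiv ?_).congr_of_eventuallyEq (Filter.Eventually.of_forall fun v => ?_)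
    · ext v
      simp [gAt, InnerProductSpace.toDual_apply_apply]
      field_simp
    · simp [uAt, div_eq_mul_inv]
  lip := LipschitzWith.of_dist_le_mul fun u v => by
    have h := hV.lipschitz_gradR.dist_le_mul (c1 V η y + sg η • u) (c1 V η y + sg η • v)
    have hs := sg_pos hη
    simp only [dist_eq_norm, add_sub_add_left_eq_sub, ← smul_sub, norm_smul, Real.norm_eq_abs,
      abs_of_pos hs, gAt, sub_sub_sub_cancel_right, abs_inv, NNReal.coe_one, one_mul] at h ⊢
    calc (sg η)⁻¹ * ‖gradR V (c1 V η y + sg η • u) - gradR V (c1 V η y + sg η • v)‖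
        ≤ (sg η)⁻¹ * (sg η * ‖u - v‖) := mul_le_mul_of_nonneg_left h (inv_nonneg.2 hs.le)
      _ = ‖u - v‖ := by field_simp
  mono u v := by
    have h := hV.mono_gradR (c1 V η y + sg η • u) (c1 V η y + sg η • v)
    have hs := sg_pos hη
    rw [add_sub_add_left_eq_sub, ← smul_sub, real_inner_smul_right] at h
    have h2 := nonneg_of_mul_nonneg_right h hs
    simp only [gAt, ← smul_sub, sub_sub_sub_cancel_right, real_inner_smul_left]
    exact mul_nonneg (inv_nonneg.2 hs.le) h2

lemma norm_gAt_zero_le (hV : Admissible d V) {η : ℝ} (hη : 0 < η) (y : E d) :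
    ‖gAt V η y 0‖ ≤ Real.sqrt η * ‖y‖ := by
  have hs := sg_pos hη
  have h := hV.lipschitz_gradR.dist_le_mul (c1 V η y) (c0 η y)
  have hd : c1 V η y - c0 η y = -((1 + η)⁻¹ * η) • gradR V (c0 η y) := by
    rw [c1, c0]; module
  have h0 : ‖c0 η y‖ ≤ (1 + η)⁻¹ * ‖y‖ := by
    rw [c0, norm_smul, Real.norm_eq_abs, abs_of_pos (by positivity)]
  simp only [dist_eq_norm, NNReal.coe_one, one_mul, hd, norm_smul, Real.norm_eq_abs, abs_neg] at h
  rw [abs_of_pos (by positivity)] at h
  have h1 : ‖gradR V (c1 V η y) - gradR V (c0 η y)‖ ≤ sg η ^ 2 * ‖y‖ := by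
    rw [sg_sq hη, div_eq_inv_mul]
    refine h.trans (mul_le_mul_of_nonneg_left ((hV.norm_gradR_le _).trans (h0.trans ?_))
      (by positivity))
    exact mul_le_of_le_one_left (norm_nonneg y) (inv_le_one_of_one_le₀ (by linarith))
  simp only [gAt, smul_zero, add_zero, norm_smul, norm_inv, Real.norm_eq_abs, abs_of_pos hs]
  calc (sg η)⁻¹ * ‖gradR V (c1 V η y) - gradR V (c0 η y)‖
      ≤ (sg η)⁻¹ * (sg η ^ 2 * ‖y‖) := mul_le_mul_of_nonneg_left h1 (inv_nonneg.2 hs.le)
    _ = sg η * ‖y‖ := by field_simp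
    _ ≤ Real.sqrt η * ‖y‖ := mul_le_mul_of_nonneg_right (sg_le_sqrt hη) (norm_nonneg y)

lemma size_facts (hV : Admissible d V) {η : ℝ} (hη : 0 < η) (y : E d) :
    Real.sqrt d ≤ size η y ∧ ‖gAt V η y 0‖ ≤ size η y ∧ 0 ≤ size η y := by
  have h1 : 0 ≤ Real.sqrt η * ‖y‖ := by positivity
  have h2 := norm_gAt_zero_le hV hη y
  have h3 := Real.sqrt_nonneg (d : ℝ)
  refine ⟨?_, ?_, ?_⟩ <;> unfold size <;> linarith

/-- The density of a Gibbs law may be shifted by a constant. -/
lemma gibbs_add_const (W : E d → ℝ) (K : ℝ) : gibbs (fun x => W x + K) = gibbs W := by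
  set a := ENNReal.ofReal (Real.exp (-K)) with ha
  have h0 : a ≠ 0 := by simp [ha, Real.exp_pos]
  have htop : a ≠ ⊤ := ENNReal.ofReal_ne_top
  have h : (fun x : E d => ENNReal.ofReal (Real.exp (-(W x + K))))
      = a • fun x => ENNReal.ofReal (Real.exp (-W x)) := by
    ext x
    rw [ha, Pi.smul_apply, smul_eq_mul, ← ENNReal.ofReal_mul (Real.exp_pos _).le, ← Real.exp_add]
    ring_nf
  simp only [gibbs, h, withDensity_smul' _ _ htop, smul_smul]
  congr 1
  rw [show (∫⁻ x, (a • fun y : E d => ENNReal.ofReal (Real.exp (-W y))) x)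
      = a * ∫⁻ x, ENNReal.ofReal (Real.exp (-W x)) from by
    simp only [Pi.smul_apply, smul_eq_mul]; exact lintegral_const_mul' _ _ htop,
    ENNReal.mul_inv (Or.inl h0) (Or.inl htop), mul_comm a⁻¹, mul_assoc,
    ENNReal.inv_mul_cancel h0 htop, mul_one]

/-- Gibbs laws under dilations. -/
lemma gibbs_map_affine (W : E d → ℝ) (hW : Measurable W) (a : E d) {s : ℝ} (hs : 0 < s) :
    (gibbs fun z => W (a + s • z)).map (fun z => a + s • z) = gibbs W := by
  set φ : E d → E d := fun z => a + s • z with hφ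
  have hm : Measurable φ := (measurable_const_smul s).const_add a
  set k : ENNReal := ENNReal.ofReal |(s ^ Module.finrank ℝ (E d))⁻¹| with hk
  have hvol : (volume : Measure (E d)).map φ = k • volume := by
    have : φ = (fun z => a + z) ∘ fun z => s • z := rfl
    rw [this, ← Measure.map_map (measurable_const_add a) (measurable_const_smul s),
      Measure.map_addHaar_smul volume hs.ne', Measure.map_smul, map_add_left_eq_self]
  set f : E d → ENNReal := fun x => ENNReal.ofReal (Real.exp (-W x)) with hf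
  have hfm : Measurable f := hW.neg.exp.ennreal_ofReal
  have hmap : (volume.withDensity (f ∘ φ)).map φ = k • volume.withDensity f := by
    ext B hB
    rw [Measure.map_apply hm hB, withDensity_apply _ (hm hB), Measure.smul_apply,
      withDensity_apply _ hB, smul_eq_mul]
    have h := setLIntegral_map (μ := (volume : Measure (E d))) hB hfm hm
    rw [hvol, Measure.restrict_smul, lintegral_smul_measure, smul_eq_mul] at h
    exact h.symm
  have hI : ∫⁻ z, f (φ z) = k * ∫⁻ x, f x := by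
    have h := lintegral_map (μ := (volume : Measure (E d))) hfm hm
    rw [hvol, lintegral_smul_measure, smul_eq_mul] at h
    exact h.symm
  have hk0 : k ≠ 0 := by
    simp only [hk, ne_eq, ENNReal.ofReal_eq_zero, not_le]
    positivity
  have hk1 : k ≠ ⊤ := ENNReal.ofReal_ne_top
  show (((∫⁻ z, f (φ z))⁻¹) • volume.withDensity (f ∘ φ)).map φ = (∫⁻ x, f x)⁻¹ • volume.withDensity f
  rw [Measure.map_smul, hmap, hI, smul_smul, ENNReal.mul_inv (Or.inl hk0) (Or.inl hk1)]
  congr 1
  rw [mul_comm k⁻¹, mul_assoc, ENNReal.inv_mul_cancel hk0 hk1, mul_one]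

lemma measurable_potential (hV : Admissible d V) : Measurable V := hV.1.continuous.measurable

/-- The restricted Gaussian oracle law in normalised coordinates. -/
lemma prox_eq_map (hV : Admissible d V) {η : ℝ} (hη : 0 < η) (y : E d) :
    prox V η y = (tilt (uAt V η y) (sg η ^ 2)).map (fun u => c1 V η y + sg η • u) := by
  have hs := sg_pos hη
  have hm : Measurable fun x : E d => V x + ‖x - y‖ ^ 2 / (2 * η) :=
    (hV.logConc_prox hη y).contDiff.continuous.measurable
  rw [prox, ← gibbs_map_affine _ hm (c1 V η y) hs]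
  congr 1
  rw [tilt]
  obtain ⟨K, hK⟩ : ∃ K, K = ‖c1 V η y‖ ^ 2 / 2 + ‖c1 V η y - y‖ ^ 2 / (2 * η) := ⟨_, rfl⟩
  rw [← gibbs_add_const (fun z => ‖z‖ ^ 2 / 2 + sg η ^ 2 * uAt V η y z) K]
  congr 1
  funext z
  have hc := congrArg (fun v => ⟪v, z⟫) (one_add_mul_c1 V hη y)
  simp only [inner_sub_left, real_inner_smul_left] at hc
  have hσ : sg η ^ 2 * (1 + η) = η := by rw [sg_sq hη]; field_simp
  rw [hK, uAt, mul_sub, mul_div_cancel₀ _ (pow_ne_zero 2 hs.ne'), potR]
  rw [show c1 V η y + sg η • z - y = (c1 V η y - y) + sg η • z by abel, norm_add_sq_real,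
    norm_add_sq_real]
  simp only [real_inner_smul_right, inner_sub_left, norm_smul, Real.norm_eq_abs, abs_of_pos hs,
    mul_pow]
  field_simp
  linear_combination (‖z‖ ^ 2) * hσ + (2 * sg η) * hc

lemma integral_prox (hV : Admissible d V) {η : ℝ} (hη : 0 < η) (y : E d) {f : E d → ℝ}
    (hf : Measurable f) :
    ∫ x, f x ∂prox V η y
      = ∫ u, f (c1 V η y + sg η • u) ∂tilt (uAt V η y) (sg η ^ 2) := by
  rw [prox_eq_map hV hη y, integral_map ((measurable_const_smul (sg η)).const_add _).aemeasurable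
    hf.aestronglyMeasurable]

lemma isProb_gibbs (hP : GibbsProb) (hV : Admissible d V) : IsProbabilityMeasure (gibbs V) := by
  rw [gibbs_eq_tilt V]
  exact (hP d _ _ _ (hV.pot.logConc zero_le_one)).1

lemma isProb_pLaw (hP : GibbsProb) (hV : Admissible d V) (η : ℝ) :
    IsProbabilityMeasure (pLaw V η) := by
  have := isProb_gibbs hP hV
  exact Measure.isProbabilityMeasure_map (by fun_prop)

/-- Moments of the law of `y`. -/
lemma pLaw_moment (hP : GibbsProb) (hT : TiltFacts) (j : ℕ) : ∃ C : ℝ, 0 ≤ C ∧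
    ∀ d : ℕ, ∀ V : E d → ℝ, Admissible d V → ∀ η : ℝ, 0 ≤ η → η ≤ 1 →
      Integrable (fun y : E d => ‖y‖ ^ (2 * j)) (pLaw V η) ∧
        ∫ y, ‖y‖ ^ (2 * j) ∂pLaw V η ≤ C * (d : ℝ) ^ j := by
  obtain ⟨C, hC, hT⟩ := hT j
  refine ⟨2 ^ (2 * j) * (C + C), by positivity, fun d V hV η h0 h1 => ?_⟩
  obtain ⟨hzero, hmom, -⟩ := hT d (potR V) (gradR V) hV.pot
  have hg : ‖gradR V 0‖ ≤ Real.sqrt d := by simp [hV.gradR_zero]
  have e1 := hmom _ 1 le_rfl hg zero_le_one le_rfl
  have e0 := hmom _ 0 le_rfl hg le_rfl zero_le_one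
  rw [hzero] at e0
  rw [← gibbs_eq_tilt V] at e1
  have hsq : Real.sqrt d ^ (2 * j) = (d : ℝ) ^ j := by
    rw [pow_mul, Real.sq_sqrt (Nat.cast_nonneg d)]
  rw [hsq] at e0 e1
  have := isProb_gibbs hP hV
  have i1 : Integrable (fun x : E d => ‖x‖ ^ (2 * j)) (gibbs V) := by
    rw [gibbs_eq_tilt V]
    refine ((hP d _ _ _ (hV.pot.logConc zero_le_one)).2 (2 * j)).mono'
      (by fun_prop) (Filter.Eventually.of_forall fun x => ?_)
    rw [Real.norm_eq_abs, abs_of_nonneg (by positivity)]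
    exact pow_le_pow_left₀ (norm_nonneg x) (by linarith) _
  have i0 : Integrable (fun x : E d => ‖x‖ ^ (2 * j)) (gam d) := by
    unfold gam
    exact (IsGaussian.memLp_id (stdGaussian (E d)) ((2 * j : ℕ) : ENNReal) (ENNReal.natCast_ne_top _)).integrable_norm_pow'
  have hb : ∀ p : E d × E d, ‖p.1 + Real.sqrt η • p.2‖ ^ (2 * j)
      ≤ 2 ^ (2 * j) * (‖p.1‖ ^ (2 * j) + ‖p.2‖ ^ (2 * j)) := fun p => by
    have hs : ‖Real.sqrt η • p.2‖ ≤ ‖p.2‖ := by
      rw [norm_smul, Real.norm_eq_abs, abs_of_nonneg (Real.sqrt_nonneg _)]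
      exact mul_le_of_le_one_left (norm_nonneg _) (Real.sqrt_le_one.2 h1)
    have ha := norm_nonneg p.1
    have hb := norm_nonneg p.2
    calc ‖p.1 + Real.sqrt η • p.2‖ ^ (2 * j) ≤ (2 * max ‖p.1‖ ‖p.2‖) ^ (2 * j) := by
          refine pow_le_pow_left₀ (norm_nonneg _) ((norm_add_le _ _).trans ?_) _
          linarith [le_max_left ‖p.1‖ ‖p.2‖, le_max_right ‖p.1‖ ‖p.2‖]
      _ ≤ _ := by
          rw [mul_pow]
          refine mul_le_mul_of_nonneg_left ?_ (by positivity)
          rcases le_total ‖p.1‖ ‖p.2‖ with h | h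
          · rw [max_eq_right h]; exact le_add_of_nonneg_left (by positivity)
          · rw [max_eq_left h]; exact le_add_of_nonneg_right (by positivity)
  have i : Integrable (fun p : E d × E d => 2 ^ (2 * j) * (‖p.1‖ ^ (2 * j) + ‖p.2‖ ^ (2 * j)))
      ((gibbs V).prod (gam d)) := ((i1.comp_fst _).add (i0.comp_snd _)).const_mul _
  have hmeas : Measurable fun p : E d × E d => p.1 + Real.sqrt η • p.2 := by fun_prop
  have ip : Integrable (fun p : E d × E d => ‖p.1 + Real.sqrt η • p.2‖ ^ (2 * j))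
      ((gibbs V).prod (gam d)) := by
    refine i.mono' (by fun_prop) (Filter.Eventually.of_forall fun p => ?_)
    rw [Real.norm_eq_abs, abs_of_nonneg (by positivity)]
    exact hb p
  refine ⟨(integrable_map_measure (by fun_prop) hmeas.aemeasurable).2 ip, ?_⟩
  rw [pLaw, integral_map hmeas.aemeasurable (by fun_prop)]
  refine (integral_mono ip i hb).trans ?_
  rw [integral_const_mul, integral_add (i1.comp_fst _) (i0.comp_snd _), integral_fun_fst
    (fun x : E d => ‖x‖ ^ (2 * j)), integral_fun_snd (fun x : E d => ‖x‖ ^ (2 * j))]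
  simp only [probReal_univ, one_smul, mul_assoc]
  refine mul_le_mul_of_nonneg_left ?_ (by positivity)
  linarith

/-- The law of `y` outside the ball of radius `√(d/η)`. -/
lemma pLaw_tail (hP : GibbsProb) (hT : TiltFacts) (j : ℕ) : ∃ C : ℝ, 0 ≤ C ∧
    ∀ d : ℕ, 1 ≤ d → ∀ V : E d → ℝ, Admissible d V → ∀ η : ℝ, 0 < η → η ≤ 1 →
      (pLaw V η).real {y | (d : ℝ) < η * ‖y‖ ^ 2} ≤ C * η ^ j := by
  obtain ⟨C, hC, hm⟩ := pLaw_moment hP hT j
  refine ⟨C, hC, fun d hd V hV η h0 h1 => ?_⟩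
  obtain ⟨hi, hle⟩ := hm d V hV η h0.le h1
  have := isProb_pLaw hP hV η
  have hd' : (0 : ℝ) < d := by exact_mod_cast hd
  have hsub : {y : E d | (d : ℝ) < η * ‖y‖ ^ 2} ⊆ {y | ((d : ℝ) / η) ^ j ≤ ‖y‖ ^ (2 * j)} := by
    intro y hy
    simp only [Set.mem_ofPred_eq, pow_mul] at hy ⊢
    refine pow_le_pow_left₀ (by positivity) ?_ j
    rw [div_le_iff₀ h0]
    linarith
  have hM := mul_meas_ge_le_integral_of_nonneg (μ := pLaw V η)
    (Filter.Eventually.of_forall fun y => by positivity) hi (((d : ℝ) / η) ^ j)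
  refine (measureReal_mono hsub).trans ?_
  refine le_of_mul_le_mul_left ((hM.trans hle).trans ?_) (show (0 : ℝ) < ((d : ℝ) / η) ^ j by positivity)
  rw [div_pow, div_mul_eq_mul_div, le_div_iff₀ (by positivity)]
  linarith

end Vale.Agent.P347
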