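import Vale.Agent.P347.BlockLaw
import Vale.Agent.P347.Coord

/-!
P347: the approximate chain is a contraction in mean square under the synchronous coupling.
-/

namespace Vale.Agent.P347

open MeasureTheory ProbabilityTheory
open scoped RealInnerProductSpace

namespace Contraction

variable {d q : ℕ} {V : E d → ℝ} {Q : Quad q} {η : ℝ}

local instance : IsProbabilityMeasure (noise d q) := by unfold noise; infer_instance

lemma quad_sq {r : ℝ} (hr : 0 ≤ r) :
    Real.exp (-r) ^ 2 + Real.sqrt (1 - Real.exp (-(2 * r))) ^ 2 = 1 := by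
  have h : Real.exp (-(2 * r)) ≤ 1 := Real.exp_le_one_iff.2 (by linarith)
  rw [Real.sq_sqrt (by linarith), ← Real.exp_nat_mul]
  push_cast
  ring_nf

lemma norm_wsum_le (Q : Quad q) (v : Fin q → E d) {M : ℝ} (h : ∀ i, ‖v i‖ ≤ M) :
    ‖∑ i, Q.a i • v i‖ ≤ Q.wt * M := by
  refine (norm_sum_le _ _).trans ?_
  rw [Quad.wt, Finset.sum_mul]
  exact Finset.sum_le_sum fun i _ => by
    rw [norm_smul, Real.norm_eq_abs]
    exact mul_le_mul_of_nonneg_left (h i) (abs_nonneg _)

lemma smul_gAt (hη : 0 < η) (y u : E d) :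
    sg η • gAt V η y u = gradR V (c1 V η y + sg η • u) - gradR V (c0 η y) := by
  rw [gAt, smul_smul, mul_inv_cancel₀ (sg_pos hη).ne', one_smul]

lemma smul_drift (hη : 0 < η) (y z : E d) (w : Fin q → E d) :
    sg η • drift Q (gAt V η y) z w
      = (∑ i, Q.a i • gradR V (c1 V η y + sg η • ouPt (Q.r i) z (w i))) - gradR V (c0 η y) := by
  rw [drift, Finset.smul_sum]
  simp only [smul_comm (sg η) (Q.a _), smul_gAt hη, smul_sub, Finset.sum_sub_distrib,
    ← Finset.sum_smul, Q.sum_a, one_smul]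

/-- The point at which the drift of the correction is evaluated, in original coordinates. -/
noncomputable def pt (V : E d → ℝ) (Q : Quad q) (η : ℝ) (y : E d) (b : Blocks d q) : E d :=
  c1 V η y + sg η •
    ouPt (sg η ^ 2) (b.z' - sg η ^ 2 • drift Q (gAt V η y) b.z' b.w') b.zeta

/-- The part of the random drift whose mean does not depend on the node. -/
noncomputable def free (V : E d → ℝ) (Q : Quad q) (η : ℝ) (y : E d) (b : Blocks d q) : E d :=
  (∑ i, Q.a i • gradR V (c1 V η y + sg η • ouPt (Q.r i) b.z (b.w i)))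
    - gradR V (c1 V η y + sg η • b.n)

lemma xout_eq (hη : 0 < η) (y : E d) (x : E ((2 * q + 4) * d)) :
    xout V Q η y x = (1 + η)⁻¹ • y + sg η • (blocks (q := q) x).z
      - sg η ^ 2 • (gradR V (pt V Q η y (blocks x)) + free V Q η y (blocks x)) := by
  set b := blocks (q := q) x with hb
  have hs : sg η ^ 2 = (1 + η)⁻¹ * η := by rw [sg_sq hη, div_eq_inv_mul]
  have h1 : c1 V η y = (1 + η)⁻¹ • y - sg η ^ 2 • gradR V (c0 η y) := by
    rw [c1, smul_sub, smul_smul, hs]
  rw [xout, xhat, corr, smul_sub, smul_comm (sg η) (sg η ^ 2), smul_add, smul_sub (sg η),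
    smul_drift hη, smul_gAt hη, smul_gAt hη, free, pt]
  nth_rewrite 1 [h1]
  module

lemma ouPt_sub (r : ℝ) (z z' w : E d) : ouPt r z w - ouPt r z' w = Real.exp (-r) • (z - z') := by
  simp only [ouPt]; module

variable (hV : Admissible d V)
include hV

lemma norm_gradR_sub_le (x x' : E d) : ‖gradR V x - gradR V x'‖ ≤ ‖x - x'‖ := by
  simpa [dist_eq_norm] using hV.lipschitz_gradR.dist_le_mul x x'

lemma c1_sub (hη : 0 < η) (y y' : E d) :
    ‖c1 V η y - c1 V η y' - (y - y')‖ ≤ 2 * η * ‖y - y'‖ := by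
  have hpos : 0 ≤ (1 + η)⁻¹ := by positivity
  have hle : (1 + η)⁻¹ ≤ 1 := inv_le_one_of_one_le₀ (by linarith)
  have e : c1 V η y - c1 V η y' - (y - y')
      = -(((1 + η)⁻¹ * η) • ((y - y') + (gradR V (c0 η y) - gradR V (c0 η y')))) := by
    have h1 : (1 + η)⁻¹ * η = 1 - (1 + η)⁻¹ := by field_simp; ring
    have h2 : ∀ z, c1 V η z = (1 + η)⁻¹ • z - ((1 + η)⁻¹ * η) • gradR V (c0 η z) := fun z => by
      rw [c1, smul_sub, smul_smul]
    rw [h2, h2, h1]
    module
  have h0 : ‖gradR V (c0 η y) - gradR V (c0 η y')‖ ≤ ‖y - y'‖ := by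
    refine (norm_gradR_sub_le hV _ _).trans ?_
    rw [c0, c0, ← smul_sub, norm_smul, Real.norm_eq_abs, abs_of_nonneg hpos]
    exact mul_le_of_le_one_left (norm_nonneg _) hle
  rw [e, norm_neg, norm_smul, Real.norm_eq_abs, abs_of_nonneg (by positivity)]
  calc (1 + η)⁻¹ * η * ‖y - y' + (gradR V (c0 η y) - gradR V (c0 η y'))‖
      ≤ (1 * η) * (‖y - y'‖ + ‖y - y'‖) := by
        refine mul_le_mul (mul_le_mul_of_nonneg_right hle hη.le)
          ((norm_add_le _ _).trans (add_le_add le_rfl h0)) (norm_nonneg _) (by linarith)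
    _ = _ := by ring

lemma c1_sub_le (hη : 0 < η) (h2 : η ≤ 1 / 2) (y y' : E d) :
    ‖c1 V η y - c1 V η y'‖ ≤ 2 * ‖y - y'‖ := by
  have h := c1_sub hV hη y y'
  have := norm_le_norm_add_norm_sub' (c1 V η y - c1 V η y') (y - y')
  have h3 : η * ‖y - y'‖ ≤ 1 / 2 * ‖y - y'‖ := mul_le_mul_of_nonneg_right h2 (norm_nonneg _)
  linarith

lemma delta_le (hη : 0 < η) (h2 : η ≤ 1 / 2) (y y' u : E d) :
    ‖gradR V (c1 V η y + sg η • u) - gradR V (c1 V η y' + sg η • u)‖ ≤ 2 * ‖y - y'‖ := by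
  refine (norm_gradR_sub_le hV _ _).trans ?_
  rw [add_sub_add_right_eq_sub]
  exact c1_sub_le hV hη h2 y y'

lemma free_sub_le (hη : 0 < η) (h2 : η ≤ 1 / 2) (y y' : E d) (b : Blocks d q) :
    ‖free V Q η y b - free V Q η y' b‖ ≤ (Q.wt + 1) * (2 * ‖y - y'‖) := by
  rw [free, free, sub_sub_sub_comm, ← Finset.sum_sub_distrib]
  simp only [← smul_sub]
  refine (norm_sub_le _ _).trans ?_
  rw [add_mul, one_mul]
  exact add_le_add (norm_wsum_le Q _ fun i => delta_le hV hη h2 y y' _)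
    (delta_le hV hη h2 y y' _)

lemma pt_sub (hη : 0 < η) (h2 : η ≤ 1 / 2) (y y' : E d) (b : Blocks d q) :
    ‖pt V Q η y b - pt V Q η y' b - (y - y')‖ ≤ (2 * Q.wt + 3) * η * ‖y - y'‖ := by
  have hε := sg_sq_le hη
  have hε0 : 0 ≤ sg η ^ 2 := sq_nonneg _
  have hw : 0 ≤ Q.wt := Finset.sum_nonneg fun i _ => abs_nonneg _
  have hA := smul_drift (V := V) (Q := Q) hη y b.z' b.w'
  have hB := smul_drift (V := V) (Q := Q) hη y' b.z' b.w'
  set G := drift Q (gAt V η y) b.z' b.w' with hG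
  set G' := drift Q (gAt V η y') b.z' b.w' with hG'
  have hc := c1_sub hV hη y y'
  have hd : ‖sg η • G - sg η • G'‖ ≤ (2 * Q.wt + 1) * ‖y - y'‖ := by
    rw [hA, hB, sub_sub_sub_comm, ← Finset.sum_sub_distrib]
    simp only [← smul_sub]
    refine (norm_sub_le _ _).trans ?_
    have h0 : ‖gradR V (c0 η y) - gradR V (c0 η y')‖ ≤ ‖y - y'‖ := by
      refine (norm_gradR_sub_le hV _ _).trans ?_
      rw [c0, c0, ← smul_sub, norm_smul, norm_inv, Real.norm_eq_abs, abs_of_pos (by linarith)]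
      exact mul_le_of_le_one_left (norm_nonneg _) (inv_le_one_of_one_le₀ (by linarith))
    have h1 := norm_wsum_le Q
      (fun i => gradR V (c1 V η y + sg η • ouPt (Q.r i) b.z' (b.w' i))
        - gradR V (c1 V η y' + sg η • ouPt (Q.r i) b.z' (b.w' i)))
      (fun i => delta_le hV hη h2 y y' _)
    linarith
  have e : pt V Q η y b - pt V Q η y' b - (y - y')
      = (c1 V η y - c1 V η y' - (y - y'))
        - (Real.exp (-(sg η ^ 2)) * sg η ^ 2) • (sg η • G - sg η • G') := by
    simp only [pt, ← hG, ← hG', ouPt]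
    module
  rw [e]
  refine (norm_sub_le _ _).trans ?_
  rw [norm_smul, Real.norm_eq_abs, abs_of_nonneg (mul_nonneg (Real.exp_pos _).le hε0)]
  have hexp : Real.exp (-(sg η ^ 2)) * sg η ^ 2 ≤ η :=
    le_trans (mul_le_of_le_one_left hε0 (Real.exp_le_one_iff.2 (by linarith))) hε
  have := mul_le_mul hexp hd (norm_nonneg _) hη.le
  linarith

/-- The two parts of the difference of two steps with the same noise. -/
lemma pointwise (hη : 0 < η) (h2 : η ≤ 1 / 2) {A : ℝ} (hA : Q.wt ≤ A)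
    (hK : (2 * A + 3) * η ≤ 1) (y y' : E d) (x : E ((2 * q + 4) * d)) :
    ‖xout V Q η y x - xout V Q η y' x‖ ^ 2
      ≤ (1 - 2 * η + (4 * A ^ 2 + 24 * A + 31) * η ^ 2) * ‖y - y'‖ ^ 2
        - 2 * sg η ^ 2 * (1 + η)⁻¹ *
          ⟪y - y', free V Q η y (blocks x) - free V Q η y' (blocks x)⟫ := by
  set b := blocks (q := q) x with hb
  set Δ := y - y' with hΔ
  set S := gradR V (pt V Q η y b) - gradR V (pt V Q η y' b) with hS
  set P := free V Q η y b - free V Q η y' b with hP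
  have hw : 0 ≤ Q.wt := Finset.sum_nonneg fun i _ => abs_nonneg _
  have hN := norm_nonneg Δ
  have hp : ‖pt V Q η y b - pt V Q η y' b - Δ‖ ≤ (2 * A + 3) * η * ‖Δ‖ :=
    (pt_sub hV hη h2 y y' b).trans (by gcongr)
  have hSn : ‖S‖ ≤ 2 * ‖Δ‖ := by
    refine (norm_gradR_sub_le hV _ _).trans ?_
    have := norm_le_norm_add_norm_sub' (pt V Q η y b - pt V Q η y' b) Δ
    have : (2 * A + 3) * η * ‖Δ‖ ≤ 1 * ‖Δ‖ := mul_le_mul_of_nonneg_right hK hN
    linarith
  have hPn : ‖P‖ ≤ 2 * (A + 1) * ‖Δ‖ := by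
    refine (free_sub_le hV hη h2 y y' b).trans ?_
    calc (Q.wt + 1) * (2 * ‖Δ‖) ≤ (A + 1) * (2 * ‖Δ‖) := by gcongr
      _ = _ := by ring
  have hmono := hV.mono_gradR (pt V Q η y b) (pt V Q η y' b)
  have hin : -(2 * (2 * A + 3) * η * ‖Δ‖ ^ 2) ≤ ⟪Δ, S⟫ := by
    have h1 : ⟪Δ, S⟫ = ⟪S, pt V Q η y b - pt V Q η y' b⟫
        - ⟪pt V Q η y b - pt V Q η y' b - Δ, S⟫ := by
      rw [inner_sub_left (pt V Q η y b - pt V Q η y' b) Δ S,
        real_inner_comm S (pt V Q η y b - pt V Q η y' b)]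
      ring
    have h2 := real_inner_le_norm (pt V Q η y b - pt V Q η y' b - Δ) S
    have h3 := mul_le_mul hp hSn (norm_nonneg _)
      (by have := hp; exact le_trans (norm_nonneg _) this)
    rw [h1]
    have h4 : (2 * A + 3) * η * ‖Δ‖ * (2 * ‖Δ‖) = 2 * (2 * A + 3) * η * ‖Δ‖ ^ 2 := by ring
    linarith
  have hs : sg η ^ 2 = (1 + η)⁻¹ * η := by rw [sg_sq hη, div_eq_inv_mul]
  have e : xout V Q η y x - xout V Q η y' x = (1 + η)⁻¹ • (Δ - η • S - η • P) := by
    rw [xout_eq hη, xout_eq hη, ← hb, hs, hS, hP, hΔ]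
    module
  set c := (1 + η)⁻¹ with hc
  have hc0 : 0 ≤ c := by positivity
  have hcc : c ^ 2 ≤ 1 - 2 * η + 3 * η ^ 2 := by
    rw [hc, inv_pow, inv_le_iff_one_le_mul₀ (by positivity)]
    nlinarith [pow_pos hη 3]
  rw [e, norm_smul, Real.norm_eq_abs, abs_of_nonneg hc0, mul_pow, hs, norm_sub_sq_real,
    norm_sub_sq_real]
  simp only [real_inner_smul_right, inner_sub_left, norm_smul, Real.norm_eq_abs, abs_of_pos hη,
    mul_pow, real_inner_smul_left]
  have hSP := real_inner_le_norm S P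
  have hSP2 := mul_le_mul hSn hPn (norm_nonneg _) (by linarith)
  have hS2 := pow_le_pow_left₀ (norm_nonneg _) hSn 2
  have hP2 := pow_le_pow_left₀ (norm_nonneg _) hPn 2
  have hA0 : 0 ≤ A := hw.trans hA
  have hcross : η * (η * ⟪S, P⟫) ≤ η * (η * (2 * ‖Δ‖ * (2 * (A + 1) * ‖Δ‖))) := by
    gcongr
    exact hSP.trans hSP2
  have hmain : ‖Δ‖ ^ 2 - 2 * (η * ⟪Δ, S⟫) + η ^ 2 * ‖S‖ ^ 2
      + 2 * (η * (η * ⟪S, P⟫)) + η ^ 2 * ‖P‖ ^ 2
      ≤ (1 + (4 * A ^ 2 + 24 * A + 28) * η ^ 2) * ‖Δ‖ ^ 2 := by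
    have h1 := mul_le_mul_of_nonneg_left hS2 (sq_nonneg η)
    have h2 := mul_le_mul_of_nonneg_left hP2 (sq_nonneg η)
    have h3 := mul_le_mul_of_nonneg_left hin hη.le
    linarith
  have h5 : c ^ 2 * ((1 + (4 * A ^ 2 + 24 * A + 28) * η ^ 2) * ‖Δ‖ ^ 2)
      ≤ (1 - 2 * η + (4 * A ^ 2 + 24 * A + 31) * η ^ 2) * ‖Δ‖ ^ 2 := by
    rw [← mul_assoc]
    gcongr
    have hc1 : c ^ 2 ≤ 1 := pow_le_one₀ hc0 (inv_le_one_of_one_le₀ (by linarith))
    have hB : (0 : ℝ) ≤ (4 * A ^ 2 + 24 * A + 28) * η ^ 2 := by positivity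
    have := mul_le_mul_of_nonneg_right hc1 hB
    linarith
  have := mul_le_mul_of_nonneg_left hmain (sq_nonneg c)
  linarith

lemma continuous_free (y : E d) :
    Continuous fun x : E ((2 * q + 4) * d) => free V Q η y (blocks x) := by
  have := hV.contDiff_gradient.continuous
  have : Continuous (gradR V) := hV.lipschitz_gradR.continuous
  simp only [free, blocks, ouPt]
  fun_prop

lemma continuous_xout (y : E d) : Continuous fun x => xout V Q η y x := by
  have : Continuous (gradR V) := hV.lipschitz_gradR.continuous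
  simp only [xout, xhat, corr, drift, gAt, blocks, ouPt]
  fun_prop

lemma integral_free (y y' : E d) (hη : 0 < η) (h2 : η ≤ 1 / 2) :
    ∫ x, ⟪y - y', free V Q η y (blocks x) - free V Q η y' (blocks x)⟫ ∂noise d q = 0 := by
  have hR : Continuous (gradR V) := hV.lipschitz_gradR.continuous
  set φ : E d → ℝ := fun u =>
    ⟪y - y', gradR V (c1 V η y + sg η • u) - gradR V (c1 V η y' + sg η • u)⟫ with hφ
  have hφc : Continuous φ := by simp only [hφ]; fun_prop
  have hb : ∀ u, ‖φ u‖ ≤ ‖y - y'‖ * (2 * ‖y - y'‖) := fun u =>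
    (norm_inner_le_norm _ _).trans (mul_le_mul_of_nonneg_left (delta_le hV hη h2 y y' u)
      (norm_nonneg _))
  have hint : ∀ f : E ((2 * q + 4) * d) → E d, Continuous f →
      Integrable (fun x => φ (f x)) (noise d q) := fun f hf =>
    Integrable.of_bound (hφc.comp hf).aestronglyMeasurable _
      (Filter.Eventually.of_forall fun x => hb (f x))
  have hz : ∀ i : Fin q, ∫ x, φ (ouPt (Q.r i) (blocks (q := q) x).z ((blocks (q := q) x).w i))
      ∂noise d q = ∫ u, φ u ∂gam d := fun i => by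
    simp only [ouPt, blocks]
    refine BlockLaw.integral_blk_comb ?_ (quad_sq (Q.r_nonneg i)) φ hφc
    simp only [ne_eq, Fin.ext_iff]
    omega
  have hn : ∫ x, φ (blocks (q := q) x).n ∂noise d q = ∫ u, φ u ∂gam d :=
    BlockLaw.integral_blk _ φ hφc
  have e : ∀ x, ⟪y - y', free V Q η y (blocks x) - free V Q η y' (blocks x)⟫
      = (∑ i, Q.a i * φ (ouPt (Q.r i) (blocks (q := q) x).z ((blocks (q := q) x).w i)))
        - φ (blocks (q := q) x).n := fun x => by
    simp only [free, hφ]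
    rw [sub_sub_sub_comm, ← Finset.sum_sub_distrib, inner_sub_right, inner_sum]
    simp only [← smul_sub, real_inner_smul_right]
  have h1 : ∀ i : Fin q,
      Continuous fun x => ouPt (Q.r i) (blocks (q := q) (d := d) x).z ((blocks (q := q) x).w i) := by
    intro i; simp only [ouPt, blocks]; fun_prop
  have h3 : Continuous fun x => (blocks (q := q) (d := d) x).n := by
    simp only [blocks]; fun_prop
  simp only [e]
  rw [integral_sub (integrable_finsetSum _ fun i _ => (hint _ (h1 i)).const_mul _) (hint _ h3),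
    integral_finsetSum _ fun i _ => (hint _ (h1 i)).const_mul _]
  simp only [integral_const_mul, hz, hn, ← Finset.sum_mul, Q.sum_a, one_mul, sub_self]

/-- Two steps with the same noise come closer in the mean. -/
lemma step (hη : 0 < η) (h2 : η ≤ 1 / 2) {A : ℝ} (hA : Q.wt ≤ A)
    (hK : (4 * A ^ 2 + 24 * A + 31) * η ≤ 1) (y y' : E d) :
    Integrable (fun x => ‖xout V Q η y x - xout V Q η y' x‖) (noise d q) ∧
      ∫ x, ‖xout V Q η y x - xout V Q η y' x‖ ∂noise d q ≤ (1 - η / 4) * ‖y - y'‖ := by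
  have hw : 0 ≤ A := le_trans (Finset.sum_nonneg fun i _ => abs_nonneg _) hA
  have hK' : (2 * A + 3) * η ≤ 1 := le_trans (mul_le_mul_of_nonneg_right
    (by nlinarith) hη.le) hK
  set N := ‖y - y'‖ with hN
  set D : E ((2 * q + 4) * d) → ℝ := fun x => ‖xout V Q η y x - xout V Q η y' x‖ with hD
  set P : E ((2 * q + 4) * d) → ℝ := fun x =>
    ⟪y - y', free V Q η y (blocks x) - free V Q η y' (blocks x)⟫ with hP
  set κ := 1 - 2 * η + (4 * A ^ 2 + 24 * A + 31) * η ^ 2 with hκ
  set s := 2 * sg η ^ 2 * (1 + η)⁻¹ with hs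
  have hκb : κ ≤ (1 - η / 4) ^ 2 := by
    have := mul_le_mul_of_nonneg_right hK hη.le
    nlinarith
  have hpt : ∀ x, D x ^ 2 ≤ κ * N ^ 2 - s * P x := fun x => pointwise hV hη h2 hA hK' y y' x
  have hPc : Continuous P :=
    continuous_const.inner ((continuous_free hV y).sub (continuous_free hV y'))
  have hPb : ∀ x, ‖P x‖ ≤ N * ((Q.wt + 1) * (2 * N)) := fun x =>
    (norm_inner_le_norm _ _).trans
      (mul_le_mul_of_nonneg_left (free_sub_le hV hη h2 y y' _) (norm_nonneg _))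
  have hPi : Integrable P (noise d q) :=
    Integrable.of_bound hPc.aestronglyMeasurable _ (Filter.Eventually.of_forall hPb)
  have hDc : Continuous D := ((continuous_xout hV y).sub (continuous_xout hV y')).norm
  have hs0 : 0 ≤ s := by positivity
  have hsb : ∀ x, D x ^ 2 ≤ |κ| * N ^ 2 + s * (N * ((Q.wt + 1) * (2 * N))) := fun x => by
    have h1 := mul_le_mul_of_nonneg_left (hPb x) hs0
    rw [Real.norm_eq_abs] at h1
    have h2 := mul_le_mul_of_nonneg_left (neg_le_abs (P x)) hs0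
    have h3 := mul_le_mul_of_nonneg_right (le_abs_self κ) (sq_nonneg N)
    linarith [hpt x]
  have hDi : Integrable D (noise d q) :=
    Integrable.of_bound hDc.aestronglyMeasurable
      (Real.sqrt (|κ| * N ^ 2 + s * (N * ((Q.wt + 1) * (2 * N)))))
      (Filter.Eventually.of_forall fun x => by
        rw [Real.norm_eq_abs]; exact Real.abs_le_sqrt (hsb x))
  refine ⟨hDi, ?_⟩
  rcases (norm_nonneg (y - y')).eq_or_lt with h0 | h0
  · have hy : y = y' := sub_eq_zero.1 (norm_eq_zero.1 h0.symm)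
    simp [hy, hN, hD]
  · set t := (1 - η / 4) * N with ht
    have ht0 : 0 < t := mul_pos (by linarith) h0
    have hbd : ∀ x, D x ≤ (κ * N ^ 2 - s * P x) / (2 * t) + t / 2 := fun x => by
      have : 2 * t * D x ≤ (κ * N ^ 2 - s * P x) + t ^ 2 := by
        nlinarith [hpt x, sq_nonneg (D x - t)]
      rw [div_add_div _ _ (by positivity) two_ne_zero, le_div_iff₀ (by positivity)]
      linarith
    have hi1 : Integrable (fun x => (κ * N ^ 2 - s * P x) / (2 * t)) (noise d q) :=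
      ((integrable_const _).sub (hPi.const_mul s)).div_const _
    have hri : Integrable (fun x => (κ * N ^ 2 - s * P x) / (2 * t) + t / 2) (noise d q) :=
      hi1.add (integrable_const _)
    refine (integral_mono hDi hri hbd).trans ?_
    rw [integral_add hi1 (integrable_const _), integral_div, integral_sub (integrable_const _) (hPi.const_mul s),
      integral_const_mul s P, show ∫ x, P x ∂noise d q = 0 from integral_free hV y y' hη h2]
    simp only [integral_const, probReal_univ, one_smul, mul_zero, sub_zero]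
    have h4 : κ * N ^ 2 ≤ t ^ 2 := by
      rw [ht, mul_pow]; exact mul_le_mul_of_nonneg_right hκb (sq_nonneg _)
    have h5 : κ * N ^ 2 / (2 * t) ≤ t / 2 := by
      rw [div_le_div_iff₀ (by positivity) two_pos]; nlinarith
    linarith

omit hV in
lemma sm_abs_le {τ : ℝ} {f : E d → ℝ} (hf : ∀ x, |f x| ≤ 1) (x : E d) : |sm τ f x| ≤ 1 := by
  refine (norm_integral_le_of_norm_le_const (μ := gam d)
    (f := fun w => f (x + Real.sqrt τ • w)) (Filter.Eventually.of_forall fun w => hf _)).trans ?_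
  simp

omit hV in
lemma mhat_abs_le {f : E d → ℝ} (hf : ∀ x, |f x| ≤ 1) (y : E d) : |mhat V Q η f y| ≤ 1 := by
  refine (norm_integral_le_of_norm_le_const (μ := noise d q)
    (f := fun x => sm η f (xout V Q η y x))
    (Filter.Eventually.of_forall fun w => sm_abs_le hf _)).trans ?_
  simp

/-- The chain shrinks Lipschitz constants of the smoothed function. -/
lemma mhat_lip (hη : 0 < η) (h2 : η ≤ 1 / 2) {A : ℝ} (hA : Q.wt ≤ A)
    (hK : (4 * A ^ 2 + 24 * A + 31) * η ≤ 1) {f : E d → ℝ} (hf : ∀ x, |f x| ≤ 1)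
    {L : ℝ} (hL0 : 0 ≤ L) (hL : ∀ a b : E d, |sm η f a - sm η f b| ≤ L * ‖a - b‖) (y y' : E d) :
    |mhat V Q η f y - mhat V Q η f y'| ≤ L * (1 - η / 4) * ‖y - y'‖ := by
  obtain ⟨hi, hb⟩ := step hV hη h2 hA hK y y'
  have hc : Continuous (sm η f) :=
    (LipschitzWith.of_dist_le_mul (K := L.toNNReal) fun a b => by
      rw [Real.coe_toNNReal _ hL0, Real.dist_eq, dist_eq_norm]; exact hL a b).continuous
  have hint : ∀ u : E d, Integrable (fun x => sm η f (xout V Q η u x)) (noise d q) := fun u =>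
    Integrable.of_bound (hc.comp (continuous_xout hV u)).aestronglyMeasurable 1
      (Filter.Eventually.of_forall fun x => sm_abs_le hf _)
  rw [mhat, mhat, ← integral_sub (hint y) (hint y')]
  refine (abs_integral_le_integral_abs).trans ?_
  refine (integral_mono ((hint y).sub (hint y')).abs (hi.const_mul L) fun x => hL _ _).trans ?_
  rw [integral_const_mul, mul_assoc]
  exact mul_le_mul_of_nonneg_left hb hL0

omit hV in
lemma sm_lip_of_lip {τ : ℝ} {f : E d → ℝ} (hf : ∀ x, |f x| ≤ 1) {L : ℝ} (hL0 : 0 ≤ L)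
    (hL : ∀ a b : E d, |f a - f b| ≤ L * ‖a - b‖) (a b : E d) :
    |sm τ f a - sm τ f b| ≤ L * ‖a - b‖ := by
  have hc : Continuous f :=
    (LipschitzWith.of_dist_le_mul (K := L.toNNReal) fun a b => by
      rw [Real.coe_toNNReal _ hL0, Real.dist_eq, dist_eq_norm]; exact hL a b).continuous
  have hint : ∀ u : E d, Integrable (fun w => f (u + Real.sqrt τ • w)) (gam d) := fun u =>
    Integrable.of_bound (hc.comp (by fun_prop)).aestronglyMeasurable 1
      (Filter.Eventually.of_forall fun x => hf _)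
  rw [sm, sm, ← integral_sub (hint a) (hint b)]
  refine (norm_integral_le_of_norm_le_const (μ := gam d)
    (f := fun w => f (a + Real.sqrt τ • w) - f (b + Real.sqrt τ • w)) (C := L * ‖a - b‖)
    (Filter.Eventually.of_forall fun w => ?_)).trans ?_
  · simpa using hL (a + Real.sqrt τ • w) (b + Real.sqrt τ • w)
  simp

omit hV in
lemma sm_lip_of_bounded (hS : SmoothFacts) (hη : 0 < η) {f : E d → ℝ} (hm : Measurable f)
    (hf : ∀ x, |f x| ≤ 1) (a b : E d) :
    |sm η f a - sm η f b| ≤ 1 / Real.sqrt η * ‖a - b‖ := by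
  obtain ⟨⟨he, B, hT, -⟩, -, -, hg, -⟩ := hS d f 1 η hm hf hη
  have hfd := fun x => (hT.grad x).hasFDerivAt.hasFDerivWithinAt (s := Set.univ)
  have hb : ∀ x : E d, ‖InnerProductSpace.toDual ℝ (E d) (smGrad η f x)‖ ≤ 1 / Real.sqrt η := by
    intro x
    rw [LinearIsometryEquiv.norm_map, le_div_iff₀ (Real.sqrt_pos.2 hη),
      ← sq_le_one_iff₀ (by positivity), mul_pow, Real.sq_sqrt hη.le]
    linarith [hg x]
  simpa using convex_univ.norm_image_sub_le_of_norm_hasFDerivWithin_le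
    (fun x _ => hfd x) (fun x _ => hb x) (Set.mem_univ b) (Set.mem_univ a)

end Contraction

/-- The approximate chain started from any two points forgets its start. -/
theorem contraction (hS : SmoothFacts) : Contraction := by
  intro A hA
  refine ⟨1 / (4 * A ^ 2 + 24 * A + 31), 1, by positivity, zero_le_one, ?_⟩
  intro d q Q hQ V hV η hη hη₀ f hm hf n
  have hpos : (0 : ℝ) < 4 * A ^ 2 + 24 * A + 31 := by positivity
  rw [le_div_iff₀ hpos] at hη₀
  have hK : (4 * A ^ 2 + 24 * A + 31) * η ≤ 1 := by linarith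
  have h2 : η ≤ 1 / 2 := by nlinarith
  have hr : 0 ≤ 1 - η / 4 := by linarith
  have h0 : 0 ≤ 1 / Real.sqrt η := by positivity
  suffices h : (∀ y, |(mhat V Q η)^[n + 1] f y| ≤ 1) ∧ ∀ y y' : E d,
      |(mhat V Q η)^[n + 1] f y - (mhat V Q η)^[n + 1] f y'|
        ≤ 1 / Real.sqrt η * (1 - η / 4) ^ n * ‖y - y'‖ from h.2
  induction n with
  | zero =>
    simp only [zero_add, Function.iterate_one, pow_zero, mul_one]
    refine ⟨Contraction.mhat_abs_le hf, fun y y' => ?_⟩
    refine (Contraction.mhat_lip hV hη h2 hQ hK hf h0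
      (Contraction.sm_lip_of_bounded hS hη hm hf) y y').trans ?_
    exact mul_le_mul_of_nonneg_right (mul_le_of_le_one_right h0 (by linarith)) (norm_nonneg _)
  | succ n ih =>
    rw [Function.iterate_succ_apply']
    refine ⟨Contraction.mhat_abs_le ih.1, fun y y' => ?_⟩
    have hL : 0 ≤ 1 / Real.sqrt η * (1 - η / 4) ^ n := by positivity
    refine (Contraction.mhat_lip hV hη h2 hQ hK ih.1 hL
      (Contraction.sm_lip_of_lip ih.1 hL ih.2) y y').trans (le_of_eq ?_)
    ring

end Vale.Agent.P347
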