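import Mathlib

/-!
P347: the oracle model.  A potential is given together with its gradient; an algorithm draws a
random seed once, makes `q` adaptive queries and outputs a point.
-/

namespace Vale.Agent.P347

open MeasureTheory
open scoped NNReal

abbrev E (d : ℕ) := EuclideanSpace ℝ (Fin d)

/-- `V ∈ 𝒱_d`: `C²`, `V 0 = 0`, `∇V 0 = 0` and `I ≤ ∇²V ≤ 2I` (as quadratic forms). -/
def Admissible (d : ℕ) (V : E d → ℝ) : Prop :=
  ContDiff ℝ 2 V ∧ V 0 = 0 ∧ gradient V 0 = 0 ∧
    ∀ x v : E d, ‖v‖ ^ 2 ≤ iteratedFDeriv ℝ 2 V x ![v, v] ∧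
      iteratedFDeriv ℝ 2 V x ![v, v] ≤ 2 * ‖v‖ ^ 2

/-- A randomized adaptive first order algorithm in dimension `d` with at most `q` queries:
a random seed, the next query as a function of the seed and the answers so far, and an output. -/
structure Algo (d q : ℕ) where
  Seed : Type
  [mSeed : MeasurableSpace Seed]
  law : Measure Seed
  isProb : IsProbabilityMeasure law
  query : (k : Fin q) → Seed × (Fin (k : ℕ) → ℝ × E d) → E d
  out : Seed × (Fin q → ℝ × E d) → E d
  query_meas : ∀ k, Measurable (query k)
  out_meas : Measurable out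

attribute [instance] Algo.mSeed

/-- The answer of the exact first order oracle. -/
noncomputable def oracle {d : ℕ} (V : E d → ℝ) (x : E d) : ℝ × E d := (V x, gradient V x)

/-- The answers obtained by an algorithm run with seed `s`, the first `k` of them. -/
noncomputable def answers {d q : ℕ} (A : Algo d q) (V : E d → ℝ) (s : A.Seed) :
    (k : ℕ) → k ≤ q → Fin k → ℝ × E d
  | 0, _ => Fin.elim0
  | k + 1, h =>
      let prev := answers A V s k (Nat.le_of_succ_le h)
      Fin.snoc prev (oracle V (A.query ⟨k, h⟩ (s, prev)))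

/-- The output of a run. -/
noncomputable def run {d q : ℕ} (A : Algo d q) (V : E d → ℝ) (s : A.Seed) : E d :=
  A.out (s, answers A V s q le_rfl)

/-- The Gibbs law `Z⁻¹ e^{-V} dx`. -/
noncomputable def gibbs {d : ℕ} (V : E d → ℝ) : Measure (E d) :=
  (∫⁻ x, ENNReal.ofReal (Real.exp (-V x)))⁻¹ •
    volume.withDensity (fun x => ENNReal.ofReal (Real.exp (-V x)))

/-- The algorithm is within total variation `1/10` of the Gibbs law for every admissible `V`. -/
def Succeeds {d q : ℕ} (A : Algo d q) : Prop :=
  ∀ V : E d → ℝ, Admissible d V → ∀ B : Set (E d), MeasurableSet B →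
    |(A.law {s | run A V s ∈ B}).toReal - (gibbs V B).toReal| ≤ 1 / 10

/-- The query complexity `Q(d)`. -/
noncomputable def queryComplexity (d : ℕ) : ℕ :=
  sInf {q | ∃ A : Algo d q, Succeeds A}

end Vale.Agent.P347
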