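import Vale.Agent.P347.Coord

/-!
P347: the joint law of `(x, x + √η Z)` and its disintegration along the second coordinate by the
restricted Gaussian oracle laws.
-/

namespace Vale.Agent.P347.Joint

open MeasureTheory ProbabilityTheory Filter
open scoped RealInnerProductSpace ENNReal

variable {d : ℕ} {V : E d → ℝ}

/-- The normalising constant. -/
noncomputable def zGibbs (W : E d → ℝ) : ℝ≥0∞ := ∫⁻ x, ENNReal.ofReal (Real.exp (-W x))

lemma gibbs_eq (W : E d → ℝ) :
    gibbs W = (zGibbs W)⁻¹ • volume.withDensity (fun x => ENNReal.ofReal (Real.exp (-W x))) := rfl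

instance isFinite_gibbs (W : E d → ℝ) : IsFiniteMeasure (gibbs W) :=
  ⟨by
    rw [gibbs_eq, Measure.smul_apply, withDensity_apply _ MeasurableSet.univ,
      Measure.restrict_univ, smul_eq_mul]
    exact (ENNReal.inv_mul_le_one _).trans_lt ENNReal.one_lt_top⟩

lemma measurable_dens {W : E d → ℝ} (hW : Measurable W) :
    Measurable fun x => ENNReal.ofReal (Real.exp (-W x)) := hW.neg.exp.ennreal_ofReal

lemma lintegral_gibbs {W : E d → ℝ} (hW : Measurable W) {f : E d → ℝ≥0∞} (hf : Measurable f) :
    ∫⁻ x, f x ∂gibbs W = (zGibbs W)⁻¹ * ∫⁻ x, ENNReal.ofReal (Real.exp (-W x)) * f x := by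
  rw [gibbs_eq, lintegral_smul_measure, smul_eq_mul,
    lintegral_withDensity_eq_lintegral_mul _ (measurable_dens hW) hf]
  rfl

lemma toReal_zGibbs {W : E d → ℝ} (hW : Measurable W) :
    (zGibbs W).toReal = ∫ x, Real.exp (-W x) :=
  (integral_eq_lintegral_of_nonneg_ae (Eventually.of_forall fun _ => (Real.exp_pos _).le)
    hW.neg.exp.aestronglyMeasurable).symm

/-- Integrals against a Gibbs law, with no integrability needed. -/
lemma integral_gibbs {X : Type*} [NormedAddCommGroup X] [NormedSpace ℝ X] {W : E d → ℝ}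
    (hW : Measurable W) (f : E d → X) :
    ∫ x, f x ∂gibbs W = (∫ x, Real.exp (-W x))⁻¹ • ∫ x, Real.exp (-W x) • f x := by
  rw [gibbs_eq, integral_smul_measure, ENNReal.toReal_inv, toReal_zGibbs hW,
    integral_withDensity_eq_integral_toReal_smul (measurable_dens hW)
      (Eventually.of_forall fun _ => ENNReal.ofReal_lt_top)]
  simp only [ENNReal.toReal_ofReal (Real.exp_pos _).le]

/-- The standard Gaussian law as a Gibbs law. -/
lemma gam_eq_gibbs (d : ℕ) : gam d = gibbs fun w => ‖w‖ ^ 2 / 2 := by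
  unfold gam
  refine Measure.ext_of_charFun (funext fun t => ?_)
  rw [charFun_stdGaussian, charFun_apply, integral_gibbs (by fun_prop)]
  have hZ : ((∫ v : E d, Real.exp (-(‖v‖ ^ 2 / 2)) : ℝ) : ℂ)
      = ((Real.pi : ℂ) / (1 / 2 : ℂ)) ^ (Module.finrank ℝ (E d) / 2 : ℂ) := by
    rw [← integral_complex_ofReal, ← GaussianFourier.integral_cexp_neg_mul_sq_norm (by norm_num)]
    refine integral_congr_ae (Eventually.of_forall fun v => ?_)
    push_cast
    ring_nf
  have hN : (∫ v : E d, Real.exp (-(‖v‖ ^ 2 / 2)) • Complex.exp (⟪v, t⟫ * Complex.I))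
      = ((Real.pi : ℂ) / (1 / 2 : ℂ)) ^ (Module.finrank ℝ (E d) / 2 : ℂ)
        * Complex.exp (-(‖t‖ : ℂ) ^ 2 / 2) := by
    have h := GaussianFourier.integral_cexp_neg_mul_sq_norm_add (V := E d)
      (b := (1 / 2 : ℂ)) (by norm_num) Complex.I t
    rw [show Complex.exp (-(‖t‖ : ℂ) ^ 2 / 2) =
      Complex.exp (Complex.I ^ 2 * (‖t‖ : ℂ) ^ 2 / (4 * (1 / 2))) by rw [Complex.I_sq]; ring_nf,
      ← h]
    refine integral_congr_ae (Eventually.of_forall fun v => ?_)
    simp only [Complex.real_smul, Complex.ofReal_exp, ← Complex.exp_add, real_inner_comm t v]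
    push_cast
    ring_nf
  have hpos : (∫ v : E d, Real.exp (-(‖v‖ ^ 2 / 2))) ≠ 0 := by
    intro h
    rw [h, Complex.ofReal_zero, eq_comm, Complex.cpow_eq_zero_iff] at hZ
    simp [Real.pi_ne_zero] at hZ
  rw [hN, ← hZ, Complex.real_smul, ← mul_assoc, Complex.ofReal_inv,
    inv_mul_cancel₀ (Complex.ofReal_ne_zero.2 hpos), one_mul]

/-- The joint law of `(x, x + √η Z)`. -/
noncomputable def joint (V : E d → ℝ) (η : ℝ) : Measure (E d × E d) :=
  ((gibbs V).prod (gam d)).map fun p => (p.1, p.1 + Real.sqrt η • p.2)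

/-- The unnormalised joint density. -/
noncomputable def rho (V : E d → ℝ) (η : ℝ) (p : E d × E d) : ℝ :=
  Real.exp (-(V p.1 + ‖p.1 - p.2‖ ^ 2 / (2 * η)))

lemma measurable_rho (hV : Measurable V) (η : ℝ) : Measurable (rho V η) :=
  ((hV.comp measurable_fst).add
    (((measurable_fst.sub measurable_snd).norm.pow_const 2).div_const _)).neg.exp

lemma rho_pos (V : E d → ℝ) (η : ℝ) (p : E d × E d) : 0 < rho V η p := Real.exp_pos _

instance isFinite_joint (V : E d → ℝ) (η : ℝ) : IsFiniteMeasure (joint V η) := by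
  unfold joint
  infer_instance

lemma measurable_shift (η : ℝ) :
    Measurable fun p : E d × E d => (p.1, p.1 + Real.sqrt η • p.2) := by fun_prop

/-- The joint law has density proportional to `rho`. -/
lemma joint_eq (hV : Measurable V) {η : ℝ} (hη : 0 < η) : ∃ c : ℝ≥0∞,
    joint V η = c • (volume.prod volume).withDensity (fun p => ENNReal.ofReal (rho V η p)) := by
  set s := Real.sqrt η with hs_def
  have hs : 0 < s := Real.sqrt_pos.2 hη
  set k : ℝ≥0∞ := ENNReal.ofReal |(s ^ Module.finrank ℝ (E d))⁻¹| with hk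
  set ZV := (zGibbs V)⁻¹
  set ZG := (zGibbs fun w : E d => ‖w‖ ^ 2 / 2)⁻¹
  refine ⟨ZV * (ZG * k), Measure.ext_of_lintegral _ fun F hF => ?_⟩
  have hvol : ∀ x : E d, (volume : Measure (E d)).map (fun w => x + s • w) = k • volume := fun x => by
    rw [show (fun w : E d => x + s • w) = (fun z => x + z) ∘ fun w => s • w from rfl,
      ← Measure.map_map (measurable_const_add x) (measurable_const_smul s),
      Measure.map_addHaar_smul volume hs.ne', Measure.map_smul, map_add_left_eq_self]
  have hρ := (measurable_rho hV η).ennreal_ofReal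
  have e1 : ∀ x, ENNReal.ofReal (Real.exp (-V x)) * ∫⁻ w, F (x, x + s • w) ∂gam d
      = ZG * k * ∫⁻ y, ENNReal.ofReal (rho V η (x, y)) * F (x, y) := by
    intro x
    rw [gam_eq_gibbs, lintegral_gibbs (by fun_prop) (by fun_prop)]
    set h : E d → ℝ≥0∞ := fun y =>
      ENNReal.ofReal (Real.exp (-(‖s⁻¹ • (y - x)‖ ^ 2 / 2))) * F (x, y) with hh
    have hhm : Measurable h := by fun_prop
    have e2 : ∫⁻ w, ENNReal.ofReal (Real.exp (-(‖w‖ ^ 2 / 2))) * F (x, x + s • w)
        = k * ∫⁻ y, h y := by
      have h1 := lintegral_map (μ := (volume : Measure (E d))) hhm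
        (show Measurable fun w : E d => x + s • w by fun_prop)
      rw [hvol x, lintegral_smul_measure, smul_eq_mul] at h1
      rw [h1]
      refine lintegral_congr fun w => ?_
      simp only [hh, add_sub_cancel_left, smul_smul, inv_mul_cancel₀ hs.ne', one_smul]
    have e3 : ∀ y, ENNReal.ofReal (Real.exp (-V x)) * h y
        = ENNReal.ofReal (rho V η (x, y)) * F (x, y) := by
      intro y
      rw [hh, ← mul_assoc, ← ENNReal.ofReal_mul (Real.exp_pos _).le, ← Real.exp_add, rho]
      congr 3
      rw [norm_smul, norm_inv, Real.norm_eq_abs, abs_of_pos hs, mul_pow, inv_pow, hs_def,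
        Real.sq_sqrt hη.le, norm_sub_rev y x]
      field_simp
      ring
    rw [e2, ← lintegral_congr e3, lintegral_const_mul _ hhm]
    show ENNReal.ofReal _ * (ZG * (k * ∫⁻ y, h y)) = _
    ring
  have hFs : Measurable fun p : E d × E d => F (p.1, p.1 + Real.sqrt η • p.2) :=
    hF.comp (measurable_shift η)
  rw [joint, lintegral_map hF (measurable_shift η),
    lintegral_prod _ hFs.aemeasurable,
    lintegral_gibbs hV (by fun_prop), lintegral_smul_measure, smul_eq_mul,
    lintegral_withDensity_eq_lintegral_mul _ hρ hF]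
  simp only [Pi.mul_apply]
  have hρF : Measurable fun p : E d × E d => ENNReal.ofReal (rho V η p) * F p := hρ.mul hF
  rw [lintegral_prod _ hρF.aemeasurable]
  simp only [← hs_def, e1]
  rw [lintegral_const_mul _ (by fun_prop)]
  show ZV * _ = _
  ring

lemma map_snd_joint (V : E d → ℝ) (η : ℝ) : (joint V η).map Prod.snd = pLaw V η := by
  rw [joint, Measure.map_map measurable_snd (measurable_shift η)]
  rfl

/-- The integral of a function of `y` against the law of `y`. -/
lemma integral_pLaw (V : E d → ℝ) (η : ℝ) {ψ : E d → ℝ} (hψ : Measurable ψ) :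
    ∫ y, ψ y ∂pLaw V η = ∫ p, ψ p.2 ∂joint V η := by
  rw [← map_snd_joint, integral_map measurable_snd.aemeasurable hψ.aestronglyMeasurable]

lemma integrable_bdd_joint (V : E d → ℝ) (η : ℝ) {φ : E d × E d → ℝ} (hφ : Measurable φ) {C : ℝ}
    (hb : ∀ p, |φ p| ≤ C) : Integrable φ (joint V η) :=
  (integrable_const C).mono' hφ.aestronglyMeasurable (Eventually.of_forall hb)

/-- The joint law, by slices in the first coordinate. -/
lemma integral_joint (V : E d → ℝ) (η : ℝ) {φ : E d → E d → ℝ}
    (hφ : Measurable (Function.uncurry φ)) {C : ℝ} (hb : ∀ x y, |φ x y| ≤ C) :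
    ∫ p, φ p.1 p.2 ∂joint V η = ∫ x, ∫ w, φ x (x + Real.sqrt η • w) ∂gam d ∂gibbs V := by
  have hm : Measurable fun p : E d × E d => φ p.1 p.2 := hφ
  rw [joint, integral_map (measurable_shift η).aemeasurable hm.aestronglyMeasurable,
    integral_prod]
  exact (integrable_const C).mono' (hφ.comp (measurable_shift η)).aestronglyMeasurable
    (Eventually.of_forall fun p => hb _ _)

lemma prox_eq (V : E d → ℝ) (η : ℝ) (y : E d) (f : E d → ℝ) (hV : Measurable V) :
    ∫ x, f x ∂prox V η y = (∫ x, rho V η (x, y))⁻¹ * ∫ x, rho V η (x, y) * f x := by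
  have hm : Measurable fun x => V x + ‖x - y‖ ^ 2 / (2 * η) :=
    hV.add (((measurable_id.sub_const y).norm.pow_const 2).div_const _)
  rw [prox, integral_gibbs hm]
  rfl

/-- Measurability in `y` of integrals against the oracle laws. -/
lemma measurable_prox_integral (hV : Measurable V) (η : ℝ) {φ : E d → E d → ℝ}
    (hφ : Measurable (Function.uncurry φ)) : Measurable fun y => ∫ x, φ x y ∂prox V η y := by
  simp only [prox_eq V η _ _ hV]
  have h1 : Measurable fun y => ∫ x, rho V η (x, y) := by
    exact (StronglyMeasurable.integral_prod_left (μ := (volume : Measure (E d)))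
      (f := fun x y => rho V η (x, y)) (measurable_rho hV η).stronglyMeasurable).measurable
  have h2 : Measurable fun y => ∫ x, rho V η (x, y) * φ x y := by
    exact (StronglyMeasurable.integral_prod_left (μ := (volume : Measure (E d)))
      (f := fun x y => rho V η (x, y) * φ x y)
      ((measurable_rho hV η).mul hφ).stronglyMeasurable).measurable
  exact h1.inv.mul h2

lemma abs_prox_integral_le (V : E d → ℝ) (η : ℝ) (hV : Measurable V) (y : E d) {f : E d → ℝ}
    {C : ℝ} (hC : 0 ≤ C) (hb : ∀ x, |f x| ≤ C) : |∫ x, f x ∂prox V η y| ≤ C := by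
  rw [prox_eq V η y f hV]
  have hn : 0 ≤ ∫ x, rho V η (x, y) := integral_nonneg fun x => (rho_pos V η _).le
  rw [abs_mul, abs_inv, abs_of_nonneg hn]
  by_cases hi : Integrable fun x => rho V η (x, y)
  · refine inv_mul_le_of_le_mul₀ hn hC ?_
    rw [mul_comm, ← Real.norm_eq_abs, ← integral_const_mul]
    refine norm_integral_le_of_norm_le (hi.const_mul C) (Eventually.of_forall fun x => ?_)
    rw [Real.norm_eq_abs, abs_mul, abs_of_pos (rho_pos V η _), mul_comm C]
    exact mul_le_mul_of_nonneg_left (hb x) (rho_pos V η _).le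
  · simpa [integral_undef hi] using hC

/-- The disintegration of the joint law. -/
theorem disint (hV : Measurable V) {η : ℝ} (hη : 0 < η) {φ : E d → E d → ℝ}
    (hφ : Measurable (Function.uncurry φ)) {C : ℝ} (hb : ∀ x y, |φ x y| ≤ C) :
    ∫ y, (∫ x, φ x y ∂prox V η y) ∂pLaw V η
      = ∫ x, ∫ w, φ x (x + Real.sqrt η • w) ∂gam d ∂gibbs V := by
  have hC : 0 ≤ C := (abs_nonneg _).trans (hb 0 0)
  set ψ : E d → ℝ := fun y => ∫ x, φ x y ∂prox V η y with hψ
  have hψm : Measurable ψ := measurable_prox_integral hV η hφ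
  have hψb : ∀ y, |ψ y| ≤ C := fun y => abs_prox_integral_le V η hV y hC fun x => hb x y
  rw [← integral_joint V η hφ hb, integral_pLaw V η hψm]
  obtain ⟨c, hc⟩ := joint_eq hV hη
  have hψ2 : Measurable fun p : E d × E d => ψ p.2 := hψm.comp measurable_snd
  have i1 := integrable_bdd_joint V η (φ := fun p => ψ p.2) hψ2 fun p => hψb p.2
  have i2 := integrable_bdd_joint V η (φ := fun p => φ p.1 p.2) hφ fun p => hb p.1 p.2
  have i0 := integrable_bdd_joint V η (φ := fun _ => (1 : ℝ)) measurable_const fun _ => le_of_eq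
    (abs_one)
  rw [hc, integral_smul_measure, integral_smul_measure]
  rw [hc] at i0 i1 i2
  rcases eq_or_ne c 0 with h0 | h0
  · simp [h0]
  rcases eq_or_ne c ⊤ with ht | ht
  · simp [ht]
  rw [integrable_smul_measure h0 ht] at i0 i1 i2
  congr 1
  have hρ := (measurable_rho hV η).ennreal_ofReal
  have hlt : ∀ᵐ p ∂(volume : Measure (E d)).prod volume, ENNReal.ofReal (rho V η p) < ∞ :=
    Eventually.of_forall fun _ => ENNReal.ofReal_lt_top
  rw [integrable_withDensity_iff hρ hlt] at i0 i1 i2
  rw [integral_withDensity_eq_integral_toReal_smul hρ hlt,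
    integral_withDensity_eq_integral_toReal_smul hρ hlt]
  simp only [ENNReal.toReal_ofReal (rho_pos V η _).le, smul_eq_mul] at i0 i1 i2 ⊢
  rw [integral_prod_symm _ (i1.congr (Eventually.of_forall fun p => mul_comm _ _)),
    integral_prod_symm _ (i2.congr (Eventually.of_forall fun p => mul_comm _ _))]
  simp only [one_mul] at i0
  refine integral_congr_ae ?_
  filter_upwards [i0.prod_left_ae] with y hy
  have hpos : 0 < ∫ x, rho V η (x, y) := integral_exp_pos hy
  rw [integral_mul_const, hψ]
  simp only [prox_eq V η y _ hV]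
  field_simp

end Vale.Agent.P347.Joint
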