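import Vale.Agent.P347.Coord
import Vale.Agent.P347.BlockLaw
import Vale.Agent.P347.Joint

/-!
P347: the halving stages and the last draw.
-/

namespace Vale.Agent.P347

open MeasureTheory ProbabilityTheory Filter
open scoped RealInnerProductSpace Topology

namespace Final

variable {d q : ℕ}

lemma isProb_noise (d q : ℕ) : IsProbabilityMeasure (noise d q) := by unfold noise; infer_instance

lemma abs_integral_le_of_bound {α : Type*} [MeasurableSpace α] (μ : Measure α)
    [IsProbabilityMeasure μ] {φ : α → ℝ} {B : ℝ} (h : ∀ x, |φ x| ≤ B) : |∫ x, φ x ∂μ| ≤ B := by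
  have := norm_integral_le_of_norm_le_const (μ := μ) (f := φ) (C := B)
    (Filter.Eventually.of_forall fun x => by simpa using h x)
  simpa using this

lemma integral_le_of_le {α : Type*} [MeasurableSpace α] (μ : Measure α)
    [IsProbabilityMeasure μ] {φ : α → ℝ} {B : ℝ} (h0 : ∀ x, 0 ≤ φ x) (h : ∀ x, φ x ≤ B) :
    ∫ x, φ x ∂μ ≤ B :=
  (le_abs_self _).trans (abs_integral_le_of_bound μ fun x => by rw [abs_of_nonneg (h0 x)]; exact h x)

lemma isProb_prox (hP : GibbsProb) {V : E d → ℝ} (hV : Admissible d V) {η : ℝ} (hη : 0 < η)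
    (y : E d) : IsProbabilityMeasure (prox V η y) :=
  (hP d _ _ _ (hV.logConc_prox hη y)).1

/-- For a bounded test function the reference terms are bounded. -/
lemma dTerm_le (hP : GibbsProb) (hS : SmoothFacts) {V : E d → ℝ} (hV : Admissible d V) {η : ℝ}
    (hη : 0 < η) {f : E d → ℝ} (hf : Measurable f) (hb : ∀ x, |f x| ≤ 1) (y : E d) :
    dTerm V η f y ≤ 14 ∧ Real.sqrt η * ‖cBar V η f y‖ ≤ 1 := by
  have := isProb_prox hP hV hη y
  obtain ⟨-, -, -, hg, -⟩ := hS d f 1 η hf hb hη
  obtain ⟨-, -, -, hg', hh'⟩ := hS d f 1 (η / 2) hf hb (half_pos hη)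
  have hc : ‖cBar V η f y‖ ≤ 1 / Real.sqrt η := by
    have := norm_integral_le_of_norm_le_const (μ := prox V η y) (f := smGrad η f)
      (C := 1 / Real.sqrt η) (Filter.Eventually.of_forall fun x => by
        rw [le_div_iff₀ (Real.sqrt_pos.2 hη)]
        refine (pow_le_pow_iff_left₀ (by positivity) zero_le_one two_ne_zero).1 ?_
        rw [mul_pow, Real.sq_sqrt hη.le, mul_comm]
        exact hg x)
    simpa [cBar] using this
  refine ⟨?_, by rwa [le_div_iff₀' (Real.sqrt_pos.2 hη)] at hc⟩
  have hA : ∀ u, ‖smGrad (η / 2) f u - cBar V η f y‖ ^ 2 ≤ 6 / η := fun u => by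
    have h1 : ‖smGrad (η / 2) f u‖ ^ 2 ≤ 2 / η := by
      rw [le_div_iff₀ hη]; linarith [hg' u]
    have h2 : ‖cBar V η f y‖ ^ 2 ≤ 1 / η := by
      refine (pow_le_pow_left₀ (norm_nonneg _) hc 2).trans_eq ?_
      rw [div_pow, one_pow, Real.sq_sqrt hη.le]
    refine (pow_le_pow_left₀ (norm_nonneg _) (norm_sub_le _ _) 2).trans ?_
    have e : 6 / η = 2 * (2 / η) + 2 * (1 / η) := by ring
    nlinarith [sq_nonneg (‖smGrad (η / 2) f u‖ - ‖cBar V η f y‖)]
  have hB : ∀ u, smHessSq (η / 2) f u ≤ 8 / η ^ 2 := fun u => by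
    rw [le_div_iff₀ (pow_pos hη 2)]; linarith [hh' u]
  have hB0 : ∀ u, 0 ≤ smHessSq (η / 2) f u := fun u => by unfold smHessSq; positivity
  have h3 : ∫ x, sm (η / 2) (fun u => ‖smGrad (η / 2) f u - cBar V η f y‖ ^ 2) x ∂prox V η y
      ≤ 6 / η :=
    integral_le_of_le _ (fun x => integral_nonneg fun w => sq_nonneg _)
      fun x => integral_le_of_le _ (fun w => sq_nonneg _) fun w => hA _
  have h4 : ∫ x, sm (η / 2) (smHessSq (η / 2) f) x ∂prox V η y ≤ 8 / η ^ 2 :=
    integral_le_of_le _ (fun x => integral_nonneg fun w => hB0 _)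
      fun x => integral_le_of_le _ (fun w => hB0 _) fun w => hB _
  refine (add_le_add (mul_le_mul_of_nonneg_left h3 hη.le)
    (mul_le_mul_of_nonneg_left h4 (sq_nonneg η))).trans (le_of_eq ?_)
  field_simp
  norm_num

lemma continuous_c1 {V : E d → ℝ} (hV : Admissible d V) (η : ℝ) : Continuous (c1 V η) := by
  have := hV.lipschitz_gradR.continuous
  unfold c1 c0
  fun_prop

lemma continuous_xout {V : E d → ℝ} (hV : Admissible d V) (Q : Quad q) (η : ℝ) :
    Continuous fun p : E d × E ((2 * q + 4) * d) => xout V Q η p.1 p.2 := by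
  have := hV.lipschitz_gradR.continuous
  have hb : ∀ i, Continuous fun x : E ((2 * q + 4) * d) => blk x i :=
    fun i => BlockLaw.continuous_blk i
  unfold xout xhat corr drift gAt ouPt c1 c0 blocks
  fun_prop

/-- The conditional expectation of a stage. -/
noncomputable def mid (η : ℝ) (f : E d → ℝ) (x y : E d) : ℝ :=
  sm η (fun u => f ((2 : ℝ)⁻¹ • (u + y))) x

lemma measurable_mid (η : ℝ) {f : E d → ℝ} (hf : Measurable f) :
    Measurable (Function.uncurry (mid η f)) :=
  (StronglyMeasurable.integral_prod_right' (ν := gam d)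
    (f := fun p : (E d × E d) × E d => f ((2 : ℝ)⁻¹ • (p.1.1 + Real.sqrt η • p.2 + p.1.2)))
    (hf.comp (by fun_prop)).stronglyMeasurable).measurable

lemma abs_mid_le (η : ℝ) {f : E d → ℝ} (hb : ∀ x, |f x| ≤ 1) (x y : E d) : |mid η f x y| ≤ 1 :=
  abs_integral_le_of_bound _ fun _ => hb _

lemma measurable_stage {V : E d → ℝ} (hV : Admissible d V) (Q : Quad q) (η : ℝ) {f : E d → ℝ}
    (hf : Measurable f) : Measurable (stage V Q η f) := by
  have := isProb_noise d q
  exact (StronglyMeasurable.integral_prod_right' (ν := noise d q)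
    (f := fun p : E d × E ((2 * q + 4) * d) => mid η f (xout V Q η p.1 p.2) p.1)
    ((measurable_mid η hf).comp
      ((continuous_xout hV Q η).measurable.prodMk measurable_fst)).stronglyMeasurable).measurable

lemma integral_mid (hP : GibbsProb) {V : E d → ℝ} (hV : Admissible d V) {η : ℝ} (hη : 0 < η)
    {f : E d → ℝ} (hf : Measurable f) (hb : ∀ x, |f x| ≤ 1) :
    ∫ y, (∫ x, mid η f x y ∂prox V η y) ∂pLaw V η = ∫ y, f y ∂pLaw V (η / 2) := by
  have := isProb_gibbs hP hV
  rw [Joint.disint hV.1.continuous.measurable hη (measurable_mid η hf) (abs_mid_le η hb)]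
  have hi : Integrable (fun p : E d × E d => f (p.1 + Real.sqrt (η / 2) • p.2))
      ((gibbs V).prod (gam d)) :=
    Integrable.of_bound (hf.comp (by fun_prop)).aestronglyMeasurable 1
      (Filter.Eventually.of_forall fun p => by simpa using hb _)
  rw [pLaw, integral_map (Measurable.aemeasurable (by fun_prop)) hf.aestronglyMeasurable,
    integral_prod _ hi]
  refine integral_congr_ae (Filter.Eventually.of_forall fun x => ?_)
  have h2 : Real.sqrt η * 2⁻¹ = Real.sqrt (η / 2) * (Real.sqrt 2)⁻¹ := by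
    rw [Real.sqrt_div hη.le]
    field_simp
    rw [Real.sq_sqrt zero_le_two]
  have hab : ((Real.sqrt 2)⁻¹) ^ 2 + ((Real.sqrt 2)⁻¹) ^ 2 = (1 : ℝ) ^ 2 := by
    rw [inv_pow, Real.sq_sqrt zero_le_two]; norm_num
  have hmap : ((gam d).prod (gam d)).map
      (fun p => (Real.sqrt 2)⁻¹ • p.1 + (Real.sqrt 2)⁻¹ • p.2) = gam d := by
    unfold gam
    rw [P157.gauss_add hab]
    simp
  have hF : Measurable fun z : E d => f (x + Real.sqrt (η / 2) • z) := hf.comp (by fun_prop)
  dsimp only
  conv_rhs => rw [← hmap]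
  rw [integral_map (Measurable.aemeasurable (by fun_prop)) hF.aestronglyMeasurable, integral_prod
    (fun p : E d × E d => f (x + Real.sqrt (η / 2) • ((Real.sqrt 2)⁻¹ • p.1 + (Real.sqrt 2)⁻¹ • p.2)))
    (Integrable.of_bound (hf.comp (by fun_prop)).aestronglyMeasurable 1
      (Filter.Eventually.of_forall fun p => by simpa using hb _))]
  refine integral_congr_ae (Filter.Eventually.of_forall fun w => ?_)
  refine integral_congr_ae (Filter.Eventually.of_forall fun w' => congrArg f ?_)
  simp only [smul_add, smul_smul, ← h2]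
  module

/-- Potentials grow at most quadratically. -/
lemma pot_growth {U : E d → ℝ} {g : E d → E d} (h : Pot U g) (x : E d) :
    |U x| ≤ (|U 0| + ‖g 0‖ + 1) * (1 + ‖x‖) ^ 2 := by
  have h1 := Convex.norm_image_sub_le_of_norm_hasFDerivWithin_le (𝕜 := ℝ) (f := U)
    (f' := fun u => InnerProductSpace.toDual ℝ (E d) (g u)) (C := ‖g 0‖ + ‖x‖)
    (s := Metric.closedBall 0 ‖x‖) (fun u _ => (h.grad u).hasFDerivAt.hasFDerivWithinAt)
    (fun u hu => by
      rw [LinearIsometryEquiv.norm_map]
      have h2 := h.lip.dist_le_mul u 0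
      simp only [dist_eq_norm, NNReal.coe_one, one_mul, sub_zero] at h2
      have h3 := norm_sub_norm_le (g u) (g 0)
      have h4 : ‖u‖ ≤ ‖x‖ := by simpa using hu
      linarith)
    (convex_closedBall 0 ‖x‖) (x := 0) (y := x) (by simp) (by simp)
  rw [sub_zero, Real.norm_eq_abs] at h1
  have h5 := abs_sub_abs_le_abs_sub (U x) (U 0)
  have hx := norm_nonneg x
  have hg := norm_nonneg (g 0)
  have ha := abs_nonneg (U 0)
  nlinarith [mul_nonneg ha hx, mul_nonneg hg hx, mul_nonneg ha (sq_nonneg ‖x‖),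
    mul_nonneg hg (sq_nonneg ‖x‖)]

/-- A short tilt of the Gaussian law moves bounded functions little. -/
lemma tilt_shift (hP : GibbsProb) (hPo : Poincare) (hT : TiltFacts) : ∃ C : ℝ, 0 ≤ C ∧
    ∀ d : ℕ, ∀ U : E d → ℝ, ∀ g : E d → E d, Pot U g → ∀ Λ : ℝ, 0 < Λ → Real.sqrt d ≤ Λ →
      ‖g 0‖ ≤ Λ → ∀ ε : ℝ, 0 ≤ ε → ε ≤ 1 → ∀ ψ : E d → ℝ, Measurable ψ → (∀ x, |ψ x| ≤ 1) →
        |(∫ z, ψ z ∂tilt U ε) - ∫ z, ψ z ∂gam d| ≤ C * Λ * ε := by
  obtain ⟨C, hC, hT1⟩ := hT 1
  obtain ⟨C0, -, hT0⟩ := hT 0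
  refine ⟨2 + C, by positivity, fun d U g hU Λ hΛ hdΛ hgΛ ε h0 h1 ψ hψ hψb => ?_⟩
  obtain ⟨hzero, hmom, -⟩ := hT1 d U g hU
  obtain ⟨-, -, hder⟩ := hT0 d U g hU
  rw [← hzero]
  set F := fun t => ∫ z, ψ z ∂tilt U t
  have hbound : ∀ t, 0 ≤ t → t ≤ 1 → |cov' (tilt U t) ψ U| ≤ (2 + C) * Λ := fun t ht ht1 => by
    have hL := hU.logConc ht
    obtain ⟨hpr, hint⟩ := hP d _ _ _ hL
    have : IsProbabilityMeasure (tilt U t) := hpr
    set μ := tilt U t with hμ
    set K := |U 0| + ‖g 0‖ + 1 with hK
    have hK0 : 0 ≤ K := by positivity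
    have hUc : Continuous U := hU.contDiff.continuous
    have iU : Integrable U μ := ((hint 2).const_mul K).mono' hUc.aestronglyMeasurable
      (Filter.Eventually.of_forall fun x => pot_growth hU x)
    have iU2 : Integrable (fun x => U x * U x) μ :=
      ((hint 4).const_mul (K * K)).mono' (hUc.mul hUc).aestronglyMeasurable
        (Filter.Eventually.of_forall fun x => by
          rw [Real.norm_eq_abs, abs_mul]
          refine (mul_le_mul (pot_growth hU x) (pot_growth hU x) (abs_nonneg _)
            (by positivity)).trans_eq ?_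
          ring)
    have iψU : Integrable (fun x => ψ x * U x) μ :=
      iU.bdd_mul hψ.aestronglyMeasurable (c := 1) (Filter.Eventually.of_forall fun x => hψb x)
    have iψ : Integrable ψ μ := Integrable.of_bound hψ.aestronglyMeasurable 1
      (Filter.Eventually.of_forall fun x => hψb x)
    set m := ∫ x, U x ∂μ
    have isq : Integrable (fun x => (U x - m) ^ 2) μ := by
      refine (((iU2.sub (iU.const_mul (2 * m))).add (integrable_const (m ^ 2))).congr
        (Filter.Eventually.of_forall fun x => ?_))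
      simp only [Pi.add_apply, Pi.sub_apply]
      ring
    have in2 : Integrable (fun x : E d => ‖x‖ ^ 2) μ :=
      (hint 2).mono' (by fun_prop) (Filter.Eventually.of_forall fun x => by
        rw [Real.norm_eq_abs, abs_of_nonneg (by positivity)]
        exact pow_le_pow_left₀ (norm_nonneg x) (by linarith) _)
    have hvar : ∫ x, (U x - m) ^ 2 ∂μ ≤ (2 + 2 * C) * Λ ^ 2 := by
      have e : cov' μ U U = ∫ x, (U x - m) ^ 2 ∂μ := by
        rw [integral_congr_ae (g := fun x => (U x * U x - 2 * m * U x) + m ^ 2)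
          (Filter.Eventually.of_forall fun x => by ring),
          integral_add (iU2.sub' (iU.const_mul _)) (integrable_const _),
          integral_sub iU2 (iU.const_mul _), integral_const_mul]
        simp only [cov', integral_const, probReal_univ, one_smul]
        ring
      have hgr : ∀ x, ‖g x‖ ≤ ‖g 0‖ + ‖x‖ := fun x => by
        have h2 := hU.lip.dist_le_mul x 0
        simp only [dist_eq_norm, NNReal.coe_one, one_mul, sub_zero] at h2
        linarith [norm_sub_norm_le (g x) (g 0)]
      have hp := hPo d _ _ _ hL U g hU.lip.continuous hU.grad (‖g 0‖ + 1) 1 fun x => by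
        nlinarith [hgr x, norm_nonneg x, norm_nonneg (g 0),
          mul_nonneg (norm_nonneg (g 0)) (norm_nonneg x)]
      change cov' μ U U ≤ (∫ x, ‖g x‖ ^ 2 ∂μ) / 1 at hp
      rw [e, div_one] at hp
      refine hp.trans ((integral_mono_of_nonneg (Filter.Eventually.of_forall fun x => sq_nonneg _)
        ((integrable_const (2 * Λ ^ 2)).add (in2.const_mul 2)) (Filter.Eventually.of_forall fun x => ?_)).trans ?_)
      · show ‖g x‖ ^ 2 ≤ 2 * Λ ^ 2 + 2 * ‖x‖ ^ 2
        have := pow_le_pow_left₀ (norm_nonneg _) ((hgr x).trans (add_le_add hgΛ le_rfl)) 2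
        nlinarith [sq_nonneg (Λ - ‖x‖)]
      · simp only [Pi.add_apply]
        rw [integral_add (integrable_const _) (in2.const_mul 2), integral_const, integral_const_mul]
        have := hmom Λ t hdΛ hgΛ ht ht1
        simp only [mul_one] at this
        simp only [probReal_univ, one_smul]
        linarith
    have e2 : cov' μ ψ U = ∫ x, ψ x * (U x - m) ∂μ := by
      rw [integral_congr_ae (g := fun x => ψ x * U x - ψ x * m)
        (Filter.Eventually.of_forall fun x => by ring),
        integral_sub iψU (iψ.mul_const _), integral_mul_const]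
      rfl
    rw [e2]
    refine abs_integral_le_integral_abs.trans ((integral_mono_of_nonneg
      (Filter.Eventually.of_forall fun x => abs_nonneg _)
      ((isq.div_const (2 * Λ)).add (integrable_const (Λ / 2)))
      (Filter.Eventually.of_forall fun x => ?_)).trans ?_)
    · show |ψ x * (U x - m)| ≤ (U x - m) ^ 2 / (2 * Λ) + Λ / 2
      rw [abs_mul]
      refine (mul_le_of_le_one_left (abs_nonneg _) (hψb x)).trans ?_
      rw [← sq_abs (U x - m), div_add_div _ _ (by positivity) two_ne_zero,
        le_div_iff₀ (by positivity)]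
      nlinarith [sq_nonneg (|U x - m| - Λ)]
    · simp only [Pi.add_apply]
      rw [integral_add (isq.div_const _) (integrable_const _), integral_div]
      simp only [integral_const, probReal_univ, one_smul]
      have : (∫ x, (U x - m) ^ 2 ∂μ) / (2 * Λ) ≤ (1 + C) * Λ := by
        rw [div_le_iff₀ (by positivity)]; linarith
      linarith
  have hF : ∀ t ∈ Set.Icc 0 ε, HasDerivWithinAt F (-cov' (tilt U t) ψ U) (Set.Icc 0 ε) t :=
    fun t ht => (hder ψ 1 hψ (fun x => by simpa using hψb x) t ht.1).mono fun s hs => hs.1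
  have h2 := norm_image_sub_le_of_norm_deriv_le_segment' hF (C := (2 + C) * Λ)
    (fun t ht => by rw [norm_neg]; exact hbound t ht.1 (ht.2.le.trans h1)) ε ⟨h0, le_rfl⟩
  simpa [F] using h2

end Final

open Final in
theorem finalPhase (hPP : PerPoint) (hS : SmoothFacts) (hPo : Poincare) (hP : GibbsProb)
    (hT : TiltFacts) :
    FinalPhase := by
  intro ι hι hι'
  refine ⟨1, fun A hA => ?_⟩
  obtain ⟨c₀, C, hc₀, hC, hstep⟩ := hPP 1 le_rfl A hA
  obtain ⟨C₁, hC₁, htail⟩ := pLaw_tail hP hT 1
  obtain ⟨C₂, hC₂, hmomp⟩ := pLaw_moment hP hT 1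
  obtain ⟨C₃, hC₃, hshift⟩ := tilt_shift hP hPo hT
  have hev : ∀ᶠ d : ℕ in atTop, 3 * (d : ℝ) ^ (-ι) ≤ min c₀ 1 ∧ 1 ≤ d := by
    have h := ((tendsto_rpow_neg_atTop hι).comp (tendsto_natCast_atTop_atTop (R := ℝ))).const_mul 3
    rw [mul_zero] at h
    exact (h.eventually_le_const (lt_min hc₀ one_pos)).and (eventually_ge_atTop 1)
  obtain ⟨D, hD'⟩ := eventually_atTop.1 hev
  refine ⟨D, (18 * C + 2 * C₁) + C₃ * (C₂ + 2), by positivity,
    fun d q hd Q hQ V hV f hf hb => ?_⟩
  intro η η₁ h0 hη
  obtain ⟨hsmall, hd1⟩ := hD' d hd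
  have hd0 : (0 : ℝ) < d := by exact_mod_cast hd1
  have hd1' : (1 : ℝ) ≤ d := by exact_mod_cast hd1
  set D₀ := (d : ℝ) ^ (-ι)
  have hη₁ι : η₁ ≤ D₀ := hη.trans (Real.rpow_le_rpow_of_exponent_le hd1' (by linarith))
  have hD₀1 : D₀ ≤ 1 := Real.rpow_le_one_of_one_le_of_nonpos hd1' (by linarith)
  have hη1 : η₁ ≤ 1 := hη₁ι.trans hD₀1
  have hη2 : η₁ ≤ 1 / 2 := hη₁ι.trans (by linarith [hsmall.trans (min_le_right _ _)])
  have hsd : η₁ ^ 2 * Real.sqrt d ≤ D₀ := by
    refine (mul_le_mul_of_nonneg_right (pow_le_pow_left₀ h0.le hη 2) (Real.sqrt_nonneg _)).trans ?_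
    rw [← Real.rpow_natCast, ← Real.rpow_mul hd0.le, Real.sqrt_eq_rpow, ← Real.rpow_add hd0]
    refine Real.rpow_le_rpow_of_exponent_le hd1' ?_
    push_cast
    linarith
  have hsd' : Real.sqrt d / d ≤ D₀ := by
    rw [Real.sqrt_eq_rpow, ← Real.rpow_sub_one hd0.ne']
    exact Real.rpow_le_rpow_of_exponent_le hd1' (by linarith)
  have := isProb_pLaw hP hV η₁
  have := isProb_noise d q
  constructor
  · set P := fun y => ∫ x, mid η₁ f x y ∂prox V η₁ y with hPdef
    have hPm : Measurable P :=
      Joint.measurable_prox_integral hV.1.continuous.measurable η₁ (measurable_mid η₁ hf)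
    rw [← integral_mid hP hV h0 hf hb]
    have hPb : ∀ y, |P y| ≤ 1 := fun y => by
      have := isProb_prox hP hV h0 y
      exact abs_integral_le_of_bound _ fun x => abs_mid_le η₁ hb x y
    have hSb : ∀ y, |stage V Q η₁ f y| ≤ 1 := fun y =>
      abs_integral_le_of_bound _ fun x => abs_mid_le η₁ hb _ y
    have iS : Integrable (stage V Q η₁ f) (pLaw V η₁) := Integrable.of_bound
      (measurable_stage hV Q η₁ hf).aestronglyMeasurable 1 (Filter.Eventually.of_forall hSb)
    have iP : Integrable P (pLaw V η₁) := Integrable.of_bound hPm.aestronglyMeasurable 1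
      (Filter.Eventually.of_forall hPb)
    rw [← integral_sub iS iP]
    set S := {y : E d | (d : ℝ) < η₁ * ‖y‖ ^ 2}
    have hSm : MeasurableSet S := measurableSet_lt measurable_const (by fun_prop)
    have key : ∀ y, |stage V Q η₁ f y - P y|
        ≤ 18 * C * D₀ + S.indicator (fun _ => (2 : ℝ)) y := fun y => by
      by_cases hy : y ∈ S
      · rw [Set.indicator_of_mem hy]
        have : 0 ≤ 18 * C * D₀ := by positivity
        linarith [abs_sub (stage V Q η₁ f y) (P y), hSb y, hPb y]
      · rw [Set.indicator_of_notMem hy, add_zero]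
        simp only [S, Set.mem_ofPred_eq, not_lt] at hy
        set s := size η₁ y
        have hs0 : 0 ≤ s := by simp only [s, size]; positivity
        have hs : s ≤ 3 * Real.sqrt d := by
          have : Real.sqrt η₁ * ‖y‖ ≤ Real.sqrt d := by
            rw [← Real.sqrt_sq (norm_nonneg y), ← Real.sqrt_mul h0.le]
            exact Real.sqrt_le_sqrt hy
          simp only [s, size]; linarith
        have h1 : η₁ ^ 2 * s ≤ 3 * D₀ := by
          nlinarith [mul_le_mul_of_nonneg_left hs (sq_nonneg η₁)]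
        have h2 : s / (d : ℝ) ^ (1 : ℕ) ≤ 3 * D₀ := by
          rw [pow_one]
          refine (div_le_div_of_nonneg_right hs hd0.le).trans ?_
          rw [mul_div_assoc]; linarith
        have hc := hsmall.trans (min_le_left _ _)
        have h11 := hsmall.trans (min_le_right _ _)
        have hh := hstep d q hd1 Q 1 hQ V hV η₁ h0 hη2 y (h1.trans hc)
          (fun u => f ((2 : ℝ)⁻¹ • (u + y))) (hf.comp (by fun_prop)) (fun u => hb _)
        obtain ⟨hdt, hcb⟩ := dTerm_le hP hS hV h0
          (f := fun u => f ((2 : ℝ)⁻¹ • (u + y))) (hf.comp (by fun_prop)) (fun u => hb _) y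
        refine hh.trans ?_
        have hr : Real.sqrt (dTerm V η₁ (fun u => f ((2 : ℝ)⁻¹ • (u + y))) y
            + (η₁ ^ 2 * s) ^ 1 + s / (d : ℝ) ^ (1 : ℕ)) ≤ 4 := by
          refine (Real.sqrt_le_sqrt (show _ ≤ (4 : ℝ) ^ 2 by rw [pow_one]; linarith)).trans_eq ?_
          rw [Real.sqrt_sq (by norm_num)]
        have a1 := mul_le_mul_of_nonneg_left hr (show 0 ≤ C * (η₁ ^ 2 * s) by positivity)
        have a2 := mul_le_mul_of_nonneg_left hcb
          (show 0 ≤ C * (η₁ ^ 2 * Real.sqrt η₁ * s) by positivity)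
        have a3 : C * (η₁ ^ 2 * Real.sqrt η₁ * s) ≤ C * (η₁ ^ 2 * s) := by
          refine mul_le_mul_of_nonneg_left (mul_le_mul_of_nonneg_right ?_ hs0) hC
          exact mul_le_of_le_one_right (sq_nonneg _) (Real.sqrt_le_one.2 hη1)
        have a4 := mul_le_mul_of_nonneg_left h1 hC
        have a5 := mul_le_mul_of_nonneg_left h2 hC
        linarith
    refine abs_integral_le_integral_abs.trans ((integral_mono_of_nonneg
      (Filter.Eventually.of_forall fun y => abs_nonneg _)
      ((integrable_const (18 * C * D₀)).add ((integrable_const (2 : ℝ)).indicator hSm))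
      (Filter.Eventually.of_forall key)).trans ?_)
    simp only [Pi.add_apply]
    rw [integral_add (integrable_const _) ((integrable_const _).indicator hSm),
      integral_indicator_const _ hSm]
    simp only [integral_const, probReal_univ, smul_eq_mul]
    have ht := htail d hd1 V hV η₁ h0 hη1
    rw [pow_one] at ht
    have := mul_le_mul_of_nonneg_left hη₁ι hC₁
    have : 0 ≤ C₃ * (C₂ + 2) * D₀ := by positivity
    linarith
  · have hPe := Joint.disint hV.1.continuous.measurable h0 (φ := fun x _ => f x)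
      (hf.comp measurable_fst) (C := 1) (fun x _ => hb x)
    have hPm : Measurable fun y => ∫ x, f x ∂prox V η₁ y :=
      Joint.measurable_prox_integral hV.1.continuous.measurable η₁ (φ := fun x _ => f x)
        (hf.comp measurable_fst)
    have := isProb_gibbs hP hV
    simp only [integral_const, probReal_univ, one_smul] at hPe
    rw [← hPe]
    have hLm : Measurable (lastDraw V η₁ f) :=
      (StronglyMeasurable.integral_prod_right' (ν := gam d)
        (f := fun p : E d × E d => f (c1 V η₁ p.1 + sg η₁ • p.2))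
        (hf.comp (by
          have := continuous_c1 hV η₁
          fun_prop)).stronglyMeasurable).measurable
    have iL : Integrable (lastDraw V η₁ f) (pLaw V η₁) := Integrable.of_bound
      hLm.aestronglyMeasurable 1
      (Filter.Eventually.of_forall fun y => abs_integral_le_of_bound _ fun w => hb _)
    have iP : Integrable (fun y => ∫ x, f x ∂prox V η₁ y) (pLaw V η₁) := Integrable.of_bound
      hPm.aestronglyMeasurable 1 (Filter.Eventually.of_forall fun y => by
        have := isProb_prox hP hV h0 y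
        exact abs_integral_le_of_bound _ hb)
    rw [← integral_sub iL iP]
    obtain ⟨hi, hle⟩ := hmomp d V hV η₁ h0.le hη1
    simp only [mul_one, pow_one] at hi hle
    have hsd0 : 0 < Real.sqrt d := Real.sqrt_pos.2 hd0
    have key : ∀ y, |lastDraw V η₁ f y - ∫ x, f x ∂prox V η₁ y|
        ≤ C₃ * η₁ * (2 * Real.sqrt d) + C₃ * η₁ / Real.sqrt d * ‖y‖ ^ 2 := fun y => by
      obtain ⟨hs1, hs2, -⟩ := size_facts hV h0 y
      rw [integral_prox hV h0 y hf, lastDraw, abs_sub_comm]
      refine (hshift d _ _ (hV.pot_at h0 y) (size η₁ y) (hsd0.trans_le hs1) hs1 hs2 (sg η₁ ^ 2)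
        (sq_nonneg _) ((sg_sq_le h0).trans hη1) _ (hf.comp (by fun_prop)) fun u => hb _).trans ?_
      have hsz : size η₁ y ≤ 2 * Real.sqrt d + ‖y‖ ^ 2 / Real.sqrt d := by
        have h1 : Real.sqrt η₁ * ‖y‖ ≤ ‖y‖ :=
          mul_le_of_le_one_left (norm_nonneg _) (Real.sqrt_le_one.2 hη1)
        have h2 : 2 * ‖y‖ ≤ Real.sqrt d + ‖y‖ ^ 2 / Real.sqrt d := by
          rw [← sub_le_iff_le_add', le_div_iff₀ hsd0]
          nlinarith [sq_nonneg (‖y‖ - Real.sqrt d)]
        simp only [size]; linarith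
      refine (mul_le_mul (mul_le_mul_of_nonneg_left hsz hC₃) (sg_sq_le h0) (sq_nonneg _)
        (by positivity)).trans_eq ?_
      ring
    refine abs_integral_le_integral_abs.trans ((integral_mono_of_nonneg
      (Filter.Eventually.of_forall fun y => abs_nonneg _)
      ((integrable_const _).add (hi.const_mul _))
      (Filter.Eventually.of_forall key)).trans ?_)
    simp only [Pi.add_apply]
    rw [integral_add (integrable_const _) (hi.const_mul _), integral_const, integral_const_mul]
    simp only [probReal_univ, one_smul]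
    refine (add_le_add le_rfl (mul_le_mul_of_nonneg_left hle (by positivity))).trans ?_
    have e : C₃ * η₁ / Real.sqrt d * (C₂ * (d : ℝ)) = C₃ * C₂ * (η₁ * Real.sqrt d) := by
      rw [div_mul_eq_mul_div, div_eq_iff hsd0.ne']
      linear_combination (C₃ * C₂ * η₁) * (Real.mul_self_sqrt hd0.le).symm
    rw [e]
    have : 0 ≤ (18 * C + 2 * C₁) * (η₁ * Real.sqrt d) := by positivity
    linarith

end Vale.Agent.P347
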