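import Vale.Agent.P347.Interface
import Vale.Agent.P254.Sym.PL

/-!
P347, seat B1: strongly log-concave laws on `E d`.  Integrability, the inequality of Maurey (from
Prékopa-Leindler), the Poincaré inequality and the moments around the mean.
-/

namespace Vale.Agent.P347

open MeasureTheory Filter Topology
open scoped RealInnerProductSpace ENNReal NNReal

namespace LogConcave

variable {d : ℕ} {W : E d → ℝ} {gW : E d → E d} {m : ℝ}

/-! ### Strong convexity -/

/-- `u v ≤ m/4 v² + u²/m`. -/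
lemma amgm (hm : 0 < m) (u v : ℝ) : u * v ≤ m / 4 * v ^ 2 + u ^ 2 / m := by
  have h : m / 4 * v ^ 2 + u ^ 2 / m - u * v = (m * v - 2 * u) ^ 2 / (4 * m) := by field_simp; ring
  linarith [show 0 ≤ (m * v - 2 * u) ^ 2 / (4 * m) by positivity]

lemma hasDerivAt_line {f : E d → ℝ} {g : E d → E d} (hf : ∀ x, HasGradientAt f (g x) x)
    (x v : E d) (t : ℝ) :
    HasDerivAt (fun s : ℝ => f (x + s • v)) ⟪g (x + t • v), v⟫ t := by
  have h1 : HasDerivAt (fun s : ℝ => x + s • v) v t := by
    simpa using ((hasDerivAt_id t).smul_const v).const_add x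
  have := (hasGradientAt_iff_hasFDerivAt.1 (hf (x + t • v))).comp_hasDerivAt t h1
  simpa [Function.comp_def] using this

/-- The quadratic lower bound. -/
lemma strong (hW : LogConc W gW m) (x v : E d) :
    W x + ⟪gW x, v⟫ + m / 2 * ‖v‖ ^ 2 ≤ W (x + v) := by
  set p : ℝ → ℝ := fun t => W (x + t • v) - t * ⟪gW x, v⟫ - m / 2 * t ^ 2 * ‖v‖ ^ 2
  have hd : ∀ t, HasDerivAt p (⟪gW (x + t • v), v⟫ - ⟪gW x, v⟫ - m * t * ‖v‖ ^ 2) t := by
    intro t
    refine (((hasDerivAt_line hW.grad x v t).sub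
      ((hasDerivAt_id t).mul_const ⟪gW x, v⟫)).sub
      (((hasDerivAt_pow 2 t).const_mul (m / 2)).mul_const (‖v‖ ^ 2))).congr_deriv ?_
    push_cast
    ring
  have hm : MonotoneOn p (Set.Icc 0 1) := by
    refine monotoneOn_of_hasDerivWithinAt_nonneg (convex_Icc 0 1)
      (fun t _ => (hd t).continuousAt.continuousWithinAt) (fun t _ => (hd t).hasDerivWithinAt)
      fun t ht => ?_
    rw [interior_Icc] at ht
    have h := hW.mono (x + t • v) x
    rw [add_sub_cancel_left, real_inner_smul_right, inner_sub_left, norm_smul,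
      Real.norm_eq_abs, abs_of_pos ht.1] at h
    refine le_of_mul_le_mul_left ?_ ht.1
    nlinarith
  have h := hm (Set.left_mem_Icc.2 zero_le_one) (Set.right_mem_Icc.2 zero_le_one) zero_le_one
  simp only [p, zero_smul, add_zero, one_smul] at h
  linarith

lemma midpoint (hW : LogConc W gW m) (x y : E d) :
    W ((1 / 2 : ℝ) • x + (1 / 2 : ℝ) • y) + m / 8 * ‖x - y‖ ^ 2 ≤ (W x + W y) / 2 := by
  set c := (1 / 2 : ℝ) • x + (1 / 2 : ℝ) • y with hc
  set v := (1 / 2 : ℝ) • (x - y) with hv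
  have h1 := strong hW c v
  have h2 := strong hW c (-v)
  rw [show c + v = x by rw [hc, hv]; module] at h1
  rw [show c + -v = y by rw [hc, hv]; module, inner_neg_right, norm_neg] at h2
  have h3 : ‖v‖ ^ 2 = ‖x - y‖ ^ 2 / 4 := by
    rw [hv, norm_smul, Real.norm_eq_abs, abs_of_pos (by norm_num : (0:ℝ) < 1 / 2)]
    ring
  rw [h3] at h1 h2
  linarith

/-! ### Integrals against the Gibbs law -/

lemma continuous_W (hW : LogConc W gW m) : Continuous W := hW.contDiff.continuous

lemma integrable_exp_norm_sq {c : ℝ} (hc : 0 < c) :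
    Integrable fun x : E d => Real.exp (-c * ‖x‖ ^ 2) := by
  have h := (GaussianFourier.integrable_cexp_neg_mul_sq_norm_add (V := E d) (b := (c : ℂ))
    (by simpa using hc) 0 0).norm
  refine h.congr (ae_of_all _ fun x => ?_)
  simp only [Complex.norm_exp]
  simp [← Complex.ofReal_pow]

lemma integrable_weight (hW : LogConc W gW m) (N : ℕ) :
    Integrable fun x : E d => (1 + ‖x‖) ^ N * Real.exp (-W x) := by
  set a := ‖gW 0‖ + N with ha
  refine ((integrable_exp_norm_sq (d := d) (show 0 < m / 4 by linarith [hW.pos])).const_mul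
    (Real.exp (-W 0 + a ^ 2 / m))).mono' (((continuous_const.add continuous_norm).pow N).mul
      (Real.continuous_exp.comp (continuous_W hW).neg)).aestronglyMeasurable
    (ae_of_all _ fun x => ?_)
  rw [Real.norm_eq_abs, abs_of_nonneg (by positivity)]
  have h0 := strong hW 0 x
  rw [zero_add] at h0
  have h1 := (abs_le.1 (abs_real_inner_le_norm (gW 0) x)).1
  have h2 : (1 + ‖x‖) ^ N ≤ Real.exp (N * ‖x‖) := by
    rw [Real.exp_nat_mul]
    exact pow_le_pow_left₀ (by positivity) (by linarith [Real.add_one_le_exp ‖x‖]) N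
  calc (1 + ‖x‖) ^ N * Real.exp (-W x)
      ≤ Real.exp (N * ‖x‖) * Real.exp (-W 0 + ‖gW 0‖ * ‖x‖ - m / 2 * ‖x‖ ^ 2) :=
        mul_le_mul h2 (Real.exp_le_exp.2 (by linarith)) (Real.exp_pos _).le (Real.exp_pos _).le
    _ ≤ _ := by
        rw [← Real.exp_add, ← Real.exp_add]
        refine Real.exp_le_exp.2 ?_
        have h3 : a * ‖x‖ ≤ m / 4 * ‖x‖ ^ 2 + a ^ 2 / m := amgm hW.pos a ‖x‖
        rw [ha] at h3 ⊢
        linarith

lemma integrable_exp_neg (hW : LogConc W gW m) : Integrable fun x => Real.exp (-W x) := by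
  simpa using integrable_weight hW 0

lemma integral_pos (hW : LogConc W gW m) : 0 < ∫ x, Real.exp (-W x) := by
  refine (integral_pos_iff_support_of_nonneg (fun x => (Real.exp_pos _).le)
    (integrable_exp_neg hW)).2 ?_
  rw [show Function.support (fun x => Real.exp (-W x)) = Set.univ from
    Set.eq_univ_of_forall fun x => (Real.exp_pos _).ne']
  exact isOpen_univ.measure_pos volume Set.univ_nonempty

lemma mass (hW : LogConc W gW m) :
    ∫⁻ x, ENNReal.ofReal (Real.exp (-W x)) = ENNReal.ofReal (∫ x, Real.exp (-W x)) :=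
  (ofReal_integral_eq_lintegral_ofReal (integrable_exp_neg hW)
    (ae_of_all _ fun _ => (Real.exp_pos _).le)).symm

lemma isProb (hW : LogConc W gW m) : IsProbabilityMeasure (gibbs W) := by
  refine ⟨?_⟩
  rw [gibbs, Measure.smul_apply, withDensity_apply _ MeasurableSet.univ, Measure.restrict_univ,
    smul_eq_mul]
  refine ENNReal.inv_mul_cancel ?_ ?_ <;> rw [mass hW]
  · exact (ENNReal.ofReal_pos.2 (integral_pos hW)).ne'
  · exact ENNReal.ofReal_ne_top

lemma meas_dens (hW : LogConc W gW m) :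
    Measurable fun x => ENNReal.ofReal (Real.exp (-W x)) :=
  (continuous_W hW).neg.rexp.measurable.ennreal_ofReal

lemma integrable_gibbs_iff (hW : LogConc W gW m) {f : E d → ℝ} :
    Integrable f (gibbs W) ↔ Integrable fun x => Real.exp (-W x) * f x := by
  rw [gibbs, integrable_smul_measure
    (ENNReal.inv_ne_zero.2 (by rw [mass hW]; exact ENNReal.ofReal_ne_top))
    (ENNReal.inv_ne_top.2 (by rw [mass hW]; exact (ENNReal.ofReal_pos.2 (integral_pos hW)).ne')),
    integrable_withDensity_iff_integrable_smul' (meas_dens hW)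
      (ae_of_all _ fun x => ENNReal.ofReal_lt_top)]
  refine ⟨fun h => h.congr (ae_of_all _ fun x => ?_), fun h => h.congr (ae_of_all _ fun x => ?_)⟩ <;>
    simp [ENNReal.toReal_ofReal (Real.exp_pos _).le]

lemma integral_gibbs (hW : LogConc W gW m) (f : E d → ℝ) :
    ∫ x, f x ∂gibbs W = (∫ x, Real.exp (-W x) * f x) / ∫ x, Real.exp (-W x) := by
  rw [gibbs, integral_smul_measure,
    integral_withDensity_eq_integral_toReal_smul (meas_dens hW)
      (ae_of_all _ fun x => ENNReal.ofReal_lt_top), mass hW,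
    ENNReal.toReal_inv, ENNReal.toReal_ofReal (integral_pos hW).le, smul_eq_mul,
    div_eq_inv_mul]
  congr 1
  exact integral_congr_ae (ae_of_all _ fun x => by simp [ENNReal.toReal_ofReal (Real.exp_pos _).le])

/-- Polynomial growth. -/
def Poly (f : E d → ℝ) : Prop := ∃ (A : ℝ) (N : ℕ), 0 ≤ A ∧ ∀ x, |f x| ≤ A * (1 + ‖x‖) ^ N

lemma Poly.const (c : ℝ) : Poly fun _ : E d => c := ⟨|c|, 0, abs_nonneg _, fun x => by simp⟩

lemma Poly.of_le {f : E d → ℝ} {A : ℝ} {N : ℕ} (h : ∀ x, |f x| ≤ A * (1 + ‖x‖) ^ N) : Poly f :=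
  ⟨max A 0, N, le_max_right _ _, fun x =>
    (h x).trans (mul_le_mul_of_nonneg_right (le_max_left _ _) (by positivity))⟩

lemma Poly.of_bound {f : E d → ℝ} {B : ℝ} (h : ∀ x, |f x| ≤ B) : Poly f :=
  Poly.of_le (A := B) (N := 0) fun x => by simpa using h x

lemma Poly.mono {f g : E d → ℝ} (hg : Poly g) (h : ∀ x, |f x| ≤ |g x|) : Poly f := by
  obtain ⟨A, N, hA, hg⟩ := hg
  exact ⟨A, N, hA, fun x => (h x).trans (hg x)⟩

lemma Poly.add {f g : E d → ℝ} (hf : Poly f) (hg : Poly g) : Poly fun x => f x + g x := by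
  obtain ⟨A, N, hA, hf⟩ := hf
  obtain ⟨B, M, hB, hg⟩ := hg
  refine ⟨A + B, N + M, by linarith, fun x => (abs_add_le _ _).trans ?_⟩
  have h1 : (1:ℝ) ≤ 1 + ‖x‖ := le_add_of_nonneg_right (norm_nonneg _)
  have a1 := mul_le_mul_of_nonneg_left (pow_le_pow_right₀ h1 (Nat.le_add_right N M)) hA
  have a2 := mul_le_mul_of_nonneg_left (pow_le_pow_right₀ h1 (Nat.le_add_left M N)) hB
  linarith [hf x, hg x]

lemma Poly.mul {f g : E d → ℝ} (hf : Poly f) (hg : Poly g) : Poly fun x => f x * g x := by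
  obtain ⟨A, N, hA, hf⟩ := hf
  obtain ⟨B, M, hB, hg⟩ := hg
  refine ⟨A * B, N + M, mul_nonneg hA hB, fun x => ?_⟩
  rw [abs_mul, pow_add]
  calc |f x| * |g x| ≤ (A * (1 + ‖x‖) ^ N) * (B * (1 + ‖x‖) ^ M) :=
        mul_le_mul (hf x) (hg x) (abs_nonneg _) (by positivity)
    _ = _ := by ring

lemma Poly.pow {f : E d → ℝ} (hf : Poly f) (k : ℕ) : Poly fun x => f x ^ k := by
  induction k with
  | zero => simpa using Poly.const 1
  | succ k ih => simpa only [pow_succ] using ih.mul hf

lemma Poly.integrable (hW : LogConc W gW m) {f : E d → ℝ} (hf : Poly f) (hc : Continuous f) :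
    Integrable f (gibbs W) := by
  obtain ⟨A, N, -, hA⟩ := hf
  refine (integrable_gibbs_iff hW).2 (((integrable_weight hW N).const_mul A).mono'
    ((continuous_W hW).neg.rexp.mul hc).aestronglyMeasurable (ae_of_all _ fun x => ?_))
  rw [Real.norm_eq_abs, abs_mul, abs_of_pos (Real.exp_pos _)]
  calc Real.exp (-W x) * |f x| ≤ Real.exp (-W x) * (A * (1 + ‖x‖) ^ N) :=
        mul_le_mul_of_nonneg_left (hA x) (Real.exp_pos _).le
    _ = _ := by ring

lemma poly_fun {f : E d → ℝ} {gf : E d → E d} (hgrad : ∀ x, HasGradientAt f (gf x) x) {K : ℝ}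
    {N : ℕ} (hK : ∀ x, ‖gf x‖ ≤ K * (1 + ‖x‖) ^ N) : Poly f := by
  have hK0 : 0 ≤ K := by simpa using (norm_nonneg _).trans (hK 0)
  refine Poly.of_le (A := |f 0| + K) (N := N + 1) fun x => ?_
  have h := (convex_closedBall (0 : E d) ‖x‖).norm_image_sub_le_of_norm_hasFDerivWithin_le
    (fun z _ => (hasGradientAt_iff_hasFDerivAt.1 (hgrad z)).hasFDerivWithinAt)
    (C := K * (1 + ‖x‖) ^ N) (fun z hz => ?_) (Metric.mem_closedBall_self (norm_nonneg x))
    (show x ∈ Metric.closedBall (0 : E d) ‖x‖ by simp)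
  · rw [sub_zero, Real.norm_eq_abs] at h
    have h1 : (1:ℝ) ≤ 1 + ‖x‖ := le_add_of_nonneg_right (norm_nonneg _)
    calc |f x| ≤ |f 0| + |f x - f 0| := by
          linarith [abs_sub_abs_le_abs_sub (f x) (f 0)]
      _ ≤ |f 0| * (1 + ‖x‖) ^ (N + 1) + K * (1 + ‖x‖) ^ (N + 1) := by
          refine add_le_add (le_mul_of_one_le_right (abs_nonneg _) (one_le_pow₀ h1)) (h.trans ?_)
          rw [pow_succ, ← mul_assoc]
          exact mul_le_mul_of_nonneg_left (by linarith) (by positivity)
      _ = _ := by ring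
  · rw [LinearIsometryEquiv.norm_map]
    exact (hK z).trans (mul_le_mul_of_nonneg_left (pow_le_pow_left₀ (by positivity)
      (by linarith [mem_closedBall_zero_iff.1 hz]) N) hK0)

/-! ### Maurey's inequality -/

lemma lintegral_toLp {u : E d → ℝ≥0∞} (hu : Measurable u) :
    ∫⁻ y : Fin d → ℝ, u (WithLp.toLp 2 y) = ∫⁻ x, u x :=
  (PiLp.volume_preserving_toLp (Fin d)).lintegral_comp hu

/-- If `F x - f y ≤ m/4 ‖x - y‖²` then `E e^F · E e^{-f} ≤ 1`. -/
lemma maurey (hW : LogConc W gW m) {f F : E d → ℝ} (hf : Continuous f) (hF : Continuous F)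
    {B : ℝ} (hfB : ∀ x, |f x| ≤ B) (hFB : ∀ x, |F x| ≤ B)
    (h : ∀ x y, F x - f y ≤ m / 4 * ‖x - y‖ ^ 2) :
    (∫ x, Real.exp (F x) ∂gibbs W) * ∫ x, Real.exp (-f x) ∂gibbs W ≤ 1 := by
  have hc := continuous_W hW
  set a : E d → ℝ := fun x => Real.exp (-W x) * Real.exp (F x)
  set b : E d → ℝ := fun x => Real.exp (-W x) * Real.exp (-f x)
  set c : E d → ℝ := fun x => Real.exp (-W x)
  have hint : ∀ G : E d → ℝ, Continuous G → (∀ x, |G x| ≤ B) →
      Integrable fun x => Real.exp (-W x) * Real.exp (G x) := fun G hG hGB =>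
    ((integrable_exp_neg hW).mul_const (Real.exp B)).mono'
      (hc.neg.rexp.mul hG.rexp).aestronglyMeasurable
      (ae_of_all _ fun x => by
        rw [Real.norm_eq_abs, abs_of_pos (by positivity)]
        exact mul_le_mul_of_nonneg_left (Real.exp_le_exp.2 ((le_abs_self _).trans (hGB x)))
          (Real.exp_pos _).le)
  have ia : Integrable a := hint F hF hFB
  have ib : Integrable b := hint (fun x => -f x) hf.neg fun x => by simpa using hfB x
  have ic : Integrable c := integrable_exp_neg hW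
  have ma : Measurable fun x => ENNReal.ofReal (a x) :=
    (hc.neg.rexp.mul hF.rexp).measurable.ennreal_ofReal
  have mb : Measurable fun x => ENNReal.ofReal (b x) :=
    (hc.neg.rexp.mul hf.neg.rexp).measurable.ennreal_ofReal
  have mc : Measurable fun x => ENNReal.ofReal (c x) := hc.neg.rexp.measurable.ennreal_ofReal
  have key := P254.Sym.pl_vol (a := 1 / 2) (b := 1 / 2) (by norm_num) (by norm_num) (by norm_num) d
    (ma.comp (WithLp.measurable_toLp 2 (Fin d → ℝ))) (mb.comp (WithLp.measurable_toLp 2 (Fin d → ℝ)))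
    (mc.comp (WithLp.measurable_toLp 2 (Fin d → ℝ))) (fun x y => ?_)
  · simp only [Function.comp_apply] at key
    rw [lintegral_toLp ma, lintegral_toLp mb, lintegral_toLp mc,
      ← ofReal_integral_eq_lintegral_ofReal ia (ae_of_all _ fun x => by positivity),
      ← ofReal_integral_eq_lintegral_ofReal ib (ae_of_all _ fun x => by positivity),
      ← ofReal_integral_eq_lintegral_ofReal ic (ae_of_all _ fun x => by positivity)] at key
    have h2 := ENNReal.toReal_mono ENNReal.ofReal_ne_top key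
    rw [ENNReal.toReal_mul, ← ENNReal.toReal_rpow, ← ENNReal.toReal_rpow,
      ENNReal.toReal_ofReal (integral_nonneg fun x => by positivity),
      ENNReal.toReal_ofReal (integral_nonneg fun x => by positivity),
      ENNReal.toReal_ofReal (integral_nonneg fun x => by positivity),
      ← Real.mul_rpow (integral_nonneg fun x => by positivity)
        (integral_nonneg fun x => by positivity), ← Real.sqrt_eq_rpow,
      Real.sqrt_le_iff] at h2
    rw [integral_gibbs hW, integral_gibbs hW, div_mul_div_comm, div_le_one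
      (mul_pos (integral_pos hW) (integral_pos hW))]
    simpa [a, b, c, sq] using h2.2
  · simp only [Function.comp_apply, a, b, c, ← Real.exp_add]
    rw [ENNReal.ofReal_rpow_of_nonneg (Real.exp_pos _).le (by norm_num),
      ENNReal.ofReal_rpow_of_nonneg (Real.exp_pos _).le (by norm_num), ← Real.exp_mul,
      ← Real.exp_mul, ← ENNReal.ofReal_mul (Real.exp_pos _).le, ← Real.exp_add]
    refine ENNReal.ofReal_le_ofReal (Real.exp_le_exp.2 ?_)
    rw [WithLp.toLp_add, WithLp.toLp_smul, WithLp.toLp_smul]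
    linarith [midpoint hW (WithLp.toLp 2 x) (WithLp.toLp 2 y),
      h (WithLp.toLp 2 x) (WithLp.toLp 2 y)]

lemma exp_ge {z : ℝ} (h : |z| ≤ 1) : 1 + z + z ^ 2 / 2 - |z| ^ 3 ≤ Real.exp z := by
  have := (abs_le.1 (Real.exp_bound h (n := 3) (by norm_num))).1
  norm_num [Finset.sum_range_succ, Nat.factorial] at this
  nlinarith [pow_nonneg (abs_nonneg z) 3]

/-! ### Poincaré -/

/-- Second order lower bound of an exponential moment. -/
lemma exp_int_ge (hW : LogConc W gW m) {u : E d → ℝ} (hu : Continuous u) {t : ℝ}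
    (ht : ∀ x, |u x| ≤ t) (ht1 : t ≤ 1) :
    1 + (∫ x, u x ∂gibbs W) + (∫ x, u x ^ 2 ∂gibbs W) / 2 - t ^ 3
      ≤ ∫ x, Real.exp (u x) ∂gibbs W := by
  have := isProb hW
  have i1 : Integrable u (gibbs W) := (Poly.of_bound ht).integrable hW hu
  have i2 : Integrable (fun x => u x ^ 2) (gibbs W) :=
    ((Poly.of_bound ht).pow 2).integrable hW (hu.pow 2)
  have ie : Integrable (fun x => Real.exp (u x)) (gibbs W) :=
    (Poly.of_bound (B := Real.exp t) fun x => by
      rw [abs_of_pos (Real.exp_pos _)]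
      exact Real.exp_le_exp.2 ((le_abs_self _).trans (ht x))).integrable hW hu.rexp
  have i3 : Integrable (fun x => u x + u x ^ 2 / 2) (gibbs W) := i1.add (i2.div_const 2)
  have h := integral_mono ((integrable_const (1 - t ^ 3)).add i3) ie fun x => by
    have h3 := pow_le_pow_left₀ (abs_nonneg _) (ht x) 3
    have := exp_ge ((ht x).trans ht1)
    simp only [Pi.add_apply]
    linarith
  rw [integral_add' (integrable_const _) i3, integral_add i1 (i2.div_const 2), integral_div,
    integral_const, probReal_univ, one_smul] at h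
  linarith

/-- From `E e^F E e^{-εf} ≤ 1` to the second order terms. -/
lemma second_order {ε Q T C P N : ℝ} (he : 0 < ε) (he1 : ε ≤ 1) (hC : 0 ≤ C) (hεC : ε * C ≤ 1)
    (hQ : 0 ≤ Q) (hP : 1 + (ε ^ 2 * (Q / 2 - T) - ε ^ 3 * C) ≤ P)
    (hN : 1 + (ε ^ 2 * (Q / 2) - ε ^ 3 * C) ≤ N) (hP0 : 0 ≤ P) (hPN : P * N ≤ 1) :
    Q - T ≤ ε * (2 * C + (|Q / 2 - T| + C) * (|Q / 2| + C)) := by
  set X := ε ^ 2 * (Q / 2 - T) - ε ^ 3 * C with hX
  set Y := ε ^ 2 * (Q / 2) - ε ^ 3 * C with hY
  have h32 : ε ^ 3 ≤ ε ^ 2 := pow_le_pow_of_le_one he.le he1 (by norm_num)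
  have h21 : ε ^ 2 ≤ ε := by nlinarith
  have hY1 : 0 ≤ 1 + Y := by
    have : ε ^ 3 * C ≤ ε * C := mul_le_mul_of_nonneg_right (h32.trans h21) hC
    have : 0 ≤ ε ^ 2 * (Q / 2) := by positivity
    rw [hY]; linarith
  have hprod : (1 + X) * (1 + Y) ≤ 1 := (mul_le_mul hP hN hY1 hP0).trans hPN
  have aX : |X| ≤ ε ^ 2 * (|Q / 2 - T| + C) := by
    rw [hX]
    refine (abs_sub _ _).trans ?_
    rw [abs_mul, abs_of_nonneg (sq_nonneg ε), abs_of_nonneg (by positivity : 0 ≤ ε ^ 3 * C)]
    linarith [mul_le_mul_of_nonneg_right h32 hC]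
  have aY : |Y| ≤ ε * (|Q / 2| + C) := by
    rw [hY]
    refine (abs_sub _ _).trans ?_
    rw [abs_mul, abs_of_nonneg (sq_nonneg ε), abs_of_nonneg (by positivity : 0 ≤ ε ^ 3 * C)]
    linarith [mul_le_mul_of_nonneg_right h21 (abs_nonneg (Q / 2)),
      mul_le_mul_of_nonneg_right (h32.trans h21) hC]
  have hXY := mul_le_mul aX aY (abs_nonneg _) (by positivity)
  rw [← abs_mul] at hXY
  have h1 := neg_abs_le (X * Y)
  refine le_of_mul_le_mul_left ?_ (pow_pos he 2)
  rw [hX, hY] at hprod hXY h1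
  linarith

/-- The inequality for a bounded function with bounded, uniformly continuous gradient. -/
lemma poincare_bdd (hW : LogConc W gW m) {f : E d → ℝ} {gf : E d → E d}
    (hgrad : ∀ x, HasGradientAt f (gf x) x) (huc : UniformContinuous gf) {B G : ℝ}
    (hB : ∀ x, |f x| ≤ B) (hG : ∀ x, ‖gf x‖ ≤ G) (h0 : ∫ x, f x ∂gibbs W = 0) :
    ∫ x, f x ^ 2 ∂gibbs W ≤ (∫ x, ‖gf x‖ ^ 2 ∂gibbs W) / m := by
  have := isProb hW
  have hm := hW.pos
  have hB0 : 0 ≤ B := (abs_nonneg _).trans (hB 0)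
  have hG0 : 0 ≤ G := (norm_nonneg _).trans (hG 0)
  have hfc : Continuous f := continuous_iff_continuousAt.2 fun x => (hgrad x).continuousAt
  have hgc : Continuous fun x => ‖gf x‖ := huc.continuous.norm
  have if1 : Integrable f (gibbs W) := (Poly.of_bound hB).integrable hW hfc
  have if2 : Integrable (fun x => f x ^ 2) (gibbs W) :=
    ((Poly.of_bound hB).pow 2).integrable hW (hfc.pow 2)
  have ig2 : Integrable (fun x => ‖gf x‖ ^ 2) (gibbs W) :=
    ((Poly.of_bound (B := G) fun x => by simpa using hG x).pow 2).integrable hW (hgc.pow 2)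
  refine le_of_forall_pos_le_add fun θ hθ => ?_
  obtain ⟨η, hη, hη1, hηθ⟩ : ∃ η, 0 < η ∧ η ≤ 1 ∧ η * (2 * G + 1) / m ≤ θ / 2 := by
    refine ⟨min 1 (θ / 2 * m / (2 * G + 1)), lt_min one_pos (by positivity), min_le_left _ _, ?_⟩
    rw [div_le_iff₀ hm, ← le_div_iff₀ (by positivity)]
    exact min_le_right _ _
  obtain ⟨δ, hδ, hδ'⟩ := Metric.uniformContinuous_iff.1 huc η hη
  set s : E d → ℝ := fun x => (‖gf x‖ + η) ^ 2 / m with hs
  have hs0 : ∀ x, 0 ≤ s x := fun x => by positivity
  set S := (G + 1) ^ 2 / m with hS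
  have hsS : ∀ x, s x ≤ S := fun x =>
    div_le_div_of_nonneg_right (pow_le_pow_left₀ (by positivity) (by linarith [hG x]) 2) hm.le
  have hsc : Continuous s := ((hgc.add continuous_const).pow 2).div_const m
  have iS : Integrable s (gibbs W) := (Poly.of_bound (B := S) fun x => by
    rw [abs_of_nonneg (hs0 x)]; exact hsS x).integrable hW hsc
  set Q := ∫ x, f x ^ 2 ∂gibbs W with hQ
  set T := ∫ x, s x ∂gibbs W with hT'
  have hQ0 : 0 ≤ Q := integral_nonneg fun x => sq_nonneg _
  have hT : T ≤ (∫ x, ‖gf x‖ ^ 2 ∂gibbs W) / m + θ / 2 := by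
    have h1 : T ≤ ∫ x, (‖gf x‖ ^ 2 / m + θ / 2) ∂gibbs W := by
      refine integral_mono iS ((ig2.div_const m).add (integrable_const _)) fun x => ?_
      calc s x ≤ ‖gf x‖ ^ 2 / m + η * (2 * G + 1) / m := by
            rw [hs, ← add_div]
            refine div_le_div_of_nonneg_right ?_ hm.le
            nlinarith [hG x, norm_nonneg (gf x)]
        _ ≤ _ := by linarith
    rwa [integral_add (ig2.div_const m) (integrable_const _), integral_div, integral_const,
      probReal_univ, one_smul] at h1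
  have hS0 : 0 ≤ S := by positivity
  set C := (B + S) ^ 3 + S * B with hC
  have hC0 : 0 ≤ C := by positivity
  set D := 2 * C + (|Q / 2 - T| + C) * (|Q / 2| + C) with hD
  have hD0 : 0 ≤ D := by positivity
  obtain ⟨ε, he, he1, he2, he3, heC, heD⟩ : ∃ ε : ℝ, 0 < ε ∧ ε ≤ 1 ∧ ε * (B + S) ≤ 1 ∧
      ε * (2 * B) ≤ m / 4 * δ ^ 2 ∧ ε * C ≤ 1 ∧ ε * D ≤ θ / 2 := by
    set a := min 1 (min (m / 4 * δ ^ 2) (θ / 2))
    have ha : 0 < a := lt_min one_pos (lt_min (by positivity) (by positivity))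
    set M := 1 + (B + S) + 2 * B + C + D
    have hM : 0 < M := by positivity
    have hk : ∀ z, 0 ≤ z → z ≤ M → a / M * z ≤ a := fun z _ hz2 => by
      rw [div_mul_eq_mul_div, div_le_iff₀ hM]
      exact mul_le_mul_of_nonneg_left hz2 ha.le
    have a1 : a ≤ 1 := min_le_left _ _
    refine ⟨a / M, div_pos ha hM, ?_, ?_, ?_, ?_, ?_⟩
    · simpa using (hk 1 zero_le_one (by simp only [M]; linarith)).trans a1
    · exact (hk _ (by positivity) (by simp only [M]; linarith)).trans a1
    · exact (hk _ (by positivity) (by simp only [M]; linarith)).trans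
        ((min_le_right _ _).trans (min_le_left _ _))
    · exact (hk _ hC0 (by simp only [M]; linarith)).trans a1
    · exact (hk _ hD0 (by simp only [M]; linarith)).trans
        ((min_le_right _ _).trans (min_le_right _ _))
  set F : E d → ℝ := fun x => ε * f x - ε ^ 2 * s x with hF
  have hbd : ∀ x, |F x| ≤ ε * (B + S) ∧ |ε * f x| ≤ ε * (B + S) := by
    intro x
    have a1 : |ε * f x| ≤ ε * B := by
      rw [abs_mul, abs_of_pos he]; exact mul_le_mul_of_nonneg_left (hB x) he.le
    have a2 : |ε ^ 2 * s x| ≤ ε * S := by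
      rw [abs_of_nonneg (mul_nonneg (sq_nonneg ε) (hs0 x))]
      exact mul_le_mul (by nlinarith) (hsS x) (hs0 x) he.le
    exact ⟨(abs_sub _ _).trans (by linarith), by linarith [mul_nonneg he.le hS0]⟩
  have hle : ∀ x y, F x - ε * f y ≤ m / 4 * ‖x - y‖ ^ 2 := by
    intro x y
    have hq : 0 ≤ ε ^ 2 * s x := mul_nonneg (sq_nonneg ε) (hs0 x)
    rcases lt_or_ge ‖x - y‖ δ with hlt | hge
    · have hmv := (convex_ball x δ).norm_image_sub_le_of_norm_hasFDerivWithin_le
        (fun z _ => (hasGradientAt_iff_hasFDerivAt.1 (hgrad z)).hasFDerivWithinAt)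
        (C := ‖gf x‖ + η) (fun z hz => ?_) (show y ∈ Metric.ball x δ by
          rw [Metric.mem_ball, dist_comm, dist_eq_norm]; exact hlt) (Metric.mem_ball_self hδ)
      · rw [Real.norm_eq_abs] at hmv
        have h1 : ε * (f x - f y) ≤ ε * ((‖gf x‖ + η) * ‖x - y‖) :=
          mul_le_mul_of_nonneg_left ((le_abs_self _).trans hmv) he.le
        have h2 : ε * ((‖gf x‖ + η) * ‖x - y‖) ≤ m / 4 * ‖x - y‖ ^ 2 + ε ^ 2 * s x := by
          have h := amgm hm (ε * (‖gf x‖ + η)) ‖x - y‖
          rw [mul_pow, mul_div_assoc] at h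
          simp only [hs]
          linarith
        show ε * f x - ε ^ 2 * s x - ε * f y ≤ _
        linarith
      · rw [LinearIsometryEquiv.norm_map]
        have h3 := hδ' (show dist z x < δ from hz)
        rw [dist_eq_norm] at h3
        linarith [norm_sub_norm_le (gf z) (gf x)]
    · have h1 : ε * (f x - f y) ≤ ε * (2 * B) :=
        mul_le_mul_of_nonneg_left (by linarith [abs_le.1 (hB x), abs_le.1 (hB y)]) he.le
      have h2 : m / 4 * δ ^ 2 ≤ m / 4 * ‖x - y‖ ^ 2 :=
        mul_le_mul_of_nonneg_left (pow_le_pow_left₀ hδ.le hge 2) (by positivity)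
      show ε * f x - ε ^ 2 * s x - ε * f y ≤ _
      linarith
  have hFc : Continuous F := (continuous_const.mul hfc).sub (continuous_const.mul hsc)
  have hM := maurey hW (f := fun x => ε * f x) (continuous_const.mul hfc) hFc
    (fun x => (hbd x).2) (fun x => (hbd x).1) hle
  have eP := exp_int_ge hW hFc (fun x => (hbd x).1) he2
  have eN := exp_int_ge hW (u := fun x => -(ε * f x)) (continuous_const.mul hfc).neg
    (fun x => by rw [abs_neg]; exact (hbd x).2) he2
  have iF2 : Integrable (fun x => F x ^ 2) (gibbs W) :=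
    ((Poly.of_bound fun x => (hbd x).1).pow 2).integrable hW (hFc.pow 2)
  have m1 : ∫ x, F x ∂gibbs W = -(ε ^ 2 * T) := by
    rw [hF, integral_sub (if1.const_mul _) (iS.const_mul _), integral_const_mul, integral_const_mul,
      h0, ← hT', mul_zero, zero_sub]
  have m2 : ε ^ 2 * Q - 2 * ε ^ 3 * (S * B) ≤ ∫ x, F x ^ 2 ∂gibbs W := by
    have h := integral_mono ((if2.const_mul (ε ^ 2)).sub (integrable_const (2 * ε ^ 3 * (S * B))))
      iF2 fun x => by
        have : f x * s x ≤ S * B :=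
          (le_abs_self _).trans (by
            rw [abs_mul, mul_comm S]
            exact mul_le_mul (hB x) (by rw [abs_of_nonneg (hs0 x)]; exact hsS x) (abs_nonneg _) hB0)
        have h3 := mul_le_mul_of_nonneg_left this (show 0 ≤ 2 * ε ^ 3 by positivity)
        have h4 : 0 ≤ ε ^ 4 * s x ^ 2 := by positivity
        have e : (ε * f x - ε ^ 2 * s x) ^ 2 =
            ε ^ 2 * f x ^ 2 - 2 * ε ^ 3 * (f x * s x) + ε ^ 4 * s x ^ 2 := by ring
        simp only [Pi.sub_apply, hF, e]
        linarith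
    rwa [integral_sub' (if2.const_mul _) (integrable_const _), integral_const_mul, integral_const,
      probReal_univ, one_smul, ← hQ] at h
  have m3 : ∫ x, -(ε * f x) ∂gibbs W = 0 := by
    rw [integral_neg, integral_const_mul, h0, mul_zero, neg_zero]
  have m4 : ∫ x, (-(ε * f x)) ^ 2 ∂gibbs W = ε ^ 2 * Q := by
    simp only [neg_sq, mul_pow]
    rw [integral_const_mul, ← hQ]
  have e3 : (ε * (B + S)) ^ 3 = ε ^ 3 * (B + S) ^ 3 := mul_pow _ _ _
  have hSB : 0 ≤ ε ^ 3 * (S * B) := by positivity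
  rw [m1, e3] at eP
  rw [m3, m4, e3] at eN
  have := second_order (T := T) (C := C) he he1 hC0 heC hQ0
    (by rw [hC]; linarith) (by rw [hC]; linarith) (integral_nonneg fun x => (Real.exp_pos _).le) hM
  linarith

lemma hasFDerivAt_cut (R : ℝ) (x : E d) :
    HasFDerivAt (fun y : E d => Real.smoothTransition (2 - ‖y‖ ^ 2 / R ^ 2))
      ((deriv Real.smoothTransition (2 - ‖x‖ ^ 2 / R ^ 2) * (-2 / R ^ 2)) • innerSL ℝ x) x := by
  have h1 : HasFDerivAt (fun y : E d => 2 - ‖y‖ ^ 2 / R ^ 2) ((-2 / R ^ 2) • innerSL ℝ x) x := by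
    have := (((hasStrictFDerivAt_norm_sq x).hasFDerivAt).mul_const (R ^ 2)⁻¹).const_sub 2
    simp only [← div_eq_mul_inv] at this
    refine this.congr_fderiv (ContinuousLinearMap.ext fun v => ?_)
    simp
    ring
  have h2 := (((Real.smoothTransition.contDiff (n := 1)).differentiable (by norm_num))
    (2 - ‖x‖ ^ 2 / R ^ 2)).hasDerivAt.comp_hasFDerivAt x h1
  rw [smul_smul] at h2
  exact h2

lemma poincare_aux (hW : LogConc W gW m) {f : E d → ℝ} {gf : E d → E d} (hgc : Continuous gf)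
    (hgrad : ∀ x, HasGradientAt f (gf x) x) {K : ℝ} {N : ℕ}
    (hK : ∀ x, ‖gf x‖ ≤ K * (1 + ‖x‖) ^ N) :
    cov' (gibbs W) f f ≤ (∫ x, ‖gf x‖ ^ 2 ∂gibbs W) / m := by
  have := isProb hW
  have hfc : Continuous f := continuous_iff_continuousAt.2 fun x => (hgrad x).continuousAt
  obtain ⟨D, hD0, hD⟩ : ∃ D, 0 ≤ D ∧ ∀ t, |deriv Real.smoothTransition t| ≤ D := by
    obtain ⟨D, hD⟩ := ((isCompact_Icc (a := (0:ℝ)) (b := 1))).exists_bound_of_continuousOn
      ((Real.smoothTransition.contDiff (n := 1)).continuous_deriv le_rfl).continuousOn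
    refine ⟨max D 0, le_max_right _ _, fun t => ?_⟩
    rcases lt_or_ge t 0 with ht | ht
    · rw [((hasDerivAt_const t (0:ℝ)).congr_of_eventuallyEq ((eventually_lt_nhds ht).mono
        fun s hs => Real.smoothTransition.zero_of_nonpos hs.le)).deriv]
      simp
    rcases lt_or_ge 1 t with ht1 | ht1
    · rw [((hasDerivAt_const t (1:ℝ)).congr_of_eventuallyEq ((eventually_gt_nhds ht1).mono
        fun s hs => Real.smoothTransition.one_of_one_le hs.le)).deriv]
      simp
    exact (hD t ⟨ht, ht1⟩).trans (le_max_left _ _)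
  set χ : ℕ → E d → ℝ := fun k x => Real.smoothTransition (2 - ‖x‖ ^ 2 / ((k:ℝ) + 1) ^ 2)
  set c : ℕ → E d → ℝ := fun k x =>
    deriv Real.smoothTransition (2 - ‖x‖ ^ 2 / ((k:ℝ) + 1) ^ 2) * (-2 / ((k:ℝ) + 1) ^ 2)
  set fk : ℕ → E d → ℝ := fun k x => χ k x * f x
  set gk : ℕ → E d → E d := fun k x => χ k x • gf x + (f x * c k x) • x
  have hgr : ∀ k x, HasGradientAt (fk k) (gk k x) x := by
    intro k x
    rw [hasGradientAt_iff_hasFDerivAt]
    refine ((hasFDerivAt_cut ((k:ℝ) + 1) x).mul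
      (hasGradientAt_iff_hasFDerivAt.1 (hgrad x))).congr_fderiv ?_
    ext v
    simp [gk, χ, c]
    ring
  have hck : ∀ k, Continuous (c k) := fun k =>
    (((Real.smoothTransition.contDiff (n := 1)).continuous_deriv le_rfl).comp
      (by fun_prop)).mul continuous_const
  have hχc : ∀ k, Continuous (χ k) := fun k =>
    Real.smoothTransition.continuous.comp (by fun_prop)
  have hgkc : ∀ k, Continuous (gk k) := fun k =>
    ((hχc k).smul hgc).add ((hfc.mul (hck k)).smul continuous_id)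
  have hout : ∀ k : ℕ, ∀ x ∉ Metric.closedBall (0 : E d) (2 * ((k:ℝ) + 1)),
      χ k x = 0 ∧ c k x = 0 := by
    intro k x hx
    rw [mem_closedBall_zero_iff, not_le] at hx
    have hlt : 2 - ‖x‖ ^ 2 / ((k:ℝ) + 1) ^ 2 < 0 := by
      rw [sub_neg, lt_div_iff₀ (by positivity)]
      nlinarith
    refine ⟨Real.smoothTransition.zero_of_nonpos hlt.le, ?_⟩
    simp only [c]
    rw [((hasDerivAt_const _ (0:ℝ)).congr_of_eventuallyEq ((eventually_lt_nhds hlt).mono
      fun s hs => Real.smoothTransition.zero_of_nonpos hs.le)).deriv, zero_mul]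
  have hsup : ∀ k, HasCompactSupport (gk k) := fun k =>
    HasCompactSupport.intro (isCompact_closedBall (0 : E d) (2 * ((k:ℝ) + 1))) fun x hx => by
      simp [gk, hout k x hx]
  have hsupf : ∀ k, HasCompactSupport (fk k) := fun k =>
    HasCompactSupport.intro (isCompact_closedBall (0 : E d) (2 * ((k:ℝ) + 1))) fun x hx => by
      simp [fk, hout k x hx]
  have hfkc : ∀ k, Continuous (fk k) := fun k => (hχc k).mul hfc
  -- the inequality for the cut functions
  have hineq : ∀ k, cov' (gibbs W) (fk k) (fk k) ≤ (∫ x, ‖gk k x‖ ^ 2 ∂gibbs W) / m := by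
    intro k
    obtain ⟨B, hB⟩ := (hfkc k).bounded_above_of_compact_support (hsupf k)
    obtain ⟨G, hG⟩ := (hgkc k).bounded_above_of_compact_support (hsup k)
    set A := ∫ x, fk k x ∂gibbs W with hA
    have ik : Integrable (fk k) (gibbs W) :=
      (Poly.of_bound fun x => by simpa using hB x).integrable hW (hfkc k)
    have ik2 : Integrable (fun x => fk k x ^ 2) (gibbs W) :=
      ((Poly.of_bound fun x => by simpa using hB x).pow 2).integrable hW ((hfkc k).pow 2)
    have h := poincare_bdd hW (f := fun x => fk k x - A) (gf := gk k) (fun x => by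
        rw [hasGradientAt_iff_hasFDerivAt]
        exact (hasGradientAt_iff_hasFDerivAt.1 (hgr k x)).sub_const A)
      ((hgkc k).uniformContinuous_of_tendsto_cocompact (hsup k).is_zero_at_infty)
      (B := B + |A|) (fun x => (abs_sub _ _).trans (by simpa using hB x)) hG
      (by rw [integral_sub ik (integrable_const _), integral_const, probReal_univ, one_smul, hA,
            sub_self])
    have i1 : Integrable (fun x => fk k x * A) (gibbs W) := ik.mul_const A
    refine le_trans (le_of_eq ?_) h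
    rw [cov', show (fun x => (fk k x - A) ^ 2) =
        fun x => (fk k x ^ 2 - 2 * (fk k x * A)) + A ^ 2 from funext fun x => by ring,
      integral_add (ik2.sub' (i1.const_mul 2)) (integrable_const _),
      integral_sub ik2 (i1.const_mul 2), integral_const_mul, integral_mul_const, integral_const,
      probReal_univ, one_smul, ← hA]
    simp only [sq]
    ring
  -- passing to the limit
  have hpf : Poly f := poly_fun hgrad hK
  have hpg : Poly fun x => ‖gf x‖ + |f x| * (2 * D * ‖x‖) :=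
    (Poly.of_le fun x => by rw [abs_norm]; exact hK x).add
      ((hpf.mono fun x => le_of_eq (abs_abs _)).mul ((Poly.const (2 * D)).mul
        (Poly.of_le (A := 1) (N := 1) fun x => by simp)))
  have hev : ∀ x : E d, ∀ᶠ k : ℕ in atTop, χ k x = 1 ∧ c k x = 0 := by
    intro x
    filter_upwards [eventually_ge_atTop ⌈‖x‖⌉₊] with k hk
    have h1 : ‖x‖ ≤ k := (Nat.le_ceil _).trans (by exact_mod_cast hk)
    have hlt : 1 < 2 - ‖x‖ ^ 2 / ((k:ℝ) + 1) ^ 2 := by
      have : ‖x‖ ^ 2 / ((k:ℝ) + 1) ^ 2 < 1 := by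
        rw [div_lt_one (by positivity)]
        exact pow_lt_pow_left₀ (by linarith) (norm_nonneg _) two_ne_zero
      linarith
    refine ⟨Real.smoothTransition.one_of_one_le hlt.le, ?_⟩
    simp only [c]
    rw [((hasDerivAt_const _ (1:ℝ)).congr_of_eventuallyEq ((eventually_gt_nhds hlt).mono
      fun s hs => Real.smoothTransition.one_of_one_le hs.le)).deriv, zero_mul]
  have hbk : ∀ k x, |fk k x| ≤ |f x| := fun k x => by
    rw [abs_mul, abs_of_nonneg (Real.smoothTransition.nonneg _)]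
    exact mul_le_of_le_one_left (abs_nonneg _) (Real.smoothTransition.le_one _)
  have hbg : ∀ k x, ‖gk k x‖ ≤ ‖gf x‖ + |f x| * (2 * D * ‖x‖) := by
    intro k x
    refine (norm_add_le _ _).trans (add_le_add ?_ ?_)
    · rw [norm_smul, Real.norm_eq_abs, abs_of_nonneg (Real.smoothTransition.nonneg _)]
      exact mul_le_of_le_one_left (norm_nonneg _) (Real.smoothTransition.le_one _)
    · rw [norm_smul, Real.norm_eq_abs, abs_mul, mul_assoc]
      refine mul_le_mul_of_nonneg_left (mul_le_mul_of_nonneg_right ?_ (norm_nonneg _)) (abs_nonneg _)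
      rw [abs_mul, abs_div, abs_neg, abs_two, abs_of_pos (by positivity : (0:ℝ) < ((k:ℝ) + 1) ^ 2)]
      calc |deriv Real.smoothTransition _| * (2 / ((k:ℝ) + 1) ^ 2) ≤ D * 2 :=
            mul_le_mul (hD _) (div_le_self zero_le_two (by
              nlinarith [show (0:ℝ) ≤ k by positivity])) (by positivity) hD0
        _ = 2 * D := mul_comm _ _
  have l1 : Tendsto (fun k => ∫ x, fk k x ∂gibbs W) atTop (𝓝 (∫ x, f x ∂gibbs W)) :=
    tendsto_integral_of_dominated_convergence (fun x => |f x|)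
      (fun k => (hfkc k).aestronglyMeasurable) ((hpf.mono fun x => le_of_eq (abs_abs _)).integrable
        hW hfc.abs) (fun k => ae_of_all _ fun x => hbk k x)
      (ae_of_all _ fun x => tendsto_const_nhds.congr' ((hev x).mono fun k hk => by simp [fk, hk.1]))
  have l2 : Tendsto (fun k => ∫ x, fk k x * fk k x ∂gibbs W) atTop
      (𝓝 (∫ x, f x * f x ∂gibbs W)) :=
    tendsto_integral_of_dominated_convergence (fun x => f x * f x)
      (fun k => ((hfkc k).mul (hfkc k)).aestronglyMeasurable)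
      ((hpf.mul hpf).integrable hW (hfc.mul hfc))
      (fun k => ae_of_all _ fun x => by
        rw [Real.norm_eq_abs, abs_mul, ← abs_mul_abs_self (f x)]
        exact mul_le_mul (hbk k x) (hbk k x) (abs_nonneg _) (abs_nonneg _))
      (ae_of_all _ fun x => tendsto_const_nhds.congr' ((hev x).mono fun k hk => by simp [fk, hk.1]))
  have l3 : Tendsto (fun k => ∫ x, ‖gk k x‖ ^ 2 ∂gibbs W) atTop
      (𝓝 (∫ x, ‖gf x‖ ^ 2 ∂gibbs W)) :=
    tendsto_integral_of_dominated_convergence (fun x => (‖gf x‖ + |f x| * (2 * D * ‖x‖)) ^ 2)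
      (fun k => ((hgkc k).norm.pow 2).aestronglyMeasurable)
      ((hpg.pow 2).integrable hW ((hgc.norm.add (hfc.abs.mul
        (continuous_const.mul continuous_norm))).pow 2))
      (fun k => ae_of_all _ fun x => by
        rw [Real.norm_eq_abs, abs_of_nonneg (sq_nonneg _)]
        exact pow_le_pow_left₀ (norm_nonneg _) (hbg k x) 2)
      (ae_of_all _ fun x => tendsto_const_nhds.congr' ((hev x).mono fun k hk => by
        simp [gk, hk.1, hk.2]))
  exact le_of_tendsto_of_tendsto' (l2.sub (l1.mul l1)) (l3.div_const m) hineq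

/-! ### Central moments -/

/-- `a^k b ≤ a^(k+1)/K + K^k b^(k+1)`. -/
lemma young_pow {a b K : ℝ} (ha : 0 ≤ a) (hb : 0 ≤ b) (hK : 0 < K) (k : ℕ) :
    a ^ k * b ≤ a ^ (k + 1) / K + K ^ k * b ^ (k + 1) := by
  rcases le_or_gt (K * b) a with h | h
  · have : a ^ k * b ≤ a ^ (k + 1) / K := by
      rw [le_div_iff₀ hK, pow_succ, mul_assoc]
      exact mul_le_mul_of_nonneg_left (by linarith) (pow_nonneg ha k)
    linarith [show 0 ≤ K ^ k * b ^ (k + 1) by positivity]
  · have h1 : a ^ k * b ≤ K ^ k * b ^ (k + 1) := by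
      rw [pow_succ, ← mul_assoc, ← mul_pow]
      exact mul_le_mul_of_nonneg_right (pow_le_pow_left₀ ha h.le k) hb
    linarith [show 0 ≤ a ^ (k + 1) / K by positivity]

lemma sq_integral_mul_le {μ : Measure (E d)} {u v : E d → ℝ}
    (hu : Integrable (fun x => u x ^ 2) μ) (hv : Integrable (fun x => v x ^ 2) μ)
    (huv : Integrable (fun x => u x * v x) μ) :
    (∫ x, u x * v x ∂μ) ^ 2 ≤ (∫ x, u x ^ 2 ∂μ) * ∫ x, v x ^ 2 ∂μ := by
  have h : ∀ l : ℝ, 0 ≤ (∫ x, v x ^ 2 ∂μ) * (l * l) + (-2 * ∫ x, u x * v x ∂μ) * l +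
      ∫ x, u x ^ 2 ∂μ := by
    intro l
    have h0 : 0 ≤ ∫ x, (u x - l * v x) ^ 2 ∂μ := integral_nonneg fun x => sq_nonneg _
    rw [show (fun x => (u x - l * v x) ^ 2) =
        fun x => (u x ^ 2 - 2 * l * (u x * v x)) + l ^ 2 * v x ^ 2 from funext fun x => by ring,
      integral_add (hu.sub' (huv.const_mul _)) (hv.const_mul _),
      integral_sub hu (huv.const_mul _), integral_const_mul, integral_const_mul] at h0
    linarith
  have := discrim_le_zero h
  simp only [discrim] at this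
  nlinarith

lemma moments_aux (hW : LogConc W gW m) (k : ℕ) {f : E d → ℝ} {gf : E d → E d}
    (hgc : Continuous gf) (hgrad : ∀ x, HasGradientAt f (gf x) x) {K : ℝ} {N : ℕ}
    (hK : ∀ x, ‖gf x‖ ≤ K * (1 + ‖x‖) ^ N) :
    ∫ x, (f x - ∫ u, f u ∂gibbs W) ^ (2 * (k + 1)) ∂gibbs W
      ≤ 2 * (4 ^ k + ((k:ℝ) + 1) ^ 2 * (4 * ((k:ℝ) + 1) ^ 2) ^ k) / m ^ (k + 1) *
        ∫ x, ‖gf x‖ ^ (2 * (k + 1)) ∂gibbs W := by
  have := isProb hW
  have hm := hW.pos
  have hfc : Continuous f := continuous_iff_continuousAt.2 fun x => (hgrad x).continuousAt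
  set A := ∫ u, f u ∂gibbs W with hA
  set p : E d → ℝ := fun x => f x - A
  set μ := gibbs W with hμ
  have hpc : Continuous p := hfc.sub continuous_const
  have hf0 : Poly f := poly_fun hgrad hK
  have hp : Poly p := by
    simpa [p, sub_eq_add_neg] using hf0.add (Poly.const (-A))
  have hg : Poly fun x => ‖gf x‖ := Poly.of_le fun x => by rw [abs_norm]; exact hK x
  have ip : ∀ j, Integrable (fun x => p x ^ j) μ := fun j => (hp.pow j).integrable hW (hpc.pow j)
  have ig : ∀ j, Integrable (fun x => ‖gf x‖ ^ j) μ := fun j =>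
    (hg.pow j).integrable hW (hgc.norm.pow j)
  set X := ∫ x, p x ^ (2 * (k + 1)) ∂μ
  set G := ∫ x, ‖gf x‖ ^ (2 * (k + 1)) ∂μ
  set c := (∫ x, ‖gf x‖ ^ 2 ∂μ) / m
  set b : E d → ℝ := fun x => ‖gf x‖ ^ 2 / m
  have hb : ∀ x, 0 ≤ b x := fun x => by positivity
  have hc0 : 0 ≤ c := by positivity
  -- the first moment term
  have hvar : ∫ x, p x ^ 2 ∂μ ≤ c := by
    refine le_trans (le_of_eq ?_) (poincare_aux hW hgc hgrad hK)
    have if1 : Integrable f μ := hf0.integrable hW hfc
    have if2 : Integrable (fun x => f x ^ 2) μ := (hf0.pow 2).integrable hW (hfc.pow 2)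
    rw [cov', show (fun x => p x ^ 2) = fun x => (f x ^ 2 - 2 * (f x * A)) + A ^ 2 from
      funext fun x => by ring,
      integral_add (if2.sub' ((if1.mul_const A).const_mul 2)) (integrable_const _),
      integral_sub if2 ((if1.mul_const A).const_mul 2), integral_const_mul, integral_mul_const,
      integral_const, probReal_univ, one_smul, ← hA]
    simp only [← sq]
    ring
  have hG0 : c ^ (k + 1) ≤ G / m ^ (k + 1) := by
    have hJ := (convexOn_pow (𝕜 := ℝ) (k + 1)).map_integral_le (μ := μ) (f := b)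
      (continuous_pow (k + 1)).continuousOn isClosed_Ici (ae_of_all _ hb)
      ((ig 2).div_const m) (((ig (2 * (k + 1))).div_const (m ^ (k + 1))).congr
        (ae_of_all _ fun x => by simp [b, div_pow, pow_mul]))
    simp only [b, div_pow, ← pow_mul, integral_div] at hJ
    simpa [c, G, div_pow] using hJ
  have h1 : (∫ x, p x ^ (k + 1) ∂μ) ^ 2 ≤ X / 4 + 4 ^ k * (G / m ^ (k + 1)) := by
    have hu := sq_integral_mul_le (μ := μ) (u := p) (v := fun x => p x ^ k) (ip 2)
      ((ip (2 * k)).congr (ae_of_all _ fun x => by show p x ^ (2 * k) = (p x ^ k) ^ 2; ring))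
      ((ip (k + 1)).congr (ae_of_all _ fun x => by show p x ^ (k + 1) = p x * p x ^ k; ring))
    simp only [← pow_succ', ← pow_mul] at hu
    refine (hu.trans (mul_le_mul_of_nonneg_right hvar
      (integral_nonneg fun x => Even.pow_nonneg ⟨k, by ring⟩ _))).trans ?_
    have h2 : ∫ x, p x ^ (k * 2) * c ∂μ ≤ X / 4 + 4 ^ k * c ^ (k + 1) := by
      refine (integral_mono ((ip _).mul_const c) (((ip (2 * (k + 1))).div_const 4).add
        (integrable_const (4 ^ k * c ^ (k + 1)))) fun x => ?_).trans (le_of_eq ?_)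
      · have := young_pow (sq_nonneg (p x)) hc0 (show (0:ℝ) < 4 by norm_num) k
        rwa [← pow_mul, ← pow_mul, mul_comm 2 k] at this
      · rw [integral_add' ((ip _).div_const 4) (integrable_const _), integral_div, integral_const,
          probReal_univ, one_smul]
    rw [mul_comm, ← integral_mul_const]
    exact h2.trans (by linarith [mul_le_mul_of_nonneg_left hG0 (show (0:ℝ) ≤ 4 ^ k by positivity)])
  -- the gradient term
  set J := ((k:ℝ) + 1) ^ 2 with hJ
  have hJ0 : 0 < J := by positivity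
  have h2 : ∫ x, J * (p x ^ (2 * k) * b x) ∂μ ≤ X / 4 + J * (4 * J) ^ k * (G / m ^ (k + 1)) := by
    refine (integral_mono ?_ (((ip (2 * (k + 1))).div_const 4).add
      (((ig (2 * (k + 1))).div_const (m ^ (k + 1))).const_mul (J * (4 * J) ^ k)))
      fun x => ?_).trans (le_of_eq ?_)
    · exact (((hp.pow (2 * k)).mul ((hg.pow 2).mul (Poly.const m⁻¹))).integrable hW
        ((hpc.pow _).mul ((hgc.norm.pow 2).mul continuous_const))).const_mul J
    · have := mul_le_mul_of_nonneg_left
        (young_pow (sq_nonneg (p x)) (hb x) (show 0 < 4 * J by positivity) k) hJ0.le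
      rw [← pow_mul, ← pow_mul] at this
      simp only [b, div_pow, ← pow_mul, Pi.add_apply] at this ⊢
      refine this.trans (le_of_eq ?_)
      field_simp
    · rw [integral_add' ((ip _).div_const 4) (((ig _).div_const _).const_mul _), integral_div,
        integral_const_mul, integral_div]
  -- Poincaré for the power
  obtain ⟨K', N', -, hK'⟩ := ((Poly.const ((k:ℝ) + 1)).mul (hp.pow k)).mul hg
  have hP := poincare_aux hW (f := fun x => p x ^ (k + 1))
    (gf := fun x => (((k:ℝ) + 1) * p x ^ k) • gf x) ((continuous_const.mul (hpc.pow k)).smul hgc)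
    (fun x => by
      rw [hasGradientAt_iff_hasFDerivAt]
      refine (((hasGradientAt_iff_hasFDerivAt.1 (hgrad x)).sub_const A).pow (k + 1)).congr_fderiv ?_
      ext v
      simp [p])
    (K := K') (N := N') (fun x => by
      rw [norm_smul, Real.norm_eq_abs]
      simpa [abs_mul] using hK' x)
  rw [cov'] at hP
  simp only [← pow_add, norm_smul, mul_pow, Real.norm_eq_abs, sq_abs] at hP
  have e1 : ∀ x, p x ^ (k + 1 + (k + 1)) = p x ^ (2 * (k + 1)) := fun x => by congr 1; ring
  simp only [e1, ← sq] at hP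
  have e2 : (∫ x, (((k:ℝ) + 1) ^ 2 * (p x ^ k) ^ 2) * ‖gf x‖ ^ 2 ∂μ) / m =
      ∫ x, J * (p x ^ (2 * k) * b x) ∂μ := by
    rw [← integral_div]
    refine integral_congr_ae (ae_of_all _ fun x => ?_)
    simp only [b, hJ, pow_mul']
    field_simp
  rw [e2] at hP
  have hfinal : X ≤ 2 * ((4:ℝ) ^ k + J * (4 * J) ^ k) * (G / m ^ (k + 1)) := by linarith
  refine hfinal.trans (le_of_eq ?_)
  field_simp

end LogConcave

open LogConcave

theorem gibbsProb : GibbsProb := fun _ _ _ _ hW =>
  ⟨isProb hW, fun N => (Poly.of_le (A := 1) (N := N) fun x => by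
    rw [abs_of_nonneg (by positivity), one_mul]).integrable hW
      ((continuous_const.add continuous_norm).pow N)⟩

theorem poincare : Poincare := fun _ _ _ _ hW _ _ hgc hgrad _ _ hK =>
  poincare_aux hW hgc hgrad hK

theorem centralMoments : CentralMoments := by
  intro j hj
  obtain ⟨k, rfl⟩ : ∃ k, j = k + 1 := ⟨j - 1, by omega⟩
  exact ⟨2 * (4 ^ k + ((k:ℝ) + 1) ^ 2 * (4 * ((k:ℝ) + 1) ^ 2) ^ k), by positivity,
    fun _ _ _ _ hW _ _ hgc hgrad _ _ hK => moments_aux hW k hgc hgrad hK⟩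

end Vale.Agent.P347
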