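import Vale.Agent.P347.Interface
import Vale.Agent.P226.GeomLaw

/-!
P347: densities of the tilted Gaussian laws, differentiation in the tilting parameter and moments.
-/

namespace Vale.Agent.P347.Tilt

open MeasureTheory ProbabilityTheory Filter Topology
open scoped RealInnerProductSpace

variable {d : ℕ} {U : E d → ℝ} {g : E d → E d}

lemma one_le_pow_norm (N : ℕ) (z : E d) : 1 ≤ (1 + ‖z‖) ^ N :=
  one_le_pow₀ (le_add_of_nonneg_right (norm_nonneg z))

lemma pow_le_exp (N : ℕ) (z : E d) : (1 + ‖z‖) ^ N ≤ Real.exp (N * ‖z‖) := by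
  rw [Real.exp_nat_mul]
  exact pow_le_pow_left₀ (by positivity) (by linarith [Real.add_one_le_exp ‖z‖]) N

lemma integrable_poly_exp {a : ℝ} (ha : 0 < a) (b : ℝ) (N : ℕ) :
    Integrable fun z : E d => (1 + ‖z‖) ^ N * Real.exp (b * ‖z‖ - a * ‖z‖ ^ 2) := by
  have hg : Integrable fun z : E d => Real.exp (-(a / 2) * ‖z‖ ^ 2) := by
    have h := (GaussianFourier.integrable_cexp_neg_mul_sq_norm_add (V := E d)
      (b := ((a / 2 : ℝ) : ℂ)) (by simpa using ha) 0 0).norm
    simp only [Complex.norm_exp, zero_mul, add_zero] at h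
    refine h.congr (Eventually.of_forall fun z => ?_)
    simp only [← Complex.ofReal_pow, ← Complex.ofReal_neg, ← Complex.ofReal_mul, Complex.ofReal_re]
  refine (hg.const_mul (Real.exp (((N:ℝ) + b) ^ 2 / (2 * a)))).mono'
    (Continuous.aestronglyMeasurable (by fun_prop)) (Eventually.of_forall fun z => ?_)
  rw [Real.norm_of_nonneg (by positivity), ← Real.exp_add]
  refine (mul_le_mul_of_nonneg_right (pow_le_exp N z) (Real.exp_pos _).le).trans ?_
  rw [← Real.exp_add]
  refine Real.exp_le_exp.2 ?_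
  have h := div_nonneg (sq_nonneg (a * ‖z‖ - ((N:ℝ) + b))) (mul_nonneg zero_le_two ha.le)
  have e : (a * ‖z‖ - ((N:ℝ) + b)) ^ 2 / (2 * a) =
      a / 2 * ‖z‖ ^ 2 - ((N:ℝ) + b) * ‖z‖ + ((N:ℝ) + b) ^ 2 / (2 * a) := by field_simp; ring
  rw [e] at h
  linarith

/-! ### Bounds on a potential -/

lemma pot_taylor (h : Pot U g) (z : E d) :
    U 0 + ⟪g 0, z⟫ ≤ U z ∧ U z ≤ U 0 + ⟪g 0, z⟫ + ‖z‖ ^ 2 := by
  set f : ℝ → ℝ := fun t => U (t • z) - t * ⟪g 0, z⟫ with hf
  have hd : ∀ t, HasDerivAt f (⟪g (t • z) - g 0, z⟫) t := fun t => by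
    have hl : HasDerivAt (fun t : ℝ => t • z) z t := by simpa using (hasDerivAt_id t).smul_const z
    have h1 : HasDerivAt (fun t => U (t • z)) (⟪g (t • z), z⟫) t := by
      have h0 := (h.grad (t • z)).hasFDerivAt.comp_hasDerivAt t hl
      simpa [InnerProductSpace.toDual_apply_apply, Function.comp_def] using h0
    have h2 := h1.sub ((hasDerivAt_id t).mul_const ⟪g 0, z⟫)
    refine (h2.congr_deriv ?_)
    simp [inner_sub_left]
  obtain ⟨t, ht, he⟩ := exists_hasDerivAt_eq_slope f (fun t => ⟪g (t • z) - g 0, z⟫) zero_lt_one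
    (fun t _ => (hd t).continuousAt.continuousWithinAt) fun t _ => hd t
  simp only [hf, one_smul, zero_smul, one_mul, zero_mul, sub_zero, div_one] at he
  have h0 : 0 ≤ ⟪g (t • z) - g 0, z⟫ := by
    have := h.mono (t • z) 0
    rw [sub_zero, real_inner_smul_right] at this
    exact (mul_nonneg_iff_of_pos_left ht.1).1 this
  have h1 : ⟪g (t • z) - g 0, z⟫ ≤ ‖z‖ ^ 2 := by
    refine (real_inner_le_norm _ _).trans ?_
    rw [sq]
    refine mul_le_mul_of_nonneg_right ?_ (norm_nonneg z)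
    have := h.lip.dist_le_mul (t • z) 0
    simp only [dist_eq_norm, NNReal.coe_one, one_mul, sub_zero, norm_smul,
      Real.norm_of_nonneg ht.1.le] at this
    exact this.trans (mul_le_of_le_one_left (norm_nonneg z) ht.2.le)
  constructor <;> linarith

/-- The size of a potential at the origin. -/
noncomputable def base (U : E d → ℝ) (g : E d → E d) : ℝ := |U 0| + ‖g 0‖

lemma base_nonneg (U : E d → ℝ) (g : E d → E d) : 0 ≤ base U g := by unfold base; positivity

lemma pot_two_sided (h : Pot U g) (z : E d) :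
    -(base U g * (1 + ‖z‖)) ≤ U z ∧ U z ≤ base U g * (1 + ‖z‖) + ‖z‖ ^ 2 := by
  obtain ⟨h1, h2⟩ := pot_taylor h z
  have h3 := abs_le.1 (abs_real_inner_le_norm (g 0) z)
  have h4 := abs_le.1 (le_refl |U 0|)
  have h5 : base U g * (1 + ‖z‖) = |U 0| + ‖g 0‖ * ‖z‖ + (|U 0| * ‖z‖ + ‖g 0‖) := by
    unfold base; ring
  have h6 : 0 ≤ |U 0| * ‖z‖ + ‖g 0‖ := by positivity
  constructor <;> linarith

lemma pot_abs (h : Pot U g) (z : E d) : |U z| ≤ (base U g + 1) * (1 + ‖z‖) ^ 2 := by
  obtain ⟨h1, h2⟩ := pot_two_sided h z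
  have hb := base_nonneg U g
  have hn := norm_nonneg z
  rw [abs_le]
  constructor <;> nlinarith [mul_nonneg hb hn, mul_nonneg hb (sq_nonneg ‖z‖)]

lemma norm_grad_le (h : Pot U g) (z : E d) : ‖g z‖ ≤ ‖g 0‖ + ‖z‖ := by
  have := h.lip.dist_le_mul z 0
  simp only [dist_eq_norm, NNReal.coe_one, one_mul, sub_zero] at this
  linarith [norm_le_norm_add_norm_sub' (g z) (g 0)]

lemma cont_pot (h : Pot U g) : Continuous U := h.contDiff.continuous

/-! ### The density -/

/-- The unnormalised density of `tilt U t`. -/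
noncomputable def wt (U : E d → ℝ) (t : ℝ) (z : E d) : ℝ := Real.exp (-(‖z‖ ^ 2 / 2 + t * U z))

/-- An unnormalised integral. -/
noncomputable def num (U : E d → ℝ) (t : ℝ) (ψ : E d → ℝ) : ℝ := ∫ z, ψ z * wt U t z

/-- The normalising constant. -/
noncomputable def zc (U : E d → ℝ) (t : ℝ) : ℝ := num U t fun _ => 1

lemma wt_le (h : Pot U g) {t T : ℝ} (ht : -(1 / 4) ≤ t) (hT : t ≤ T) (hT0 : 0 ≤ T) (z : E d) :
    wt U t z ≤ Real.exp ((T + 1) * base U g) *
      Real.exp ((T + 1) * base U g * ‖z‖ - 1 / 4 * ‖z‖ ^ 2) := by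
  rw [wt, ← Real.exp_add, Real.exp_le_exp]
  obtain ⟨h1, h2⟩ := pot_two_sided h z
  have hb := mul_nonneg (base_nonneg U g) (show (0:ℝ) ≤ 1 + ‖z‖ by positivity)
  rcases le_or_gt 0 t with h0 | h0
  · nlinarith [sq_nonneg ‖z‖]
  · nlinarith [sq_nonneg ‖z‖]

lemma cont_wt (h : Pot U g) (t : ℝ) : Continuous (wt U t) := by
  have := cont_pot h
  unfold wt; fun_prop

lemma wt_pos (U : E d → ℝ) (t : ℝ) (z : E d) : 0 < wt U t z := Real.exp_pos _

lemma integrable_wt (h : Pot U g) {t : ℝ} (ht : -(1 / 4) ≤ t) {ψ : E d → ℝ} {K : ℝ} {N : ℕ}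
    (hm : Measurable ψ) (hψ : ∀ z, |ψ z| ≤ K * (1 + ‖z‖) ^ N) :
    Integrable fun z => ψ z * wt U t z := by
  set B := (|t| + 1) * base U g
  refine ((integrable_poly_exp (show (0:ℝ) < 1 / 4 by norm_num) B N).const_mul
    (K * Real.exp B)).mono' (hm.mul (cont_wt h t).measurable).aestronglyMeasurable
    (Eventually.of_forall fun z => ?_)
  rw [norm_mul, Real.norm_eq_abs, Real.norm_of_nonneg (wt_pos U t z).le]
  calc |ψ z| * wt U t z ≤ (K * (1 + ‖z‖) ^ N) *
        (Real.exp B * Real.exp (B * ‖z‖ - 1 / 4 * ‖z‖ ^ 2)) :=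
        mul_le_mul (hψ z) (wt_le h ht (le_abs_self t) (abs_nonneg t) z) (wt_pos U t z).le
          ((abs_nonneg _).trans (hψ z))
    _ = _ := by ring

lemma integrable_wt_one (h : Pot U g) {t : ℝ} (ht : -(1 / 4) ≤ t) :
    Integrable fun z => wt U t z := by
  simpa using integrable_wt h ht (ψ := fun _ => (1:ℝ)) (K := 1) (N := 0) measurable_const (by simp)

lemma zc_pos (h : Pot U g) {t : ℝ} (ht : -(1 / 4) ≤ t) : 0 < zc U t := by
  simp only [zc, num, one_mul]
  refine (integral_pos_iff_support_of_nonneg (fun z => (wt_pos U t z).le) (integrable_wt_one h ht)).2 ?_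
  rw [show Function.support (wt U t) = Set.univ from
    Set.eq_univ_of_forall fun z => (wt_pos U t z).ne']
  exact isOpen_univ.measure_pos _ ⟨0, trivial⟩

lemma tilt_eq (h : Pot U g) {t : ℝ} (ht : -(1 / 4) ≤ t) :
    tilt U t = (ENNReal.ofReal (zc U t))⁻¹ •
      volume.withDensity fun z => ENNReal.ofReal (wt U t z) := by
  rw [tilt, gibbs, zc, num]
  simp only [one_mul]
  rw [ofReal_integral_eq_lintegral_ofReal (integrable_wt_one h ht)
    (Eventually.of_forall fun z => (wt_pos U t z).le)]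
  rfl

lemma integral_tilt (h : Pot U g) {t : ℝ} (ht : -(1 / 4) ≤ t) (ψ : E d → ℝ) :
    ∫ z, ψ z ∂tilt U t = num U t ψ / zc U t := by
  rw [tilt_eq h ht, integral_smul_measure, integral_withDensity_eq_integral_toReal_smul
    (cont_wt h t).measurable.ennreal_ofReal (Eventually.of_forall fun z => ENNReal.ofReal_lt_top)]
  rw [ENNReal.toReal_inv, ENNReal.toReal_ofReal (zc_pos h ht).le, div_eq_inv_mul, num, smul_eq_mul]
  congr 1
  refine integral_congr_ae (Eventually.of_forall fun z => ?_)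
  simp [ENNReal.toReal_ofReal (wt_pos U t z).le, mul_comm]

lemma integrable_tilt (h : Pot U g) {t : ℝ} (ht : -(1 / 4) ≤ t) {ψ : E d → ℝ} {K : ℝ} {N : ℕ}
    (hm : Measurable ψ) (hψ : ∀ z, |ψ z| ≤ K * (1 + ‖z‖) ^ N) : Integrable ψ (tilt U t) := by
  rw [tilt_eq h ht]
  refine Integrable.smul_measure ?_ (ENNReal.inv_ne_top.2 (ENNReal.ofReal_pos.2 (zc_pos h ht)).ne')
  rw [integrable_withDensity_iff_integrable_smul' (cont_wt h t).measurable.ennreal_ofReal
    (Eventually.of_forall fun z => ENNReal.ofReal_lt_top)]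
  refine (integrable_wt h ht hm hψ).congr (Eventually.of_forall fun z => ?_)
  simp [ENNReal.toReal_ofReal (wt_pos U t z).le, mul_comm]

lemma tilt_zero (U : E d → ℝ) : tilt U 0 = gam d := by
  have hu : ∫⁻ x : E d, ENNReal.ofReal (P226.Geo.rad d ‖x‖) = 1 := by
    have h : stdGaussian (E d) Set.univ = 1 := measure_univ
    rw [show stdGaussian (E d) = _ from P226.Geo.gam_eq_withDensity d,
      withDensity_apply _ MeasurableSet.univ, Measure.restrict_univ] at h
    exact h
  set c : ℝ := (Real.sqrt (2 * Real.pi))⁻¹ ^ d with hc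
  have hc0 : 0 < c := by positivity
  set f : E d → ENNReal := fun z => ENNReal.ofReal (Real.exp (-(‖z‖ ^ 2 / 2))) with hf
  have hm : Measurable f := by rw [hf]; fun_prop
  have hr : (fun x : E d => ENNReal.ofReal (P226.Geo.rad d ‖x‖)) = ENNReal.ofReal c • f := by
    funext x
    simp only [hf, P226.Geo.rad, Pi.smul_apply, smul_eq_mul, ← hc]
    rw [neg_div, ENNReal.ofReal_mul hc0.le]
  have hI : ENNReal.ofReal c * ∫⁻ x, f x = 1 := by
    rw [← lintegral_const_mul _ hm, ← hu, hr]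
    rfl
  rw [tilt, gibbs, gam, show stdGaussian (E d) = _ from P226.Geo.gam_eq_withDensity d, hr,
    withDensity_smul _ hm]
  simp only [zero_mul, add_zero]
  congr 1
  exact (ENNReal.eq_inv_of_mul_eq_one_left hI).symm

lemma num_zero_eq (h : Pot U g) (ψ : E d → ℝ) : ∫ z, ψ z ∂gam d = num U 0 ψ / zc U 0 := by
  rw [← tilt_zero U, integral_tilt h (by norm_num)]

/-! ### Dependence on the parameter -/

lemma hasDerivAt_num (h : Pot U g) {ε u₀ δ : ℝ} (hδ : 0 < δ) (hεδ : |ε| * δ ≤ 1 / 4)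
    (hu₀ : 0 ≤ u₀ * ε) {a a' : ℝ → E d → ℝ} {K : ℝ} {N : ℕ}
    (hm : ∀ u, Measurable (a u)) (hm' : Measurable (a' u₀))
    (hd : ∀ z, ∀ u ∈ Metric.ball u₀ δ, HasDerivAt (fun v => a v z) (a' u z) u)
    (hb : ∀ z, ∀ u ∈ Metric.ball u₀ δ, |a u z| ≤ K * (1 + ‖z‖) ^ N)
    (hb' : ∀ z, ∀ u ∈ Metric.ball u₀ δ, |a' u z| ≤ K * (1 + ‖z‖) ^ N) :
    HasDerivAt (fun u => num U (u * ε) (a u))
      (num U (u₀ * ε) fun z => a' u₀ z - ε * U z * a u₀ z) u₀ := by
  set T := u₀ * ε + 1 / 4 with hT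
  set B := (T + 1) * base U g
  have hrange : ∀ u ∈ Metric.ball u₀ δ, -(1 / 4) ≤ u * ε ∧ u * ε ≤ T := by
    intro u hu
    rw [Metric.mem_ball, Real.dist_eq] at hu
    have h1 : |u * ε - u₀ * ε| ≤ 1 / 4 := by
      rw [← sub_mul, abs_mul, mul_comm]
      exact (mul_le_mul_of_nonneg_left hu.le (abs_nonneg ε)).trans hεδ
    have := abs_le.1 h1
    constructor <;> linarith
  have hK0 : ∀ z : E d, 0 ≤ K * (1 + ‖z‖) ^ N := fun z =>
    (abs_nonneg _).trans (hb z u₀ (Metric.mem_ball_self hδ))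
  have hmU := (cont_pot h).measurable
  have hder : ∀ z, ∀ u ∈ Metric.ball u₀ δ,
      HasDerivAt (fun v => a v z * wt U (v * ε) z)
        ((a' u z - ε * U z * a u z) * wt U (u * ε) z) u := by
    intro z u hu
    have h1 : HasDerivAt (fun v => wt U (v * ε) z) (wt U (u * ε) z * (-(ε * U z))) u := by
      have h2 := (((hasDerivAt_id u).mul_const ε).mul_const (U z)).const_add (‖z‖ ^ 2 / 2)
      simpa [wt] using h2.neg.exp
    refine ((hd z u hu).mul h1).congr_deriv ?_
    ring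
  refine (hasDerivAt_integral_of_dominated_loc_of_deriv_le
    (bound := fun z => K * (1 + |ε| * (base U g + 1)) * Real.exp B *
      ((1 + ‖z‖) ^ (N + 2) * Real.exp (B * ‖z‖ - 1 / 4 * ‖z‖ ^ 2)))
    (F := fun u z => a u z * wt U (u * ε) z) (Metric.ball_mem_nhds u₀ hδ)
    (Eventually.of_forall fun u => ((hm u).mul (cont_wt h _).measurable).aestronglyMeasurable)
    (integrable_wt h (hrange u₀ (Metric.mem_ball_self hδ)).1 (hm u₀)
      fun z => hb z u₀ (Metric.mem_ball_self hδ))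
    (((hm'.sub (((measurable_const.mul hmU)).mul (hm u₀))).mul
      (cont_wt h _).measurable).aestronglyMeasurable)
    (Eventually.of_forall fun z u hu => ?_)
    ((integrable_poly_exp (show (0:ℝ) < 1 / 4 by norm_num) B (N + 2)).const_mul _)
    (Eventually.of_forall fun z => hder z)).2
  rw [norm_mul, Real.norm_eq_abs, Real.norm_of_nonneg (wt_pos U _ z).le]
  have h1 : |a' u z - ε * U z * a u z| ≤
      K * (1 + |ε| * (base U g + 1)) * (1 + ‖z‖) ^ (N + 2) := by
    calc |a' u z - ε * U z * a u z| ≤ |a' u z| + |ε| * |U z| * |a u z| := by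
          rw [← abs_mul, ← abs_mul]; exact abs_sub _ _
      _ ≤ K * (1 + ‖z‖) ^ N * (1 + ‖z‖) ^ 2 +
          |ε| * ((base U g + 1) * (1 + ‖z‖) ^ 2) * (K * (1 + ‖z‖) ^ N) := by
          refine add_le_add ((hb' z u hu).trans
            (le_mul_of_one_le_right (hK0 z) (one_le_pow_norm 2 z))) ?_
          exact mul_le_mul (mul_le_mul_of_nonneg_left (pot_abs h z) (abs_nonneg ε)) (hb z u hu)
            (abs_nonneg _) (by have := base_nonneg U g; positivity)
      _ = _ := by ring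
  calc |a' u z - ε * U z * a u z| * wt U (u * ε) z
      ≤ (K * (1 + |ε| * (base U g + 1)) * (1 + ‖z‖) ^ (N + 2)) *
          (Real.exp B * Real.exp (B * ‖z‖ - 1 / 4 * ‖z‖ ^ 2)) :=
        mul_le_mul h1 (wt_le h (hrange u hu).1 (hrange u hu).2 (by linarith) z) (wt_pos U _ z).le
          ((abs_nonneg _).trans h1)
    _ = _ := by ring

lemma continuousOn_num (h : Pot U g) {ε : ℝ} (hε : 0 ≤ ε) {a : ℝ → E d → ℝ} {K : ℝ} {N : ℕ}
    (ha : Continuous fun p : ℝ × E d => a p.1 p.2)
    (hb : ∀ z, ∀ u ∈ Set.Icc (0:ℝ) 1, |a u z| ≤ K * (1 + ‖z‖) ^ N) :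
    ContinuousOn (fun u => num U (u * ε) (a u)) (Set.Icc 0 1) := by
  set B := (ε + 1) * base U g
  have hK0 : ∀ z : E d, 0 ≤ K * (1 + ‖z‖) ^ N := fun z =>
    (abs_nonneg _).trans (hb z 0 (Set.left_mem_Icc.2 zero_le_one))
  refine continuousOn_of_dominated
    (bound := fun z => K * Real.exp B * ((1 + ‖z‖) ^ N * Real.exp (B * ‖z‖ - 1 / 4 * ‖z‖ ^ 2)))
    (fun u _ => ((ha.comp (continuous_const.prodMk continuous_id)).mul
      (cont_wt h _)).aestronglyMeasurable)
    (fun u hu => Eventually.of_forall fun z => ?_)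
    ((integrable_poly_exp (show (0:ℝ) < 1 / 4 by norm_num) B N).const_mul _)
    (Eventually.of_forall fun z => ?_)
  · rw [norm_mul, Real.norm_eq_abs, Real.norm_of_nonneg (wt_pos U _ z).le]
    calc |a u z| * wt U (u * ε) z ≤ (K * (1 + ‖z‖) ^ N) *
          (Real.exp B * Real.exp (B * ‖z‖ - 1 / 4 * ‖z‖ ^ 2)) :=
          mul_le_mul (hb z u hu) (wt_le h (by nlinarith [hu.1]) (mul_le_of_le_one_left hε hu.2) hε z)
            (wt_pos U _ z).le (hK0 z)
      _ = _ := by ring
  · have h1 : Continuous fun u : ℝ => a u z := ha.comp (continuous_id.prodMk continuous_const)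
    exact (h1.mul (by unfold wt; fun_prop)).continuousOn

/-- The derivative of an expectation in the tilting parameter. -/
lemma hasDerivAt_tilt (h : Pot U g) {t : ℝ} (ht : 0 ≤ t) {ψ : E d → ℝ} {K : ℝ} {N : ℕ}
    (hm : Measurable ψ) (hψ : ∀ z, |ψ z| ≤ K * (1 + ‖z‖) ^ N) :
    HasDerivAt (fun u => ∫ x, ψ x ∂tilt U u) (-cov' (tilt U t) ψ U) t := by
  have hK : 0 ≤ K := by simpa using (abs_nonneg (ψ 0)).trans (hψ 0)
  have hone : ∀ z : E d, (1:ℝ) ≤ 1 * (1 + ‖z‖) ^ 0 := by simp
  have hN := hasDerivAt_num h (ε := 1) (u₀ := t) (δ := 1 / 4) (by norm_num) (by norm_num)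
    (by simpa using ht) (a := fun _ => ψ) (a' := fun _ _ => 0) (fun _ => hm) measurable_const
    (fun z u _ => hasDerivAt_const u (ψ z)) (fun z u _ => hψ z)
    (fun z u _ => by simpa using mul_nonneg hK (show (0:ℝ) ≤ (1 + ‖z‖) ^ N by positivity))
  have hZ := hasDerivAt_num h (ε := 1) (u₀ := t) (δ := 1 / 4) (by norm_num) (by norm_num)
    (by simpa using ht) (a := fun _ _ => (1:ℝ)) (a' := fun _ _ => 0) (fun _ => measurable_const)
    measurable_const (fun z u _ => hasDerivAt_const u (1:ℝ))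
    (K := 1) (N := 0) (fun z u _ => by simp) (fun z u _ => by simp)
  simp only [mul_one, one_mul, zero_sub] at hN hZ
  have hz := zc_pos h (show -(1 / 4) ≤ t by linarith)
  have hq := hN.div hZ (by simpa [zc] using hz.ne')
  refine (hq.congr_of_eventuallyEq ?_).congr_deriv ?_
  · filter_upwards [Ioi_mem_nhds (show -(1 / 4) < t by linarith)] with u hu
    exact integral_tilt h (le_of_lt hu) ψ
  · rw [cov', integral_tilt h (by linarith), integral_tilt h (by linarith),
      integral_tilt h (by linarith)]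
    simp only [num, zc, neg_mul, integral_neg, one_mul] at hz ⊢
    have e : ∀ z, U z * ψ z * wt U t z = ψ z * U z * wt U t z := fun z => by ring
    simp only [e]
    field_simp
    ring

/-- The radial identity for the moments. -/
lemma moment_step (h : Pot U g) {t Λ : ℝ} (ht : 0 ≤ t) (ht1 : t ≤ 1) (hΛ : ‖g 0‖ ≤ Λ) (j : ℕ) :
    num U t (fun z => ‖z‖ ^ (2 * (j + 1))) ≤
      (2 * ((d:ℝ) + 2 * j) + Λ ^ 2) * num U t (fun z => ‖z‖ ^ (2 * j)) := by
  set P : E d → ℝ := fun z => ‖z‖ ^ (2 * j) with hP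
  set T : E d → ℝ := fun z => ‖z‖ ^ 2 + t * ⟪g z, z⟫ with hT
  have hPm : Measurable P := by rw [hP]; fun_prop
  have hgc : Continuous g := h.lip.continuous
  have hPb : ∀ z : E d, |P z| ≤ 1 * (1 + ‖z‖) ^ (2 * j) := fun z => by
    rw [abs_of_nonneg (by positivity), one_mul]
    exact pow_le_pow_left₀ (norm_nonneg z) (by linarith) _
  have hG : ∀ l : ℝ, 0 < l →
      ∫ z, P z * wt U t (l • z) = (l ^ (d + 2 * j))⁻¹ * num U t P := by
    intro l hl
    have h1 : (fun z => P z * wt U t (l • z)) =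
        fun z => (l ^ (2 * j))⁻¹ * (fun y => P y * wt U t y) (l • z) := by
      funext z
      simp only [hP, norm_smul, Real.norm_of_nonneg hl.le, mul_pow]
      field_simp
    rw [h1, integral_const_mul, Measure.integral_comp_smul volume (fun y => P y * wt U t y) l,
      finrank_euclideanSpace_fin, abs_of_pos (by positivity), smul_eq_mul, num, pow_add]
    field_simp
  set C := 2 + t * (‖g 0‖ + 2)
  have hder := (hasDerivAt_integral_of_dominated_loc_of_deriv_le
    (bound := fun z => C * Real.exp ((t + 1) * base U g) * ((1 + ‖z‖) ^ (2 * j + 2) *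
      Real.exp (2 * ((t + 1) * base U g) * ‖z‖ - 1 / 16 * ‖z‖ ^ 2)))
    (F := fun l z => P z * wt U t (l • z)) (x₀ := (1:ℝ))
    (F' := fun l z => P z * (wt U t (l • z) * (-(l * ‖z‖ ^ 2 + t * ⟪g (l • z), z⟫))))
    (Metric.ball_mem_nhds 1 (show (0:ℝ) < 1 / 2 by norm_num))
    (Eventually.of_forall fun l => (hPm.mul ((cont_wt h t).comp
      (continuous_const_smul l)).measurable).aestronglyMeasurable)
    (by simpa using integrable_wt h (by linarith) hPm hPb)
    ((hPm.mul (Continuous.measurable (by have := cont_wt h t; fun_prop))).aestronglyMeasurable)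
    (Eventually.of_forall fun z l hl => ?_)
    ((integrable_poly_exp (show (0:ℝ) < 1 / 16 by norm_num) _ _).const_mul _)
    (Eventually.of_forall fun z l hl => ?_)).2
  · have hpow : HasDerivAt (fun l : ℝ => (l ^ (d + 2 * j))⁻¹ * num U t P)
        (-((d:ℝ) + 2 * j) * num U t P) 1 := by
      have := ((hasDerivAt_pow (d + 2 * j) (1:ℝ)).inv (by norm_num)).mul_const (num U t P)
      simpa using this
    have hev : (fun l => ∫ z, P z * wt U t (l • z)) =ᶠ[𝓝 1]
        fun l => (l ^ (d + 2 * j))⁻¹ * num U t P := by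
      filter_upwards [Ioi_mem_nhds (show (0:ℝ) < 1 by norm_num)] with l hl
      exact hG l hl
    have heq := (hder.congr_of_eventuallyEq hev.symm).unique hpow
    have hid : num U t (fun z => P z * T z) = ((d:ℝ) + 2 * j) * num U t P := by
      have e : ∀ z, P z * (wt U t ((1:ℝ) • z) * (-(1 * ‖z‖ ^ 2 + t * ⟪g ((1:ℝ) • z), z⟫))) =
          -(P z * T z * wt U t z) := fun z => by simp only [hT, one_smul]; ring
      simp only [e, integral_neg] at heq
      rw [num]
      linarith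
    have hlow : ∀ z, ‖z‖ ^ (2 * (j + 1)) ≤ 2 * (P z * T z) + Λ ^ 2 * P z := by
      intro z
      have hm : 0 ≤ ⟪g z - g 0, z⟫ := by simpa using h.mono z 0
      rw [inner_sub_left] at hm
      have hi := abs_le.1 (abs_real_inner_le_norm (g 0) z)
      have hn := norm_nonneg z
      have hT2 : ‖z‖ ^ 2 ≤ 2 * T z + Λ ^ 2 := by
        have h3 : -(Λ * ‖z‖) ≤ ⟪g z, z⟫ := by nlinarith [norm_nonneg (g 0)]
        have hL : 0 ≤ Λ := (norm_nonneg _).trans hΛ
        have h4 : -(Λ * ‖z‖) ≤ t * ⟪g z, z⟫ := by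
          nlinarith [mul_le_mul_of_nonneg_left h3 ht, mul_le_mul_of_nonneg_right ht1 (mul_nonneg hL hn)]
        simp only [hT]
        nlinarith [sq_nonneg (‖z‖ - Λ)]
      have hP0 : 0 ≤ P z := by positivity
      calc ‖z‖ ^ (2 * (j + 1)) = P z * ‖z‖ ^ 2 := by simp only [hP]; ring
        _ ≤ P z * (2 * T z + Λ ^ 2) := mul_le_mul_of_nonneg_left hT2 hP0
        _ = _ := by ring
    have hTb : ∀ z, |P z * T z| ≤ C * (1 + ‖z‖) ^ (2 * j + 2) := by
      intro z
      rw [abs_mul, pow_add, ← mul_left_comm]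
      refine mul_le_mul (by simpa using hPb z) ?_ (abs_nonneg _) (by positivity)
      have hn := norm_nonneg z
      have h1 := (abs_real_inner_le_norm (g z) z).trans
        (mul_le_mul_of_nonneg_right (norm_grad_le h z) hn)
      have h2 : |T z| ≤ ‖z‖ ^ 2 + t * ((‖g 0‖ + ‖z‖) * ‖z‖) := by
        simp only [hT]
        refine (abs_add_le _ _).trans ?_
        rw [abs_mul, abs_of_nonneg ht, abs_of_nonneg (sq_nonneg _)]
        linarith [mul_le_mul_of_nonneg_left h1 ht]
      nlinarith [norm_nonneg (g 0), mul_nonneg ht (norm_nonneg (g 0)),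
        mul_nonneg ht hn, mul_nonneg (mul_nonneg ht (norm_nonneg (g 0))) hn]
    have hi1 := integrable_wt h (show -(1 / 4) ≤ t by linarith)
      (hPm.mul (Continuous.measurable (by fun_prop : Continuous T))) hTb
    have hi2 := integrable_wt h (show -(1 / 4) ≤ t by linarith) hPm hPb
    have hmono : num U t (fun z => ‖z‖ ^ (2 * (j + 1))) ≤
        ∫ z, (2 * (P z * T z * wt U t z) + Λ ^ 2 * (P z * wt U t z)) := by
      refine integral_mono_of_nonneg (Eventually.of_forall fun z => by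
        simp only [Pi.zero_apply]; have := wt_pos U t z; positivity)
        ((hi1.const_mul 2).add (hi2.const_mul (Λ ^ 2))) (Eventually.of_forall fun z => ?_)
      have := mul_le_mul_of_nonneg_right (hlow z) (wt_pos U t z).le
      simp only at this ⊢
      linarith
    simp only [Pi.mul_apply] at hi1
    rw [integral_add (hi1.const_mul 2) (hi2.const_mul (Λ ^ 2)), integral_const_mul,
      integral_const_mul] at hmono
    simp only [num] at hid hmono ⊢
    rw [hid] at hmono
    linarith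
  · rw [Metric.mem_ball, Real.dist_eq, abs_lt] at hl
    have hn := norm_nonneg z
    rw [norm_mul, norm_mul, Real.norm_of_nonneg (show 0 ≤ P z by positivity),
      Real.norm_of_nonneg (wt_pos U t _).le, norm_neg, Real.norm_eq_abs]
    have h1 := (abs_real_inner_le_norm (g (l • z)) z).trans
      (mul_le_mul_of_nonneg_right (norm_grad_le h (l • z)) hn)
    rw [norm_smul, Real.norm_of_nonneg (show 0 ≤ l by linarith)] at h1
    have h2 : |l * ‖z‖ ^ 2 + t * ⟪g (l • z), z⟫| ≤ C * (1 + ‖z‖) ^ 2 := by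
      refine (abs_add_le _ _).trans ?_
      rw [abs_mul t, abs_of_nonneg ht, abs_of_nonneg (mul_nonneg (by linarith) (sq_nonneg _))]
      have h3 := mul_le_mul_of_nonneg_left h1 ht
      nlinarith [norm_nonneg (g 0), mul_nonneg ht (norm_nonneg (g 0)), mul_nonneg ht hn,
        mul_nonneg (mul_nonneg ht (norm_nonneg (g 0))) hn, sq_nonneg ‖z‖,
        mul_nonneg ht (sq_nonneg ‖z‖)]
    have h4 : wt U t (l • z) ≤ Real.exp ((t + 1) * base U g) *
        Real.exp (2 * ((t + 1) * base U g) * ‖z‖ - 1 / 16 * ‖z‖ ^ 2) := by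
      refine (wt_le h (show -(1 / 4) ≤ t by linarith) le_rfl ht _).trans ?_
      refine mul_le_mul_of_nonneg_left (Real.exp_le_exp.2 ?_) (Real.exp_pos _).le
      rw [norm_smul, Real.norm_of_nonneg (show 0 ≤ l by linarith), mul_pow]
      have hb : 0 ≤ (t + 1) * base U g * ‖z‖ :=
        mul_nonneg (mul_nonneg (by linarith) (base_nonneg U g)) hn
      have hl2 : 1 / 4 ≤ l ^ 2 := by nlinarith
      nlinarith [mul_le_mul_of_nonneg_left (show l ≤ 2 by linarith) hb,
        mul_le_mul_of_nonneg_right hl2 (sq_nonneg ‖z‖)]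
    calc P z * (wt U t (l • z) * |l * ‖z‖ ^ 2 + t * ⟪g (l • z), z⟫|)
        ≤ (1 + ‖z‖) ^ (2 * j) * ((Real.exp ((t + 1) * base U g) *
          Real.exp (2 * ((t + 1) * base U g) * ‖z‖ - 1 / 16 * ‖z‖ ^ 2)) *
            (C * (1 + ‖z‖) ^ 2)) := by
          refine mul_le_mul (by simpa [abs_of_nonneg (show 0 ≤ P z by positivity)] using hPb z)
            (mul_le_mul h4 h2 (abs_nonneg _) (by positivity))
            (mul_nonneg (wt_pos U t _).le (abs_nonneg _)) (by positivity)
      _ = _ := by ring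
  · rw [Metric.mem_ball, Real.dist_eq, abs_lt] at hl
    have h1 : HasDerivAt (fun l : ℝ => U (l • z)) (⟪g (l • z), z⟫) l := by
      have hlz : HasDerivAt (fun l : ℝ => l • z) z l := by
        simpa using (hasDerivAt_id l).smul_const z
      simpa [InnerProductSpace.toDual_apply_apply, Function.comp_def] using
        (h.grad (l • z)).hasFDerivAt.comp_hasDerivAt l hlz
    have h2 : HasDerivAt (fun l : ℝ => ‖l • z‖ ^ 2 / 2) (l * ‖z‖ ^ 2) l := by
      have he : (fun l : ℝ => ‖l • z‖ ^ 2 / 2) = fun l => l ^ 2 * (‖z‖ ^ 2 / 2) := by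
        funext l; rw [norm_smul, mul_pow, Real.norm_eq_abs, sq_abs]; ring
      rw [he]
      refine ((hasDerivAt_pow 2 l).mul_const (‖z‖ ^ 2 / 2)).congr_deriv ?_
      push_cast; ring
    simpa [wt] using ((h2.add (h1.const_mul t)).neg.exp).const_mul (P z)

/-- The constants of the moment bound. -/
def momentC : ℕ → ℝ
  | 0 => 1
  | j + 1 => (3 + 4 * (j:ℝ)) * momentC j

lemma momentC_nonneg : ∀ j, 0 ≤ momentC j
  | 0 => zero_le_one
  | j + 1 => mul_nonneg (by positivity) (momentC_nonneg j)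

lemma moments (h : Pot U g) {t Λ : ℝ} (hΛd : Real.sqrt d ≤ Λ) (hΛ : ‖g 0‖ ≤ Λ) (ht : 0 ≤ t)
    (ht1 : t ≤ 1) (j : ℕ) : ∫ z, ‖z‖ ^ (2 * j) ∂tilt U t ≤ momentC j * Λ ^ (2 * j) := by
  have hz := zc_pos h (show -(1 / 4) ≤ t by linarith)
  induction j with
  | zero =>
    rw [integral_tilt h (by linarith)]
    simp [momentC, zc, num] at hz ⊢
    rw [div_self hz.ne']
  | succ j ih =>
    have hpos : ∀ i : ℕ, 0 ≤ ∫ z, ‖z‖ ^ i ∂tilt U t := fun i =>
      integral_nonneg fun z => by positivity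
    rcases Nat.eq_zero_or_pos d with hd | hd
    · subst hd
      have : ∀ z : E 0, ‖z‖ ^ (2 * (j + 1)) = 0 := fun z => by
        rw [Subsingleton.elim z 0]; simp
      simp only [this, integral_zero]
      exact mul_nonneg (momentC_nonneg _) (by rw [pow_mul]; positivity)
    · have hd1 : (1:ℝ) ≤ d := by exact_mod_cast hd
      have hL : (d:ℝ) ≤ Λ ^ 2 := by
        have := pow_le_pow_left₀ (Real.sqrt_nonneg _) hΛd 2
        rwa [Real.sq_sqrt (Nat.cast_nonneg d)] at this
      have hs := div_le_div_of_nonneg_right (moment_step h ht ht1 hΛ j) hz.le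
      rw [mul_div_assoc, ← integral_tilt h (by linarith), ← integral_tilt h (by linarith)] at hs
      refine hs.trans ?_
      calc (2 * ((d:ℝ) + 2 * j) + Λ ^ 2) * ∫ z, ‖z‖ ^ (2 * j) ∂tilt U t
          ≤ ((3 + 4 * (j:ℝ)) * Λ ^ 2) * (momentC j * Λ ^ (2 * j)) := by
            refine mul_le_mul ?_ ih (hpos _) (by positivity)
            nlinarith [(Nat.cast_nonneg j : (0:ℝ) ≤ j)]
        _ = _ := by rw [momentC]; ring

theorem tiltFacts : TiltFacts := by
  intro j
  refine ⟨momentC j, momentC_nonneg j, fun d U g h => ⟨tilt_zero U,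
    fun Λ t hd hΛ ht ht1 => moments h hd hΛ ht ht1 j, fun ψ K hm hψ t ht => ?_⟩⟩
  exact (hasDerivAt_tilt h ht hm hψ).hasDerivWithinAt

end Vale.Agent.P347.Tilt
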