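import Vale.Agent.P347.SmoothGauss

/-!
P347 seat: the Gaussian covariance formula by Ornstein-Uhlenbeck interpolation.
-/

namespace Vale.Agent.P347.GaussCov

open MeasureTheory ProbabilityTheory Filter Topology Set
open Vale.Agent.P347.Smooth
open scoped RealInnerProductSpace

variable {m : ℕ}

lemma map_rot {a b : ℝ} (hb : 0 ≤ b) (h : a ^ 2 + b ^ 2 = 1) :
    ((gam m).prod (gam m)).map (fun p : E m × E m => (a • p.1 + b • p.2, -b • p.1 + a • p.2))
      = (gam m).prod (gam m) := by
  have ha : -1 ≤ a ∧ a ≤ 1 := by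
    constructor <;> nlinarith [sq_nonneg b, sq_nonneg (a + 1), sq_nonneg (a - 1)]
  have hc : Real.cos (Real.arccos a) = a := Real.cos_arccos ha.1 ha.2
  have hs : Real.sin (Real.arccos a) = b := by
    rw [Real.sin_arccos, show 1 - a ^ 2 = b ^ 2 by linarith, Real.sqrt_sq hb]
  have hr := IsGaussian.map_rotation_eq_self (μ := stdGaussian (E m))
    (by simp) (Real.arccos a)
  rw [gam_eq]
  refine Eq.trans ?_ hr
  congr 1
  funext p
  simp [ContinuousLinearMap.rotation_apply, hc, hs]

/-- Stein's identity in the direction `b`, for exponentially bounded functions. -/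
lemma stein {Φ : E m → ℝ} {gΦ : E m → E m} (hc : Continuous gΦ)
    (hd : ∀ x, HasGradientAt Φ (gΦ x) x) {C c : ℝ} (hC : 0 ≤ C) (hc0 : 0 ≤ c)
    (h1 : ∀ x, |Φ x| ≤ C * Real.exp (c * ‖x‖)) (h2 : ∀ x, ‖gΦ x‖ ≤ C * Real.exp (c * ‖x‖))
    (b : E m) : ∫ v, Φ v * ⟪b, v⟫ ∂gam m = ∫ v, ⟪gΦ v, b⟫ ∂gam m := by
  have hΦc : Continuous Φ :=
    continuous_iff_continuousAt.2 fun x => (hd x).continuousAt
  have hΦi : Integrable Φ (gam m) := Integrable.mono' ((integrable_exp_norm c).const_mul C)
    hΦc.aestronglyMeasurable (Eventually.of_forall h1)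
  have A := hasDerivAt_integral_of_dominated_loc_of_deriv_le (μ := gam m)
    (F := fun (t : ℝ) v => Φ (v + t • b)) (F' := fun (t : ℝ) v => ⟪gΦ (v + t • b), b⟫) (x₀ := 0)
    (s := Metric.ball 0 1) (bound := fun v => ‖b‖ * (C * Real.exp (c * ‖b‖)) * Real.exp (c * ‖v‖))
    (Metric.ball_mem_nhds _ one_pos)
    (Eventually.of_forall fun t => (hΦc.comp (by fun_prop)).aestronglyMeasurable)
    (by simpa using hΦi)
    (((hc.comp (by fun_prop)).inner continuous_const).aestronglyMeasurable)
    (Eventually.of_forall fun v t ht => by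
      have ht' : ‖t‖ ≤ 1 := (mem_ball_zero_iff.1 ht).le
      have hn : ‖v + t • b‖ ≤ ‖v‖ + ‖b‖ := (norm_add_le _ _).trans
        (add_le_add le_rfl (by
          rw [norm_smul]; exact mul_le_of_le_one_left (norm_nonneg _) ht'))
      rw [Real.norm_eq_abs]
      refine (abs_real_inner_le_norm _ _).trans ?_
      calc ‖gΦ (v + t • b)‖ * ‖b‖ ≤ C * Real.exp (c * (‖v‖ + ‖b‖)) * ‖b‖ := by
            refine mul_le_mul_of_nonneg_right ((h2 _).trans ?_) (norm_nonneg _)
            gcongr
        _ = _ := by rw [mul_add, Real.exp_add]; ring)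
    ((integrable_exp_norm c).const_mul _)
    (Eventually.of_forall fun v t _ => by
      have h := (hasGradientAt_iff_hasFDerivAt.1 (hd (v + t • b))).comp_hasDerivAt t
        (((hasDerivAt_id t).smul_const b).const_add v)
      exact h.congr_deriv (by simp))
  have B := hasDerivAt_integral_of_dominated_loc_of_deriv_le (μ := gam m)
    (F := fun (t : ℝ) v => tw (t • b) v * Φ v)
    (F' := fun (t : ℝ) v => tw (t • b) v * (⟪b, v⟫ - t * ‖b‖ ^ 2) * Φ v) (x₀ := 0)
    (s := Metric.ball 0 1)
    (bound := fun v => (‖b‖ + ‖b‖ ^ 2) * C * Real.exp ((‖b‖ + 1 + c) * ‖v‖))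
    (Metric.ball_mem_nhds _ one_pos)
    (Eventually.of_forall fun t => ((continuous_tw _).mul hΦc).aestronglyMeasurable)
    (by simpa [tw_zero] using hΦi)
    (by simp only [tw, zero_smul, inner_zero_left, zero_mul, norm_zero]; fun_prop)
    (Eventually.of_forall fun v t ht => by
      have ht' : |t| ≤ 1 := by simpa using (mem_ball_zero_iff.1 ht).le
      have e1 : tw (t • b) v ≤ Real.exp (‖b‖ * ‖v‖) := by
        refine Real.exp_le_exp.2 ?_
        have h3 := real_inner_le_norm (t • b) v
        rw [norm_smul, Real.norm_eq_abs] at h3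
        have h4 : |t| * ‖b‖ * ‖v‖ ≤ ‖b‖ * ‖v‖ :=
          mul_le_mul_of_nonneg_right (mul_le_of_le_one_left (norm_nonneg _) ht') (norm_nonneg _)
        have h5 : 0 ≤ ‖t • b‖ ^ 2 / 2 := by positivity
        linarith
      have e2 : |⟪b, v⟫ - t * ‖b‖ ^ 2| ≤ (‖b‖ + ‖b‖ ^ 2) * Real.exp ‖v‖ := by
        have h3 := abs_real_inner_le_norm b v
        have h4 : |t * ‖b‖ ^ 2| ≤ ‖b‖ ^ 2 := by
          rw [abs_mul, abs_of_nonneg (sq_nonneg ‖b‖)]
          exact mul_le_of_le_one_left (sq_nonneg _) ht'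
        have h5 : ‖v‖ ≤ Real.exp ‖v‖ := by linarith [Real.add_one_le_exp ‖v‖]
        have h6 : (1 : ℝ) ≤ Real.exp ‖v‖ := Real.one_le_exp (norm_nonneg _)
        calc _ ≤ |⟪b, v⟫| + |t * ‖b‖ ^ 2| := abs_sub _ _
          _ ≤ ‖b‖ * Real.exp ‖v‖ + ‖b‖ ^ 2 * Real.exp ‖v‖ :=
              add_le_add (h3.trans (mul_le_mul_of_nonneg_left h5 (norm_nonneg _)))
                (h4.trans (le_mul_of_one_le_right (sq_nonneg _) h6))
          _ = _ := by ring
      rw [Real.norm_eq_abs, abs_mul, abs_mul, abs_of_nonneg (tw_nonneg _ v)]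
      calc _ ≤ Real.exp (‖b‖ * ‖v‖) * ((‖b‖ + ‖b‖ ^ 2) * Real.exp ‖v‖) *
            (C * Real.exp (c * ‖v‖)) := by
            gcongr
            exact h1 v
        _ = _ := by rw [add_mul (‖b‖ + 1) c, add_mul ‖b‖ 1, one_mul, Real.exp_add, Real.exp_add]
                    ring)
    ((integrable_exp_norm _).const_mul _)
    (Eventually.of_forall fun v t _ => by
      refine HasDerivAt.mul_const ?_ _
      have h : HasDerivAt (fun t : ℝ => t * ⟪b, v⟫ - t ^ 2 * ‖b‖ ^ 2 / 2)
          (⟪b, v⟫ - t * ‖b‖ ^ 2) t := by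
        refine (((hasDerivAt_id t).mul_const _).sub
          ((((hasDerivAt_pow 2 t).mul_const _)).div_const 2)).congr_deriv ?_
        simp; ring
      refine (h.exp.congr_of_eventuallyEq (Eventually.of_forall fun s => ?_)).congr_deriv ?_
      · simp [tw, real_inner_smul_left, norm_smul, mul_pow]
      · simp [tw, real_inner_smul_left, norm_smul, mul_pow])
  have hu := (A.2.congr_of_eventuallyEq (Eventually.of_forall fun t => by
    simpa using (integral_shift Φ (t • b)).symm)).unique B.2
  simpa [tw_zero, mul_comm] using hu.symm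

/-- The time one point of the rotated pair. -/
noncomputable def co (r : ℝ) : ℝ := Real.exp (-r)

/-- The other coefficient of the rotation. -/
noncomputable def si (r : ℝ) : ℝ := Real.sqrt (1 - Real.exp (-(2 * r)))

lemma ouPt_eq (r : ℝ) (z w : E m) : ouPt r z w = co r • z + si r • w := rfl

lemma co_si {r : ℝ} (hr : 0 ≤ r) :
    co r ^ 2 + si r ^ 2 = 1 ∧ 0 ≤ si r ∧ co r ≤ 1 ∧ si r ≤ 1 ∧ 0 < co r := by
  have h1 : Real.exp (-(2 * r)) ≤ 1 := Real.exp_le_one_iff.2 (by linarith)
  have h2 : co r ^ 2 = Real.exp (-(2 * r)) := by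
    rw [co, ← Real.exp_nat_mul]; push_cast; ring_nf
  have h3 : si r ^ 2 = 1 - Real.exp (-(2 * r)) := Real.sq_sqrt (by linarith)
  refine ⟨by rw [h2, h3]; ring, Real.sqrt_nonneg _, Real.exp_le_one_iff.2 (by linarith), ?_,
    Real.exp_pos _⟩
  exact Real.sqrt_le_one.2 (by linarith [Real.exp_pos (-(2 * r))])

lemma norm_ouPt_le {r : ℝ} (hr : 0 ≤ r) (z w : E m) : ‖ouPt r z w‖ ≤ ‖z‖ + ‖w‖ := by
  obtain ⟨-, h1, h2, h3, h4⟩ := co_si hr
  rw [ouPt_eq]
  refine (norm_add_le _ _).trans (add_le_add ?_ ?_) <;> rw [norm_smul, Real.norm_eq_abs]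
  · exact mul_le_of_le_one_left (norm_nonneg _) (by rwa [abs_of_pos h4])
  · exact mul_le_of_le_one_left (norm_nonneg _) (by rwa [abs_of_nonneg h1])

lemma integrable_exp_pair (a b : ℝ) :
    Integrable (fun p : E m × E m => Real.exp (a * ‖p.1‖) * Real.exp (b * ‖p.2‖))
      ((gam m).prod (gam m)) :=
  (integrable_exp_norm a).mul_prod (integrable_exp_norm b)

lemma exp_bound {K : ℝ} (hK : 0 ≤ K) {r : ℝ} (hr : 0 ≤ r) (z w : E m) :
    K * Real.exp (K * ‖ouPt r z w‖) ≤ K * (Real.exp (K * ‖z‖) * Real.exp (K * ‖w‖)) := by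
  rw [← Real.exp_add, ← mul_add]
  gcongr
  exact norm_ouPt_le hr z w

theorem main {φ ψ : E m → ℝ} {gφ gψ : E m → E m} {K : ℝ}
    (hgφ : Continuous gφ) (hgψ : Continuous gψ)
    (hφ : ∀ x, HasGradientAt φ (gφ x) x) (hψ : ∀ x, HasGradientAt ψ (gψ x) x)
    (b1 : ∀ x, |φ x| ≤ K * Real.exp (K * ‖x‖)) (b2 : ∀ x, ‖gφ x‖ ≤ K * Real.exp (K * ‖x‖))
    (b3 : ∀ x, |ψ x| ≤ K * Real.exp (K * ‖x‖)) (b4 : ∀ x, ‖gψ x‖ ≤ K * Real.exp (K * ‖x‖)) :
    cov' (gam m) φ ψ
      = ∫ r in Set.Ioi (0 : ℝ), Real.exp (-r) * ∫ z, ⟪gφ z, ou r gψ z⟫ ∂gam m := by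
  have hK : 0 ≤ K := by simpa using (abs_nonneg _).trans (b1 0)
  have hφc : Continuous φ := continuous_iff_continuousAt.2 fun x => (hφ x).continuousAt
  have hψc : Continuous ψ := continuous_iff_continuousAt.2 fun x => (hψ x).continuousAt
  have hco : Continuous co := by unfold co; fun_prop
  have hsi : Continuous si := by unfold si; fun_prop
  have hou : Continuous fun q : ℝ × (E m × E m) => ouPt q.1 q.2.1 q.2.2 := by
    simp only [ouPt_eq]; fun_prop
  set μ := (gam m).prod (gam m) with hμ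
  set H : ℝ → ℝ := fun r => ∫ p, φ p.1 * ψ (ouPt r p.1 p.2) ∂μ with hH
  set J : ℝ → ℝ := fun r => ∫ p, ⟪gφ p.1, gψ (ouPt r p.1 p.2)⟫ ∂μ with hJ
  have bH : ∀ r, 0 ≤ r → ∀ p : E m × E m, ‖φ p.1 * ψ (ouPt r p.1 p.2)‖
      ≤ K * K * (Real.exp (2 * K * ‖p.1‖) * Real.exp (K * ‖p.2‖)) := by
    intro r hr p
    rw [Real.norm_eq_abs, abs_mul]
    refine (mul_le_mul (b1 _) ((b3 _).trans (exp_bound hK hr _ _)) (abs_nonneg _)
      (by positivity)).trans_eq ?_
    rw [show 2 * K * ‖p.1‖ = K * ‖p.1‖ + K * ‖p.1‖ by ring, Real.exp_add]; ring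
  have bJ : ∀ r, 0 ≤ r → ∀ p : E m × E m, ‖⟪gφ p.1, gψ (ouPt r p.1 p.2)⟫‖
      ≤ K * K * (Real.exp (2 * K * ‖p.1‖) * Real.exp (K * ‖p.2‖)) := by
    intro r hr p
    refine (abs_real_inner_le_norm _ _).trans ?_
    refine (mul_le_mul (b2 _) ((b4 _).trans (exp_bound hK hr _ _)) (norm_nonneg _)
      (by positivity)).trans_eq ?_
    rw [show 2 * K * ‖p.1‖ = K * ‖p.1‖ + K * ‖p.1‖ by ring, Real.exp_add]; ring
  have hbd := (integrable_exp_pair (m := m) (2 * K) K).const_mul (K * K)
  have hmH : ∀ r, AEStronglyMeasurable (fun p : E m × E m => φ p.1 * ψ (ouPt r p.1 p.2)) μ :=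
    fun r => ((hφc.comp continuous_fst).mul
      (hψc.comp (hou.comp (continuous_const.prodMk continuous_id)))).aestronglyMeasurable
  have hmJ : ∀ r, AEStronglyMeasurable (fun p : E m × E m => ⟪gφ p.1, gψ (ouPt r p.1 p.2)⟫) μ :=
    fun r => ((hgφ.comp continuous_fst).inner
      (hgψ.comp (hou.comp (continuous_const.prodMk continuous_id)))).aestronglyMeasurable
  have hHc : ContinuousOn H (Ici 0) := by
    refine continuousOn_of_dominated (fun r _ => hmH r)
      (fun r hr => Eventually.of_forall (bH r hr)) hbd (Eventually.of_forall fun p => ?_)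
    exact (continuous_const.mul
      (hψc.comp (hou.comp (continuous_id.prodMk continuous_const)))).continuousOn
  have hJc : ContinuousOn J (Ici 0) := by
    refine continuousOn_of_dominated (fun r _ => hmJ r)
      (fun r hr => Eventually.of_forall (bJ r hr)) hbd (Eventually.of_forall fun p => ?_)
    exact (continuous_const.inner
      (hgψ.comp (hou.comp (continuous_id.prodMk continuous_const)))).continuousOn
  have hout : ∀ r, 0 ≤ r → ∫ z, ⟪gφ z, ou r gψ z⟫ ∂gam m = J r := by
    intro r hr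
    rw [hJ]
    simp only
    rw [integral_prod _ (Integrable.mono' hbd (hmJ r) (Eventually.of_forall (bJ r hr)))]
    refine integral_congr_ae (Eventually.of_forall fun z => (integral_inner ?_ (gφ z)).symm)
    refine Integrable.mono' (((integrable_exp_norm (d := m) K).const_mul
      (Real.exp (K * ‖z‖))).const_mul K)
      (hgψ.comp (hou.comp (continuous_const.prodMk
        (continuous_const.prodMk continuous_id)))).aestronglyMeasurable
      (Eventually.of_forall fun w => ?_)
    exact (b4 _).trans (exp_bound hK hr z w)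
  -- derivative
  have hder : ∀ r ∈ Ioi (0 : ℝ), HasDerivAt H (-(Real.exp (-r) * J r)) r := by
    intro r hr
    have hr0 : (0 : ℝ) < r := hr
    obtain ⟨hsum, hb0, -, -, ha0⟩ := co_si hr0.le
    have hsipos : ∀ s, 0 < s → 0 < si s := fun s hs =>
      Real.sqrt_pos.2 (by linarith [Real.exp_lt_one_iff.2 (show -(2 * s) < 0 by linarith)])
    have hder_co : ∀ s, HasDerivAt co (-co s) s := fun s => by
      refine ((hasDerivAt_neg s).exp).congr_deriv ?_
      simp [co]
    have hder_si : ∀ s, 0 < s → HasDerivAt si (co s ^ 2 / si s) s := by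
      intro s hs
      have h0 : 1 - Real.exp (-(2 * s)) ≠ 0 := by
        linarith [Real.exp_lt_one_iff.2 (show -(2 * s) < 0 by linarith)]
      refine (((((hasDerivAt_id s).const_mul 2).neg).exp.const_sub 1).sqrt h0).congr_deriv ?_
      rw [co, ← Real.exp_nat_mul]
      simp only [si, id_eq, Nat.cast_ofNat, Pi.neg_apply, mul_one]
      rw [show (2 : ℝ) * -s = -(2 * s) by ring]
      field_simp
    set V : ℝ → E m × E m → E m := fun s p => -si s • p.1 + co s • p.2 with hV
    have hderp : ∀ s, 0 < s → ∀ p : E m × E m,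
        HasDerivAt (fun s => ouPt s p.1 p.2) ((co s / si s) • V s p) s := by
      intro s hs p
      refine (((hder_co s).smul_const p.1).add ((hder_si s hs).smul_const p.2)).congr_deriv ?_
      simp only [hV, smul_add, smul_smul]
      congr 2
      · field_simp [(hsipos s hs).ne']
      · ring
    have hlow : ∀ s ∈ Ioi (r / 2), co s / si s ≤ 1 / si (r / 2) := by
      intro s hs
      have hs0 : 0 < s := lt_trans (by linarith) (mem_Ioi.1 hs)
      have h1 : si (r / 2) ≤ si s := Real.sqrt_le_sqrt (by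
        have : Real.exp (-(2 * s)) ≤ Real.exp (-(2 * (r / 2))) :=
          Real.exp_le_exp.2 (by linarith [mem_Ioi.1 hs])
        linarith)
      exact div_le_div₀ zero_le_one (co_si hs0.le).2.2.1 (hsipos _ (by linarith)) h1
    have hVb : ∀ s, 0 ≤ s → ∀ p : E m × E m,
        ‖V s p‖ ≤ Real.exp (1 * ‖p.1‖) * Real.exp (1 * ‖p.2‖) := by
      intro s hs p
      obtain ⟨-, h1, h2, h3, h4⟩ := co_si hs
      have : ‖V s p‖ ≤ ‖p.1‖ + ‖p.2‖ := by
        refine (norm_add_le _ _).trans (add_le_add ?_ ?_) <;> rw [norm_smul, Real.norm_eq_abs]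
        · exact mul_le_of_le_one_left (norm_nonneg _) (by rw [abs_neg, abs_of_nonneg h1]; exact h3)
        · exact mul_le_of_le_one_left (norm_nonneg _) (by rw [abs_of_pos h4]; exact h2)
      rw [← Real.exp_add, one_mul, one_mul]
      linarith [Real.add_one_le_exp (‖p.1‖ + ‖p.2‖)]
    have D := hasDerivAt_integral_of_dominated_loc_of_deriv_le (μ := μ)
      (F := fun s p => φ p.1 * ψ (ouPt s p.1 p.2))
      (F' := fun s p => φ p.1 * ((co s / si s) * ⟪gψ (ouPt s p.1 p.2), V s p⟫)) (x₀ := r)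
      (s := Ioi (r / 2))
      (bound := fun p => K * K / si (r / 2) *
        (Real.exp ((2 * K + 1) * ‖p.1‖) * Real.exp ((K + 1) * ‖p.2‖)))
      (Ioi_mem_nhds (by linarith)) (Eventually.of_forall hmH)
      (Integrable.mono' hbd (hmH r) (Eventually.of_forall (bH r hr0.le)))
      (((hφc.comp continuous_fst).mul (continuous_const.mul
        ((hgψ.comp (hou.comp (continuous_const.prodMk continuous_id))).inner
          (by simp only [hV]; fun_prop)))).aestronglyMeasurable)
      (Eventually.of_forall fun p s hs => by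
        have hs0 : 0 < s := lt_trans (by linarith) (mem_Ioi.1 hs)
        obtain ⟨-, h1, -, -, h4⟩ := co_si hs0.le
        have hp : 0 < si (r / 2) := hsipos _ (by linarith)
        rw [Real.norm_eq_abs, abs_mul, abs_mul,
          abs_of_nonneg (div_nonneg h4.le h1)]
        calc |φ p.1| * (co s / si s * |⟪gψ (ouPt s p.1 p.2), V s p⟫|)
            ≤ (K * Real.exp (K * ‖p.1‖)) * ((1 / si (r / 2)) *
              ((K * (Real.exp (K * ‖p.1‖) * Real.exp (K * ‖p.2‖))) *
                (Real.exp (1 * ‖p.1‖) * Real.exp (1 * ‖p.2‖)))) := by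
              refine mul_le_mul (b1 _) (mul_le_mul (hlow s hs)
                ((abs_real_inner_le_norm _ _).trans (mul_le_mul ((b4 _).trans (exp_bound hK hs0.le _ _))
                  (hVb s hs0.le p) (norm_nonneg _) (by positivity))) (abs_nonneg _) (by positivity))
                (mul_nonneg (div_nonneg h4.le h1) (abs_nonneg _)) (by positivity)
          _ = _ := by
              rw [show (2 * K + 1) * ‖p.1‖ = K * ‖p.1‖ + K * ‖p.1‖ + 1 * ‖p.1‖ by ring,
                show (K + 1) * ‖p.2‖ = K * ‖p.2‖ + 1 * ‖p.2‖ by ring, Real.exp_add, Real.exp_add,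
                Real.exp_add]
              ring)
      ((integrable_exp_pair _ _).const_mul _)
      (Eventually.of_forall fun p s hs => by
        have hs0 : 0 < s := lt_trans (by linarith) (mem_Ioi.1 hs)
        refine (((hasGradientAt_iff_hasFDerivAt.1 (hψ _)).comp_hasDerivAt s
          (hderp s hs0 p)).const_mul (φ p.1)).congr_deriv ?_
        simp [real_inner_smul_right])
    refine D.2.congr_deriv ?_
    -- integration by parts after rotating
    set a := co r with hadef
    set b := si r with hbdef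
    have hbpos : 0 < b := hsipos r hr0
    have hrot := map_rot (m := m) hb0 hsum
    set T : E m × E m → E m × E m := fun p => (a • p.1 + b • p.2, -b • p.1 + a • p.2) with hT
    have hTm : Measurable T := by fun_prop
    have hback : ∀ p : E m × E m, a • (T p).1 - b • (T p).2 = p.1 := fun p => by
      simp only [hT, smul_add, smul_smul]
      have hab : a * a + b * b = 1 := by rw [← sq, ← sq]; exact hsum
      calc _ = (a * a + b * b) • p.1 := by module
        _ = p.1 := by rw [hab, one_smul]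
    have e1 : ∫ p, φ p.1 * ⟪gψ (ouPt r p.1 p.2), V r p⟫ ∂μ
        = ∫ q, φ (a • q.1 - b • q.2) * ⟪gψ q.1, q.2⟫ ∂μ := by
      conv_rhs => rw [hμ, ← hrot]
      rw [integral_map hTm.aemeasurable (by fun_prop)]
      refine integral_congr_ae (Eventually.of_forall fun p => ?_)
      simp only
      rw [show a • (a • p.1 + b • p.2) - b • (-b • p.1 + a • p.2) = p.1 from hback p]
      rfl
    have e2 : J r = ∫ q, ⟪gφ (a • q.1 - b • q.2), gψ q.1⟫ ∂μ := by
      conv_rhs => rw [hμ, ← hrot]
      rw [integral_map hTm.aemeasurable (by fun_prop)]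
      refine integral_congr_ae (Eventually.of_forall fun p => ?_)
      simp only
      rw [show a • (a • p.1 + b • p.2) - b • (-b • p.1 + a • p.2) = p.1 from hback p]
      rfl
    have hab1 : |a| ≤ 1 ∧ |b| ≤ 1 := by
      obtain ⟨-, h1, h2, h3, h4⟩ := co_si hr0.le
      exact ⟨by rwa [abs_of_pos h4], by rwa [abs_of_nonneg h1]⟩
    have hline : ∀ q : E m × E m, ‖a • q.1 - b • q.2‖ ≤ ‖q.1‖ + ‖q.2‖ := fun q => by
      refine (norm_sub_le _ _).trans (add_le_add ?_ ?_) <;> rw [norm_smul, Real.norm_eq_abs]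
      · exact mul_le_of_le_one_left (norm_nonneg _) hab1.1
      · exact mul_le_of_le_one_left (norm_nonneg _) hab1.2
    have hexpl : ∀ q : E m × E m, Real.exp (K * ‖a • q.1 - b • q.2‖)
        ≤ Real.exp (K * ‖q.1‖) * Real.exp (K * ‖q.2‖) := fun q => by
      rw [← Real.exp_add, ← mul_add]
      exact Real.exp_le_exp.2 (mul_le_mul_of_nonneg_left (hline q) hK)
    have i1 : Integrable (fun q : E m × E m => φ (a • q.1 - b • q.2) * ⟪gψ q.1, q.2⟫) μ := by
      refine Integrable.mono' ((integrable_exp_pair (m := m) (2 * K) (K + 1)).const_mul (K * K))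
        (by fun_prop) (Eventually.of_forall fun q => ?_)
      rw [Real.norm_eq_abs, abs_mul]
      calc _ ≤ (K * (Real.exp (K * ‖q.1‖) * Real.exp (K * ‖q.2‖))) *
            ((K * Real.exp (K * ‖q.1‖)) * Real.exp (1 * ‖q.2‖)) := by
            refine mul_le_mul ((b1 _).trans (mul_le_mul_of_nonneg_left (hexpl q) hK))
              ((abs_real_inner_le_norm _ _).trans (mul_le_mul (b4 _) ?_ (norm_nonneg _)
                (by positivity))) (abs_nonneg _) (by positivity)
            linarith [Real.add_one_le_exp (1 * ‖q.2‖)]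
        _ = _ := by
            rw [show 2 * K * ‖q.1‖ = K * ‖q.1‖ + K * ‖q.1‖ by ring,
              show (K + 1) * ‖q.2‖ = K * ‖q.2‖ + 1 * ‖q.2‖ by ring, Real.exp_add, Real.exp_add]
            ring
    have i2 : Integrable (fun q : E m × E m => ⟪gφ (a • q.1 - b • q.2), gψ q.1⟫) μ := by
      refine Integrable.mono' hbd (by fun_prop) (Eventually.of_forall fun q => ?_)
      refine (abs_real_inner_le_norm _ _).trans ?_
      calc _ ≤ (K * (Real.exp (K * ‖q.1‖) * Real.exp (K * ‖q.2‖))) * (K * Real.exp (K * ‖q.1‖)) :=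
            mul_le_mul ((b2 _).trans (mul_le_mul_of_nonneg_left (hexpl q) hK)) (b4 _)
              (norm_nonneg _) (by positivity)
        _ = _ := by
            rw [show 2 * K * ‖q.1‖ = K * ‖q.1‖ + K * ‖q.1‖ by ring, Real.exp_add]; ring
    have e3 : ∫ q, φ (a • q.1 - b • q.2) * ⟪gψ q.1, q.2⟫ ∂μ = -b * J r := by
      rw [e2, hμ, integral_prod _ i1, integral_prod _ i2, ← integral_const_mul]
      refine integral_congr_ae (Eventually.of_forall fun u => ?_)
      have hC : 0 ≤ K * Real.exp (K * ‖u‖) := by positivity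
      have hexp : ∀ v, Real.exp (K * ‖a • u - b • v‖) ≤ Real.exp (K * ‖u‖) * Real.exp (K * ‖v‖) :=
        fun v => hexpl (u, v)
      have hd' : ∀ v, HasGradientAt (fun v => φ (a • u - b • v)) ((-b) • gφ (a • u - b • v)) v := by
        intro v
        refine hasGradientAt_iff_hasFDerivAt.2 ?_
        refine ((hasGradientAt_iff_hasFDerivAt.1 (hφ _)).comp v
          (((hasFDerivAt_id v).const_smul b).const_sub (a • u))).congr_fderiv ?_
        ext z
        simp [real_inner_smul_left, real_inner_smul_right, inner_neg_right]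
      have hb1 : ∀ v, ‖(-b) • gφ (a • u - b • v)‖
          ≤ K * Real.exp (K * ‖u‖) * Real.exp (K * ‖v‖) := fun v => by
        rw [norm_smul, Real.norm_eq_abs, abs_neg]
        refine (mul_le_of_le_one_left (norm_nonneg _) hab1.2).trans ((b2 _).trans ?_)
        rw [mul_assoc]
        exact mul_le_mul_of_nonneg_left (hexp v) hK
      have hs := stein (hgφ.comp (by fun_prop) |>.const_smul (-b)) hd' hC hK
        (fun v => (b1 _).trans (by rw [mul_assoc]; exact mul_le_mul_of_nonneg_left (hexp v) hK))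
        hb1 (gψ u)
      simp only at hs ⊢
      rw [hs, ← integral_const_mul]
      exact integral_congr_ae (Eventually.of_forall fun v => by
        simp [real_inner_smul_left])
    have e4 : ∫ p, φ p.1 * (co r / si r * ⟪gψ (ouPt r p.1 p.2), V r p⟫) ∂μ
        = co r / si r * ∫ p, φ p.1 * ⟪gψ (ouPt r p.1 p.2), V r p⟫ ∂μ := by
      rw [← integral_const_mul]
      exact integral_congr_ae (Eventually.of_forall fun p => by ring)
    rw [e4, e1, e3]
    show co r / si r * (-si r * J r) = -(co r * J r)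
    have hne : si r ≠ 0 := (hsipos r hr0).ne'
    field_simp
  -- limit
  have hlim : Tendsto H atTop (𝓝 ((∫ x, φ x ∂gam m) * ∫ x, ψ x ∂gam m)) := by
    rw [← integral_prod_mul φ ψ]
    refine tendsto_integral_filter_of_dominated_convergence
      (fun p => K * K * (Real.exp (2 * K * ‖p.1‖) * Real.exp (K * ‖p.2‖)))
      (Eventually.of_forall hmH) ?_ hbd (Eventually.of_forall fun p => ?_)
    · filter_upwards [eventually_ge_atTop 0] with r hr using Eventually.of_forall (bH r hr)
    · have t1 : Tendsto (fun r : ℝ => Real.exp (-r)) atTop (𝓝 0) :=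
        Real.tendsto_exp_neg_atTop_nhds_zero
      have t2 : Tendsto si atTop (𝓝 1) := by
        have t3 : Tendsto (fun r : ℝ => Real.exp (-(2 * r))) atTop (𝓝 0) :=
          t1.comp (tendsto_id.const_mul_atTop two_pos)
        have := (t3.const_sub 1).sqrt
        rw [sub_zero, Real.sqrt_one] at this
        exact this
      have t4 : Tendsto (fun r => ouPt r p.1 p.2) atTop (𝓝 p.2) := by
        have := (t1.smul_const p.1).add (t2.smul_const p.2)
        simpa [ouPt, si] using this
      exact ((hψc.tendsto _).comp t4).const_mul _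
  have hJint : IntegrableOn (fun r => -(Real.exp (-r) * J r)) (Ioi 0) := by
    refine Integrable.mono' ((integrableOn_exp_neg_Ioi 0).mul_const
      (∫ p, K * K * (Real.exp (2 * K * ‖p.1‖) * Real.exp (K * ‖p.2‖)) ∂μ))
      ((((by fun_prop : Continuous fun r : ℝ => Real.exp (-r)).continuousOn.mul
        (hJc.mono Ioi_subset_Ici_self)).neg).aestronglyMeasurable measurableSet_Ioi) ?_
    filter_upwards [ae_restrict_mem measurableSet_Ioi] with r hr
    rw [Real.norm_eq_abs, abs_neg, abs_mul, Real.abs_exp]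
    refine mul_le_mul_of_nonneg_left ?_ (Real.exp_pos _).le
    exact norm_integral_le_of_norm_le hbd (Eventually.of_forall (bJ r (mem_Ioi.1 hr).le))
  have hFTC := integral_Ioi_of_hasDerivAt_of_tendsto (hHc 0 self_mem_Ici) hder hJint hlim
  have hH0 : H 0 = ∫ x, φ x * ψ x ∂gam m := by
    simp only [hH]
    rw [integral_prod _ (Integrable.mono' hbd (hmH 0) (Eventually.of_forall (bH 0 le_rfl)))]
    exact integral_congr_ae (Eventually.of_forall fun z => by simp [ouPt])
  rw [cov', setIntegral_congr_fun measurableSet_Ioi (g := fun r => Real.exp (-r) * J r)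
    (fun r hr => by rw [hout r (mem_Ioi.1 hr).le])]
  rw [integral_neg, hH0] at hFTC
  linarith

end Vale.Agent.P347.GaussCov

namespace Vale.Agent.P347

theorem gaussCov : GaussCov := fun _ _ _ _ _ _ h1 h2 h3 h4 h5 h6 h7 h8 =>
  GaussCov.main h1 h2 h3 h4 h5 h6 h7 h8

end Vale.Agent.P347
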