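import Vale.Agent.P347.QuadOp
import Vale.Agent.P157.Gauss

/-!
P347: the Ornstein-Uhlenbeck semigroup on Lipschitz fields as symmetric positive contractions.
-/

namespace Vale.Agent.P347.QuadOU

open MeasureTheory ProbabilityTheory
open scoped RealInnerProductSpace NNReal

variable {d : ℕ}

lemma prob_gam (d : ℕ) : IsProbabilityMeasure (gam d) := isProbabilityMeasure_stdGaussian

attribute [local instance] prob_gam

/-- The coefficient `√(1 - e^{-2r})`. -/
noncomputable def sc (r : ℝ) : ℝ := Real.sqrt (1 - Real.exp (-(2 * r)))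

lemma ouPt_eq (r : ℝ) (z w : E d) : ouPt r z w = Real.exp (-r) • z + sc r • w := rfl

lemma sc_sq {r : ℝ} (hr : 0 ≤ r) : sc r ^ 2 = 1 - Real.exp (-(2 * r)) :=
  Real.sq_sqrt (sub_nonneg.2 (Real.exp_le_one_iff.2 (by linarith)))

lemma sc_nonneg (r : ℝ) : 0 ≤ sc r := Real.sqrt_nonneg _

lemma sc_le_one (r : ℝ) : sc r ≤ 1 :=
  Real.sqrt_le_one.2 (sub_le_self _ (Real.exp_nonneg _))

lemma exp_sq (r : ℝ) : Real.exp (-r) ^ 2 = Real.exp (-(2 * r)) := by
  rw [sq, ← Real.exp_add]; ring_nf

/-- A continuous function with at most quadratic growth is integrable. -/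
lemma int_one {X : Type*} [NormedAddCommGroup X] (C : ℝ) {F : E d → X} (hF : Continuous F)
    (h : ∀ x, ‖F x‖ ≤ C * (1 + ‖x‖ ^ 2)) : Integrable F (gam d) :=
  Integrable.mono' ((integrable_const (1 : ℝ)).add (P157.integrable_norm_pow (E := E d) 2)
      |>.const_mul C) hF.aestronglyMeasurable (Filter.Eventually.of_forall fun x => by simpa using h x)

/-- The two-variable version. -/
lemma int_two {X : Type*} [NormedAddCommGroup X] (C : ℝ) {F : E d × E d → X} (hF : Continuous F)
    (h : ∀ p, ‖F p‖ ≤ C * (1 + ‖p.1‖ ^ 2 + ‖p.2‖ ^ 2)) : Integrable F ((gam d).prod (gam d)) := by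
  have h1 : Integrable (fun p : E d × E d => ‖p.1‖ ^ 2) ((gam d).prod (gam d)) :=
    (P157.integrable_norm_pow (E := E d) 2).comp_fst (gam d)
  have h2 : Integrable (fun p : E d × E d => ‖p.2‖ ^ 2) ((gam d).prod (gam d)) :=
    (P157.integrable_norm_pow (E := E d) 2).comp_snd (gam d)
  exact Integrable.mono' (((integrable_const (1 : ℝ)).add h1).add h2 |>.const_mul C)
    hF.aestronglyMeasurable (Filter.Eventually.of_forall fun x => by simpa using h x)

lemma norm_le_sq (a : ℝ) : a ≤ 1 + a ^ 2 := by nlinarith [sq_nonneg (a - 1)]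

lemma integral_norm_sq (d : ℕ) : ∫ w, ‖w‖ ^ 2 ∂gam d = d := by
  set b := EuclideanSpace.basisFun (Fin d) ℝ
  have e : ∀ w : E d, ‖w‖ ^ 2 = ∑ i, ⟪w, b i⟫ ^ 2 := fun w => by
    rw [← real_inner_self_eq_norm_sq, ← b.sum_inner_mul_inner w w]
    simp [sq, real_inner_comm]
  simp only [e]
  rw [integral_finsetSum]
  · simp [gam, P157.integral_inner_sq, b.orthonormal.1]
  · intro i _
    refine int_one 1 (by fun_prop) fun x => ?_
    rw [Real.norm_eq_abs, abs_of_nonneg (sq_nonneg _), one_mul]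
    have h := abs_real_inner_le_norm x (b i)
    rw [b.orthonormal.1 i, mul_one] at h
    nlinarith [sq_abs ⟪x, b i⟫, abs_nonneg ⟪x, b i⟫]

lemma integral_norm_le (d : ℕ) : ∫ w, ‖w‖ ∂gam d ≤ Real.sqrt d := by
  rcases Nat.eq_zero_or_pos d with rfl | hd
  · simp [Subsingleton.elim _ (0 : E 0)]
  have hs : 0 < Real.sqrt d := Real.sqrt_pos.2 (by exact_mod_cast hd)
  have hi : Integrable (fun w : E d => ‖w‖ ^ 2) (gam d) := P157.integrable_norm_pow 2
  calc ∫ w, ‖w‖ ∂gam d ≤ ∫ w, (‖w‖ ^ 2 / (2 * Real.sqrt d) + Real.sqrt d / 2) ∂gam d := by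
        refine integral_mono (int_one 1 continuous_norm fun x => by
          simpa using norm_le_sq ‖x‖) ((hi.div_const _).add (integrable_const _)) fun w => ?_
        show ‖w‖ ≤ _
        rw [div_add_div _ _ (by positivity) two_ne_zero, le_div_iff₀ (by positivity)]
        nlinarith [sq_nonneg (‖w‖ - Real.sqrt d), hs]
    _ = Real.sqrt d := by
        rw [integral_add (hi.div_const _) (integrable_const _), integral_div, integral_norm_sq,
          integral_const, probReal_univ, one_smul]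
        field_simp
        rw [Real.sq_sqrt (Nat.cast_nonneg d)]
        ring

/-- The reflection exchanging a point and its Ornstein-Uhlenbeck image. -/
lemma refl_invariant {c s : ℝ} (h : c ^ 2 + s ^ 2 = 1) :
    ((gam d).prod (gam d)).map (fun p => (c • p.1 + s • p.2, s • p.1 - c • p.2))
      = (gam d).prod (gam d) := by
  let R : E d × E d →L[ℝ] E d × E d :=
    ((c • ContinuousLinearMap.fst ℝ (E d) (E d)) + s • ContinuousLinearMap.snd ℝ (E d) (E d)).prod
      ((s • ContinuousLinearMap.fst ℝ (E d) (E d)) - c • ContinuousLinearMap.snd ℝ (E d) (E d))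
  have hR : (fun p : E d × E d => (c • p.1 + s • p.2, s • p.1 - c • p.2)) = ⇑R := rfl
  rw [hR]
  have : IsProbabilityMeasure (((gam d).prod (gam d)).map ⇑R) :=
    Measure.isProbabilityMeasure_map R.continuous.measurable.aemeasurable
  refine Measure.ext_of_charFunDual ?_
  funext L
  obtain ⟨a, ha⟩ := (InnerProductSpace.toDual ℝ (E d)).surjective
    (L.comp (ContinuousLinearMap.inl ℝ (E d) (E d)))
  obtain ⟨b, hb⟩ := (InnerProductSpace.toDual ℝ (E d)).surjective
    (L.comp (ContinuousLinearMap.inr ℝ (E d) (E d)))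
  have hL : ∀ x y : E d, L (x, y) = ⟪a, x⟫ + ⟪b, y⟫ := fun x y => by
    have h1 : ⟪a, x⟫ = L (x, 0) := by
      rw [← InnerProductSpace.toDual_apply_apply (𝕜 := ℝ), ha]; rfl
    have h2 : ⟪b, y⟫ = L (0, y) := by
      rw [← InnerProductSpace.toDual_apply_apply (𝕜 := ℝ), hb]; rfl
    rw [h1, h2, ← map_add, Prod.mk_add_mk, add_zero, zero_add]
  have e1 : (L.comp R).comp (ContinuousLinearMap.inl ℝ (E d) (E d))
      = innerSL ℝ (c • a + s • b) := by
    refine ContinuousLinearMap.ext fun x => ?_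
    simp [R, hL, inner_add_left, real_inner_smul_left, real_inner_smul_right]
  have e2 : (L.comp R).comp (ContinuousLinearMap.inr ℝ (E d) (E d))
      = innerSL ℝ (s • a - c • b) := by
    refine ContinuousLinearMap.ext fun x => ?_
    simp [R, hL, inner_sub_left, real_inner_smul_left, real_inner_smul_right]
    ring
  have e3 : L.comp (ContinuousLinearMap.inl ℝ (E d) (E d)) = innerSL ℝ a := by
    refine ContinuousLinearMap.ext fun x => ?_
    simp [hL]
  have e4 : L.comp (ContinuousLinearMap.inr ℝ (E d) (E d)) = innerSL ℝ b := by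
    refine ContinuousLinearMap.ext fun x => ?_
    simp [hL]
  rw [charFunDual_map, charFunDual_prod, charFunDual_prod, e1, e2, e3, e4, gam,
    charFunDual_stdGaussian, charFunDual_stdGaussian, charFunDual_stdGaussian,
    charFunDual_stdGaussian, ← Complex.exp_add, ← Complex.exp_add, innerSL_apply_norm,
    innerSL_apply_norm, innerSL_apply_norm, innerSL_apply_norm]
  congr 1
  have key : ‖c • a + s • b‖ ^ 2 + ‖s • a - c • b‖ ^ 2 = ‖a‖ ^ 2 + ‖b‖ ^ 2 := by
    rw [norm_add_sq_real, norm_sub_sq_real, norm_smul, norm_smul, norm_smul, norm_smul,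
      mul_pow, mul_pow, mul_pow, mul_pow, Real.norm_eq_abs, Real.norm_eq_abs, sq_abs, sq_abs,
      real_inner_smul_left, real_inner_smul_left, real_inner_smul_right, real_inner_smul_right]
    linear_combination (‖a‖ ^ 2 + ‖b‖ ^ 2) * h
  have keyC : ((‖c • a + s • b‖ : ℂ)) ^ 2 + ((‖s • a - c • b‖ : ℂ)) ^ 2
      = (‖a‖ : ℂ) ^ 2 + (‖b‖ : ℂ) ^ 2 := by exact_mod_cast key
  linear_combination (-(1 : ℂ) / 2) * keyC

lemma pair_swap {r : ℝ} (hr : 0 ≤ r) {F : E d → E d → ℝ}
    (hF : Continuous fun p : E d × E d => F p.1 p.2) :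
    ∫ p, F p.1 (ouPt r p.1 p.2) ∂(gam d).prod (gam d)
      = ∫ p, F (ouPt r p.1 p.2) p.1 ∂(gam d).prod (gam d) := by
  obtain ⟨c, hc⟩ : ∃ c, c = Real.exp (-r) := ⟨_, rfl⟩
  obtain ⟨s, hs⟩ : ∃ s, s = sc r := ⟨_, rfl⟩
  have h : c ^ 2 + s ^ 2 = 1 := by rw [hc, hs, exp_sq, sc_sq hr]; ring
  simp only [ouPt_eq, ← hc, ← hs]
  have hG : Continuous fun p : E d × E d => F p.1 (c • p.1 + s • p.2) :=
    hF.comp (f := fun p : E d × E d => (p.1, c • p.1 + s • p.2)) (by fun_prop)
  have e := integral_map (μ := (gam d).prod (gam d))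
    (φ := fun p : E d × E d => (c • p.1 + s • p.2, s • p.1 - c • p.2))
    (Continuous.measurable (by fun_prop)).aemeasurable
    (f := fun p : E d × E d => F p.1 (c • p.1 + s • p.2)) hG.aestronglyMeasurable
  rw [refl_invariant h] at e
  rw [e]
  refine integral_congr_ae (Filter.Eventually.of_forall fun p => ?_)
  show F _ (c • (c • p.1 + s • p.2) + s • (s • p.1 - c • p.2)) = _
  congr 1
  rw [smul_add, smul_sub, smul_smul, smul_smul, smul_smul, smul_smul, mul_comm c s]
  linear_combination (norm := module) h • p.1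

/-! ### Lipschitz fields -/

variable (d) in
/-- The Lipschitz fields. -/
def Lip : Submodule ℝ (E d → E d) where
  carrier := {u | ∃ L : ℝ≥0, LipschitzWith L u}
  add_mem' := fun ⟨a, ha⟩ ⟨b, hb⟩ => ⟨a + b, ha.add hb⟩
  zero_mem' := ⟨0, LipschitzWith.const 0⟩
  smul_mem' := fun c u ⟨a, ha⟩ => ⟨‖c‖₊ * a, (lipschitzWith_smul c).comp ha⟩

lemma Lip.cont (u : Lip d) : Continuous (u : E d → E d) :=
  let ⟨_, h⟩ := u.2
  h.continuous

lemma Lip.growth (u : Lip d) : ∃ K : ℝ, 0 ≤ K ∧ ∀ x, ‖(u : E d → E d) x‖ ≤ K * (1 + ‖x‖) := by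
  obtain ⟨L, hL⟩ := u.2
  refine ⟨‖(u : E d → E d) 0‖ + L, by positivity, fun x => ?_⟩
  have h := norm_le_norm_add_norm_sub ((u : E d → E d) x) ((u : E d → E d) 0)
  have h2 : ‖(u : E d → E d) x - (u : E d → E d) 0‖ ≤ L * ‖x‖ := by
    simpa using hL.norm_sub_le x 0
  have h3 : ‖(u : E d → E d) x‖ ≤ ‖(u : E d → E d) 0‖ + L * ‖x‖ := by
    calc ‖(u : E d → E d) x‖ = ‖(u : E d → E d) 0 + ((u : E d → E d) x - (u : E d → E d) 0)‖ := by
          rw [add_sub_cancel]
      _ ≤ _ := (norm_add_le _ _).trans (add_le_add le_rfl h2)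
  nlinarith [norm_nonneg ((u : E d → E d) 0), norm_nonneg x, L.coe_nonneg,
    mul_nonneg (norm_nonneg ((u : E d → E d) 0)) (norm_nonneg x)]

lemma norm_ouPt (r : ℝ) (hr : 0 ≤ r) (z w : E d) : ‖ouPt r z w‖ ≤ ‖z‖ + ‖w‖ := by
  rw [ouPt_eq]
  refine (norm_add_le _ _).trans (add_le_add ?_ ?_)
  · rw [norm_smul, Real.norm_eq_abs, Real.abs_exp]
    exact mul_le_of_le_one_left (norm_nonneg _) (Real.exp_le_one_iff.2 (by linarith))
  · rw [norm_smul, Real.norm_eq_abs, abs_of_nonneg (sc_nonneg r)]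
    exact mul_le_of_le_one_left (norm_nonneg _) (sc_le_one r)

lemma continuous_ouPt (r : ℝ) : Continuous fun p : E d × E d => ouPt r p.1 p.2 := by
  simp only [ouPt_eq]; fun_prop

lemma int_comp (u : Lip d) {r : ℝ} (hr : 0 ≤ r) (z : E d) :
    Integrable (fun w => (u : E d → E d) (ouPt r z w)) (gam d) := by
  obtain ⟨K, hK0, hK⟩ := Lip.growth u
  refine int_one (K * (2 + ‖z‖)) ((Lip.cont u).comp
    ((continuous_ouPt r).comp (by fun_prop : Continuous fun w : E d => (z, w)))) fun w =>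
    (hK _).trans ?_
  rw [mul_assoc]
  refine mul_le_mul_of_nonneg_left ?_ hK0
  nlinarith [norm_ouPt r hr z w, norm_le_sq ‖w‖, norm_nonneg z, sq_nonneg ‖w‖,
    mul_nonneg (norm_nonneg z) (sq_nonneg ‖w‖)]

lemma int_inner (u v : Lip d) :
    Integrable (fun z => ⟪(u : E d → E d) z, (v : E d → E d) z⟫) (gam d) := by
  obtain ⟨K, hK0, hK⟩ := Lip.growth u
  obtain ⟨K', hK'0, hK'⟩ := Lip.growth v
  refine int_one (2 * K * K') ((Lip.cont u).inner (Lip.cont v)) fun z => ?_
  refine ((norm_inner_le_norm _ _).trans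
    (mul_le_mul (hK z) (hK' z) (norm_nonneg _) (by positivity))).trans ?_
  nlinarith [mul_nonneg (mul_nonneg hK0 hK'0) (sq_nonneg (‖z‖ - 1))]

lemma ou_lip (u : Lip d) {r : ℝ} (hr : 0 ≤ r) {L : ℝ≥0} (hL : LipschitzWith L (u : E d → E d)) :
    LipschitzWith L (ou r (u : E d → E d)) := by
  refine LipschitzWith.of_dist_le_mul fun z z' => ?_
  rw [dist_eq_norm, dist_eq_norm, ou, ou, ← integral_sub (int_comp u hr z) (int_comp u hr z')]
  refine (norm_integral_le_of_norm_le_const (C := L * ‖z - z'‖)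
    (Filter.Eventually.of_forall fun w => (hL.norm_sub_le _ _).trans ?_)).trans (le_of_eq (by simp))
  refine mul_le_mul_of_nonneg_left ?_ L.coe_nonneg
  rw [ouPt_eq, ouPt_eq, add_sub_add_right_eq_sub, ← smul_sub, norm_smul, Real.norm_eq_abs,
    Real.abs_exp]
  exact mul_le_of_le_one_left (norm_nonneg _) (Real.exp_le_one_iff.2 (by linarith))

/-- The semigroup at time `r`. -/
noncomputable def op (r : ℝ) (hr : 0 ≤ r) : Lip d →ₗ[ℝ] Lip d where
  toFun u := ⟨ou r (u : E d → E d), u.2.elim fun L hL => ⟨L, ou_lip u hr hL⟩⟩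
  map_add' u v := Subtype.ext (funext fun z => by
    simp only [Submodule.coe_add, Pi.add_apply, ou]
    exact integral_add (int_comp u hr z) (int_comp v hr z))
  map_smul' c u := Subtype.ext (funext fun z => by
    simp only [SetLike.val_smul, Pi.smul_apply, RingHom.id_apply, ou]
    exact integral_smul c _)

/-- The `L²(γ)` form. -/
noncomputable def form : Lip d →ₗ[ℝ] Lip d →ₗ[ℝ] ℝ :=
  LinearMap.mk₂ ℝ (fun u v => ∫ z, ⟪(u : E d → E d) z, (v : E d → E d) z⟫ ∂gam d)
    (fun u u' v => by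
      simp only [Submodule.coe_add, Pi.add_apply, inner_add_left]
      exact integral_add (int_inner u v) (int_inner u' v))
    (fun c u v => by
      simp only [SetLike.val_smul, Pi.smul_apply, real_inner_smul_left, smul_eq_mul]
      exact integral_const_mul c _)
    (fun u v v' => by
      simp only [Submodule.coe_add, Pi.add_apply, inner_add_right]
      exact integral_add (int_inner u v) (int_inner u v'))
    (fun c u v => by
      simp only [SetLike.val_smul, Pi.smul_apply, real_inner_smul_right, smul_eq_mul]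
      exact integral_const_mul c _)

lemma form_apply (u v : Lip d) :
    form u v = ∫ z, ⟪(u : E d → E d) z, (v : E d → E d) z⟫ ∂gam d := rfl

lemma int_pair (u v : Lip d) {r : ℝ} (hr : 0 ≤ r) :
    Integrable (fun p : E d × E d => ⟪(u : E d → E d) p.1, (v : E d → E d) (ouPt r p.1 p.2)⟫)
      ((gam d).prod (gam d)) := by
  obtain ⟨K, hK0, hK⟩ := Lip.growth u
  obtain ⟨K', hK'0, hK'⟩ := Lip.growth v
  refine int_two (4 * K * K') (((Lip.cont u).comp continuous_fst).inner
    ((Lip.cont v).comp (continuous_ouPt r))) fun p => ?_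
  refine ((norm_inner_le_norm _ _).trans
    (mul_le_mul (hK _) (hK' _) (norm_nonneg _) (by positivity))).trans ?_
  have hn := norm_ouPt r hr p.1 p.2
  rw [show K * (1 + ‖p.1‖) * (K' * (1 + ‖ouPt r p.1 p.2‖))
    = K * K' * ((1 + ‖p.1‖) * (1 + ‖ouPt r p.1 p.2‖)) by ring,
    show 4 * K * K' * (1 + ‖p.1‖ ^ 2 + ‖p.2‖ ^ 2)
    = K * K' * (4 * (1 + ‖p.1‖ ^ 2 + ‖p.2‖ ^ 2)) by ring]
  refine mul_le_mul_of_nonneg_left ?_ (mul_nonneg hK0 hK'0)
  calc (1 + ‖p.1‖) * (1 + ‖ouPt r p.1 p.2‖) ≤ (1 + ‖p.1‖) * (1 + (‖p.1‖ + ‖p.2‖)) := by gcongr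
    _ ≤ _ := by
        nlinarith [sq_nonneg (‖p.1‖ - 1), sq_nonneg (‖p.2‖ - 1), sq_nonneg (‖p.1‖ - ‖p.2‖)]

lemma form_op (u v : Lip d) {r : ℝ} (hr : 0 ≤ r) :
    form u (op r hr v)
      = ∫ p, ⟪(u : E d → E d) p.1, (v : E d → E d) (ouPt r p.1 p.2)⟫ ∂(gam d).prod (gam d) := by
  rw [integral_prod _ (int_pair u v hr), form_apply]
  refine integral_congr_ae (Filter.Eventually.of_forall fun z => ?_)
  exact (integral_inner (int_comp v hr z) _).symm

lemma op_symm (u v : Lip d) {r : ℝ} (hr : 0 ≤ r) : form (op r hr u) v = form u (op r hr v) := by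
  have e : form (op r hr u) v = form v (op r hr u) := by
    rw [form_apply, form_apply]
    simp only [real_inner_comm]
  rw [e, form_op, form_op, pair_swap hr (F := fun a b => ⟪(v : E d → E d) a, (u : E d → E d) b⟫)
    (((Lip.cont v).comp continuous_fst).inner ((Lip.cont u).comp continuous_snd))]
  exact integral_congr_ae (Filter.Eventually.of_forall fun p => real_inner_comm _ _)

lemma ou_ou (u : Lip d) {r s : ℝ} (hr : 0 ≤ r) (hs : 0 ≤ s) (z : E d) :
    ou r (ou s (u : E d → E d)) z = ou (r + s) (u : E d → E d) z := by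
  obtain ⟨K, hK0, hK⟩ := Lip.growth u
  obtain ⟨a, ha⟩ : ∃ a, a = Real.exp (-s) * sc r := ⟨_, rfl⟩
  obtain ⟨c, hc⟩ : ∃ c, c = Real.exp (-(r + s)) := ⟨_, rfl⟩
  have e : ∀ w v : E d, ouPt s (ouPt r z w) v = c • z + (a • w + sc s • v) := fun w v => by
    rw [ouPt_eq, ouPt_eq, smul_add, smul_smul, smul_smul, ← ha, ← Real.exp_add,
      show -s + -r = -(r + s) by ring, ← hc, add_assoc]
  have hsq : a ^ 2 + sc s ^ 2 = sc (r + s) ^ 2 := by
    rw [ha, mul_pow, exp_sq, sc_sq hr, sc_sq hs, sc_sq (add_nonneg hr hs), mul_sub, mul_one,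
      ← Real.exp_add]
    ring_nf
  have hint : Integrable (fun p : E d × E d =>
      (u : E d → E d) (c • z + (a • p.1 + sc s • p.2))) ((gam d).prod (gam d)) := by
    refine int_two (K * (3 + ‖z‖)) ((Lip.cont u).comp (by fun_prop)) fun p => (hK _).trans ?_
    rw [mul_assoc]
    refine mul_le_mul_of_nonneg_left ?_ hK0
    have h1 : ‖c • z + (a • p.1 + sc s • p.2)‖ ≤ ‖z‖ + (‖p.1‖ + ‖p.2‖) := by
      rw [← e]
      refine (norm_ouPt s hs _ _).trans ?_
      linarith [norm_ouPt r hr z p.1]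
    nlinarith [h1, norm_le_sq ‖p.1‖, norm_le_sq ‖p.2‖, norm_nonneg z, sq_nonneg ‖p.1‖,
      sq_nonneg ‖p.2‖, mul_nonneg (norm_nonneg z) (sq_nonneg ‖p.1‖),
      mul_nonneg (norm_nonneg z) (sq_nonneg ‖p.2‖)]
  calc ou r (ou s (u : E d → E d)) z
      = ∫ w, ∫ v, (u : E d → E d) (c • z + (a • w + sc s • v)) ∂gam d ∂gam d := by
        simp only [ou, e]
    _ = ∫ p, (u : E d → E d) (c • z + (a • p.1 + sc s • p.2)) ∂(gam d).prod (gam d) :=
        (integral_prod _ hint).symm
    _ = ∫ g, (u : E d → E d) (c • z + g) ∂((gam d).prod (gam d)).map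
          (fun p => a • p.1 + sc s • p.2) :=
        (integral_map (Continuous.measurable (by fun_prop)).aemeasurable
          ((Lip.cont u).comp (by fun_prop)).aestronglyMeasurable).symm
    _ = ou (r + s) (u : E d → E d) z := by
        rw [gam, P157.gauss_add hsq, integral_map (φ := fun g : E d => sc (r + s) • g)
          (Continuous.measurable (by fun_prop)).aemeasurable
          (f := fun g : E d => (u : E d → E d) (c • z + g))
          ((Lip.cont u).comp (by fun_prop)).aestronglyMeasurable]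
        simp only [ou, gam, ouPt_eq, ← hc]

lemma op_op (u : Lip d) {r s : ℝ} (hr : 0 ≤ r) (hs : 0 ≤ s) :
    op r hr (op s hs u) = op (r + s) (add_nonneg hr hs) u :=
  Subtype.ext (funext fun z => ou_ou u hr hs z)

lemma form_nonneg (u : Lip d) : 0 ≤ form u u := by
  rw [form_apply]; exact integral_nonneg fun z => real_inner_self_nonneg

lemma op_le (u v : Lip d) {r : ℝ} (hr : 0 ≤ r) :
    2 * form u (op r hr v) ≤ form u u + form v v := by
  have hu : Integrable (fun p : E d × E d => ⟪(u : E d → E d) p.1, (u : E d → E d) p.1⟫)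
      ((gam d).prod (gam d)) := (int_inner u u).comp_fst (gam d)
  have hsw := pair_swap (d := d) hr
    (F := fun a _ => ⟪(v : E d → E d) a, (v : E d → E d) a⟫)
    (((Lip.cont v).comp continuous_fst).inner ((Lip.cont v).comp continuous_fst))
  have hv : Integrable (fun p : E d × E d =>
      ⟪(v : E d → E d) (ouPt r p.1 p.2), (v : E d → E d) (ouPt r p.1 p.2)⟫)
      ((gam d).prod (gam d)) := by
    obtain ⟨K, hK0, hK⟩ := Lip.growth v
    refine int_two (3 * K ^ 2) (((Lip.cont v).comp (continuous_ouPt r)).inner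
      ((Lip.cont v).comp (continuous_ouPt r))) fun p => ?_
    refine ((norm_inner_le_norm _ _).trans
      (mul_le_mul (hK _) (hK _) (norm_nonneg _) (by positivity))).trans ?_
    have hn := norm_ouPt r hr p.1 p.2
    calc K * (1 + ‖ouPt r p.1 p.2‖) * (K * (1 + ‖ouPt r p.1 p.2‖))
        = K ^ 2 * (1 + ‖ouPt r p.1 p.2‖) ^ 2 := by ring
      _ ≤ K ^ 2 * (1 + (‖p.1‖ + ‖p.2‖)) ^ 2 := by gcongr
      _ ≤ K ^ 2 * (3 * (1 + ‖p.1‖ ^ 2 + ‖p.2‖ ^ 2)) := by
          refine mul_le_mul_of_nonneg_left ?_ (sq_nonneg _)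
          nlinarith [sq_nonneg (‖p.1‖ - 1), sq_nonneg (‖p.2‖ - 1), sq_nonneg (‖p.1‖ - ‖p.2‖)]
      _ = _ := by ring
  have e1 : ∫ p, ⟪(u : E d → E d) p.1, (u : E d → E d) p.1⟫ ∂(gam d).prod (gam d) = form u u := by
    rw [form_apply]
    simpa using integral_fun_fst (μ := gam d) (ν := gam d)
      (fun z => ⟪(u : E d → E d) z, (u : E d → E d) z⟫)
  have e2 : ∫ p, ⟪(v : E d → E d) (ouPt r p.1 p.2), (v : E d → E d) (ouPt r p.1 p.2)⟫
      ∂(gam d).prod (gam d) = form v v := by
    rw [← hsw, form_apply]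
    simpa using integral_fun_fst (μ := gam d) (ν := gam d)
      (fun z => ⟪(v : E d → E d) z, (v : E d → E d) z⟫)
  rw [form_op, ← e1, ← e2, ← integral_const_mul, ← integral_add hu hv]
  refine integral_mono ((int_pair u v hr).const_mul 2) (hu.add hv) fun p => ?_
  have h := real_inner_self_nonneg (x := (u : E d → E d) p.1 - (v : E d → E d) (ouPt r p.1 p.2))
  rw [inner_sub_sub_self] at h
  simp only [Pi.add_apply]
  linarith [real_inner_comm ((u : E d → E d) p.1) ((v : E d → E d) (ouPt r p.1 p.2))]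

/-- The contraction used by the quadrature: `e^{-h} P_h`. -/
noncomputable def step (h : ℝ) (hh : 0 ≤ h) : Lip d →ₗ[ℝ] Lip d where
  toFun u := Real.exp (-h) • op h hh u
  map_add' u v := by rw [map_add, smul_add]
  map_smul' c u := by rw [map_smul, RingHom.id_apply, smul_comm]

lemma step_apply (h : ℝ) (hh : 0 ≤ h) (u : Lip d) :
    step h hh u = Real.exp (-h) • op h hh u := rfl

lemma good_step (h : ℝ) (hh : 0 ≤ h) : Neumann.Good (form (d := d)) (step h hh) where
  symm u v := by rw [form_apply, form_apply]; simp only [real_inner_comm]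
  nonneg := form_nonneg
  adj u v := by
    simp only [step_apply, map_smul, LinearMap.smul_apply, smul_eq_mul, op_symm]
  pos u := by
    simp only [step_apply, map_smul, LinearMap.smul_apply, smul_eq_mul]
    refine mul_nonneg (Real.exp_nonneg _) ?_
    have e : op h hh u = op (h / 2) (by linarith) (op (h / 2) (by linarith) u) := by
      rw [op_op]; exact Subtype.ext (by simp only [op, add_halves])
    rw [e, ← op_symm]
    exact form_nonneg _
  contr u := by
    have h1 : form (op h hh u) (op h hh u) ≤ form u u := by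
      have := op_le (op h hh u) u hh
      linarith
    have h2 := form_nonneg (op h hh u)
    simp only [step_apply, map_smul, LinearMap.smul_apply, smul_eq_mul]
    have hle : Real.exp (-h) ≤ 1 := Real.exp_le_one_iff.2 (by linarith)
    calc Real.exp (-h) * (Real.exp (-h) * form (op h hh u) (op h hh u))
        ≤ 1 * (1 * form (op h hh u) (op h hh u)) := by
          gcongr
      _ ≤ _ := by rw [one_mul, one_mul]; exact h1

lemma ou_zero (f : E d → E d) (z : E d) : ou 0 f z = f z := by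
  simp [ou, ouPt_eq, sc]

lemma step_pow (h : ℝ) (hh : 0 ≤ h) (t : ℕ) (u : Lip d) (z : E d) :
    (((step h hh) ^ t) u : E d → E d) z
      = Real.exp (-(h * t)) • ou (h * t) (u : E d → E d) z := by
  have key : ((step h hh) ^ t) u
      = Real.exp (-(h * t)) • op (d := d) (h * t) (mul_nonneg hh t.cast_nonneg) u := by
    induction t with
    | zero =>
      refine Subtype.ext (funext fun z => ?_)
      simp [op, ou_zero]
    | succ t ih =>
      rw [pow_succ', Module.End.mul_apply, ih, map_smul, step_apply, op_op,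
        smul_smul, ← Real.exp_add]
      refine Subtype.ext ?_
      simp only [SetLike.val_smul, op, LinearMap.coe_mk, AddHom.coe_mk]
      push_cast
      rw [show h * (t + 1 : ℝ) = h + h * t by ring, show -(h + h * t) = -(h * t) + -h by ring]
  rw [key]
  rfl

end Vale.Agent.P347.QuadOU
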