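import Vale.Agent.P347.TiltBasic

/-!
P347: the tilted laws and the exact interpolation identity between a map of the Gaussian and the
target.
-/

namespace Vale.Agent.P347.Tilt

open MeasureTheory ProbabilityTheory Filter Topology
open scoped RealInnerProductSpace

variable {d : ℕ} {U : E d → ℝ} {g : E d → E d}

lemma norm_ouPt_le (r : ℝ) (z w : E d) : ‖ouPt r z w‖ ≤ Real.exp (-r) * ‖z‖ + ‖w‖ := by
  refine (norm_add_le _ _).trans ?_
  rw [norm_smul, norm_smul, Real.norm_of_nonneg (Real.exp_pos _).le,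
    Real.norm_of_nonneg (Real.sqrt_nonneg _)]
  refine add_le_add_right (mul_le_of_le_one_left (norm_nonneg w) ?_) _
  rw [Real.sqrt_le_one]
  linarith [Real.exp_pos (-(2 * r))]

lemma integrable_norm_gam : Integrable (fun w : E d => ‖w‖) (gam d) := by
  unfold gam
  exact IsGaussian.integrable_id.norm

/-- The mean norm of a Gaussian vector. -/
noncomputable def gnorm (d : ℕ) : ℝ := ∫ w, ‖w‖ ∂gam d

lemma gnorm_nonneg (d : ℕ) : 0 ≤ gnorm d := integral_nonneg fun w => norm_nonneg w

lemma cont_ou (h : Pot U g) : Continuous fun p : ℝ × E d => ou p.1 g p.2 := by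
  have : IsProbabilityMeasure (gam d) := by unfold gam; infer_instance
  have hg : Continuous g := h.lip.continuous
  refine continuous_iff_continuousAt.2 fun p₀ => ?_
  refine continuousAt_of_dominated
    (F := fun (p : ℝ × E d) w => g (ouPt p.1 p.2 w))
    (bound := fun w => ‖g 0‖ + (Real.exp (-p₀.1) * ‖p₀.2‖ + 1) + ‖w‖)
    (Eventually.of_forall fun p => Continuous.aestronglyMeasurable (by unfold ouPt; fun_prop))
    ?_ ((integrable_const _).add integrable_norm_gam)
    (Eventually.of_forall fun w => Continuous.continuousAt (by unfold ouPt; fun_prop))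
  have hc : ContinuousAt (fun p : ℝ × E d => Real.exp (-p.1) * ‖p.2‖) p₀ :=
    Continuous.continuousAt (by fun_prop)
  filter_upwards [hc.eventually_le_const (lt_add_one _)] with p hp
  refine Eventually.of_forall fun w => (norm_grad_le h _).trans ?_
  have := norm_ouPt_le p.1 p.2 w
  linarith

lemma norm_ou_le (h : Pot U g) {r : ℝ} (hr : 0 ≤ r) (z : E d) :
    ‖ou r g z‖ ≤ ‖g 0‖ + gnorm d + ‖z‖ := by
  have : IsProbabilityMeasure (gam d) := by unfold gam; infer_instance
  refine (norm_integral_le_of_norm_le (((integrable_const (‖g 0‖ + ‖z‖)).add integrable_norm_gam))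
    (Eventually.of_forall fun w => ?_)).trans ?_
  · refine (norm_grad_le h _).trans ?_
    have h1 := norm_ouPt_le r z w
    have h2 : Real.exp (-r) * ‖z‖ ≤ ‖z‖ :=
      mul_le_of_le_one_left (norm_nonneg z) (Real.exp_le_one_iff.2 (neg_nonpos.2 hr))
    simp only [Pi.add_apply]
    linarith
  · simp only [Pi.add_apply]
    rw [integral_add (integrable_const _) integrable_norm_gam]
    simp [gnorm]
    linarith

lemma integrableOn_ou (h : Pot U g) (z : E d) :
    IntegrableOn (fun r => Real.exp (-r) • ou r g z) (Set.Ioi 0) := by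
  refine ((exp_neg_integrableOn_Ioi 0 one_pos).mul_const (‖g 0‖ + gnorm d + ‖z‖)).mono'
    ((Real.continuous_exp.comp continuous_neg).smul
      ((cont_ou h).comp (continuous_id.prodMk continuous_const))).aestronglyMeasurable
    ((ae_restrict_mem measurableSet_Ioi).mono fun r hr => ?_)
  rw [norm_smul, Real.norm_of_nonneg (Real.exp_pos _).le, neg_one_mul]
  exact mul_le_mul_of_nonneg_left (norm_ou_le h (le_of_lt hr) z) (Real.exp_pos _).le

lemma norm_gStar_le (h : Pot U g) (z : E d) : ‖gStar g z‖ ≤ ‖g 0‖ + gnorm d + ‖z‖ := by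
  have hi := (exp_neg_integrableOn_Ioi 0 one_pos).mul_const (‖g 0‖ + gnorm d + ‖z‖)
  refine (norm_integral_le_of_norm_le hi
    ((ae_restrict_mem measurableSet_Ioi).mono fun r hr => ?_)).trans ?_
  · rw [norm_smul, Real.norm_of_nonneg (Real.exp_pos _).le, neg_one_mul]
    exact mul_le_mul_of_nonneg_left (norm_ou_le h (le_of_lt hr) z) (Real.exp_pos _).le
  · rw [integral_mul_const]
    have : ∫ r in Set.Ioi (0:ℝ), Real.exp (-1 * r) = 1 := by
      simpa [neg_one_mul] using integral_exp_neg_Ioi_zero
    rw [this, one_mul]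

lemma gaussian_parts (hG : GaussCov) (h : Pot U g) {φ : E d → ℝ} {gφ : E d → E d} {K : ℝ}
    (hc : Continuous gφ) (hφ : ∀ z, HasGradientAt φ (gφ z) z)
    (hb : ∀ z, |φ z| ≤ K * Real.exp (K * ‖z‖)) (hb' : ∀ z, ‖gφ z‖ ≤ K * Real.exp (K * ‖z‖)) :
    cov' (gam d) φ U = ∫ z, ⟪gφ z, gStar g z⟫ ∂gam d := by
  have : IsProbabilityMeasure (gam d) := by unfold gam; infer_instance
  set b := base U g + 1
  have hb0 : 0 ≤ b := by have := base_nonneg U g; positivity
  have hK : 0 ≤ K := by simpa using (abs_nonneg (φ 0)).trans (hb 0)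
  set L := max K (max (b + 1) 2) with hL
  have hmono : ∀ {c : ℝ} (z : E d), c ≤ L → c * Real.exp (c * ‖z‖) ≤ L * Real.exp (L * ‖z‖) :=
    fun {c} z hc => mul_le_mul hc (Real.exp_le_exp.2 (mul_le_mul_of_nonneg_right hc (norm_nonneg z)))
      (Real.exp_pos _).le (hK.trans (le_max_left _ _))
  have hexp : ∀ {c : ℝ} {N : ℕ} (z : E d), 0 ≤ c → c ≤ L → (N:ℝ) ≤ L →
      c * (1 + ‖z‖) ^ N ≤ L * Real.exp (L * ‖z‖) := fun {c N} z hc0 hc hN =>
    mul_le_mul hc ((pow_le_exp N z).trans
      (Real.exp_le_exp.2 (mul_le_mul_of_nonneg_right hN (norm_nonneg z)))) (by positivity)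
      (hc0.trans hc)
  rw [hG d φ U gφ g L hc h.lip.continuous hφ h.grad
    (fun z => (hb z).trans (hmono z (le_max_left _ _)))
    (fun z => (hb' z).trans (hmono z (le_max_left _ _)))
    (fun z => (pot_abs h z).trans (hexp z hb0
      ((le_add_of_nonneg_right zero_le_one).trans ((le_max_left _ _).trans (le_max_right _ _)))
      (by exact_mod_cast (le_max_right (b + 1) 2).trans (le_max_right K _))))
    (fun z => ?_)]
  · set G : ℝ × E d → ℝ := fun p => Real.exp (-p.1) * ⟪gφ p.2, ou p.1 g p.2⟫
    have hGc : Continuous G :=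
      (Real.continuous_exp.comp continuous_fst.neg).mul ((hc.comp continuous_snd).inner (cont_ou h))
    set H : E d → ℝ := fun z => K * Real.exp (K * ‖z‖) * (‖g 0‖ + gnorm d + ‖z‖)
    have hH : Integrable H (gam d) := by
      rw [← tilt_zero U, tilt_eq h (by norm_num)]
      refine Integrable.smul_measure ?_
        (ENNReal.inv_ne_top.2 (ENNReal.ofReal_pos.2 (zc_pos h (by norm_num))).ne')
      rw [integrable_withDensity_iff_integrable_smul' (cont_wt h 0).measurable.ennreal_ofReal
        (Eventually.of_forall fun z => ENNReal.ofReal_lt_top)]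
      refine ((integrable_poly_exp (show (0:ℝ) < 1 / 2 by norm_num) K 1).const_mul
        (K * (‖g 0‖ + gnorm d + 1))).mono' (by
          have hw := cont_wt h 0
          simp only [H, smul_eq_mul]
          exact ((hw.measurable.ennreal_ofReal.ennreal_toReal).mul
            (by fun_prop : Continuous fun z : E d =>
              K * Real.exp (K * ‖z‖) * (‖g 0‖ + gnorm d + ‖z‖)).measurable).aestronglyMeasurable) (Eventually.of_forall fun z => ?_)
      have hn := gnorm_nonneg d
      rw [smul_eq_mul, ENNReal.toReal_ofReal (wt_pos U 0 z).le,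
        Real.norm_of_nonneg (by have := wt_pos U 0 z; positivity)]
      have e : Real.exp (K * ‖z‖ - 1 / 2 * ‖z‖ ^ 2) = Real.exp (K * ‖z‖) * wt U 0 z := by
        rw [wt, ← Real.exp_add]; congr 1; ring
      rw [e, pow_one]
      have : ‖g 0‖ + gnorm d + ‖z‖ ≤ (‖g 0‖ + gnorm d + 1) * (1 + ‖z‖) := by
        nlinarith [norm_nonneg (g 0), norm_nonneg z]
      nlinarith [mul_le_mul_of_nonneg_left this
        (mul_nonneg (mul_nonneg hK (Real.exp_pos (K * ‖z‖)).le) (wt_pos U 0 z).le)]
    have hint : Integrable G ((volume.restrict (Set.Ioi (0:ℝ))).prod (gam d)) := by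
      refine ((exp_neg_integrableOn_Ioi 0 one_pos).mul_prod hH).mono' hGc.aestronglyMeasurable ?_
      refine ((Measure.quasiMeasurePreserving_fst.ae (ae_restrict_mem measurableSet_Ioi))).mono
        fun p hp => ?_
      rw [norm_mul, Real.norm_of_nonneg (Real.exp_pos _).le, neg_one_mul]
      refine mul_le_mul_of_nonneg_left ((norm_inner_le_norm _ _).trans ?_) (Real.exp_pos _).le
      exact mul_le_mul (hb' p.2) (norm_ou_le h (le_of_lt hp) p.2) (norm_nonneg _)
        (mul_nonneg hK (Real.exp_pos _).le)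
    calc ∫ r in Set.Ioi (0:ℝ), Real.exp (-r) * ∫ z, ⟪gφ z, ou r g z⟫ ∂gam d
        = ∫ r in Set.Ioi (0:ℝ), ∫ z, G (r, z) ∂gam d := by
          simp only [G, integral_const_mul]
      _ = ∫ z, (∫ r in Set.Ioi (0:ℝ), G (r, z)) ∂gam d := integral_integral_swap hint
      _ = ∫ z, ⟪gφ z, gStar g z⟫ ∂gam d := by
          refine integral_congr_ae (Eventually.of_forall fun z => ?_)
          show (∫ r in Set.Ioi (0:ℝ), G (r, z)) = ⟪gφ z, gStar g z⟫
          rw [gStar, ← _root_.integral_inner (integrableOn_ou h z) (gφ z)]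
          simp only [G, real_inner_smul_right]
  · refine (norm_grad_le h z).trans (le_trans ?_ (hexp (c := b) (N := 1) z hb0
      ((le_add_of_nonneg_right zero_le_one).trans ((le_max_left _ _).trans (le_max_right _ _)))
      (by rw [Nat.cast_one]; exact (show (1:ℝ) ≤ max (b + 1) 2 from
        le_trans (by norm_num) (le_max_right _ _)).trans (le_max_right K _))))
    simp only [b, base, pow_one]
    nlinarith [abs_nonneg (U 0), norm_nonneg (g 0), norm_nonneg z]

lemma exp_pot_le (h : Pot U g) {t : ℝ} (ht : 0 ≤ t) (z : E d) :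
    Real.exp (-(t * U z)) ≤ Real.exp (t * base U g) * Real.exp (t * base U g * ‖z‖) := by
  rw [← Real.exp_add]
  refine Real.exp_le_exp.2 ?_
  nlinarith [mul_le_mul_of_nonneg_left (pot_two_sided h z).1 ht]

lemma inner_star_le (h : Pot U g) {v : E d → E d} {K : ℝ} {N : ℕ}
    (hv : ∀ z, ‖v z‖ ≤ K * (1 + ‖z‖) ^ N) (z : E d) :
    |⟪v z, gStar g z⟫| ≤ K * (‖g 0‖ + gnorm d + 1) * (1 + ‖z‖) ^ (N + 1) := by
  have hg : ‖gStar g z‖ ≤ (‖g 0‖ + gnorm d + 1) * (1 + ‖z‖) := by
    refine (norm_gStar_le h z).trans ?_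
    nlinarith [norm_nonneg (g 0), norm_nonneg z, gnorm_nonneg d]
  calc |⟪v z, gStar g z⟫| ≤ ‖v z‖ * ‖gStar g z‖ := abs_real_inner_le_norm _ _
    _ ≤ (K * (1 + ‖z‖) ^ N) * ((‖g 0‖ + gnorm d + 1) * (1 + ‖z‖)) :=
      mul_le_mul (hv z) hg (norm_nonneg _) ((norm_nonneg _).trans (hv z))
    _ = _ := by ring

lemma cov_key (hG : GaussCov) (h : Pot U g) (hGs : Continuous (gStar g)) {t : ℝ} (ht : 0 ≤ t)
    (p : E d → ℝ) (gp : E d → E d) (K : ℝ) (N : ℕ) (hpc : Continuous p) (hgpc : Continuous gp)
    (hp : ∀ z, HasGradientAt p (gp z) z) (hpb : ∀ z, |p z| ≤ K * (1 + ‖z‖) ^ N)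
    (hgpb : ∀ z, ‖gp z‖ ≤ K * (1 + ‖z‖) ^ N) (hK : 0 ≤ K) :
    num U t (fun z => p z * U z) - num U t p * (num U 0 U / zc U 0) =
      num U t (fun z => ⟪gp z, gStar g z⟫) - t * num U t (fun z => p z * ⟪g z, gStar g z⟫) := by
  have ht' : -(1 / 4) ≤ t := by linarith
  have hgc : Continuous g := h.lip.continuous
  have hU := cont_pot h
  have hz0 := zc_pos h (show -(1 / 4) ≤ (0:ℝ) by norm_num)
  have hgb : ∀ z, ‖g z‖ ≤ (‖g 0‖ + 1) * (1 + ‖z‖) ^ 1 := fun z => by
    refine (norm_grad_le h z).trans ?_
    rw [pow_one]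
    nlinarith [norm_nonneg (g 0), norm_nonneg z]
  set e : E d → ℝ := fun z => Real.exp (-(t * U z)) with he
  set φ : E d → ℝ := fun z => p z * e z with hφd
  set gφ : E d → E d := fun z => e z • (gp z - (t * p z) • g z) with hgφd
  have hgrad : ∀ z, HasGradientAt φ (gφ z) z := by
    intro z
    have h1 : HasFDerivAt e (e z • (-(t • InnerProductSpace.toDual ℝ (E d) (g z)))) z := by
      simpa [he] using (((h.grad z).hasFDerivAt.const_mul t).neg).exp
    rw [hasGradientAt_iff_hasFDerivAt]
    refine ((hp z).hasFDerivAt.mul h1).congr_fderiv ?_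
    simp only [hgφd]
    ext v
    simp [InnerProductSpace.toDual_apply_apply, real_inner_smul_left, inner_sub_left]
    ring
  set B := t * base U g
  have hB : 0 ≤ B := mul_nonneg ht (base_nonneg U g)
  set K' := max (K * (1 + t * (‖g 0‖ + 1)) * Real.exp B) ((N + 1 : ℕ) + B) with hK'
  have hp1 : ∀ z : E d, (1 + ‖z‖) ^ N ≤ (1 + ‖z‖) ^ (N + 1) := fun z =>
    pow_le_pow_right₀ (by linarith [norm_nonneg z]) (by omega)
  have hpt : ∀ z : E d, K * (1 + t * (‖g 0‖ + 1)) * (1 + ‖z‖) ^ (N + 1) * e z ≤
      K' * Real.exp (K' * ‖z‖) := by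
    intro z
    have hC : 0 ≤ K * (1 + t * (‖g 0‖ + 1)) := by positivity
    calc K * (1 + t * (‖g 0‖ + 1)) * (1 + ‖z‖) ^ (N + 1) * e z
        ≤ K * (1 + t * (‖g 0‖ + 1)) * Real.exp ((N + 1 : ℕ) * ‖z‖) *
          (Real.exp B * Real.exp (B * ‖z‖)) :=
          mul_le_mul (mul_le_mul_of_nonneg_left (pow_le_exp _ z) hC) (exp_pot_le h ht z)
            (Real.exp_pos _).le (by positivity)
      _ = K * (1 + t * (‖g 0‖ + 1)) * Real.exp B * Real.exp (((N + 1 : ℕ) + B) * ‖z‖) := by
          rw [add_mul _ _ ‖z‖, Real.exp_add]; ring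
      _ ≤ _ := mul_le_mul (le_max_left _ _) (Real.exp_le_exp.2
          (mul_le_mul_of_nonneg_right (le_max_right _ _) (norm_nonneg z))) (Real.exp_pos _).le
          ((mul_nonneg hC (Real.exp_pos B).le).trans (le_max_left _ _))
  have hφb : ∀ z, |φ z| ≤ K' * Real.exp (K' * ‖z‖) := by
    intro z
    refine le_trans ?_ (hpt z)
    rw [hφd, abs_mul, abs_of_pos (show 0 < e z from Real.exp_pos _)]
    refine mul_le_mul_of_nonneg_right ((hpb z).trans ?_) (Real.exp_pos _).le
    exact mul_le_mul (le_mul_of_one_le_right hK (le_add_of_nonneg_right (by positivity))) (hp1 z)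
      (by positivity) (by positivity)
  have hgφb : ∀ z, ‖gφ z‖ ≤ K' * Real.exp (K' * ‖z‖) := by
    intro z
    refine le_trans ?_ (hpt z)
    rw [hgφd, norm_smul, Real.norm_of_nonneg (show 0 ≤ e z from (Real.exp_pos _).le), mul_comm]
    refine mul_le_mul_of_nonneg_right ((norm_sub_le _ _).trans ?_) (Real.exp_pos _).le
    rw [norm_smul, Real.norm_eq_abs, abs_mul, abs_of_nonneg ht]
    have h1 := mul_le_mul_of_nonneg_left (mul_le_mul (hpb z) (hgb z) (norm_nonneg _)
      (mul_nonneg hK (by positivity))) ht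
    have h2 := (hgpb z).trans (mul_le_mul_of_nonneg_left (hp1 z) hK)
    rw [pow_succ] at h2 ⊢
    rw [pow_one] at h1
    linarith
  have hec : Continuous e := Real.continuous_exp.comp (continuous_const.mul hU).neg
  have hin : Continuous fun z => gp z - (t * p z) • g z :=
    hgpc.sub ((continuous_const.mul hpc).smul hgc)
  have hgφc : Continuous gφ := hec.smul hin
  have hid := gaussian_parts (φ := φ) (gφ := gφ) (K := K') hG h hgφc hgrad hφb hgφb
  rw [cov', num_zero_eq h, num_zero_eq h, num_zero_eq h, num_zero_eq h] at hid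
  have hw : ∀ z, e z * wt U 0 z = wt U t z := fun z => by
    simp only [he, wt, ← Real.exp_add]; congr 1; ring
  have e1 : num U 0 (fun z => φ z * U z) = num U t (fun z => p z * U z) :=
    integral_congr_ae (Eventually.of_forall fun z => by
      show φ z * U z * wt U 0 z = p z * U z * wt U t z
      rw [← hw z, hφd]; ring)
  have e2 : num U 0 φ = num U t p :=
    integral_congr_ae (Eventually.of_forall fun z => by
      show φ z * wt U 0 z = p z * wt U t z
      rw [← hw z, hφd]; ring)
  have e3 : num U 0 (fun z => ⟪gφ z, gStar g z⟫) = num U t (fun z => ⟪gp z, gStar g z⟫) -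
      t * num U t (fun z => p z * ⟪g z, gStar g z⟫) := by
    have hi1 := integrable_wt h ht' (hgpc.inner hGs).measurable (inner_star_le h hgpb)
    have hi2 := integrable_wt h ht' (hpc.mul (hgc.inner hGs)).measurable (fun z => by
      rw [Pi.mul_apply, abs_mul]
      refine (mul_le_mul (hpb z) (inner_star_le h hgb z) (abs_nonneg _)
        (mul_nonneg hK (by positivity))).trans (le_of_eq ?_)
      rw [show (K * (1 + ‖z‖) ^ N) * ((‖g 0‖ + 1) * (‖g 0‖ + gnorm d + 1) * (1 + ‖z‖) ^ (1 + 1)) =
        K * ((‖g 0‖ + 1) * (‖g 0‖ + gnorm d + 1)) * ((1 + ‖z‖) ^ N * (1 + ‖z‖) ^ (1 + 1)) by ring,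
        ← pow_add])
    simp only [Pi.mul_apply] at hi2
    rw [num, num, num, ← integral_const_mul, ← integral_sub hi1 (hi2.const_mul t)]
    refine integral_congr_ae (Eventually.of_forall fun z => ?_)
    simp only [hgφd, real_inner_smul_left, inner_sub_left]
    rw [← hw z]
    ring
  rw [e1, e2, e3] at hid
  field_simp at hid ⊢
  linarith

/-- The covariance with the potential under a tilted law. -/
lemma cov_identity (hG : GaussCov) (h : Pot U g) (hGs : Continuous (gStar g)) {ψ : E d → ℝ}
    {gψ : E d → E d} {K : ℝ} {N : ℕ} (hc : Continuous gψ) (hψ : ∀ z, HasGradientAt ψ (gψ z) z)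
    (hb : ∀ z, |ψ z| ≤ K * (1 + ‖z‖) ^ N) (hb' : ∀ z, ‖gψ z‖ ≤ K * (1 + ‖z‖) ^ N) {t : ℝ}
    (ht : 0 ≤ t) :
    cov' (tilt U t) ψ U = (∫ z, ⟪gψ z, gStar g z⟫ ∂tilt U t)
      - t * cov' (tilt U t) ψ (fun z => ⟪g z, gStar g z⟫) := by
  have ht' : -(1 / 4) ≤ t := by linarith
  have hψc : Continuous ψ :=
    continuous_iff_continuousAt.2 fun z => (hψ z).hasFDerivAt.continuousAt
  have hK : 0 ≤ K := by simpa using (abs_nonneg (ψ 0)).trans (hb 0)
  have hgc : Continuous g := h.lip.continuous
  have hU := cont_pot h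
  have hz0 := zc_pos h (show -(1 / 4) ≤ (0:ℝ) by norm_num)
  have hzt := zc_pos h ht'
  have hgb : ∀ z, ‖g z‖ ≤ (‖g 0‖ + 1) * (1 + ‖z‖) ^ 1 := fun z => by
    refine (norm_grad_le h z).trans ?_
    rw [pow_one]
    nlinarith [norm_nonneg (g 0), norm_nonneg z]
  have key := @cov_key _ _ _ hG h hGs t ht
  have k1 := key ψ gψ K N hψc hc hψ hb hb' hK
  have k2 := key (fun _ => 1) (fun _ => 0) 1 0 continuous_const continuous_const
    (fun z => by rw [hasGradientAt_iff_hasFDerivAt, map_zero]; exact hasFDerivAt_const _ _)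
    (fun z => by simp) (fun z => by simp) zero_le_one
  rw [cov', cov', integral_tilt h ht', integral_tilt h ht', integral_tilt h ht', integral_tilt h ht',
    integral_tilt h ht', integral_tilt h ht']
  simp only [one_mul, inner_zero_left] at k2
  have hn0 : num U t (fun _ : E d => (0:ℝ)) = 0 := by simp [num]
  rw [hn0, zero_sub] at k2
  set m := num U 0 U / zc U 0
  set X := num U t (fun z => ψ z * U z)
  set Y := num U t ψ
  set W := num U t (fun z => ⟪g z, gStar g z⟫)
  set S := num U t (fun z => ψ z * ⟪g z, gStar g z⟫)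
  set A := num U t (fun z => ⟪gψ z, gStar g z⟫)
  change num U t U - zc U t * m = -(t * W) at k2
  have eX : X = Y * m + A - t * S := by linarith
  have eU : num U t U = zc U t * m - t * W := by linarith
  rw [eX, eU]
  field_simp
  ring

lemma test_growth {h : E d → ℝ} {gr : E d → E d} {he : E d → E d →L[ℝ] E d} {B : ℝ}
    (hT : Test h gr he B) (x : E d) : |h x| ≤ |h 0| + B * ‖x‖ := by
  have := (convex_univ (𝕜 := ℝ)).norm_image_sub_le_of_norm_hasFDerivWithin_le
    (fun y _ => (hT.grad y).hasFDerivAt.hasFDerivWithinAt)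
    (fun y _ => by simpa using hT.grad_le y) (Set.mem_univ (0 : E d)) (Set.mem_univ x)
  rw [Real.norm_eq_abs, sub_zero] at this
  linarith [abs_sub_abs_le_abs_sub (h x) (h 0)]

theorem interp (hG : GaussCov) : Interp := by
  intro d U g DG h hDGc hDG f gr he B hT e ε s₀ hε hs₀ hs₁
  have hgc : Continuous g := h.lip.continuous
  have hGs : Continuous (gStar g) := continuous_iff_continuousAt.2 fun z => (hDG z).1.continuousAt
  have hfc : Continuous f :=
    continuous_iff_continuousAt.2 fun z => (hT.grad z).hasFDerivAt.continuousAt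
  have hgrc : Continuous gr := continuous_iff_continuousAt.2 fun z => (hT.hess z).continuousAt
  have hB : 0 ≤ B := (norm_nonneg _).trans (hT.grad_le 0)
  set M := ‖g 0‖ + gnorm d + 1 with hM
  have hM0 : 0 ≤ M := by have := gnorm_nonneg d; positivity
  have hG1 : ∀ z, ‖gStar g z‖ ≤ M * (1 + ‖z‖) ^ 1 := fun z => by
    refine (norm_gStar_le h z).trans ?_
    rw [pow_one]
    nlinarith [norm_nonneg (g 0), norm_nonneg z, gnorm_nonneg d]
  have hgb : ∀ z, ‖g z‖ ≤ M * (1 + ‖z‖) ^ 1 := fun z => by
    refine (norm_grad_le h z).trans ?_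
    rw [pow_one]
    nlinarith [norm_nonneg (g 0), norm_nonneg z, gnorm_nonneg d]
  set P : ℝ → E d → E d := fun u z => phiMap g e ε (1 - u) z with hPd
  set a : ℝ → E d → ℝ := fun u z => f (P u z) with had
  set a' : ℝ → E d → ℝ := fun u z => ε * ⟪gr (P u z), gStar g z + e⟫ with had'
  have hPc : Continuous fun p : ℝ × E d => P p.1 p.2 := by
    simp only [hPd, phiMap]; fun_prop
  set K₀ := |f 0| + B * (1 + 2 * ε * (M + ‖e‖)) + ε * B * (M + ‖e‖) + B + ε * B with hK₀
  have hPn : ∀ u ∈ Set.Icc (-1:ℝ) 2, ∀ z, ‖P u z‖ ≤ (1 + 2 * ε * (M + ‖e‖)) * (1 + ‖z‖) := by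
    intro u hu z
    refine (norm_sub_le _ _).trans ?_
    rw [norm_smul, Real.norm_eq_abs, abs_mul, abs_of_nonneg hε]
    have h1 : |1 - u| ≤ 2 := abs_le.2 ⟨by linarith [hu.2], by linarith [hu.1]⟩
    have h2 : ‖gStar g z + e‖ ≤ (M + ‖e‖) * (1 + ‖z‖) := by
      refine (norm_add_le _ _).trans ?_
      have := hG1 z
      rw [pow_one] at this
      nlinarith [norm_nonneg e, norm_nonneg z]
    have h3 := mul_le_mul (mul_le_mul_of_nonneg_right h1 hε) h2 (norm_nonneg _) (by positivity)
    nlinarith [norm_nonneg z]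
  have hab : ∀ z, ∀ u ∈ Set.Icc (-1:ℝ) 2, |a u z| ≤ K₀ * (1 + ‖z‖) ^ 2 := by
    intro z u hu
    refine (test_growth hT _).trans ?_
    have h1 := mul_le_mul_of_nonneg_left (hPn u hu z) hB
    have h2 : (1:ℝ) ≤ 1 + ‖z‖ := by linarith [norm_nonneg z]
    have h3 : |f 0| + B * (1 + 2 * ε * (M + ‖e‖)) * (1 + ‖z‖) ≤ K₀ * (1 + ‖z‖) := by
      have e1 : 0 ≤ (ε * B * (M + ‖e‖) + B + ε * B) * (1 + ‖z‖) := by positivity
      have e2 : |f 0| ≤ |f 0| * (1 + ‖z‖) := le_mul_of_one_le_right (abs_nonneg _) h2
      simp only [hK₀]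
      linarith
    refine (add_le_add_right h1 _).trans (le_trans (le_of_eq (by ring)) (h3.trans ?_))
    rw [sq, ← mul_assoc]
    exact le_mul_of_one_le_right (by positivity) h2
  have ha'b : ∀ z, ∀ u : ℝ, |a' u z| ≤ K₀ * (1 + ‖z‖) ^ 2 := by
    intro z u
    have h2 : (1:ℝ) ≤ 1 + ‖z‖ := by linarith [norm_nonneg z]
    have h4 : ‖gStar g z + e‖ ≤ (M + ‖e‖) * (1 + ‖z‖) := by
      refine (norm_add_le _ _).trans ?_
      have := hG1 z
      rw [pow_one] at this
      nlinarith [norm_nonneg e, norm_nonneg z]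
    rw [had', abs_mul, abs_of_nonneg hε]
    calc ε * |⟪gr (P u z), gStar g z + e⟫| ≤ ε * (B * ((M + ‖e‖) * (1 + ‖z‖))) :=
          mul_le_mul_of_nonneg_left ((abs_real_inner_le_norm _ _).trans
            (mul_le_mul (hT.grad_le _) h4 (norm_nonneg _) hB)) hε
      _ = (ε * B * (M + ‖e‖)) * (1 + ‖z‖) := by ring
      _ ≤ K₀ * (1 + ‖z‖) := by
          refine mul_le_mul_of_nonneg_right ?_ (by positivity)
          simp only [hK₀]
          linarith [abs_nonneg (f 0), hB, mul_nonneg hε hB,
            show 0 ≤ B * (1 + 2 * ε * (M + ‖e‖)) by positivity]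
      _ ≤ _ := by
          rw [sq, ← mul_assoc]
          exact le_mul_of_one_le_right (by positivity) h2
  -- the derivative
  have hder : ∀ u ∈ Set.Icc (0:ℝ) 1,
      HasDerivAt (fun u => ∫ z, a u z ∂tilt U (u * ε)) (interpRate U g DG f gr e ε u) u := by
    intro u hu
    set δ := min (1 / 2) (1 / (4 * (ε + 1))) with hδd
    have hδ : 0 < δ := lt_min (by norm_num) (by positivity)
    have hεδ : |ε| * δ ≤ 1 / 4 := by
      rw [abs_of_nonneg hε]
      calc ε * δ ≤ (ε + 1) * (1 / (4 * (ε + 1))) :=
            mul_le_mul (by linarith) (min_le_right _ _) hδ.le (by positivity)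
        _ = 1 / 4 := by field_simp
    have hu0 : 0 ≤ u * ε := mul_nonneg hu.1 hε
    have hball : ∀ v ∈ Metric.ball u δ, v ∈ Set.Icc (-1:ℝ) 2 := fun v hv => by
      rw [Metric.mem_ball, Real.dist_eq, abs_lt] at hv
      have := min_le_left (1 / 2 : ℝ) (1 / (4 * (ε + 1)))
      constructor <;> linarith [hu.1, hu.2]
    have hda : ∀ z, ∀ v : ℝ, HasDerivAt (fun w => a w z) (a' v z) v := by
      intro z v
      have h1 : HasDerivAt (fun w => P w z) (ε • (gStar g z + e)) v := by
        have := ((((hasDerivAt_id v).const_sub 1).mul_const ε).smul_const (gStar g z + e)).const_sub z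
        simpa [hPd, phiMap, add_comm] using this
      have := (hT.grad (P v z)).hasFDerivAt.comp_hasDerivAt v h1
      rw [InnerProductSpace.toDual_apply_apply, real_inner_smul_right] at this
      exact this
    have hN := hasDerivAt_num h hδ hεδ hu0 (a := a) (a' := a')
      (fun v => (hfc.comp (hPc.comp (continuous_const.prodMk continuous_id))).measurable)
      (show Measurable (a' u) from (continuous_const.mul
        ((hgrc.comp (hPc.comp (continuous_const.prodMk continuous_id))).inner
          (hGs.add continuous_const))).measurable)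
      (fun z v _ => hda z v) (fun z v hv => hab z v (hball v hv)) (fun z v _ => ha'b z v)
    have hZ := hasDerivAt_num h hδ hεδ hu0 (a := fun _ _ => (1:ℝ)) (a' := fun _ _ => 0)
      (fun _ => measurable_const) measurable_const (fun z v _ => hasDerivAt_const v (1:ℝ))
      (K := 1) (N := 0) (fun z v _ => by simp) (fun z v _ => by simp)
    have hz := zc_pos h (show -(1 / 4) ≤ u * ε by linarith)
    refine ((hN.div hZ hz.ne').congr_of_eventuallyEq ?_).congr_deriv ?_
    · filter_upwards [Metric.ball_mem_nhds u hδ] with v hv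
      rw [Metric.mem_ball, Real.dist_eq] at hv
      refine integral_tilt h ?_ _
      have h1 : |v * ε - u * ε| ≤ 1 / 4 := by
        rw [← sub_mul, abs_mul, mul_comm]
        exact (mul_le_mul_of_nonneg_left hv.le (abs_nonneg ε)).trans hεδ
      linarith [(abs_le.1 h1).1]
    · set gψ : E d → E d := fun z => ContinuousLinearMap.adjoint
        (ContinuousLinearMap.id ℝ (E d) - ((1 - u) * ε) • DG z) (gr (P u z)) with hgψd
      have hAc : Continuous fun z => ContinuousLinearMap.adjoint
          (ContinuousLinearMap.id ℝ (E d) - ((1 - u) * ε) • DG z) :=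
        ContinuousLinearMap.adjoint.continuous.comp (by fun_prop)
      have hgψc : Continuous gψ :=
        hAc.clm_apply (hgrc.comp (hPc.comp (continuous_const.prodMk continuous_id)))
      have hgψ : ∀ z, HasGradientAt (a u) (gψ z) z := by
        intro z
        have h1 : HasFDerivAt (P u)
            (ContinuousLinearMap.id ℝ (E d) - ((1 - u) * ε) • DG z) z :=
          (hasFDerivAt_id z).sub (((hDG z).1.add_const e).const_smul ((1 - u) * ε))
        rw [hasGradientAt_iff_hasFDerivAt]
        refine ((hT.grad (P u z)).hasFDerivAt.comp z h1).congr_fderiv ?_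
        ext v
        simp [hgψd, InnerProductSpace.toDual_apply_apply, ContinuousLinearMap.adjoint_inner_left]
      set K := K₀ + (1 + ε) * B with hKd
      have hu' : u ∈ Set.Icc (-1:ℝ) 2 := ⟨by linarith [hu.1], by linarith [hu.2]⟩
      have hgψb : ∀ z, ‖gψ z‖ ≤ K * (1 + ‖z‖) ^ 2 := by
        intro z
        refine (ContinuousLinearMap.le_opNorm _ _).trans ?_
        have hn : ‖ContinuousLinearMap.adjoint
            (ContinuousLinearMap.id ℝ (E d) - ((1 - u) * ε) • DG z)‖ ≤ 1 + ε := by
          rw [LinearIsometryEquiv.norm_map]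
          refine (norm_sub_le _ _).trans (add_le_add ContinuousLinearMap.norm_id_le ?_)
          rw [norm_smul, Real.norm_eq_abs, abs_mul, abs_of_nonneg hε,
            abs_of_nonneg (by linarith [hu.2] : 0 ≤ 1 - u)]
          calc (1 - u) * ε * ‖DG z‖ ≤ 1 * ε * 1 := by
                refine mul_le_mul (mul_le_mul_of_nonneg_right (by linarith [hu.1]) hε)
                  ((hDG z).2.trans (by norm_num)) (norm_nonneg _) (by positivity)
            _ = ε := by ring
        refine (mul_le_mul hn (hT.grad_le _) (norm_nonneg _) (by positivity)).trans ?_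
        refine le_trans ?_ (le_mul_of_one_le_right (by positivity) (one_le_pow_norm 2 z))
        simp only [hKd]
        linarith [show 0 ≤ K₀ by positivity]
      have hcov := cov_identity hG h hGs hgψc hgψ
        (fun z => (hab z u hu').trans (mul_le_mul_of_nonneg_right
          (le_add_of_nonneg_right (by positivity)) (by positivity))) hgψb hu0
      have hgrP : ∀ z, ‖gr (P u z)‖ ≤ B * (1 + ‖z‖) ^ 0 := fun z => by simpa using hT.grad_le _
      have hPuc : Continuous fun z => gr (P u z) :=
        hgrc.comp (hPc.comp (continuous_const.prodMk continuous_id))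
      have ht' : -(1 / 4) ≤ u * ε := by linarith
      have hiG := integrable_tilt h ht' (hPuc.inner hGs).measurable (inner_star_le h hgrP)
      have hie := integrable_tilt h ht' (hPuc.inner continuous_const).measurable
        (K := B * ‖e‖) (N := 0) (fun z => by
          rw [pow_zero, mul_one]
          exact (abs_real_inner_le_norm _ e).trans
            (mul_le_mul_of_nonneg_right (hT.grad_le _) (norm_nonneg e)))
      have hiD := integrable_tilt h ht' (hPuc.inner (hDGc.clm_apply hGs)).measurable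
        (K := B * M) (N := 1) (fun z => by
          refine (abs_real_inner_le_norm _ _).trans ?_
          rw [mul_assoc]
          refine mul_le_mul (hT.grad_le _) ?_ (norm_nonneg _) hB
          refine ((DG z).le_opNorm _).trans ((mul_le_of_le_one_left (norm_nonneg _)
            ((hDG z).2.trans (by norm_num))).trans (hG1 z)))
      have e1 : ∫ z, ⟪gψ z, gStar g z⟫ ∂tilt U (u * ε) = (∫ z, ⟪gr (P u z), gStar g z⟫ ∂tilt U (u * ε))
          - (1 - u) * ε * ∫ z, ⟪gr (P u z), DG z (gStar g z)⟫ ∂tilt U (u * ε) := by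
        rw [← integral_const_mul, ← integral_sub hiG (hiD.const_mul _)]
        refine integral_congr_ae (Eventually.of_forall fun z => ?_)
        simp only [hgψd, ContinuousLinearMap.adjoint_inner_left, ContinuousLinearMap.sub_apply,
          ContinuousLinearMap.id_apply, ContinuousLinearMap.smul_apply, inner_sub_right,
          real_inner_smul_right]
      have e2 : ∫ z, a' u z ∂tilt U (u * ε) =
          ε * ((∫ z, ⟪gr (P u z), gStar g z⟫ ∂tilt U (u * ε)) +
            ∫ z, ⟪gr (P u z), e⟫ ∂tilt U (u * ε)) := by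
        rw [← integral_add hiG hie, ← integral_const_mul]
        refine integral_congr_ae (Eventually.of_forall fun z => ?_)
        simp only [had', inner_add_right]
      have e3 : num U (u * ε) (fun z => a' u z - ε * U z * a u z) =
          num U (u * ε) (a' u) - ε * num U (u * ε) (fun z => a u z * U z) := by
        rw [num, num, num, ← integral_const_mul, ← integral_sub]
        · refine integral_congr_ae (Eventually.of_forall fun z => ?_)
          ring
        · exact integrable_wt h ht' ((continuous_const.mul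
            (hPuc.inner (hGs.add continuous_const)))).measurable (fun z => ha'b z u)
        · refine (integrable_wt h ht' ((hfc.comp (hPc.comp (continuous_const.prodMk
            continuous_id))).mul (cont_pot h)).measurable (K := K₀ * (base U g + 1)) (N := 4)
            fun z => ?_).const_mul ε
          simp only [Pi.mul_apply, Function.comp_apply, abs_mul]
          calc |f (P u z)| * |U z| ≤ (K₀ * (1 + ‖z‖) ^ 2) * ((base U g + 1) * (1 + ‖z‖) ^ 2) :=
                mul_le_mul (hab z u hu') (pot_abs h z) (abs_nonneg _)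
                  ((abs_nonneg _).trans (hab z u hu'))
            _ = _ := by ring
      have e4 : num U (u * ε) (fun z => (0:ℝ) - ε * U z * 1) = -(ε * num U (u * ε) U) := by
        rw [num, num, ← integral_const_mul, ← integral_neg]
        refine integral_congr_ae (Eventually.of_forall fun z => ?_)
        ring
      rw [e3, e4]
      have hrate : interpRate U g DG f gr e ε u =
          (∫ z, a' u z ∂tilt U (u * ε)) - ε * cov' (tilt U (u * ε)) (a u) U := by
        rw [hcov, e1, e2]
        simp only [interpRate, had, hPd]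
        ring
      rw [hrate, cov', integral_tilt h ht', integral_tilt h ht', integral_tilt h ht',
        integral_tilt h ht']
      simp only [zc] at hz ⊢
      field_simp
      ring
  -- continuity of the rate
  have hone : ∀ (b : ℝ → E d → ℝ) (K : ℝ) (N : ℕ), (Continuous fun p : ℝ × E d => b p.1 p.2) →
      (∀ z, ∀ u ∈ Set.Icc (0:ℝ) 1, |b u z| ≤ K * (1 + ‖z‖) ^ N) →
      ContinuousOn (fun u => ∫ z, b u z ∂tilt U (u * ε)) (Set.Icc 0 1) := by
    intro b K N hb hbb
    have hz : ∀ u ∈ Set.Icc (0:ℝ) 1, -(1 / 4) ≤ u * ε := fun u hu => by nlinarith [hu.1]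
    refine ((continuousOn_num h hε hb hbb).div (continuousOn_num h hε (a := fun _ _ => (1:ℝ))
      (K := 1) (N := 0) continuous_const (fun z u _ => by simp))
      fun u hu => (zc_pos h (hz u hu)).ne').congr fun u hu => ?_
    exact integral_tilt h (hz u hu) (b u)
  have hgGb : ∀ z, |⟪g z, gStar g z⟫| ≤ M * (‖g 0‖ + gnorm d + 1) * (1 + ‖z‖) ^ (1 + 1) :=
    inner_star_le h hgb
  have hrate : ContinuousOn (interpRate U g DG f gr e ε) (Set.Icc 0 1) := by
    unfold interpRate cov'
    refine ((continuousOn_const.mul (hone _ (B * ‖e‖) 0 ?_ ?_)).add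
      ((((continuousOn_const.sub continuousOn_id).mul continuousOn_const)).mul
        (hone _ (B * M) 1 ?_ ?_))).add ((continuousOn_id.mul continuousOn_const).mul
        ((hone _ (K₀ * (M * (‖g 0‖ + gnorm d + 1))) 4 ?_ ?_).sub
          ((hone _ K₀ 2 ?_ ?_).mul (hone _ (M * (‖g 0‖ + gnorm d + 1)) (1 + 1) ?_ ?_))))
    · exact (hgrc.comp hPc).inner continuous_const
    · intro z u _
      rw [pow_zero, mul_one]
      exact (abs_real_inner_le_norm _ e).trans
        (mul_le_mul_of_nonneg_right (hT.grad_le _) (norm_nonneg e))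
    · exact (hgrc.comp hPc).inner ((hDGc.comp continuous_snd).clm_apply (hGs.comp continuous_snd))
    · intro z u _
      refine (abs_real_inner_le_norm _ _).trans ?_
      rw [mul_assoc]
      refine mul_le_mul (hT.grad_le _) ?_ (norm_nonneg _) hB
      exact ((DG z).le_opNorm _).trans ((mul_le_of_le_one_left (norm_nonneg _)
        ((hDG z).2.trans (by norm_num))).trans (hG1 z))
    · exact (hfc.comp hPc).mul ((hgc.comp continuous_snd).inner (hGs.comp continuous_snd))
    · intro z u hu
      rw [abs_mul]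
      refine (mul_le_mul (hab z u ⟨by linarith [hu.1], by linarith [hu.2]⟩) (hgGb z) (abs_nonneg _)
        (by positivity)).trans (le_of_eq ?_)
      ring
    · exact hfc.comp hPc
    · exact fun z u hu => hab z u ⟨by linarith [hu.1], by linarith [hu.2]⟩
    · exact (hgc.comp continuous_snd).inner (hGs.comp continuous_snd)
    · exact fun z u _ => hgGb z
  have hsub : Set.uIcc s₀ 1 ⊆ Set.Icc (0:ℝ) 1 := by
    rw [Set.uIcc_of_le hs₁]
    exact Set.Icc_subset_Icc hs₀ le_rfl
  rw [intervalIntegral.integral_eq_sub_of_hasDerivAt (fun u hu => hder u (hsub hu))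
    (hrate.mono hsub).intervalIntegrable]
  simp [had, hPd, phiMap]

end Vale.Agent.P347.Tilt

namespace Vale.Agent.P347

theorem tiltFacts : TiltFacts := Tilt.tiltFacts

theorem interp (hG : GaussCov) : Interp := Tilt.interp hG

end Vale.Agent.P347
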