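import Vale.Agent.P347.SmoothBessel
import Vale.Agent.P226.GeomLaw

/-!
P347 seat A2: `SmoothFacts`, `GaussBessel` (in `SmoothBessel`) and `SelfBound`.
-/

namespace Vale.Agent.P347.Smooth

open MeasureTheory ProbabilityTheory Filter Topology
open scoped RealInnerProductSpace

variable {d : ℕ} {f : E d → ℝ} {M τ : ℝ}

lemma aop_entry (w : E d) (i j : Fin d) :
    aop w (EuclideanSpace.single j (1 : ℝ)) i = herm i j w := by
  by_cases h : i = j
  · subst h
    simp [aop_apply, herm, kd, PiLp.inner_apply]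
  · simp [aop_apply, herm, kd, h, PiLp.inner_apply, mul_comm]

lemma integrable_op (hf : Measurable f) (hM : ∀ x, |f x| ≤ M) (x : E d) :
    Integrable (fun w => f (x + Real.sqrt τ • w) • aop w) (gam d) := by
  refine Integrable.mono' (((integrable_exp_norm (d := d) 2).const_mul 2).const_mul M)
    ((measurable_line hf x _).aestronglyMeasurable.smul continuous_aop.aestronglyMeasurable)
    (Eventually.of_forall fun w => ?_)
  rw [norm_smul, Real.norm_eq_abs]
  refine mul_le_mul (hM _) ((norm_aop_le w).trans ?_) (norm_nonneg _) ((abs_nonneg _).trans (hM x))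
  have := (bound_le (w := w) (a := (0 : E d)) (by simp)).2
  nlinarith [norm_nonneg w]

lemma smHess_eq (τ : ℝ) (f : E d → ℝ) (x : E d) (i j : Fin d) :
    smHess τ f x i j = τ⁻¹ * ∫ w, f (x + Real.sqrt τ • w) * herm i j w ∂gam d := by
  simp [smHess, herm, kd]

lemma smHessOp_entry (hf : Measurable f) (hM : ∀ x, |f x| ≤ M) (x : E d) (i j : Fin d) :
    smHessOp τ f x (EuclideanSpace.single j (1 : ℝ)) i = smHess τ f x i j := by
  rw [smHess_eq, smHessOp, smul_apply, PiLp.smul_apply, smul_eq_mul,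
    ContinuousLinearMap.integral_apply (integrable_op hf hM x),
    coord_integral ((integrable_op hf hM x).apply_continuousLinearMap _)]
  congr 1
  refine integral_congr_ae (Eventually.of_forall fun w => ?_)
  simp [aop_entry]

lemma smHess_symm (τ : ℝ) (f : E d → ℝ) (x : E d) (i j : Fin d) :
    smHess τ f x i j = smHess τ f x j i := by
  rw [smHess_eq, smHess_eq]
  congr 1
  exact integral_congr_ae (Eventually.of_forall fun w => by
    simp [herm, kd_comm i j, mul_comm (w i)])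

lemma frob_sq (hf : Measurable f) (hM : ∀ x, |f x| ≤ M) (x : E d) :
    frob (smHessOp τ f x) ^ 2 = smHessSq τ f x := by
  rw [frob, Real.sq_sqrt (Finset.sum_nonneg fun i _ => sq_nonneg _), smHessSq]
  refine Finset.sum_congr rfl fun j _ => ?_
  rw [EuclideanSpace.norm_sq_eq]
  refine Finset.sum_congr rfl fun i _ => ?_
  rw [smHessOp_entry hf hM x, Real.norm_eq_abs, sq_abs, smHess_symm]

lemma var_le (hf : Measurable f) (hM : ∀ x, |f x| ≤ M) :
    (∫ w, f w * f w ∂gam d) - (∫ w, f w ∂gam d) * ∫ w, f w ∂gam d ≤ M ^ 2 := by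
  have h1 : ∫ w, f w * f w ∂gam d ≤ ∫ _w, M ^ 2 ∂gam d := by
    refine integral_mono_of_nonneg (Eventually.of_forall fun w => mul_self_nonneg _)
      (integrable_const _) (Eventually.of_forall fun w => ?_)
    have := sq_le_sq' (abs_le.1 (hM w)).1 (abs_le.1 (hM w)).2
    simpa [sq] using this
  simp only [integral_const, probReal_univ, one_smul] at h1
  nlinarith [mul_self_nonneg (∫ w, f w ∂gam d)]

lemma deriv_bounds (hf : Measurable f) (hM : ∀ x, |f x| ≤ M) (hτ : 0 < τ) (x : E d) :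
    τ * ‖smGrad τ f x‖ ^ 2 ≤ M ^ 2 ∧ τ ^ 2 * smHessSq τ f x ≤ 2 * M ^ 2 := by
  set F := fun w : E d => f (x + Real.sqrt τ • w) with hF
  have hFm : Measurable F := measurable_line hf x _
  have hb := bessel hFm (fun w => hM _)
  have hv := var_le hFm (fun w => hM (x + Real.sqrt τ • w))
  have e1 : τ * ‖smGrad τ f x‖ ^ 2 = ∑ i, (∫ w, F w * w i ∂gam d) ^ 2 := by
    rw [← norm_int_sq hFm (fun w => hM _), smGrad, norm_smul, mul_pow, norm_inv, Real.norm_eq_abs,
      abs_of_nonneg (Real.sqrt_nonneg τ), inv_pow, Real.sq_sqrt hτ.le, ← mul_assoc,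
      mul_inv_cancel₀ hτ.ne', one_mul]
  have e2 : τ ^ 2 * smHessSq τ f x = ∑ i, ∑ j, (∫ w, F w * herm i j w ∂gam d) ^ 2 := by
    simp only [smHessSq, smHess_eq, Finset.mul_sum]
    refine Finset.sum_congr rfl fun i _ => Finset.sum_congr rfl fun j _ => ?_
    rw [mul_pow, ← mul_assoc, inv_pow, mul_inv_cancel₀ (pow_ne_zero _ hτ.ne'), one_mul]
  have p1 : 0 ≤ ∑ i, (∫ w, F w * w i ∂gam d) ^ 2 := Finset.sum_nonneg fun i _ => sq_nonneg _
  have p2 : 0 ≤ ∑ i, ∑ j, (∫ w, F w * herm i j w ∂gam d) ^ 2 :=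
    Finset.sum_nonneg fun i _ => Finset.sum_nonneg fun j _ => sq_nonneg _
  exact ⟨by rw [e1]; linarith, by rw [e2]; linarith⟩

lemma grad_le (hf : Measurable f) (hM : ∀ x, |f x| ≤ M) (hτ : 0 < τ) (x : E d) :
    ‖smGrad τ f x‖ ≤ M / Real.sqrt τ := by
  have hM0 : 0 ≤ M := (abs_nonneg _).trans (hM x)
  have h := (deriv_bounds hf hM hτ x).1
  refine le_of_pow_le_pow_left₀ two_ne_zero (by positivity) ?_
  rw [div_pow, Real.sq_sqrt hτ.le, le_div_iff₀ hτ]
  linarith

lemma frob_le (hf : Measurable f) (hM : ∀ x, |f x| ≤ M) (hτ : 0 < τ) (x : E d) :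
    frob (smHessOp τ f x) ≤ 2 * M / τ := by
  have hM0 : 0 ≤ M := (abs_nonneg _).trans (hM x)
  have h := (deriv_bounds hf hM hτ x).2
  refine le_of_pow_le_pow_left₀ two_ne_zero (by positivity) ?_
  rw [frob_sq hf hM, div_pow, le_div_iff₀ (pow_pos hτ 2)]
  nlinarith [sq_nonneg M]

lemma test_sm (hf : Measurable f) (hM : ∀ x, |f x| ≤ M) (hτ : 0 < τ) {B : ℝ}
    (h1 : M / Real.sqrt τ ≤ B) (h2 : 2 * M / τ ≤ B) :
    Test (sm τ f) (smGrad τ f) (smHessOp τ f) B where
  grad := hasGradientAt_sm hf hM hτ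
  hess := hasFDerivAt_smGrad hf hM hτ
  hess_cont := continuous_smHessOp hf hM hτ
  grad_le x := (grad_le hf hM hτ x).trans h1
  hess_le x := (frob_le hf hM hτ x).trans h2

/-! ### semigroup identities -/

lemma hasFDerivAt_smU {X : Type*} [NormedAddCommGroup X] [NormedSpace ℝ X] [CompleteSpace X]
    [SecondCountableTopology X] [SecondCountableTopology (E d →L[ℝ] X)]
    {u : E d → X} {u' : E d → E d →L[ℝ] X} {B B' r : ℝ} (hu : ∀ y, HasFDerivAt u (u' y) y)
    (hc : Continuous u') (hb : ∀ y, ‖u' y‖ ≤ B) (hb' : ∀ y, ‖u y‖ ≤ B') (x : E d) :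
    HasFDerivAt (sm r u) (sm r u' x) x := by
  have hcu : Continuous u := continuous_iff_continuousAt.2 fun y => (hu y).continuousAt
  exact hasFDerivAt_integral_of_dominated_of_fderiv_le (𝕜 := ℝ) (μ := gam d)
    (s := Set.univ) (F := fun a w => u (a + Real.sqrt r • w))
    (F' := fun a w => u' (a + Real.sqrt r • w)) (bound := fun _ => B) univ_mem
    (Eventually.of_forall fun a => (hcu.comp (by fun_prop)).aestronglyMeasurable)
    (Integrable.of_bound (hcu.comp (by fun_prop)).aestronglyMeasurable B'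
      (Eventually.of_forall fun w => hb' _))
    (hc.comp (by fun_prop)).aestronglyMeasurable
    (Eventually.of_forall fun w a _ => hb _) (integrable_const B)
    (Eventually.of_forall fun w a _ =>
      (hu _).comp a ((hasFDerivAt_id a).add_const (Real.sqrt r • w)) |>.congr_fderiv (by simp))

lemma norm_smHessOp_le (hf : Measurable f) (hM : ∀ x, |f x| ≤ M) (x : E d) :
    ‖smHessOp τ f x‖ ≤ |τ⁻¹| * (M * (2 * ∫ w, Real.exp (2 * ‖w‖) ∂gam d)) := by
  rw [smHessOp, norm_smul, Real.norm_eq_abs]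
  refine mul_le_mul_of_nonneg_left ?_ (abs_nonneg _)
  refine (norm_integral_le_integral_norm _).trans ?_
  rw [← integral_const_mul, ← integral_const_mul]
  refine integral_mono (integrable_op hf hM x).norm
    (((integrable_exp_norm (d := d) 2).const_mul 2).const_mul M) fun w => ?_
  simp only [norm_smul, Real.norm_eq_abs]
  refine mul_le_mul (hM _) ((norm_aop_le w).trans ?_) (norm_nonneg _) ((abs_nonneg _).trans (hM x))
  have := (bound_le (w := w) (a := (0 : E d)) (by simp)).2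
  nlinarith [norm_nonneg w]

lemma sqrt_half (hτ : 0 < τ) :
    Real.sqrt (τ / 2) ^ 2 + Real.sqrt (τ / 2) ^ 2 = Real.sqrt τ ^ 2 := by
  rw [Real.sq_sqrt (by positivity), Real.sq_sqrt hτ.le]; ring

lemma sm_sm (hf : Measurable f) (hM : ∀ x, |f x| ≤ M) (hτ : 0 < τ) (x : E d) :
    sm τ f x = sm (τ / 2) (sm (τ / 2) f) x := by
  have h := P157.gauss_add (E := E d) (a := Real.sqrt (τ / 2)) (b := Real.sqrt (τ / 2))
    (c := Real.sqrt τ) (sqrt_half hτ)
  have hm : Measurable fun g : E d => f (x + g) := hf.comp (measurable_const_add x)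
  have h1 : ∫ g, f (x + g) ∂(gam d).map (fun g => Real.sqrt τ • g) = sm τ f x := by
    rw [integral_map (by fun_prop) hm.aestronglyMeasurable]; rfl
  rw [← h1, gam_eq, ← h, integral_map (by fun_prop) hm.aestronglyMeasurable]
  unfold sm
  rw [gam_eq, integral_prod]
  · simp [add_assoc]
  · exact Integrable.of_bound (hm.comp (by fun_prop)).aestronglyMeasurable M
      (Eventually.of_forall fun p => hM _)

lemma smGrad_sm (hf : Measurable f) (hM : ∀ x, |f x| ≤ M) (hτ : 0 < τ) (x : E d) :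
    smGrad τ f x = sm (τ / 2) (smGrad (τ / 2) f) x := by
  have hτ2 : 0 < τ / 2 := by positivity
  have hgc : Continuous (smGrad (τ / 2) f) :=
    continuous_iff_continuousAt.2 fun y => (hasFDerivAt_smGrad hf hM hτ2 y).continuousAt
  have hu : ∀ y, HasFDerivAt (sm (τ / 2) f) (innerSL ℝ (smGrad (τ / 2) f y)) y := fun y =>
    (hasGradientAt_iff_hasFDerivAt.1 (hasGradientAt_sm hf hM hτ2 y)).congr_fderiv (by ext v; simp)
  have h2 := hasFDerivAt_smU (r := τ / 2) hu ((innerSL ℝ).continuous.comp hgc)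
    (fun y => by rw [innerSL_apply_norm]; exact grad_le hf hM hτ2 y)
    (B' := M) (fun y => by
      have := norm_integral_le_of_norm_le_const (μ := gam d)
        (f := fun w => f (y + Real.sqrt (τ / 2) • w)) (Eventually.of_forall fun w => hM _)
      simpa [sm] using this) x
  have h3 := h2.congr_of_eventuallyEq (f₁ := sm τ f) (Eventually.of_forall fun y => sm_sm hf hM hτ y)
  have h1 := hasGradientAt_iff_hasFDerivAt.1 (hasGradientAt_sm hf hM hτ x)
  have h4 := h1.unique h3
  refine ext_inner_right ℝ fun v => ?_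
  have h5 := DFunLike.congr_fun h4 v
  simp only [InnerProductSpace.toDual_apply_apply] at h5
  rw [h5]
  have hi : Integrable (fun w : E d => smGrad (τ / 2) f (x + Real.sqrt (τ / 2) • w)) (gam d) :=
    Integrable.of_bound (hgc.comp (by fun_prop)).aestronglyMeasurable _
      (Eventually.of_forall fun w => grad_le hf hM hτ2 _)
  have hi' : Integrable (fun w : E d => innerSL ℝ (smGrad (τ / 2) f (x + Real.sqrt (τ / 2) • w)))
      (gam d) := by
    refine Integrable.of_bound
      (((innerSL ℝ).continuous.comp hgc).comp (by fun_prop)).aestronglyMeasurable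
      (M / Real.sqrt (τ / 2)) (Eventually.of_forall fun w => ?_)
    rw [innerSL_apply_norm]; exact grad_le hf hM hτ2 _
  simp only [sm, Function.comp_apply]
  rw [ContinuousLinearMap.integral_apply hi', real_inner_comm, ← integral_inner hi v]
  exact integral_congr_ae (Eventually.of_forall fun w => by simp [real_inner_comm])

lemma smHessOp_sm (hf : Measurable f) (hM : ∀ x, |f x| ≤ M) (hτ : 0 < τ) (x : E d) :
    smHessOp τ f x = sm (τ / 2) (smHessOp (τ / 2) f) x := by
  have hτ2 : 0 < τ / 2 := by positivity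
  have h := hasFDerivAt_smU (r := τ / 2) (fun y => hasFDerivAt_smGrad hf hM hτ2 y)
    (continuous_smHessOp hf hM hτ2) (fun y => norm_smHessOp_le hf hM y)
    (fun y => grad_le hf hM hτ2 y) x
  exact (hasFDerivAt_smGrad hf hM hτ x).unique
    (h.congr_of_eventuallyEq (Eventually.of_forall fun y => smGrad_sm hf hM hτ y))

lemma abs_smHess_le (hf : Measurable f) (hM : ∀ x, |f x| ≤ M) (y : E d) (i j : Fin d) :
    |smHess τ f y i j| ≤ ‖smHessOp τ f y‖ := by
  rw [← smHessOp_entry hf hM y i j, ← Real.norm_eq_abs]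
  refine (PiLp.norm_apply_le _ i).trans ((ContinuousLinearMap.le_opNorm _ _).trans ?_)
  simp

lemma smHessSq_sm (hf : Measurable f) (hM : ∀ x, |f x| ≤ M) (hτ : 0 < τ) (x : E d) :
    smHessSq τ f x ≤ sm (τ / 2) (smHessSq (τ / 2) f) x := by
  have hτ2 : 0 < τ / 2 := by positivity
  set K := |(τ / 2)⁻¹| * (M * (2 * ∫ w, Real.exp (2 * ‖w‖) ∂gam d))
  have hc : ∀ i j, Continuous fun y => smHess (τ / 2) f y i j := fun i j => by
    simp only [← smHessOp_entry hf hM _ i j]
    exact (EuclideanSpace.proj (𝕜 := ℝ) i).continuous.comp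
      ((continuous_smHessOp hf hM hτ2).clm_apply continuous_const)
  have hb : ∀ i j y, |smHess (τ / 2) f y i j| ≤ K := fun i j y =>
    (abs_smHess_le hf hM y i j).trans (norm_smHessOp_le hf hM y)
  have hop : Integrable (fun w : E d => smHessOp (τ / 2) f (x + Real.sqrt (τ / 2) • w)) (gam d) :=
    Integrable.of_bound ((continuous_smHessOp hf hM hτ2).comp (by fun_prop)).aestronglyMeasurable K
      (Eventually.of_forall fun w => norm_smHessOp_le hf hM _)
  have hentry : ∀ i j, smHess τ f x i j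
      = ∫ w, smHess (τ / 2) f (x + Real.sqrt (τ / 2) • w) i j ∂gam d := by
    intro i j
    rw [← smHessOp_entry hf hM x i j, smHessOp_sm hf hM hτ, sm,
      ContinuousLinearMap.integral_apply hop,
      coord_integral (hop.apply_continuousLinearMap _)]
    exact integral_congr_ae (Eventually.of_forall fun w => smHessOp_entry hf hM _ i j)
  have hint : ∀ i j, Integrable
      (fun w : E d => smHess (τ / 2) f (x + Real.sqrt (τ / 2) • w) i j ^ 2) (gam d) := fun i j => by
    refine Integrable.of_bound (((hc i j).comp (by fun_prop)).pow 2).aestronglyMeasurable (K ^ 2)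
      (Eventually.of_forall fun w => ?_)
    rw [Real.norm_eq_abs, abs_pow]
    exact pow_le_pow_left₀ (abs_nonneg _) (hb i j _) 2
  simp only [smHessSq, sm]
  rw [integral_finsetSum _ fun i _ => integrable_finsetSum _ fun j _ => hint i j]
  refine Finset.sum_le_sum fun i _ => ?_
  rw [integral_finsetSum _ fun j _ => hint i j]
  refine Finset.sum_le_sum fun j _ => ?_
  rw [hentry i j]
  set X := fun w : E d => smHess (τ / 2) f (x + Real.sqrt (τ / 2) • w) i j with hX
  set m := ∫ w, X w ∂gam d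
  have hXi : Integrable X (gam d) := Integrable.of_bound
    ((hc i j).comp (by fun_prop)).aestronglyMeasurable K (Eventually.of_forall fun w => hb i j _)
  have h0 : 0 ≤ ∫ w, (X w - m) ^ 2 ∂gam d := integral_nonneg fun w => sq_nonneg _
  have e : ∀ w, (X w - m) ^ 2 = X w ^ 2 - 2 * m * X w + m * m := fun w => by ring
  simp only [e] at h0
  rw [integral_add (isub (hint i j) (hXi.const_mul _)) (integrable_const _),
    integral_sub (hint i j) (hXi.const_mul _), integral_const_mul] at h0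
  simp only [integral_const, probReal_univ, one_smul] at h0
  nlinarith

/-! ### self bound -/

lemma pow_trick {b l t : ℝ} (hb : 0 ≤ b) (hl : 0 < l) (ht : 0 ≤ t) (n : ℕ) :
    b * t ≤ l + b ^ (n + 1) * t ^ (n + 1) / l ^ n := by
  rcases le_or_gt (b * t) l with h | h
  · have : 0 ≤ b ^ (n + 1) * t ^ (n + 1) / l ^ n := by positivity
    linarith
  · have h1 : l ^ n ≤ (b * t) ^ n := pow_le_pow_left₀ hl.le h.le n
    have h2 : b * t ≤ b ^ (n + 1) * t ^ (n + 1) / l ^ n := by
      rw [le_div_iff₀ (pow_pos hl n), ← mul_pow, pow_succ, mul_comm ((b * t) ^ n)]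
      exact mul_le_mul_of_nonneg_left h1 (by positivity)
    linarith

lemma holder_trick {Φ ψ : E d → ℝ} {b l m : ℝ} {n : ℕ} (hΦ : Measurable Φ) (h0 : ∀ w, 0 ≤ Φ w)
    (h1 : ∀ w, Φ w ≤ 1) (hψ : Continuous ψ)
    (hi : Integrable (fun w => |ψ w| ^ (n + 1)) (gam d))
    (hm : ∫ w, |ψ w| ^ (n + 1) ∂gam d ≤ m) (hb : 0 ≤ b) (hl : 0 < l) :
    b * ∫ w, Φ w * ψ w ∂gam d ≤ l * (∫ w, Φ w ∂gam d) + b ^ (n + 1) * m / l ^ n := by
  have hΦi : Integrable Φ (gam d) := Integrable.of_bound hΦ.aestronglyMeasurable 1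
    (Eventually.of_forall fun w => by rw [Real.norm_eq_abs, abs_of_nonneg (h0 w)]; exact h1 w)
  have hr := iadd (hΦi.const_mul l) (hi.const_mul (b ^ (n + 1) / l ^ n))
  have hptw : ∀ w, |b * (Φ w * ψ w)| ≤ l * Φ w + b ^ (n + 1) / l ^ n * |ψ w| ^ (n + 1) := by
    intro w
    have h := pow_trick hb hl (abs_nonneg (ψ w)) n
    rw [abs_mul, abs_mul, abs_of_nonneg hb, abs_of_nonneg (h0 w)]
    have hc : 0 ≤ b ^ (n + 1) / l ^ n * |ψ w| ^ (n + 1) := by positivity
    have he : b ^ (n + 1) * |ψ w| ^ (n + 1) / l ^ n = b ^ (n + 1) / l ^ n * |ψ w| ^ (n + 1) := by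
      ring
    rw [he] at h
    nlinarith [mul_le_mul_of_nonneg_left h (h0 w), mul_le_mul_of_nonneg_right (h1 w) hc]
  have hl' : Integrable (fun w => b * (Φ w * ψ w)) (gam d) :=
    hr.mono' ((hΦ.mul hψ.measurable).const_mul b).aestronglyMeasurable (Eventually.of_forall hptw)
  calc b * ∫ w, Φ w * ψ w ∂gam d = ∫ w, b * (Φ w * ψ w) ∂gam d := (integral_const_mul _ _).symm
    _ ≤ ∫ w, l * Φ w + b ^ (n + 1) / l ^ n * |ψ w| ^ (n + 1) ∂gam d :=
        integral_mono hl' hr fun w => (le_abs_self _).trans (hptw w)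
    _ ≤ _ := by
        rw [integral_add (hΦi.const_mul l) (hi.const_mul _), integral_const_mul, integral_const_mul,
          mul_div_right_comm]
        gcongr

/-- Absolute moment of a standard normal variable. -/
noncomputable def nm (n : ℕ) : ℝ := ∫ t, |t| ^ n ∂gaussianReal 0 1

lemma inner_moment (u : E d) (n : ℕ) (hu : ‖u‖ = 1) :
    ∫ w, |⟪u, w⟫| ^ n ∂gam d = nm n := by
  have h := P226.Geo.map_inner_one u hu
  unfold nm
  rw [show gaussianReal 0 1 = P226.Geo.N1 from rfl, ← h,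
    integral_map (by fun_prop) (by fun_prop)]
  rfl

lemma eg_pow {φ : E d → ℝ} (h : EG φ) (n : ℕ) : EG fun w => φ w ^ n := by
  induction n with
  | zero => simpa using eg_const (d := d) 1
  | succ n ih => simpa [pow_succ] using ih.mul h

lemma eg_abs {φ : E d → ℝ} (h : EG φ) : EG fun w => |φ w| := by
  obtain ⟨hc, C, c, hC, hc0, hb⟩ := h
  exact ⟨hc.abs, C, c, hC, hc0, fun w => by rw [abs_abs]; exact hb w⟩

lemma eg_inner (u : E d) : EG fun w => ⟪u, w⟫ := by
  have h : EG fun w : E d => ∑ i, u i * w i := eg_lin fun i => u i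
  simpa [PiLp.inner_apply, mul_comm] using h

lemma nm_nonneg (n : ℕ) : 0 ≤ nm n := integral_nonneg fun t => pow_nonneg (abs_nonneg t) n

lemma inner_even_moment_le (v : E d) (j : ℕ) :
    ∫ w, ⟪v, w⟫ ^ (2 * j) ∂gam d ≤ ‖v‖ ^ (2 * j) * nm (2 * j) := by
  rcases eq_or_ne v 0 with rfl | hv
  · rcases Nat.eq_zero_or_pos j with rfl | hj
    · simp [nm]
    · simp [zero_pow (show 2 * j ≠ 0 by omega)]
  · have hn : ‖v‖ ≠ 0 := norm_ne_zero_iff.2 hv
    rw [← inner_moment (‖v‖⁻¹ • v) (2 * j) (by rw [norm_smul, norm_inv, norm_norm,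
      inv_mul_cancel₀ hn]), ← integral_const_mul]
    refine le_of_eq (integral_congr_ae (Eventually.of_forall fun w => ?_))
    simp only [real_inner_smul_left]
    rw [(even_two_mul j).pow_abs, ← mul_pow, ← mul_assoc, mul_inv_cancel₀ hn, one_mul]

lemma quad_moment (B : Fin d → E d) {P : ℝ} (hP : ∑ i, ‖B i‖ ^ 2 ≤ P) (j : ℕ) (hj : 1 ≤ j) :
    ∫ w, (∑ i, ⟪B i, w⟫ ^ 2) ^ j ∂gam d ≤ P ^ j * nm (2 * j) := by
  set S := ∑ i, ‖B i‖ ^ 2 with hS
  have hS0 : 0 ≤ S := Finset.sum_nonneg fun i _ => sq_nonneg _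
  rcases hS0.eq_or_lt with h | h
  · have hz : ∀ i, B i = 0 := fun i => by
      have h2 := Finset.single_le_sum (f := fun i => ‖B i‖ ^ 2) (fun i _ => sq_nonneg _)
        (Finset.mem_univ i)
      rw [← norm_eq_zero]
      nlinarith [norm_nonneg (B i)]
    simp only [hz, inner_zero_left]
    simp [zero_pow (show j ≠ 0 by omega)]
    exact mul_nonneg (pow_nonneg (hS0.trans hP) _) (nm_nonneg _)
  · set z := fun (i : Fin d) (w : E d) => ⟪‖B i‖⁻¹ • B i, w⟫ ^ 2
    have hptw : ∀ w, (∑ i, ⟪B i, w⟫ ^ 2) ^ j ≤ S ^ j * ∑ i, ‖B i‖ ^ 2 / S * z i w ^ j := by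
      intro w
      have hsum : ∑ i, ‖B i‖ ^ 2 / S = 1 := by rw [← Finset.sum_div, ← hS, div_self h.ne']
      have hJ := Real.pow_arith_mean_le_arith_mean_pow Finset.univ (fun i => ‖B i‖ ^ 2 / S)
        (fun i => z i w) (fun i _ => by positivity) hsum (fun i _ => sq_nonneg _) j
      have e : ∑ i, ⟪B i, w⟫ ^ 2 = S * ∑ i, ‖B i‖ ^ 2 / S * z i w := by
        rw [Finset.mul_sum]
        refine Finset.sum_congr rfl fun i _ => ?_
        rcases eq_or_ne (B i) 0 with hz | hz
        · simp [hz]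
        · simp only [z, real_inner_smul_left]
          field_simp
      rw [e, mul_pow]
      exact mul_le_mul_of_nonneg_left hJ (pow_nonneg hS0 j)
    have hzi : ∀ i, Integrable (fun w => ‖B i‖ ^ 2 / S * z i w ^ j) (gam d) := fun i =>
      ((eg_const _).mul (eg_pow (eg_pow (eg_inner _) 2) j)).integrable
    calc ∫ w, (∑ i, ⟪B i, w⟫ ^ 2) ^ j ∂gam d
        ≤ ∫ w, S ^ j * ∑ i, ‖B i‖ ^ 2 / S * z i w ^ j ∂gam d :=
          integral_mono (eg_pow (eg_sum _ fun i => eg_pow (eg_inner _) 2) j).integrable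
            ((integrable_finsetSum _ fun i _ => hzi i).const_mul _) hptw
      _ ≤ S ^ j * ∑ i, ‖B i‖ ^ 2 / S * nm (2 * j) := by
          rw [integral_const_mul, integral_finsetSum _ fun i _ => hzi i]
          refine mul_le_mul_of_nonneg_left (Finset.sum_le_sum fun i _ => ?_) (pow_nonneg hS0 j)
          rw [integral_const_mul]
          refine mul_le_mul_of_nonneg_left ?_ (by positivity)
          simp only [z, ← pow_mul]
          refine (inner_even_moment_le _ j).trans ?_
          refine mul_le_of_le_one_left (nm_nonneg _) (pow_le_one₀ (norm_nonneg _) ?_)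
          rw [norm_smul, norm_inv, norm_norm]
          exact inv_mul_le_one_of_le₀ le_rfl (norm_nonneg _)
      _ = S ^ j * nm (2 * j) := by
          rw [← Finset.sum_mul, ← Finset.sum_div, ← hS, div_self h.ne', one_mul]
      _ ≤ _ := mul_le_mul_of_nonneg_right (pow_le_pow_left₀ hS0 hP j) (nm_nonneg _)

lemma gibbs_sq (hT : TiltFacts) (d : ℕ) : gibbs (fun z : E d => ‖z‖ ^ 2 / 2) = gam d := by
  obtain ⟨C, -, h⟩ := hT 0
  have hp : Pot (fun _ : E d => (0 : ℝ)) (fun _ => 0) :=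
    ⟨contDiff_const, fun x => hasGradientAt_const x 0, LipschitzWith.const' 0 |>.weaken zero_le_one,
      fun x y => by simp⟩
  have h2 := (h d _ _ hp).1
  simpa [tilt] using h2

lemma logConc_sq (d : ℕ) : LogConc (fun z : E d => ‖z‖ ^ 2 / 2) id 1 where
  contDiff := (contDiff_norm_sq ℝ).div_const 2
  grad x := by
    refine hasGradientAt_iff_hasFDerivAt.2 ?_
    have := ((hasFDerivAt_id x).norm_sq).const_mul (1 / 2 : ℝ)
    refine (this.congr_of_eventuallyEq (Eventually.of_forall fun b => ?_)).congr_fderiv ?_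
    · simp; ring
    · ext v; simp
  pos := one_pos
  lip := ⟨1, LipschitzWith.id⟩
  mono x y := by simp only [id_eq, one_mul, real_inner_self_eq_norm_sq, le_refl]

/-- The gradient of a quadratic form, as a linear map. -/
noncomputable def quadGrad (A : Fin d → Fin d → ℝ) : E d →L[ℝ] E d :=
  Matrix.toEuclideanCLM (𝕜 := ℝ) (Matrix.of fun i j => A i j + A j i)

lemma quadGrad_apply (A : Fin d → Fin d → ℝ) (w : E d) (i : Fin d) :
    quadGrad A w i = ∑ j, (A i j + A j i) * w j := by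
  simp [quadGrad, Matrix.mulVec, dotProduct]

lemma hasGradientAt_quad (A : Fin d → Fin d → ℝ) (w : E d) :
    HasGradientAt (fun w : E d => ∑ i, ∑ j, A i j * (w i * w j)) (quadGrad A w) w := by
  refine hasGradientAt_iff_hasFDerivAt.2 ?_
  have h : HasFDerivAt (fun w : E d => ∑ i, ∑ j, A i j * (w i * w j))
      (∑ i, ∑ j, A i j • ((w i) • EuclideanSpace.proj (𝕜 := ℝ) j
        + (w j) • EuclideanSpace.proj (𝕜 := ℝ) i)) w := by
    refine HasFDerivAt.fun_sum fun i _ => HasFDerivAt.fun_sum fun j _ => ?_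
    exact (((EuclideanSpace.proj (𝕜 := ℝ) i).hasFDerivAt.mul
      (EuclideanSpace.proj (𝕜 := ℝ) j).hasFDerivAt).const_mul (A i j))
  refine h.congr_fderiv ?_
  ext v
  simp only [ContinuousLinearMap.coe_sum', Finset.sum_apply, smul_apply,
    add_apply, smul_eq_mul, InnerProductSpace.toDual_apply_apply,
    PiLp.proj_apply, PiLp.inner_apply, quadGrad_apply, RCLike.inner_apply, conj_trivial,
    Finset.mul_sum, Finset.sum_mul, mul_add, add_mul, Finset.sum_add_distrib]
  rw [add_comm]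
  congr 1
  · exact Finset.sum_congr rfl fun i _ => Finset.sum_congr rfl fun j _ => by ring
  · rw [Finset.sum_comm]
    exact Finset.sum_congr rfl fun i _ => Finset.sum_congr rfl fun j _ => by ring

lemma norm_quadGrad_sq (A : Fin d → Fin d → ℝ) (w : E d) :
    ‖quadGrad A w‖ ^ 2
      = ∑ i, ⟪(WithLp.toLp 2 fun j => A i j + A j i : E d), w⟫ ^ 2 := by
  rw [EuclideanSpace.norm_sq_eq]
  refine Finset.sum_congr rfl fun i _ => ?_
  rw [Real.norm_eq_abs, sq_abs, quadGrad_apply, PiLp.inner_apply]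
  congr 1
  exact Finset.sum_congr rfl fun j _ => by simp [mul_comm]

lemma chaos_moment (hC : CentralMoments) (hT : TiltFacts) {j : ℕ} (hj : 1 ≤ j) :
    ∃ C : ℝ, 0 ≤ C ∧ ∀ d : ℕ, ∀ A : Fin d → Fin d → ℝ, ∑ i, ∑ k, A i k ^ 2 ≤ 1 →
      ∫ w, chaos A w ^ (2 * j) ∂gam d ≤ C := by
  obtain ⟨C, hC0, h⟩ := hC j hj
  refine ⟨C * (4 ^ j * nm (2 * j)), by have := nm_nonneg (2 * j); positivity, fun d A hA => ?_⟩
  set Q := fun w : E d => ∑ i, ∑ k, A i k * (w i * w k) with hQ
  have h1 := h d _ _ _ (logConc_sq d) Q (fun w => quadGrad A w) (quadGrad A).continuous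
    (hasGradientAt_quad A) ‖quadGrad A‖ 1 (fun w => by
      refine ((quadGrad A).le_opNorm w).trans ?_
      rw [pow_one]
      exact mul_le_mul_of_nonneg_left (by linarith) (norm_nonneg _))
  rw [gibbs_sq hT d, one_pow, div_one] at h1
  have hQeg : EG Q := eg_sum _ fun i => eg_sum _ fun k =>
    (eg_const (A i k)).mul ((eg_coord i).mul (eg_coord k))
  have he : ∀ w, Q w - ∫ u, Q u ∂gam d = chaos A w := by
    intro w
    have hI : ∫ u, Q u ∂gam d = ∑ i, ∑ k, A i k * kd i k := by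
      simp only [hQ]
      rw [integral_finsetSum _ fun i _ => integrable_finsetSum _ fun k _ =>
        ((eg_const (A i k)).mul ((eg_coord i).mul (eg_coord k))).integrable]
      refine Finset.sum_congr rfl fun i _ => ?_
      rw [integral_finsetSum _ fun k _ =>
        ((eg_const (A i k)).mul ((eg_coord i).mul (eg_coord k))).integrable]
      exact Finset.sum_congr rfl fun k _ => by rw [integral_const_mul, m2]
    rw [hI]
    simp only [hQ, chaos, herm, mul_sub, Finset.sum_sub_distrib]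
  simp only [he] at h1
  refine h1.trans (mul_le_mul_of_nonneg_left ?_ hC0)
  simp only [pow_mul, norm_quadGrad_sq]
  refine quad_moment _ ?_ j hj
  calc ∑ i, ‖(WithLp.toLp 2 fun k => A i k + A k i : E d)‖ ^ 2
      = ∑ i, ∑ k, (A i k + A k i) ^ 2 := by
        refine Finset.sum_congr rfl fun i _ => ?_
        rw [EuclideanSpace.norm_sq_eq]
        simp
    _ ≤ ∑ i, ∑ k, (2 * A i k ^ 2 + 2 * A k i ^ 2) :=
        Finset.sum_le_sum fun i _ => Finset.sum_le_sum fun k _ => by
          nlinarith [sq_nonneg (A i k - A k i)]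
    _ ≤ 4 := by
        simp only [Finset.sum_add_distrib, ← Finset.mul_sum]
        rw [Finset.sum_comm (f := fun i k => A k i ^ 2)]
        linarith

lemma self_lin {n : ℕ} {Φ : E d → ℝ} (hΦ : Measurable Φ) (h0 : ∀ w, 0 ≤ Φ w) (h1 : ∀ w, Φ w ≤ 1)
    {b l : ℝ} (hb : 0 ≤ b) (hl : 0 < l) :
    b * ‖∫ w, Φ w • w ∂gam d‖
      ≤ l * (∫ w, Φ w ∂gam d) + b ^ (n + 1) * nm (n + 1) / l ^ n := by
  set v := ∫ w, Φ w • w ∂gam d with hv
  have hΦn : 0 ≤ ∫ w, Φ w ∂gam d := integral_nonneg h0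
  rcases eq_or_ne v 0 with h | h
  · rw [h, norm_zero, mul_zero]
    have := nm_nonneg (n + 1)
    positivity
  · set u := ‖v‖⁻¹ • v
    have hu : ‖u‖ = 1 := by rw [norm_smul, norm_inv, norm_norm,
      inv_mul_cancel₀ (norm_ne_zero_iff.2 h)]
    have e : ‖v‖ = ∫ w, Φ w * ⟪u, w⟫ ∂gam d := by
      have hi := integrable_smul_id (M := 1) hΦ
        (fun w => by rw [abs_of_nonneg (h0 w)]; exact h1 w)
      calc ‖v‖ = ⟪u, v⟫ := by
            rw [real_inner_smul_left, real_inner_self_eq_norm_sq, sq, ← mul_assoc,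
              inv_mul_cancel₀ (norm_ne_zero_iff.2 h), one_mul]
        _ = ∫ w, ⟪u, Φ w • w⟫ ∂gam d := (integral_inner hi u).symm
        _ = _ := integral_congr_ae (Eventually.of_forall fun w => by simp [real_inner_smul_right])
    rw [e]
    exact holder_trick hΦ h0 h1 (eg_inner u).cont (eg_pow (eg_abs (eg_inner u)) _).integrable
      (inner_moment u _ hu).le hb hl

lemma self_quad {n : ℕ} {Φ : E d → ℝ} (hΦ : Measurable Φ) (h0 : ∀ w, 0 ≤ Φ w) (h1 : ∀ w, Φ w ≤ 1)
    {m : ℝ} (hm0 : 0 ≤ m) (hm : ∀ A : Fin d → Fin d → ℝ, ∑ i, ∑ k, A i k ^ 2 ≤ 1 →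
      ∫ w, chaos A w ^ (2 * (n + 1)) ∂gam d ≤ m)
    {b l : ℝ} (hb : 0 ≤ b) (hl : 0 < l) :
    b * Real.sqrt (∑ i, ∑ j, (∫ w, Φ w * herm i j w ∂gam d) ^ 2)
      ≤ l * (∫ w, Φ w ∂gam d) + b ^ (n + 1) * (1 + m) / l ^ n := by
  set A := fun i j => ∫ w, Φ w * herm i j w ∂gam d with hA
  set S := ∑ i, ∑ j, A i j ^ 2 with hS
  have hΦn : 0 ≤ ∫ w, Φ w ∂gam d := integral_nonneg h0
  have hS0 : 0 ≤ S := Finset.sum_nonneg fun i _ => Finset.sum_nonneg fun j _ => sq_nonneg _
  rcases hS0.eq_or_lt with h | h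
  · rw [← h, Real.sqrt_zero, mul_zero]
    positivity
  · set B := fun i j => (Real.sqrt S)⁻¹ * A i j
    have hB : ∑ i, ∑ k, B i k ^ 2 ≤ 1 := by
      simp only [B, mul_pow, ← Finset.mul_sum, inv_pow, Real.sq_sqrt h.le]
      rw [← hS, inv_mul_cancel₀ h.ne']
    have e : Real.sqrt S = ∫ w, Φ w * chaos B w ∂gam d := by
      rw [int_chaos_left B fun i j => int_f_mul hΦ (M := 1)
        (fun w => by rw [abs_of_nonneg (h0 w)]; exact h1 w) (eg_herm i j)]
      have : ∀ i j, B i j * ∫ w, Φ w * herm i j w ∂gam d = (Real.sqrt S)⁻¹ * A i j ^ 2 := by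
        intro i j; simp only [B, hA]; ring
      simp only [this, ← Finset.mul_sum]
      rw [← hS]
      field_simp
      exact (Real.sq_sqrt h.le)
    rw [e]
    refine holder_trick hΦ h0 h1 (eg_chaos B).cont (eg_pow (eg_abs (eg_chaos B)) _).integrable ?_
      hb hl
    have hp : ∀ w, |chaos B w| ^ (n + 1) ≤ 1 + chaos B w ^ (2 * (n + 1)) := fun w => by
      rw [← (even_two_mul (n + 1)).pow_abs, mul_comm 2 (n + 1), pow_mul]
      nlinarith [sq_nonneg (|chaos B w| ^ (n + 1) - 1)]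
    refine (integral_mono (eg_pow (eg_abs (eg_chaos B)) _).integrable
      (iadd (integrable_const _) (eg_pow (eg_chaos B) _).integrable) hp).trans ?_
    rw [integral_add (integrable_const _) (eg_pow (eg_chaos B) _).integrable]
    simp only [integral_const, probReal_univ, one_smul]
    linarith [hm B hB]

end Vale.Agent.P347.Smooth

namespace Vale.Agent.P347

open MeasureTheory Filter

theorem smoothFacts : SmoothFacts := by
  intro d f M τ hf hM hτ
  refine ⟨⟨Smooth.smHessOp τ f, max (M / Real.sqrt τ) (2 * M / τ),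
    Smooth.test_sm hf hM hτ (le_max_left _ _) (le_max_right _ _), Smooth.frob_sq hf hM⟩,
    Smooth.smGrad_sm hf hM hτ, Smooth.smHessSq_sm hf hM hτ,
    fun x => (Smooth.deriv_bounds hf hM hτ x).1, fun x => (Smooth.deriv_bounds hf hM hτ x).2⟩

theorem selfBound (hC : CentralMoments) (hT : TiltFacts) : SelfBound := by
  intro k hk
  obtain ⟨n, rfl⟩ : ∃ n, k = n + 1 := ⟨k - 1, by omega⟩
  obtain ⟨m, hm0, hm⟩ := Smooth.chaos_moment hC hT (j := n + 1) (by omega)
  set K := max 8 (2 ^ n * (2 ^ (n + 1) * Smooth.nm (n + 1) + 4 ^ (n + 1) * (1 + m))) with hK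
  refine ⟨K, (by norm_num : (0 : ℝ) ≤ 8).trans (le_max_left _ _),
    fun d Φ τ hΦ h0 h1 hτ1 hτ2 => ?_⟩
  have hτ : 0 < τ := by linarith
  have hM : ∀ x, |Φ x| ≤ 1 := fun x => by rw [abs_of_nonneg (h0 x)]; exact h1 x
  have hsq : (1 : ℝ) / 2 ≤ Real.sqrt τ := Real.le_sqrt_of_sq_le (by linarith)
  have t1 : (Real.sqrt τ)⁻¹ ≤ 2 := by
    rw [inv_le_comm₀ (by linarith) two_pos]; linarith
  have t2 : τ⁻¹ ≤ 4 := by rw [inv_le_comm₀ hτ (by norm_num)]; linarith
  refine ⟨smGrad τ Φ, Smooth.smHessOp τ Φ, Smooth.test_sm hΦ hM hτ ?_ ?_, ?_⟩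
  · rw [one_div]; exact t1.trans (le_trans (by norm_num) (le_max_left 8 _))
  · rw [mul_one, div_eq_mul_inv]
    exact le_trans (by linarith) (le_max_left 8 _)
  intro x b l hb hl
  set F := fun w => Φ (x + Real.sqrt τ • w) with hF
  have hFm : Measurable F := Smooth.measurable_line hΦ x _
  have s1 := Smooth.self_lin (n := n) (d := d) hFm (fun w => h0 _) (fun w => h1 _)
    (b := 2 * b) (l := l / 2) (by linarith) (by linarith)
  have s2 := Smooth.self_quad (n := n) (d := d) hFm (fun w => h0 _) (fun w => h1 _) hm0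
    (hm d) (b := 4 * b) (l := l / 2) (by linarith) (by linarith)
  have g1 : ‖smGrad τ Φ x‖ ≤ 2 * ‖∫ w, F w • w ∂gam d‖ := by
    rw [smGrad, norm_smul, norm_inv, Real.norm_eq_abs, abs_of_nonneg (Real.sqrt_nonneg τ)]
    exact mul_le_mul_of_nonneg_right t1 (norm_nonneg _)
  have g2 : frob (Smooth.smHessOp τ Φ x)
      ≤ 4 * Real.sqrt (∑ i, ∑ j, (∫ w, F w * Smooth.herm i j w ∂gam d) ^ 2) := by
    have e : frob (Smooth.smHessOp τ Φ x)
        = τ⁻¹ * Real.sqrt (∑ i, ∑ j, (∫ w, F w * Smooth.herm i j w ∂gam d) ^ 2) := by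
      rw [← Real.sqrt_sq (show 0 ≤ frob (Smooth.smHessOp τ Φ x) from Real.sqrt_nonneg _),
        Smooth.frob_sq hΦ hM, smHessSq]
      simp only [Smooth.smHess_eq, mul_pow, ← Finset.mul_sum]
      rw [Real.sqrt_mul (sq_nonneg _), Real.sqrt_sq (inv_nonneg.2 hτ.le)]
    rw [e]
    exact mul_le_mul_of_nonneg_right t2 (Real.sqrt_nonneg _)
  have hsm : sm τ Φ x = ∫ w, F w ∂gam d := rfl
  rw [hsm, show n + 1 - 1 = n by omega]
  have hKb : (2 * b) ^ (n + 1) * Smooth.nm (n + 1) / (l / 2) ^ n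
      + (4 * b) ^ (n + 1) * (1 + m) / (l / 2) ^ n ≤ K * b ^ (n + 1) / l ^ n := by
    have e : (2 * b) ^ (n + 1) * Smooth.nm (n + 1) / (l / 2) ^ n
        + (4 * b) ^ (n + 1) * (1 + m) / (l / 2) ^ n
        = 2 ^ n * (2 ^ (n + 1) * Smooth.nm (n + 1) + 4 ^ (n + 1) * (1 + m))
            * (b ^ (n + 1) / l ^ n) := by
      rw [mul_pow, mul_pow, div_pow]
      field_simp
    rw [e, mul_div_assoc]
    exact mul_le_mul_of_nonneg_right (le_max_right _ _) (by positivity)
  have := mul_le_mul_of_nonneg_left (add_le_add g1 g2) hb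
  linarith

end Vale.Agent.P347
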