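import Vale.Agent.P157.Gauss
import Vale.Agent.P347.Basic
import Vale.Agent.P347.Coord
import Vale.Agent.P347.LogConcave
import Vale.Agent.P347.Smooth

/-!
P347: the Ornstein-Uhlenbeck semigroup and the smoothed drift used as a test function for the
mean of a step.
-/

namespace Vale.Agent.P347

open MeasureTheory ProbabilityTheory
open scoped RealInnerProductSpace

namespace Mean

variable {d : ℕ}

/-- The noise size at time `r`. -/
noncomputable def nz (r : ℝ) : ℝ := Real.sqrt (1 - Real.exp (-(2 * r)))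

lemma nz_nonneg (r : ℝ) : 0 ≤ nz r := Real.sqrt_nonneg _

lemma nz_le_one (r : ℝ) : nz r ≤ 1 :=
  Real.sqrt_le_one.2 (by linarith [Real.exp_pos (-(2 * r))])

lemma nz_sq {r : ℝ} (hr : 0 ≤ r) : nz r ^ 2 = 1 - Real.exp (-(2 * r)) :=
  Real.sq_sqrt (by linarith [Real.exp_le_one_iff.2 (by linarith : -(2 * r) ≤ 0)])

lemma exp_sq (r : ℝ) : Real.exp (-r) ^ 2 = Real.exp (-(2 * r)) := by
  rw [← Real.exp_nat_mul]; push_cast; ring_nf

lemma ouPt_eq (r : ℝ) (z w : E d) : ouPt r z w = Real.exp (-r) • z + nz r • w := rfl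

lemma norm_ouPt_le {r : ℝ} (hr : 0 ≤ r) (z w : E d) : ‖ouPt r z w‖ ≤ ‖z‖ + ‖w‖ := by
  rw [ouPt_eq]
  refine (norm_add_le _ _).trans (add_le_add ?_ ?_)
  · rw [norm_smul, Real.norm_eq_abs, abs_of_pos (Real.exp_pos _)]
    exact mul_le_of_le_one_left (norm_nonneg _) (Real.exp_le_one_iff.2 (by linarith))
  · rw [norm_smul, Real.norm_eq_abs, abs_of_nonneg (nz_nonneg r)]
    exact mul_le_of_le_one_left (norm_nonneg _) (nz_le_one r)

lemma continuous_ouPt (r : ℝ) : Continuous fun p : E d × E d => ouPt r p.1 p.2 := by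
  unfold ouPt; fun_prop

/-- The square of a mean is at most the mean of the square. -/
lemma sq_int_le {α : Type*} [MeasurableSpace α] (μ : Measure α) [IsProbabilityMeasure μ]
    {f : α → ℝ} (hf : Integrable f μ) (hf2 : Integrable (fun x => f x ^ 2) μ) :
    (∫ x, f x ∂μ) ^ 2 ≤ ∫ x, f x ^ 2 ∂μ := by
  set m := ∫ x, f x ∂μ with hm
  have h : 0 ≤ ∫ x, (f x ^ 2 - 2 * m * f x + m ^ 2) ∂μ :=
    integral_nonneg fun x => by simp only [Pi.zero_apply]; nlinarith [sq_nonneg (f x - m)]
  have i1 : Integrable (fun x => f x ^ 2 - 2 * m * f x) μ := hf2.sub (hf.const_mul _)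
  rw [integral_add i1 (integrable_const _), integral_sub hf2 (hf.const_mul _), integral_const_mul,
    integral_const, probReal_univ, one_smul, ← hm] at h
  linarith

lemma int_le_of_sq_le {α : Type*} [MeasurableSpace α] (μ : Measure α) [IsProbabilityMeasure μ]
    {f : α → ℝ} (hf : Integrable f μ) (hf2 : Integrable (fun x => f x ^ 2) μ) {c : ℝ}
    (hc : 0 ≤ c) (h : ∫ x, f x ^ 2 ∂μ ≤ c ^ 2) : ∫ x, f x ∂μ ≤ c :=
  (abs_le_of_sq_le_sq' ((sq_int_le μ hf hf2).trans h) hc).2

/-! ### The Gaussian law -/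

lemma integrable_norm (N : ℕ) : Integrable (fun w : E N => ‖w‖) (gam N) := by
  unfold gam
  simpa using P157.integrable_norm_pow (E := E N) 1

lemma integrable_lin {N : ℕ} {X : Type*} [NormedAddCommGroup X] {f : E N → X} (hf : Continuous f)
    {a b : ℝ} (h : ∀ x, ‖f x‖ ≤ a + b * ‖x‖) : Integrable f (gam N) :=
  Integrable.mono' ((integrable_const a).add ((integrable_norm N).const_mul b))
    hf.aestronglyMeasurable (Filter.Eventually.of_forall h)

lemma integral_norm_le (N : ℕ) : ∫ w : E N, ‖w‖ ∂gam N ≤ Real.sqrt N := by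
  refine int_le_of_sq_le (gam N) (integrable_norm N) ?_ (Real.sqrt_nonneg _) ?_
  · unfold gam; exact P157.integrable_norm_pow 2
  · rw [Real.sq_sqrt (Nat.cast_nonneg N)]
    have hi : ∀ i : Fin N,
        Integrable (fun w : E N => ⟪w, EuclideanSpace.single i (1 : ℝ)⟫ ^ 2) (gam N) := fun i => by
      unfold gam
      refine (P157.integrable_norm_pow (E := E N) 2).mono'
        (Continuous.aestronglyMeasurable (by fun_prop)) (Filter.Eventually.of_forall fun w => ?_)
      rw [Real.norm_eq_abs, abs_pow]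
      have := abs_real_inner_le_norm w (EuclideanSpace.single i (1 : ℝ))
      rw [PiLp.norm_single, norm_one, mul_one] at this
      exact pow_le_pow_left₀ (abs_nonneg _) this 2
    have e : ∀ w : E N, ‖w‖ ^ 2 = ∑ i, ⟪w, EuclideanSpace.single i (1 : ℝ)⟫ ^ 2 := fun w => by
      simp [EuclideanSpace.real_norm_sq_eq, EuclideanSpace.inner_single_right]
    simp only [e]
    rw [integral_finsetSum _ fun i _ => hi i]
    unfold gam
    simp [P157.integral_inner_sq]

section semigroup

variable {X : Type*} [NormedAddCommGroup X] [NormedSpace ℝ X] {f : E d → X}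

lemma gauss2 (hf : Continuous f) {a b : ℝ} (h : ∀ x, ‖f x‖ ≤ a + b * ‖x‖) (hb : 0 ≤ b)
    (c : E d) {α β δ : ℝ} (hsq : α ^ 2 + β ^ 2 = δ ^ 2) :
    ∫ w, ∫ w', f (c + α • w + β • w') ∂gam d ∂gam d = ∫ w, f (c + δ • w) ∂gam d := by
  have hc2 : Continuous fun p : E d × E d => c + α • p.1 + β • p.2 := by fun_prop
  have hi : Integrable (fun p : E d × E d => f (c + α • p.1 + β • p.2))
      ((gam d).prod (gam d)) := by
    refine Integrable.mono' (g := fun p : E d × E d =>
      (a + b * ‖c‖) + (b * |α| * ‖p.1‖ + b * |β| * ‖p.2‖))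
      ((integrable_const _).add ((((integrable_norm d).const_mul _).comp_fst _).add
        (((integrable_norm d).const_mul _).comp_snd _)))
      (hf.comp hc2).aestronglyMeasurable (Filter.Eventually.of_forall fun p => (h _).trans ?_)
    have h1 : ‖c + α • p.1 + β • p.2‖ ≤ ‖c‖ + |α| * ‖p.1‖ + |β| * ‖p.2‖ := by
      refine (norm_add₃_le).trans (le_of_eq ?_)
      simp [norm_smul]
    have h2 := mul_le_mul_of_nonneg_left h1 hb
    linarith
  rw [integral_integral hi]
  have hm := P157.gauss_add (E := E d) hsq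
  have hF : Continuous fun v : E d => f (c + v) := hf.comp (by fun_prop)
  have e1 : ∫ p : E d × E d, f (c + α • p.1 + β • p.2) ∂(gam d).prod (gam d)
      = ∫ v, f (c + v) ∂((gam d).prod (gam d)).map fun p => α • p.1 + β • p.2 := by
    rw [integral_map (by fun_prop) hF.aestronglyMeasurable]
    simp only [add_assoc]
  rw [e1]
  unfold gam
  rw [hm, integral_map (by fun_prop) hF.aestronglyMeasurable]

lemma ou_ou (hf : Continuous f) {a b : ℝ} (h : ∀ x, ‖f x‖ ≤ a + b * ‖x‖) (hb : 0 ≤ b)
    {r t : ℝ} (hr : 0 ≤ r) (ht : 0 ≤ t) (z : E d) : ou r (ou t f) z = ou (r + t) f z := by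
  have e : ∀ w w' : E d, ouPt t (ouPt r z w) w'
      = Real.exp (-(r + t)) • z + (Real.exp (-t) * nz r) • w + nz t • w' := fun w w' => by
    rw [ouPt_eq, ouPt_eq, neg_add, Real.exp_add]
    module
  simp only [ou, e]
  refine gauss2 hf h hb _ ?_
  rw [mul_pow, nz_sq hr, nz_sq ht, exp_sq, ← nz, nz_sq (add_nonneg hr ht),
    show -(2 * (r + t)) = -(2 * r) + -(2 * t) by ring, Real.exp_add]
  ring

lemma integral_ou (hf : Continuous f) {a b : ℝ} (h : ∀ x, ‖f x‖ ≤ a + b * ‖x‖) (hb : 0 ≤ b)
    {t : ℝ} (ht : 0 ≤ t) : ∫ z, ou t f z ∂gam d = ∫ z, f z ∂gam d := by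
  have e : ∀ w w' : E d, ouPt t w w' = 0 + Real.exp (-t) • w + nz t • w' := fun w w' => by
    rw [ouPt_eq, zero_add]
  simp only [ou, e]
  rw [gauss2 hf h hb 0 (δ := 1) (by rw [exp_sq, nz_sq ht]; ring)]
  simp

lemma norm_ou_le {a b : ℝ} (h : ∀ x, ‖f x‖ ≤ a + b * ‖x‖) (hb : 0 ≤ b) {r : ℝ} (hr : 0 ≤ r)
    (z : E d) : ‖ou r f z‖ ≤ a + b * (‖z‖ + Real.sqrt d) := by
  refine (norm_integral_le_of_norm_le
    ((integrable_const (a + b * ‖z‖)).add ((integrable_norm d).const_mul b))
    (Filter.Eventually.of_forall fun w => (h _).trans ?_)).trans ?_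
  · have := mul_le_mul_of_nonneg_left (norm_ouPt_le hr z w) hb
    simp only [Pi.add_apply]; linarith
  · rw [integral_add' (integrable_const _) ((integrable_norm d).const_mul b), integral_const,
      probReal_univ, one_smul, integral_const_mul]
    have := mul_le_mul_of_nonneg_left (integral_norm_le d) hb
    linarith

omit [NormedSpace ℝ X] in
lemma integrable_ouPt (hf : Continuous f) {a b : ℝ} (h : ∀ x, ‖f x‖ ≤ a + b * ‖x‖) (hb : 0 ≤ b)
    {r : ℝ} (hr : 0 ≤ r) (z : E d) : Integrable (fun w => f (ouPt r z w)) (gam d) :=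
  integrable_lin (hf.comp (by unfold ouPt; fun_prop)) (a := a + b * ‖z‖) (b := b) fun w => by
    have := mul_le_mul_of_nonneg_left (norm_ouPt_le hr z w) hb
    linarith [h (ouPt r z w)]

lemma ou_lip {K : ℝ} (hK : 0 ≤ K) (hf : ∀ x y, ‖f x - f y‖ ≤ K * ‖x - y‖) {r : ℝ} (hr : 0 ≤ r)
    (z z' : E d) : ‖ou r f z - ou r f z'‖ ≤ K * ‖z - z'‖ := by
  have hc : Continuous f := (LipschitzWith.of_dist_le_mul (K := K.toNNReal) fun a b => by
    rw [Real.coe_toNNReal _ hK, dist_eq_norm, dist_eq_norm]; exact hf a b).continuous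
  have h : ∀ x, ‖f x‖ ≤ ‖f 0‖ + K * ‖x‖ := fun x => by
    have := hf x 0
    rw [sub_zero] at this
    linarith [norm_le_norm_add_norm_sub' (f x) (f 0)]
  rw [ou, ou, ← integral_sub (integrable_ouPt hc h hK hr z) (integrable_ouPt hc h hK hr z')]
  refine (norm_integral_le_of_norm_le_const (C := K * ‖z - z'‖)
    (Filter.Eventually.of_forall fun w => (hf _ _).trans ?_)).trans (le_of_eq (by simp))
  refine mul_le_mul_of_nonneg_left ?_ hK
  rw [ouPt_eq, ouPt_eq, add_sub_add_right_eq_sub, ← smul_sub, norm_smul, Real.norm_eq_abs,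
    abs_of_pos (Real.exp_pos _)]
  exact mul_le_of_le_one_left (norm_nonneg _) (Real.exp_le_one_iff.2 (by linarith))

end semigroup

lemma continuous_of_lip {X : Type*} [NormedAddCommGroup X] {f : E d → X} {K : ℝ} (hK : 0 ≤ K)
    (hf : ∀ x y, ‖f x - f y‖ ≤ K * ‖x - y‖) : Continuous f :=
  (LipschitzWith.of_dist_le_mul (K := K.toNNReal) fun a b => by
    rw [Real.coe_toNNReal _ hK, dist_eq_norm, dist_eq_norm]; exact hf a b).continuous

/-! ### Gradient fields -/

lemma continuous_gradient {φ : E d → ℝ} (h : ContDiff ℝ 1 φ) : Continuous (gradient φ) :=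
  (riesz d).continuous.comp (h.continuous_fderiv (by norm_num))

lemma hasGradientAt_gradient {φ : E d → ℝ} (h : ContDiff ℝ 1 φ) (x : E d) :
    HasGradientAt φ (gradient φ x) x :=
  ((h.differentiable (by norm_num)) x).hasGradientAt

lemma norm_gradient (φ : E d → ℝ) (x : E d) : ‖gradient φ x‖ = ‖fderiv ℝ φ x‖ :=
  (InnerProductSpace.toDual ℝ (E d)).symm.norm_map _

lemma norm_gradient_le {φ : E d → ℝ} {K : ℝ} (hK : 0 ≤ K)
    (h : ∀ x y, |φ x - φ y| ≤ K * ‖x - y‖) (x : E d) : ‖gradient φ x‖ ≤ K := by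
  have hl : LipschitzWith K.toNNReal φ := LipschitzWith.of_dist_le_mul fun a b => by
    rw [Real.coe_toNNReal _ hK, Real.dist_eq, dist_eq_norm]; exact h a b
  rw [norm_gradient]
  simpa [Real.coe_toNNReal _ hK] using norm_fderiv_le_of_lipschitz ℝ (x₀ := x) hl

lemma contDiff_of_grad {φ : E d → ℝ} {gφ : E d → E d} (h : ∀ x, HasGradientAt φ (gφ x) x)
    (hc : Continuous gφ) : ContDiff ℝ 1 φ := by
  refine contDiff_one_iff_fderiv.2 ⟨fun x => (h x).hasFDerivAt.differentiableAt, ?_⟩
  rw [show fderiv ℝ φ = fun x => InnerProductSpace.toDual ℝ (E d) (gφ x) from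
    funext fun x => (h x).hasFDerivAt.fderiv]
  exact (InnerProductSpace.toDual ℝ (E d)).continuous.comp hc

/-! ### The drift -/

variable {U : E d → ℝ} {g : E d → E d}

lemma norm_g_sub (hU : Pot U g) (x y : E d) : ‖g x - g y‖ ≤ ‖x - y‖ := by
  simpa [dist_eq_norm] using hU.lip.dist_le_mul x y

lemma norm_g_le (hU : Pot U g) (x : E d) : ‖g x‖ ≤ ‖g 0‖ + 1 * ‖x‖ := by
  have := norm_g_sub hU x 0
  rw [sub_zero] at this
  linarith [norm_le_norm_add_norm_sub' (g x) (g 0)]

lemma contDiff_g (hU : Pot U g) : ContDiff ℝ 1 g := by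
  rw [← gradient_eq hU.grad]
  exact (riesz d).contDiff.comp (hU.contDiff.fderiv_right (by norm_num))

lemma lower (hU : Pot U g) (z : E d) : U 0 + ⟪g 0, z⟫ ≤ U z := by
  have h := LogConcave.strong (hU.logConc zero_le_one) 0 z
  simp only [zero_add, one_smul, one_mul, norm_zero] at h
  linarith

lemma norm_gStar_le (hU : Pot U g) (z : E d) :
    ‖gStar g z‖ ≤ ‖g 0‖ + Real.sqrt d + ‖z‖ := by
  have hi : IntegrableOn (fun r : ℝ => Real.exp (-r) * (‖g 0‖ + Real.sqrt d + ‖z‖))
      (Set.Ioi 0) := by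
    have h := (integrableOn_exp_mul_Ioi (show (-1 : ℝ) < 0 by norm_num) 0).mul_const
      (‖g 0‖ + Real.sqrt d + ‖z‖)
    simpa [IntegrableOn] using h
  refine (norm_integral_le_of_norm_le hi ?_).trans (le_of_eq ?_)
  · filter_upwards [self_mem_ae_restrict measurableSet_Ioi] with r hr
    rw [norm_smul, Real.norm_eq_abs, abs_of_pos (Real.exp_pos _)]
    refine mul_le_mul_of_nonneg_left ((norm_ou_le (norm_g_le hU) zero_le_one (le_of_lt hr) z).trans
      (le_of_eq ?_)) (Real.exp_pos _).le
    ring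
  · rw [integral_mul_const, integral_exp_neg_Ioi_zero, one_mul]

/-! ### The test function -/

/-- A coordinate of the gradient field. -/
noncomputable def uf (g : E d → E d) (a : E d) (z : E d) : ℝ := ⟪a, g z⟫

/-- The gradient of `uf`. -/
noncomputable def gu (g : E d → E d) (a : E d) : E d → E d := gradient (uf g a)

section test

variable (hU : Pot U g) {a : E d} (ha : ‖a‖ ≤ 1)
include hU ha

omit ha in
lemma contDiff_uf : ContDiff ℝ 1 (uf g a) := contDiff_const.inner ℝ (contDiff_g hU)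

lemma uf_lip (x y : E d) : |uf g a x - uf g a y| ≤ 1 * ‖x - y‖ := by
  rw [uf, uf, ← inner_sub_right]
  exact (abs_real_inner_le_norm _ _).trans
    (mul_le_mul ha (norm_g_sub hU x y) (norm_nonneg _) zero_le_one)

lemma norm_uf_le (x : E d) : ‖uf g a x‖ ≤ ‖g 0‖ + 1 * ‖x‖ := by
  refine (norm_inner_le_norm _ _).trans ?_
  exact (mul_le_of_le_one_left (norm_nonneg _) ha).trans (norm_g_le hU x)

lemma norm_gu_le (x : E d) : ‖gu g a x‖ ≤ 1 := norm_gradient_le zero_le_one (uf_lip hU ha) x

lemma norm_gu_le' (x : E d) : ‖gu g a x‖ ≤ 1 + 0 * ‖x‖ := by simpa using norm_gu_le hU ha x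

omit ha in
lemma continuous_gu : Continuous (gu g a) := continuous_gradient (contDiff_uf hU)

omit ha in
lemma hasGradientAt_uf (x : E d) : HasGradientAt (uf g a) (gu g a x) x :=
  hasGradientAt_gradient (contDiff_uf hU) x

lemma hasGradientAt_ou {ε : ℝ} (hε : 0 ≤ ε) (z : E d) :
    HasGradientAt (ou ε (uf g a)) (Real.exp (-ε) • ou ε (gu g a) z) z := by
  set c := Real.exp (-ε) with hc
  have hcc : Continuous fun w : E d => ouPt ε z w := by unfold ouPt; fun_prop
  have hct : Continuous fun w : E d =>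
      c • (InnerProductSpace.toDual ℝ (E d)) (gu g a (ouPt ε z w)) :=
    (((InnerProductSpace.toDual ℝ (E d)).continuous.comp
      ((continuous_gu hU).comp hcc))).const_smul c
  have h := hasFDerivAt_integral_of_dominated_of_fderiv_le (μ := gam d) (x₀ := z) (s := Set.univ)
    (F := fun x w => uf g a (ouPt ε x w))
    (F' := fun x w => c • (InnerProductSpace.toDual ℝ (E d)) (gu g a (ouPt ε x w)))
    (bound := fun _ => c) Filter.univ_mem
    (Filter.Eventually.of_forall fun x =>
      ((contDiff_uf hU).continuous.comp (by unfold ouPt; fun_prop)).aestronglyMeasurable)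
    (integrable_ouPt (contDiff_uf hU).continuous (norm_uf_le hU ha) zero_le_one hε z)
    hct.aestronglyMeasurable
    (Filter.Eventually.of_forall fun w x _ => by
      rw [norm_smul, Real.norm_eq_abs, abs_of_pos (Real.exp_pos _), LinearIsometryEquiv.norm_map]
      exact mul_le_of_le_one_right (Real.exp_pos _).le (norm_gu_le hU ha _))
    (integrable_const c)
    (Filter.Eventually.of_forall fun w x _ => by
      have hl : HasFDerivAt (fun x : E d => ouPt ε x w) (c • ContinuousLinearMap.id ℝ (E d)) x := by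
        simpa [ouPt, hc] using ((hasFDerivAt_id x).const_smul c).add_const
          (Real.sqrt (1 - Real.exp (-(2 * ε))) • w)
      refine ((hasGradientAt_uf (a := a) hU _).hasFDerivAt.comp x hl).congr_fderiv ?_
      ext v; simp)
  rw [hasGradientAt_iff_hasFDerivAt]
  refine h.congr_fderiv ?_
  have hi : Integrable (fun w => c • (InnerProductSpace.toDual ℝ (E d)) (gu g a (ouPt ε z w)))
      (gam d) := by
    refine Integrable.of_bound hct.aestronglyMeasurable c
      (Filter.Eventually.of_forall fun w => ?_)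
    rw [norm_smul, Real.norm_eq_abs, abs_of_pos (Real.exp_pos _), LinearIsometryEquiv.norm_map]
    exact mul_le_of_le_one_right (Real.exp_pos _).le (norm_gu_le hU ha _)
  refine ContinuousLinearMap.ext fun v => ?_
  rw [ContinuousLinearMap.integral_apply hi v, InnerProductSpace.toDual_apply_apply,
    real_inner_smul_left, ou, real_inner_comm v,
    ← integral_inner (integrable_ouPt (continuous_gu hU) (norm_gu_le' hU ha) le_rfl hε z) v,
    ← integral_const_mul]
  refine integral_congr_ae (Filter.Eventually.of_forall fun w => ?_)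
  simp [InnerProductSpace.toDual_apply_apply, real_inner_comm]

lemma test_ou {ε : ℝ} (hε : 0 < ε) (hε2 : ε ≤ 1 / 2) :
    ∃ he, Test (ou ε (uf g a)) (fun z => Real.exp (-ε) • ou ε (gu g a) z) he
      (1 / Real.sqrt ε) := by
  set c := Real.exp (-ε) with hc
  set τ := 1 - Real.exp (-(2 * ε)) with hτ'
  have hc0 : 0 < c := Real.exp_pos _
  have hc1 : c ≤ 1 := Real.exp_le_one_iff.2 (by linarith)
  have hτε : ε ≤ τ := by
    have h1 := Real.add_one_le_exp (2 * ε)
    have h2 : Real.exp (-(2 * ε)) * Real.exp (2 * ε) = 1 := by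
      rw [← Real.exp_add, neg_add_cancel, Real.exp_zero]
    have h3 := Real.exp_pos (-(2 * ε))
    have h4 := mul_le_mul_of_nonneg_left h1 h3.le
    nlinarith
  have hτ : 0 < τ := hε.trans_le hτε
  set f : Fin d → E d → ℝ := fun j x => gu g a x j with hf
  have hfm : ∀ j, Measurable (f j) := fun j =>
    ((PiLp.continuous_apply 2 (fun _ : Fin d => ℝ) j).comp (continuous_gu hU)).measurable
  have hfb : ∀ j x, |f j x| ≤ 1 := fun j x =>
    ((PiLp.norm_apply_le (gu g a x) j).trans (norm_gu_le hU ha x))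
  have hsmg : ∀ j, (∀ x, HasGradientAt (sm τ (f j)) (smGrad τ (f j) x) x) ∧
      Continuous (smGrad τ (f j)) := fun j => by
    obtain ⟨⟨he', B, hT, -⟩, -⟩ := smoothFacts d (f j) 1 τ (hfm j) (hfb j) hτ
    exact ⟨hT.grad, continuous_iff_continuousAt.2 fun x => (hT.hess x).continuousAt⟩
  set e : Fin d → E d := fun j => EuclideanSpace.single j (1 : ℝ) with he
  have hgr : (fun z => c • ou ε (gu g a) z)
      = fun z => ∑ j, (c * sm τ (f j) (c • z)) • e j := by
    funext z
    ext i
    have h1 : ou ε (gu g a) z i = ∫ w, gu g a (ouPt ε z w) i ∂gam d :=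
      eval_integral_piLp (fun j => Integrable.of_bound
        ((PiLp.continuous_apply 2 (fun _ : Fin d => ℝ) j).comp
          ((continuous_gu hU).comp (by unfold ouPt; fun_prop))).aestronglyMeasurable 1
        (Filter.Eventually.of_forall fun w => hfb j _)) i
    simp [e, h1, sm, hf, ouPt, hc, hτ', WithLp.ofLp_sum, Finset.sum_apply, Pi.single_apply]
  refine ⟨fun z => ∑ j, ((c * c) • innerSL ℝ (smGrad τ (f j) (c • z))).smulRight (e j),
    ⟨hasGradientAt_ou hU ha hε.le, fun z => ?_, ?_, fun z => ?_, fun z => ?_⟩⟩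
  · rw [hgr]
    refine HasFDerivAt.fun_sum fun j _ => ?_
    refine ((((hsmg j).1 (c • z)).hasFDerivAt.comp z
      ((hasFDerivAt_id z).const_smul c)).const_mul c).smul_const (e j) |>.congr_fderiv ?_
    ext v
    simp [mul_assoc, InnerProductSpace.toDual_apply_apply]
  · refine continuous_finsetSum _ fun j _ => continuous_clm_apply.2 fun v => ?_
    simp only [ContinuousLinearMap.smulRight_apply, smul_apply, innerSL_apply_apply, smul_eq_mul]
    exact ((continuous_const (y := c * c)).mul ((Continuous.inner (𝕜 := ℝ)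
      ((hsmg j).2.comp (continuous_const_smul c)) (continuous_const (y := v))))).smul
      (continuous_const (y := e j))
  · rw [norm_smul, Real.norm_eq_abs, abs_of_pos hc0]
    refine (mul_le_of_le_one_left (norm_nonneg _) hc1).trans ?_
    have h1 := norm_ou_le (norm_gu_le' hU ha) le_rfl hε.le z
    rw [zero_mul, add_zero] at h1
    refine h1.trans ?_
    rw [le_div_iff₀ (Real.sqrt_pos.2 hε), one_mul]
    exact Real.sqrt_le_one.2 (by linarith)
  · have hcol : ∀ i k : Fin d,
        ((∑ j, ((c * c) • innerSL ℝ (smGrad τ (f j) (c • z))).smulRight (e j)) (e i)) k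
          = c * c * smGrad τ (f k) (c • z) i := fun i k => by
      simp [e, WithLp.ofLp_sum, Finset.sum_apply, Pi.single_apply,
        EuclideanSpace.inner_single_right]
    have hb : ∀ k, ‖smGrad τ (f k) (c • z)‖ ^ 2
        ≤ τ⁻¹ * ∫ w, f k (c • z + Real.sqrt τ • w) ^ 2 ∂gam d := fun k => by
      have h := gaussBessel d (fun w => f k (c • z + Real.sqrt τ • w)) 1
        ((hfm k).comp (by fun_prop)) (fun w => hfb k _)
      rw [smGrad, norm_smul, norm_inv, Real.norm_eq_abs, abs_of_nonneg (Real.sqrt_nonneg _),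
        mul_pow, inv_pow, Real.sq_sqrt hτ.le]
      refine mul_le_mul_of_nonneg_left ?_ (inv_nonneg.2 hτ.le)
      simp only [cov', ← sq] at h
      refine le_trans ?_ (h.trans (sub_le_self _ (sq_nonneg _)))
      exact le_add_of_nonneg_right (div_nonneg
        (Finset.sum_nonneg fun i _ => Finset.sum_nonneg fun j _ => sq_nonneg _) two_pos.le)
    rw [frob]
    refine Real.sqrt_le_iff.2 ⟨by positivity, ?_⟩
    rw [div_pow, one_pow, Real.sq_sqrt hε.le]
    have hsum : ∑ k, ‖smGrad τ (f k) (c • z)‖ ^ 2 ≤ τ⁻¹ := by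
      refine (Finset.sum_le_sum fun k _ => hb k).trans ?_
      rw [← Finset.mul_sum]
      refine mul_le_of_le_one_right (inv_nonneg.2 hτ.le) ?_
      have hi : ∀ k, Integrable (fun w => f k (c • z + Real.sqrt τ • w) ^ 2) (gam d) := fun k =>
        Integrable.of_bound (((hfm k).comp (by fun_prop)).pow_const 2).aestronglyMeasurable 1
          (Filter.Eventually.of_forall fun w => by
            rw [Real.norm_eq_abs, abs_pow]; exact pow_le_one₀ (abs_nonneg _) (hfb k _))
      rw [← integral_finsetSum _ fun k _ => hi k]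
      refine (integral_mono (integrable_finsetSum _ fun k _ => hi k) (integrable_const (1 : ℝ))
        fun w => ?_).trans (le_of_eq (by simp))
      simp only [hf, ← EuclideanSpace.real_norm_sq_eq]
      exact pow_le_one₀ (norm_nonneg _) (norm_gu_le hU ha _)
    calc ∑ i, ‖(∑ j, ((c * c) • innerSL ℝ (smGrad τ (f j) (c • z))).smulRight (e j)) (e i)‖ ^ 2
        = (c * c) ^ 2 * ∑ k, ‖smGrad τ (f k) (c • z)‖ ^ 2 := by
          simp only [EuclideanSpace.real_norm_sq_eq, hcol, mul_pow, Finset.mul_sum]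
          rw [Finset.sum_comm]
      _ ≤ 1 * τ⁻¹ := by
          refine mul_le_mul ?_ hsum (Finset.sum_nonneg fun k _ => sq_nonneg _) zero_le_one
          exact pow_le_one₀ (by positivity) (mul_le_one₀ hc1 hc0.le hc1)
      _ ≤ 1 / ε := by
          rw [one_mul, one_div]
          exact inv_anti₀ hε hτε

end test

end Mean

end Vale.Agent.P347
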