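import Vale.Agent.P347.Tilt

/-!
P347: the derivative of the exact drift, and Lipschitz centred random shifts.
-/

namespace Vale.Agent.P347.GShift

open MeasureTheory ProbabilityTheory Filter Topology
open scoped RealInnerProductSpace

variable {d : ℕ} {U : E d → ℝ} {g : E d → E d}

lemma contDiff_grad (h : Pot U g) : ContDiff ℝ 1 g := by
  have he : g = fun x => (InnerProductSpace.toDual ℝ (E d)).symm (fderiv ℝ U x) := by
    funext x
    rw [(h.grad x).hasFDerivAt.fderiv, LinearIsometryEquiv.symm_apply_apply]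
  rw [he]
  exact (InnerProductSpace.toDual ℝ (E d)).symm.toContinuousLinearEquiv.toContinuousLinearMap.contDiff.comp
    (h.contDiff.fderiv_right (by norm_num))

theorem starDeriv : StarDeriv := by
  intro d U g h
  have : IsProbabilityMeasure (gam d) := by unfold gam; infer_instance
  set μ : Measure (ℝ × E d) := (volume.restrict (Set.Ioi (0:ℝ))).prod (gam d)
  have hg1 := contDiff_grad h
  have hgc : Continuous g := hg1.continuous
  have hDc : Continuous (fderiv ℝ g) := hg1.continuous_fderiv one_ne_zero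
  have hDn : ∀ x, ‖fderiv ℝ g x‖ ≤ 1 := fun x => by
    simpa using norm_fderiv_le_of_lipschitz ℝ h.lip (x₀ := x)
  set F : E d → ℝ × E d → E d := fun z p => Real.exp (-p.1) • g (ouPt p.1 z p.2)
  set F' : E d → ℝ × E d → (E d →L[ℝ] E d) := fun z p =>
    (Real.exp (-p.1) * Real.exp (-p.1)) • fderiv ℝ g (ouPt p.1 z p.2)
  have hFc : Continuous fun q : E d × (ℝ × E d) => F q.1 q.2 := by simp only [F, ouPt]; fun_prop
  have hF'c : Continuous fun q : E d × (ℝ × E d) => F' q.1 q.2 := by simp only [F', ouPt]; fun_prop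
  have hpos : ∀ᵐ p ∂μ, (0:ℝ) < p.1 :=
    Measure.quasiMeasurePreserving_fst.ae (ae_restrict_mem measurableSet_Ioi)
  have hexp := exp_neg_integrableOn_Ioi 0 (show (0:ℝ) < 1 by norm_num)
  have hexp2 := exp_neg_integrableOn_Ioi 0 (show (0:ℝ) < 2 by norm_num)
  have hFi : ∀ z, Integrable (F z) μ := by
    intro z
    refine (hexp.mul_prod ((integrable_const (‖g 0‖ + ‖z‖)).add
      Tilt.integrable_norm_gam)).mono' (hFc.comp (continuous_const.prodMk continuous_id)
        ).aestronglyMeasurable ?_
    refine hpos.mono fun p hp => ?_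
    simp only [F, Pi.add_apply, neg_one_mul, norm_smul, Real.norm_of_nonneg (Real.exp_pos _).le]
    refine mul_le_mul_of_nonneg_left ((Tilt.norm_grad_le h _).trans ?_) (Real.exp_pos _).le
    have h1 := Tilt.norm_ouPt_le p.1 z p.2
    have h2 : Real.exp (-p.1) * ‖z‖ ≤ ‖z‖ :=
      mul_le_of_le_one_left (norm_nonneg z) (Real.exp_le_one_iff.2 (by linarith))
    linarith
  have hB : Integrable (fun p : ℝ × E d => Real.exp (-2 * p.1) * (1:ℝ)) μ :=
    hexp2.mul_prod (integrable_const 1)
  have hF'b : ∀ z, ∀ᵐ p ∂μ, ‖F' z p‖ ≤ Real.exp (-2 * p.1) * 1 := fun z =>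
    Eventually.of_forall fun p => by
      simp only [F', norm_smul, ← Real.exp_add, Real.norm_of_nonneg (Real.exp_pos _).le,
        show -2 * p.1 = -p.1 + -p.1 by ring]
      exact mul_le_mul_of_nonneg_left (hDn _) (Real.exp_pos _).le
  have hd : ∀ z p, HasFDerivAt (fun y => F y p) (F' z p) z := by
    intro z p
    have h1 : HasFDerivAt (fun y : E d => ouPt p.1 y p.2)
        (Real.exp (-p.1) • ContinuousLinearMap.id ℝ (E d)) z :=
      ((hasFDerivAt_id z).const_smul (Real.exp (-p.1))).add_const _
    refine (((((hg1.differentiable one_ne_zero) _).hasFDerivAt.comp z h1)).const_smul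
      (Real.exp (-p.1))).congr_fderiv ?_
    ext1 v
    simp [F', smul_smul]
  have heq : ∀ z, ∫ p, F z p ∂μ = gStar g z := by
    intro z
    rw [gStar, integral_prod _ (hFi z)]
    refine integral_congr_ae (Eventually.of_forall fun r => ?_)
    simp only [F, ou, integral_smul]
  refine ⟨fun z => ∫ p, F' z p ∂μ, continuous_of_dominated
    (fun z => (hF'c.comp (continuous_const.prodMk continuous_id)).aestronglyMeasurable)
    (fun z => hF'b z) hB
    (Eventually.of_forall fun p => hF'c.comp (continuous_id.prodMk continuous_const)),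
    fun z => ⟨?_, ?_⟩⟩
  · have hI := hasFDerivAt_integral_of_dominated_of_fderiv_le (μ := μ)
      (bound := fun p => Real.exp (-2 * p.1) * 1) (F := F) (F' := F') (x₀ := z)
      (univ_mem : Set.univ ∈ 𝓝 z)
      (Eventually.of_forall fun y => (hFc.comp
        (continuous_const.prodMk continuous_id)).aestronglyMeasurable)
      (hFi z) (hF'c.comp (continuous_const.prodMk continuous_id)).aestronglyMeasurable
      (Eventually.of_forall fun p y _ => by
        simp only [F', norm_smul, ← Real.exp_add, Real.norm_of_nonneg (Real.exp_pos _).le,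
          show -2 * p.1 = -p.1 + -p.1 by ring]
        exact mul_le_mul_of_nonneg_left (hDn _) (Real.exp_pos _).le)
      hB (Eventually.of_forall fun p y _ => hd y p)
    exact hI.congr_of_eventuallyEq (Eventually.of_forall fun y => (heq y).symm)
  · refine (norm_integral_le_of_norm_le hB (hF'b z)).trans (le_of_eq ?_)
    rw [integral_prod_mul (fun r : ℝ => Real.exp (-2 * r)) (fun _ : E d => (1:ℝ))]
    rw [integral_exp_mul_Ioi (by norm_num : (-2:ℝ) < 0) 0]
    simp

lemma sum_norm_adjoint_sq (T : E d →L[ℝ] E d) :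
    ∑ i, ‖ContinuousLinearMap.adjoint T (EuclideanSpace.single i (1:ℝ))‖ ^ 2 =
      ∑ i, ‖T (EuclideanSpace.single i (1:ℝ))‖ ^ 2 := by
  have key : ∀ v : E d, ‖v‖ ^ 2 = ∑ j, ⟪EuclideanSpace.single j (1:ℝ), v⟫ ^ 2 := fun v => by
    simp [EuclideanSpace.norm_sq_eq, EuclideanSpace.inner_single_left, sq_abs]
  simp only [key, ContinuousLinearMap.adjoint_inner_right]
  rw [Finset.sum_comm]
  simp only [real_inner_comm]

lemma frob_nonneg (T : E d →L[ℝ] E d) : 0 ≤ frob T := Real.sqrt_nonneg _

lemma continuous_frob : Continuous (frob (d := d)) := by unfold frob; fun_prop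

lemma cont_par {m : ℕ} {F : ℝ × E m → ℝ} {C : ℝ} (hF : Continuous F) (hb : ∀ p, |F p| ≤ C) :
    Continuous fun r => ∫ w, F (r, w) ∂gam m := by
  have : IsProbabilityMeasure (gam m) := by unfold gam; infer_instance
  exact continuous_of_dominated (F := fun r w => F (r, w)) (bound := fun _ => C)
    (fun r => (hF.comp (Continuous.prodMk_right r)).aestronglyMeasurable)
    (fun r => Eventually.of_forall fun w => hb (r, w)) (integrable_const _)
    (Eventually.of_forall fun w => hF.comp (Continuous.prodMk_left w))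

lemma pair_bound {m : ℕ} {A : E m →L[ℝ] E d} {H : E d →L[ℝ] E d} {L r : ℝ} (hA : ‖A‖ ≤ L)
    (hr : 0 ≤ r) (hr1 : r ≤ 1) (P : Fin d → E m) (hP : ∀ i, ‖P i‖ ≤ L) :
    |∑ i, ⟪ContinuousLinearMap.adjoint A
      (r • ContinuousLinearMap.adjoint H (EuclideanSpace.single i (1:ℝ))), P i⟫| ≤
      L ^ 2 * Real.sqrt d * frob H := by
  have hL : 0 ≤ L := (norm_nonneg A).trans hA
  set c : Fin d → ℝ := fun i => ‖ContinuousLinearMap.adjoint H (EuclideanSpace.single i (1:ℝ))‖
    with hcd
  have h1 : ∀ i, |⟪ContinuousLinearMap.adjoint A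
      (r • ContinuousLinearMap.adjoint H (EuclideanSpace.single i (1:ℝ))), P i⟫| ≤ L * c i * L := by
    intro i
    refine (abs_real_inner_le_norm _ _).trans (mul_le_mul ?_ (hP i) (norm_nonneg _) (by positivity))
    refine (ContinuousLinearMap.le_opNorm _ _).trans (mul_le_mul ?_ ?_ (norm_nonneg _) hL)
    · rw [LinearIsometryEquiv.norm_map]; exact hA
    · rw [norm_smul, Real.norm_of_nonneg hr]
      exact mul_le_of_le_one_left (norm_nonneg _) hr1
  refine (Finset.abs_sum_le_sum_abs _ _).trans ((Finset.sum_le_sum fun i _ => h1 i).trans ?_)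
  rw [← Finset.sum_mul, ← Finset.mul_sum]
  have h2 : ∑ i, c i ≤ Real.sqrt d * frob H := by
    rw [frob, ← sum_norm_adjoint_sq, ← Real.sqrt_mul (Nat.cast_nonneg d)]
    refine Real.le_sqrt_of_sq_le ?_
    simpa [hcd] using sq_sum_le_card_mul_sum_sq (s := Finset.univ) (f := c)
  calc L * (∑ i, c i) * L = L ^ 2 * ∑ i, c i := by ring
    _ ≤ L ^ 2 * (Real.sqrt d * frob H) := mul_le_mul_of_nonneg_left h2 (sq_nonneg L)
    _ = _ := by ring

lemma shift_cov (hG : GaussCov) {m : ℕ} {ξ : E m → E d} {L : NNReal} (hξ : ContDiff ℝ 1 ξ)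
    (hL : LipschitzWith L ξ) (h0 : ∫ w, ξ w ∂gam m = 0) {h : E d → ℝ} {gr : E d → E d}
    {he : E d → E d →L[ℝ] E d} {B : ℝ} (hT : Test h gr he B) (a : E d) {r : ℝ} (hr : 0 ≤ r)
    (hr1 : r ≤ 1) :
    |∫ w, ⟪gr (a + r • ξ w), ξ w⟫ ∂gam m| ≤
      (L:ℝ) ^ 2 * Real.sqrt d * ∫ w, frob (he (a + r • ξ w)) ∂gam m := by
  have : IsProbabilityMeasure (gam m) := by unfold gam; infer_instance
  set e : Fin d → E d := fun i => EuclideanSpace.single i (1:ℝ) with hed
  have hen : ∀ i, ‖e i‖ = 1 := fun i => by simp [hed]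
  have hgrc : Continuous gr := continuous_iff_continuousAt.2 fun z => (hT.hess z).continuousAt
  have hξc := hξ.continuous
  have hDc : Continuous (fderiv ℝ ξ) := hξ.continuous_fderiv one_ne_zero
  have hDn : ∀ x, ‖fderiv ℝ ξ x‖ ≤ L := fun x => norm_fderiv_le_of_lipschitz ℝ hL
  have hξn : ∀ w, ‖ξ w‖ ≤ ‖ξ 0‖ + L * ‖w‖ := fun w => by
    have := hL.dist_le_mul w 0
    simp only [dist_eq_norm, sub_zero] at this
    linarith [norm_le_norm_add_norm_sub' (ξ w) (ξ 0)]
  have hξi : Integrable ξ (gam m) :=
    (((integrable_const ‖ξ 0‖).add (Tilt.integrable_norm_gam.const_mul (L:ℝ)))).mono'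
      hξc.aestronglyMeasurable (Eventually.of_forall hξn)
  have hBn : 0 ≤ B := (norm_nonneg _).trans (hT.grad_le 0)
  have hAc : Continuous fun w => he (a + r • ξ w) := hT.hess_cont.comp (by fun_prop)
  set P : Fin d → E m → E m := fun i w =>
    ContinuousLinearMap.adjoint (fderiv ℝ ξ w) (e i) with hPd
  set G : Fin d → E m → E m := fun i w => ContinuousLinearMap.adjoint (fderiv ℝ ξ w)
    (r • ContinuousLinearMap.adjoint (he (a + r • ξ w)) (e i)) with hGd
  have hadj : ∀ w, ‖ContinuousLinearMap.adjoint (fderiv ℝ ξ w)‖ ≤ L := fun w => by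
    rw [LinearIsometryEquiv.norm_map]; exact hDn w
  have hadjc : Continuous fun w => ContinuousLinearMap.adjoint (fderiv ℝ ξ w) :=
    ContinuousLinearMap.adjoint.continuous.comp hDc
  have hPc : ∀ i, Continuous (P i) := fun i => hadjc.clm_apply continuous_const
  have hGc : ∀ i, Continuous (G i) := fun i => by
    have h1 : Continuous fun w => ContinuousLinearMap.adjoint (he (a + r • ξ w)) (e i) :=
      (ContinuousLinearMap.adjoint.continuous.comp hAc).clm_apply continuous_const
    exact hadjc.clm_apply (h1.const_smul r)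
  have hPb : ∀ i w, ‖P i w‖ ≤ L := fun i w =>
    (ContinuousLinearMap.le_opNorm _ _).trans (by rw [hen, mul_one]; exact hadj w)
  have hHb : ∀ i w, ‖ContinuousLinearMap.adjoint (he (a + r • ξ w)) (e i)‖ ^ 2 ≤
      frob (he (a + r • ξ w)) ^ 2 := fun i w => by
    rw [frob, Real.sq_sqrt (Finset.sum_nonneg fun j _ => sq_nonneg _), ← sum_norm_adjoint_sq]
    exact Finset.single_le_sum
      (f := fun j => ‖ContinuousLinearMap.adjoint (he (a + r • ξ w)) (EuclideanSpace.single j (1:ℝ))‖ ^ 2)
      (fun j _ => sq_nonneg _) (Finset.mem_univ i)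
  have hGb : ∀ i w, ‖G i w‖ ≤ L * B := fun i w => by
    refine (ContinuousLinearMap.le_opNorm _ _).trans
      (mul_le_mul (hadj w) ?_ (norm_nonneg _) (NNReal.coe_nonneg L))
    rw [norm_smul, Real.norm_of_nonneg hr]
    refine (mul_le_of_le_one_left (norm_nonneg _) hr1).trans ?_
    exact ((pow_le_pow_iff_left₀ (norm_nonneg _) (frob_nonneg _) two_ne_zero).1 (hHb i w)).trans
      (hT.hess_le _)
  set φ : Fin d → E m → ℝ := fun i w => ⟪gr (a + r • ξ w), e i⟫ with hφd
  set ψ : Fin d → E m → ℝ := fun i w => ⟪ξ w, e i⟫ with hψd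
  set K := max (max B (‖ξ 0‖ + L)) (max ((L:ℝ) * B) (max (L:ℝ) 1)) with hK
  have hKle : ∀ {c : ℝ} (w : E m), c ≤ K → c ≤ K * Real.exp (K * ‖w‖) := fun {c} w hc => by
    have hK1 : 1 ≤ K := (le_max_right _ _).trans ((le_max_right _ _).trans (le_max_right _ _))
    exact hc.trans (le_mul_of_one_le_right (by linarith) (Real.one_le_exp (by positivity)))
  have hcov : ∀ i, cov' (gam m) (φ i) (ψ i) =
      ∫ s in Set.Ioi (0:ℝ), Real.exp (-s) * ∫ w, ⟪G i w, ou s (P i) w⟫ ∂gam m := by
    intro i
    refine hG m (φ i) (ψ i) (G i) (P i) K (hGc i) (hPc i) (fun w => ?_) (fun w => ?_) (fun w => ?_)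
      (fun w => ?_) (fun w => ?_) (fun w => ?_)
    · have hD := ((hξ.differentiable one_ne_zero) w).hasFDerivAt
      have h1 := (hT.hess (a + r • ξ w)).comp w ((hD.const_smul r).const_add a)
      have h2 := h1.inner ℝ (hasFDerivAt_const (e i) w)
      rw [hasGradientAt_iff_hasFDerivAt]
      refine h2.congr_fderiv ?_
      ext v
      simp [hGd, fderivInnerCLM_apply, InnerProductSpace.toDual_apply_apply, real_inner_smul_right,
        ContinuousLinearMap.adjoint_inner_left, real_inner_comm]
    · have h2 := ((hξ.differentiable one_ne_zero) w).hasFDerivAt.inner ℝ (hasFDerivAt_const (e i) w)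
      rw [hasGradientAt_iff_hasFDerivAt]
      refine h2.congr_fderiv ?_
      ext v
      simp [hPd, fderivInnerCLM_apply, InnerProductSpace.toDual_apply_apply,
        ContinuousLinearMap.adjoint_inner_left, real_inner_comm]
    · refine hKle w (le_trans ?_ ((le_max_left B _).trans (le_max_left _ _)))
      refine (abs_real_inner_le_norm _ _).trans ?_
      rw [hen, mul_one]; exact hT.grad_le _
    · exact hKle w ((hGb i w).trans ((le_max_left _ _).trans (le_max_right _ _)))
    · refine (abs_real_inner_le_norm _ _).trans ?_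
      rw [hen, mul_one]
      refine (hξn w).trans ?_
      have h1 : ‖ξ 0‖ + L ≤ K := (le_max_right _ _).trans (le_max_left _ _)
      have hK1 : 1 ≤ K := (le_max_right _ _).trans ((le_max_right _ _).trans (le_max_right _ _))
      have h2 : 1 + ‖w‖ ≤ Real.exp (K * ‖w‖) := by
        have := Real.add_one_le_exp (K * ‖w‖)
        nlinarith [norm_nonneg w]
      nlinarith [mul_le_mul h1 h2 (by positivity) (by linarith), norm_nonneg w, norm_nonneg (ξ 0),
        mul_nonneg (norm_nonneg (ξ 0)) (norm_nonneg w), NNReal.coe_nonneg L]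
    · exact hKle w ((hPb i w).trans
        ((le_max_left _ _).trans ((le_max_right _ _).trans (le_max_right _ _))))
  have hφb : ∀ i w, |φ i w| ≤ B := fun i w => by
    refine (abs_real_inner_le_norm _ _).trans ?_
    rw [hen, mul_one]; exact hT.grad_le _
  have hφψ : ∀ i, Integrable (fun w => φ i w * ψ i w) (gam m) := fun i => by
    refine (hξi.norm.const_mul B).mono' (Continuous.aestronglyMeasurable (by
      simp only [hφd, hψd]; fun_prop)) (Eventually.of_forall fun w => ?_)
    rw [norm_mul, Real.norm_eq_abs, Real.norm_eq_abs]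
    refine mul_le_mul (hφb i w) ?_ (abs_nonneg _) hBn
    refine (abs_real_inner_le_norm _ _).trans ?_
    rw [hen, mul_one]
  have hψ0 : ∀ i, ∫ w, ψ i w ∂gam m = 0 := fun i => by
    rw [show ψ i = fun w => ⟪e i, ξ w⟫ from funext fun w => real_inner_comm _ _]
    rw [_root_.integral_inner hξi, h0, inner_zero_right]
  have hsum : ∫ w, ⟪gr (a + r • ξ w), ξ w⟫ ∂gam m = ∑ i, cov' (gam m) (φ i) (ψ i) := by
    simp only [cov', hψ0, mul_zero, sub_zero]
    rw [← integral_finsetSum _ fun i _ => hφψ i]
    refine integral_congr_ae (Eventually.of_forall fun w => ?_)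
    simp [hφd, hψd, hed, EuclideanSpace.inner_single_right, PiLp.inner_apply, mul_comm]
  have hPou : ∀ i (s : ℝ) w, ‖ou s (P i) w‖ ≤ L := fun i s w => by
    refine (norm_integral_le_of_norm_le_const (Eventually.of_forall fun x => hPb i _)).trans ?_
    simp
  have houc : ∀ i, Continuous fun p : ℝ × E m => ou p.1 (P i) p.2 := fun i => by
    refine continuous_of_dominated (F := fun (p : ℝ × E m) x => P i (ouPt p.1 p.2 x))
      (bound := fun _ => (L:ℝ)) (fun p => ((hPc i).comp (by unfold ouPt; fun_prop)).aestronglyMeasurable)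
      (fun p => Eventually.of_forall fun x => hPb i _) (integrable_const _)
      (Eventually.of_forall fun x => (hPc i).comp (by unfold ouPt; fun_prop))
  have hGP : ∀ i (s : ℝ), Integrable (fun w => ⟪G i w, ou s (P i) w⟫) (gam m) := fun i s => by
    refine Integrable.mono' (integrable_const ((L:ℝ) * B * L))
      (((hGc i).inner ((houc i).comp (continuous_const.prodMk continuous_id)))).aestronglyMeasurable
      (Eventually.of_forall fun w => ?_)
    exact (norm_inner_le_norm _ _).trans
      (mul_le_mul (hGb i w) (hPou i s w) (norm_nonneg _) (by positivity))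
  have hfi : Integrable (fun w => frob (he (a + r • ξ w))) (gam m) :=
    Integrable.mono' (integrable_const B) (continuous_frob.comp hAc).aestronglyMeasurable
      (Eventually.of_forall fun w => by
        rw [Real.norm_of_nonneg (frob_nonneg _)]; exact hT.hess_le _)
  have hs : ∀ i, IntegrableOn (fun s => Real.exp (-s) * ∫ w, ⟪G i w, ou s (P i) w⟫ ∂gam m)
      (Set.Ioi 0) := fun i => by
    have hF : Continuous fun p : ℝ × E m => ⟪G i p.2, ou p.1 (P i) p.2⟫ :=
      ((hGc i).comp continuous_snd).inner (houc i)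
    have hc : Continuous fun s => ∫ w, ⟪G i w, ou s (P i) w⟫ ∂gam m :=
      cont_par (C := (L:ℝ) * B * L) hF fun p => (abs_real_inner_le_norm _ _).trans
        (mul_le_mul (hGb i p.2) (hPou i p.1 p.2) (norm_nonneg _) (by positivity))
    refine ((exp_neg_integrableOn_Ioi 0 one_pos).mul_const ((L:ℝ) * B * L)).mono'
      ((Real.continuous_exp.comp continuous_neg).mul hc).aestronglyMeasurable
      (Eventually.of_forall fun s => ?_)
    rw [norm_mul, Real.norm_of_nonneg (Real.exp_pos _).le, neg_one_mul]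
    refine mul_le_mul_of_nonneg_left ((norm_integral_le_of_norm_le_const
      (C := (L:ℝ) * B * L) (Eventually.of_forall fun w => ?_)).trans (by simp)) (Real.exp_pos _).le
    exact (norm_inner_le_norm _ _).trans
      (mul_le_mul (hGb i w) (hPou i s w) (norm_nonneg _) (by positivity))
  have hpt : ∀ (s : ℝ) w,
      |∑ i, ⟪G i w, ou s (P i) w⟫| ≤ (L:ℝ) ^ 2 * Real.sqrt d * frob (he (a + r • ξ w)) := by
    intro s w
    exact pair_bound (hDn w) hr hr1 (fun i => ou s (P i) w) fun i => hPou i s w
  rw [hsum]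
  simp only [hcov]
  rw [← integral_finsetSum _ fun i _ => hs i]
  have hbd : ∀ s : ℝ, ‖∑ i, Real.exp (-s) * ∫ w, ⟪G i w, ou s (P i) w⟫ ∂gam m‖ ≤
      Real.exp (-1 * s) * ((L:ℝ) ^ 2 * Real.sqrt d * ∫ w, frob (he (a + r • ξ w)) ∂gam m) := by
    intro s
    rw [← Finset.mul_sum, norm_mul, Real.norm_of_nonneg (Real.exp_pos _).le, neg_one_mul,
      ← integral_finsetSum _ fun i _ => hGP i s, ← integral_const_mul]
    exact mul_le_mul_of_nonneg_left (norm_integral_le_of_norm_le (hfi.const_mul _)
      (Eventually.of_forall fun w => by rw [Real.norm_eq_abs]; exact hpt s w)) (Real.exp_pos _).le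
  refine le_trans (norm_integral_le_of_norm_le ((exp_neg_integrableOn_Ioi 0 one_pos).mul_const _)
    (Eventually.of_forall hbd)) ?_
  rw [integral_mul_const]
  have : ∫ s in Set.Ioi (0:ℝ), Real.exp (-1 * s) = 1 := by
    simpa [neg_one_mul] using integral_exp_neg_Ioi_zero
  rw [this, one_mul]

theorem gaussShift (hG : GaussCov) : GaussShift := by
  intro d m ξ L hξ hL h0 h gr he B hT a
  have : IsProbabilityMeasure (gam m) := by unfold gam; infer_instance
  have hgrc : Continuous gr := continuous_iff_continuousAt.2 fun z => (hT.hess z).continuousAt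
  have hhc : Continuous h :=
    continuous_iff_continuousAt.2 fun z => (hT.grad z).hasFDerivAt.continuousAt
  have hξc := hξ.continuous
  have hBn : 0 ≤ B := (norm_nonneg _).trans (hT.grad_le 0)
  have hξn : ∀ w, ‖ξ w‖ ≤ ‖ξ 0‖ + L * ‖w‖ := fun w => by
    have := hL.dist_le_mul w 0
    simp only [dist_eq_norm, sub_zero] at this
    linarith [norm_le_norm_add_norm_sub' (ξ w) (ξ 0)]
  have hξi : Integrable ξ (gam m) :=
    (((integrable_const ‖ξ 0‖).add (Tilt.integrable_norm_gam.const_mul (L:ℝ)))).mono'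
      hξc.aestronglyMeasurable (Eventually.of_forall hξn)
  set G : E m × ℝ → ℝ := fun p => ⟪gr (a + p.2 • ξ p.1), ξ p.1⟫ with hGd
  have hGc : Continuous G := by simp only [hGd]; fun_prop
  have hftc : ∀ w, h (a + ξ w) - h a = ∫ r in Set.Icc (0:ℝ) 1, G (w, r) := by
    intro w
    have hd : ∀ r ∈ Set.uIcc (0:ℝ) 1, HasDerivAt (fun r => h (a + r • ξ w)) (G (w, r)) r := by
      intro r _
      have hl : HasDerivAt (fun r : ℝ => a + r • ξ w) (ξ w) r := by
        simpa using ((hasDerivAt_id r).smul_const (ξ w)).const_add a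
      simpa [hGd, InnerProductSpace.toDual_apply_apply, Function.comp_def] using
        (hT.grad (a + r • ξ w)).hasFDerivAt.comp_hasDerivAt r hl
    rw [integral_Icc_eq_integral_Ioc, ← intervalIntegral.integral_of_le zero_le_one,
      intervalIntegral.integral_eq_sub_of_hasDerivAt hd
        ((hGc.comp (continuous_const.prodMk continuous_id)).intervalIntegrable 0 1)]
    simp
  have : IsFiniteMeasure (volume.restrict (Set.Icc (0:ℝ) 1)) :=
    isFiniteMeasure_restrict.2 (by simp)
  have hint : Integrable G ((gam m).prod (volume.restrict (Set.Icc (0:ℝ) 1))) := by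
    refine ((hξi.norm.const_mul B).mul_prod (integrable_const (1:ℝ))).mono'
      hGc.aestronglyMeasurable (Eventually.of_forall fun p => ?_)
    rw [mul_one, Real.norm_eq_abs]
    exact (abs_real_inner_le_norm _ _).trans
      (mul_le_mul_of_nonneg_right (hT.grad_le _) (norm_nonneg _))
  have hhi : Integrable (fun w => h (a + ξ w)) (gam m) := by
    refine ((integrable_const (|h 0| + B * ‖a‖)).add (hξi.norm.const_mul B)).mono'
      (hhc.comp (continuous_const.add hξc)).aestronglyMeasurable (Eventually.of_forall fun w => ?_)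
    refine (Tilt.test_growth hT _).trans ?_
    simp only [Pi.add_apply]
    nlinarith [norm_add_le a (ξ w)]
  have heq : (∫ w, h (a + ξ w) ∂gam m) - h a =
      ∫ r in Set.Icc (0:ℝ) 1, ∫ w, G (w, r) ∂gam m := by
    rw [← integral_integral_swap (f := fun w r => G (w, r)) hint]
    simp only [← hftc]
    rw [integral_sub hhi (integrable_const _)]
    simp
  rw [heq, ← integral_const_mul]
  have hAc : Continuous fun p : ℝ × E m => frob (he (a + p.1 • ξ p.2)) :=
    continuous_frob.comp (hT.hess_cont.comp (by fun_prop))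
  have hrc : Continuous fun r : ℝ => ∫ w, frob (he (a + r • ξ w)) ∂gam m :=
    cont_par (F := fun p : ℝ × E m => frob (he (a + p.1 • ξ p.2))) (C := B) hAc fun p => by
      rw [abs_of_nonneg (frob_nonneg _)]; exact hT.hess_le _
  refine norm_integral_le_of_norm_le (f := fun r => ∫ w, G (w, r) ∂gam m)
    ((hrc.const_mul ((L:ℝ) ^ 2 * Real.sqrt d)).integrableOn_Icc)
    ((ae_restrict_mem measurableSet_Icc).mono fun r hr => ?_)
  exact shift_cov hG hξ hL h0 hT a hr.1 hr.2

end Vale.Agent.P347.GShift

namespace Vale.Agent.P347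

theorem starDeriv : StarDeriv := GShift.starDeriv

theorem gaussShift (hG : GaussCov) : GaussShift := GShift.gaussShift hG

end Vale.Agent.P347
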