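import Vale.Agent.P347.BlockLaw
import Vale.Agent.P347.Joint
import Vale.Agent.P347.LogConcave
import Vale.Agent.P347.MeanAux

/-!
P347: the mean of one step.  The mean correction is compared with the target through the smoothed
drift `P_ε ⟪a, g⟫`.
-/

namespace Vale.Agent.P347

open MeasureTheory ProbabilityTheory
open scoped RealInnerProductSpace

namespace Mean

variable {d q : ℕ}

/-- At most linear growth. -/
def Lin {N : ℕ} {X : Type*} [NormedAddCommGroup X] (f : E N → X) : Prop :=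
  ∃ C : ℝ, 0 ≤ C ∧ ∀ x, ‖f x‖ ≤ C * (1 + ‖x‖)

section lin

variable {N : ℕ} {X : Type*} [NormedAddCommGroup X] {f f' : E N → X}

lemma Lin.of_le {a b : ℝ} (ha : 0 ≤ a) (hb : 0 ≤ b) (h : ∀ x, ‖f x‖ ≤ a + b * ‖x‖) : Lin f :=
  ⟨a + b, by linarith, fun x => by nlinarith [h x, norm_nonneg x, mul_nonneg ha (norm_nonneg x)]⟩

lemma Lin.const (c : X) : Lin fun _ : E N => c :=
  Lin.of_le (norm_nonneg c) le_rfl fun x => by simp

lemma Lin.add (h : Lin f) (h' : Lin f') : Lin fun x => f x + f' x := by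
  obtain ⟨C, hC, h⟩ := h
  obtain ⟨C', hC', h'⟩ := h'
  exact ⟨C + C', by linarith, fun x =>
    (norm_add_le _ _).trans (by linarith [h x, h' x])⟩

lemma Lin.sub (h : Lin f) (h' : Lin f') : Lin fun x => f x - f' x := by
  obtain ⟨C, hC, h⟩ := h
  obtain ⟨C', hC', h'⟩ := h'
  exact ⟨C + C', by linarith, fun x =>
    (norm_sub_le _ _).trans (by linarith [h x, h' x])⟩

lemma Lin.smul [NormedSpace ℝ X] (c : ℝ) (h : Lin f) : Lin fun x => c • f x := by
  obtain ⟨C, hC, h⟩ := h
  refine ⟨|c| * C, by positivity, fun x => ?_⟩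
  rw [norm_smul, Real.norm_eq_abs, mul_assoc]
  exact mul_le_mul_of_nonneg_left (h x) (abs_nonneg c)

lemma Lin.sum {ι : Type*} (s : Finset ι) {F : ι → E N → X} (h : ∀ i, Lin (F i)) :
    Lin fun x => ∑ i ∈ s, F i x := by
  classical
  induction s using Finset.induction with
  | empty => simpa using Lin.const (N := N) (0 : X)
  | insert i s hi ih => simp only [Finset.sum_insert hi]; exact (h i).add ih

lemma Lin.comp {M : ℕ} {u : E M → X} {v : E N → E M} {a b : ℝ} (ha : 0 ≤ a) (hb : 0 ≤ b)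
    (hu : ∀ x, ‖u x‖ ≤ a + b * ‖x‖) (hv : Lin v) : Lin fun x => u (v x) := by
  obtain ⟨C, hC, hv⟩ := hv
  refine ⟨a + b * C, by positivity, fun x => (hu _).trans ?_⟩
  nlinarith [mul_le_mul_of_nonneg_left (hv x) hb, mul_nonneg ha (norm_nonneg x)]

lemma Lin.integrable (h : Lin f) (hc : Continuous f) : Integrable f (gam N) := by
  obtain ⟨C, hC, h⟩ := h
  exact integrable_lin hc (a := C) (b := C) fun x => by linarith [h x]

lemma Lin.integrable_sq (h : Lin f) (hc : Continuous f) :
    Integrable (fun x => ‖f x‖ ^ 2) (gam N) := by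
  obtain ⟨C, hC, h⟩ := h
  refine Integrable.mono' (g := fun x : E N => 2 * C ^ 2 + 2 * C ^ 2 * ‖x‖ ^ 2) ?_
    (hc.norm.pow 2).aestronglyMeasurable (Filter.Eventually.of_forall fun x => ?_)
  · refine (integrable_const _).add (Integrable.const_mul ?_ _)
    unfold gam; exact P157.integrable_norm_pow 2
  · rw [Real.norm_eq_abs, abs_of_nonneg (sq_nonneg _)]
    refine (pow_le_pow_left₀ (norm_nonneg _) (h x) 2).trans ?_
    nlinarith [mul_nonneg (sq_nonneg C) (sq_nonneg (1 - ‖x‖))]

end lin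

lemma lin_id (N : ℕ) : Lin fun x : E N => x :=
  Lin.of_le le_rfl zero_le_one fun x => by simp

lemma lin_blk (i : Fin (2 * q + 4)) : Lin fun x : E ((2 * q + 4) * d) => blk x i :=
  Lin.of_le le_rfl zero_le_one fun x => by simpa using BlockLaw.norm_blk_le x i

lemma lin_ouPt {N : ℕ} (r : ℝ) {u v : E N → E d} (hu : Lin u) (hv : Lin v) :
    Lin fun x => ouPt r (u x) (v x) := (hu.smul _).add (hv.smul _)

variable {U : E d → ℝ} {g : E d → E d}

lemma lin_g_comp (hU : Pot U g) {N : ℕ} {v : E N → E d} (hv : Lin v) : Lin fun x => g (v x) :=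
  hv.comp (norm_nonneg _) zero_le_one (norm_g_le hU)

lemma lin_drift (hU : Pot U g) (Q : Quad q) {N : ℕ} {u : E N → E d} {v : Fin q → E N → E d}
    (hu : Lin u) (hv : ∀ i, Lin (v i)) : Lin fun x => drift Q g (u x) (fun i => v i x) :=
  Lin.sum _ fun i => (lin_g_comp hU (lin_ouPt _ hu (hv i))).smul _

/-- The point at which the drift of the correction is evaluated. -/
noncomputable def bt (Q : Quad q) (g : E d → E d) (ε : ℝ) (b : Blocks d q) : E d :=
  ouPt ε (b.z' - ε • drift Q g b.z' b.w') b.zeta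

lemma continuous_drift (hU : Pot U g) (Q : Quad q) {α : Type*} [TopologicalSpace α] {u : α → E d}
    {v : Fin q → α → E d} (hu : Continuous u) (hv : ∀ i, Continuous (v i)) :
    Continuous fun x => drift Q g (u x) (fun i => v i x) := by
  have := hU.lip.continuous
  simp only [drift, ouPt]
  fun_prop

lemma continuous_bt (hU : Pot U g) (Q : Quad q) (ε : ℝ) :
    Continuous fun x : E ((2 * q + 4) * d) => bt Q g ε (blocks x) := by
  have := hU.lip.continuous
  simp only [bt, drift, blocks, ouPt]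
  fun_prop

lemma lin_bt (hU : Pot U g) (Q : Quad q) (ε : ℝ) :
    Lin fun x : E ((2 * q + 4) * d) => bt Q g ε (blocks x) :=
  lin_ouPt _ ((lin_blk _).sub ((lin_drift hU Q (lin_blk _) fun i => lin_blk _).smul _)) (lin_blk _)

lemma continuous_gQuad (hU : Pot U g) (Q : Quad q) : Continuous (gQuad Q g) :=
  continuous_finsetSum _ fun i _ => (continuous_of_lip zero_le_one
    (ou_lip zero_le_one (fun x y => by simpa using norm_g_sub hU x y)
      (Q.r_nonneg i))).const_smul (Q.a i)

lemma quad_sq {r : ℝ} (hr : 0 ≤ r) : Real.exp (-r) ^ 2 + nz r ^ 2 = 1 := by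
  rw [exp_sq, nz_sq hr]; ring

/-- The mean of a step comes from the correction alone. -/
lemma mean_xhat (hU : Pot U g) (Q : Quad q) (ε : ℝ) :
    ∫ x, xhat Q g ε (blocks x) ∂noise d q
      = -(ε • ∫ x, g (bt Q g ε (blocks (q := q) x)) ∂noise d q) := by
  have hg := hU.lip.continuous
  have hz : Integrable (fun x => (blocks (q := q) (d := d) x).z) (noise d q) :=
    (lin_blk _).integrable (BlockLaw.continuous_blk _)
  have hn : Integrable (fun x => g (blocks (q := q) (d := d) x).n) (noise d q) :=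
    (lin_g_comp hU (lin_blk _)).integrable (hg.comp (BlockLaw.continuous_blk _))
  have hb : Integrable (fun x => g (bt Q g ε (blocks (q := q) x))) (noise d q) :=
    (lin_g_comp hU (lin_bt hU Q ε)).integrable (hg.comp (continuous_bt hU Q ε))
  have hi : ∀ i : Fin q, Integrable (fun x => Q.a i •
      g (ouPt (Q.r i) (blocks (q := q) (d := d) x).z ((blocks (q := q) x).w i))) (noise d q) :=
    fun i => ((lin_g_comp hU (lin_ouPt _ (lin_blk _) (lin_blk _))).smul _).integrable
      (by simp only [blocks, ouPt]; fun_prop)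
  have hd : Integrable (fun x => drift Q g (blocks (q := q) (d := d) x).z (blocks x).w)
      (noise d q) := integrable_finsetSum _ fun i _ => hi i
  have ez : ∫ x, (blocks (q := q) (d := d) x).z ∂noise d q = 0 := by
    refine (BlockLaw.integral_blk _ (fun z : E d => z) continuous_id).trans ?_
    unfold gam; exact integral_id_stdGaussian
  have ed : ∫ x, drift Q g (blocks (q := q) (d := d) x).z (blocks x).w ∂noise d q
      = ∫ u, g u ∂gam d := by
    have e : ∀ i : Fin q,
        ∫ x, g (ouPt (Q.r i) (blocks (q := q) (d := d) x).z ((blocks (q := q) x).w i)) ∂noise d q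
          = ∫ u, g u ∂gam d := fun i => by
      simp only [ouPt_eq, blocks]
      refine BlockLaw.integral_blk_comb ?_ (quad_sq (Q.r_nonneg i)) g hg
      simp only [ne_eq, Fin.ext_iff]
      omega
    simp only [drift]
    rw [integral_finsetSum _ fun i _ => hi i]
    simp only [integral_smul, e, ← Finset.sum_smul, Q.sum_a, one_smul]
  have en : ∫ x, g (blocks (q := q) (d := d) x).n ∂noise d q = ∫ u, g u ∂gam d :=
    BlockLaw.integral_blk _ g hg
  have hcorr : Integrable (fun x => corr Q g ε (blocks (q := q) x)) (noise d q) := hb.sub hn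
  calc ∫ x, xhat Q g ε (blocks x) ∂noise d q
      = (∫ x, (blocks (q := q) (d := d) x).z ∂noise d q) - ∫ x, ε •
          (drift Q g (blocks (q := q) x).z (blocks x).w + corr Q g ε (blocks x)) ∂noise d q :=
        integral_sub hz ((hd.add hcorr).smul ε)
    _ = _ := by
      rw [ez, integral_smul, integral_add hd hcorr, ed, zero_sub]
      have ec : ∫ x, corr Q g ε (blocks (q := q) x) ∂noise d q
          = (∫ x, g (bt Q g ε (blocks (q := q) x)) ∂noise d q) - ∫ u, g u ∂gam d := by
        rw [← en]; exact integral_sub hb hn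
      rw [ec]
      congr 2
      abel

/-! ### The tilted law against the Gaussian law -/

/-- The density of the tilt against the Gaussian law. -/
noncomputable def dens (U : E d → ℝ) (ε : ℝ) (z : E d) : ℝ := Real.exp (-(ε * U z))

lemma tilt_integral (hU : Pot U g) {ε : ℝ} (hε : 0 ≤ ε) (f : E d → ℝ) :
    0 < ∫ z, dens U ε z ∂gam d ∧
      (∫ z, f z ∂tilt U ε) * (∫ z, dens U ε z ∂gam d) = ∫ z, dens U ε z * f z ∂gam d := by
  have hW := hU.logConc hε
  have hW0 := hU.logConc (le_refl (0 : ℝ))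
  have hA := LogConcave.integral_pos hW
  have hZ := LogConcave.integral_pos hW0
  simp only [zero_mul, add_zero] at hZ
  have e : ∀ h : E d → ℝ, ∫ z, dens U ε z * h z ∂gam d
      = (∫ x : E d, Real.exp (-(‖x‖ ^ 2 / 2)))⁻¹
        * ∫ x, Real.exp (-(‖x‖ ^ 2 / 2 + ε * U x)) * h x := fun h => by
    rw [Joint.gam_eq_gibbs, Joint.integral_gibbs (by fun_prop), smul_eq_mul]
    congr 1
    refine integral_congr_ae (Filter.Eventually.of_forall fun x => ?_)
    simp only [smul_eq_mul, dens, neg_add, Real.exp_add]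
    ring
  have e1 := e fun _ => 1
  simp only [mul_one] at e1
  refine ⟨?_, ?_⟩
  · rw [e1]; exact mul_pos (inv_pos.2 hZ) hA
  · rw [e1, e, tilt, Joint.integral_gibbs hW.contDiff.continuous.measurable, smul_eq_mul]
    simp only [smul_eq_mul]
    have key : ∀ a i z : ℝ, a ≠ 0 → a⁻¹ * i * (z⁻¹ * a) = z⁻¹ * i := fun a i z h => by field_simp
    exact key _ _ _ hA.ne'

lemma norm_sub_le_growth {K : ℝ} (hK : 1 ≤ K) (x : E d) :
    K * (1 + ‖x‖) ≤ K * Real.exp (K * ‖x‖) := by
  refine mul_le_mul_of_nonneg_left ?_ (by linarith)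
  refine le_trans (by linarith [Real.add_one_le_exp ‖x‖]) (Real.exp_le_exp.2 ?_)
  exact le_mul_of_one_le_left (norm_nonneg x) hK

/-- Gradient of the density. -/
noncomputable def gdens (U : E d → ℝ) (g : E d → E d) (ε : ℝ) (z : E d) : E d :=
  -(ε * dens U ε z) • g z

lemma hasGradientAt_dens (hU : Pot U g) (ε : ℝ) (z : E d) :
    HasGradientAt (dens U ε) (gdens U g ε z) z := by
  rw [hasGradientAt_iff_hasFDerivAt]
  refine ((((hU.grad z).hasFDerivAt).const_mul ε).neg.exp).congr_fderiv ?_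
  ext v
  simp [gdens, dens, InnerProductSpace.toDual_apply_apply]
  ring

lemma dens_bounds (hU : Pot U g) {ε : ℝ} (hε : 0 ≤ ε) (hε1 : ε ≤ 1) :
    ∃ K : ℝ, ‖g 0‖ + Real.sqrt d + 2 ≤ K ∧
      (∀ x, |dens U ε x| ≤ K * Real.exp (K * ‖x‖)) ∧
      ∀ x, ‖gdens U g ε x‖ ≤ K * Real.exp (K * ‖x‖) := by
  set G := ‖g 0‖ + Real.sqrt d + 2 with hG
  have hG2 : 2 ≤ G := by have := Real.sqrt_nonneg (d : ℝ); linarith [norm_nonneg (g 0)]
  have hG0 : ‖g 0‖ + 1 ≤ G := by have := Real.sqrt_nonneg (d : ℝ); linarith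
  set P := Real.exp (-(ε * U 0)) with hP
  have hP0 : 0 < P := Real.exp_pos _
  have hd : ∀ x, dens U ε x ≤ P * Real.exp (‖g 0‖ * ‖x‖) := fun x => by
    rw [dens, hP, ← Real.exp_add]
    refine Real.exp_le_exp.2 ?_
    have h1 := mul_le_mul_of_nonneg_left (lower hU x) hε
    have h2 := mul_le_mul_of_nonneg_left (neg_le_of_abs_le (abs_real_inner_le_norm (g 0) x)) hε
    have h3 : ε * (‖g 0‖ * ‖x‖) ≤ ‖g 0‖ * ‖x‖ :=
      mul_le_of_le_one_left (by positivity) hε1
    linarith
  refine ⟨G * (1 + P), le_mul_of_one_le_right (by linarith) (by linarith), fun x => ?_,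
    fun x => ?_⟩
  · have hKG : ‖g 0‖ ≤ G * (1 + P) := by nlinarith
    rw [dens, abs_of_pos (Real.exp_pos _)]
    refine (hd x).trans (mul_le_mul ?_ (Real.exp_le_exp.2 ?_) (Real.exp_pos _).le (by positivity))
    · nlinarith
    · exact mul_le_mul_of_nonneg_right hKG (norm_nonneg x)
  · have hKG : ‖g 0‖ + 1 ≤ G * (1 + P) := by nlinarith
    rw [gdens, norm_smul, norm_neg, Real.norm_eq_abs, abs_mul, abs_of_nonneg hε,
      abs_of_pos (show 0 < dens U ε x from Real.exp_pos _)]
    have h1 : ‖g x‖ ≤ G * Real.exp ‖x‖ := by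
      refine (norm_g_le hU x).trans ?_
      have := mul_le_mul_of_nonneg_left (Real.add_one_le_exp ‖x‖) (by linarith : 0 ≤ G)
      nlinarith [norm_nonneg x, norm_nonneg (g 0)]
    calc ε * dens U ε x * ‖g x‖ ≤ 1 * (P * Real.exp (‖g 0‖ * ‖x‖)) * (G * Real.exp ‖x‖) := by
          refine mul_le_mul (mul_le_mul hε1 (hd x) (Real.exp_pos _).le zero_le_one) h1
            (norm_nonneg _) (by positivity)
      _ = G * P * Real.exp ((‖g 0‖ + 1) * ‖x‖) := by
          rw [show (‖g 0‖ + 1) * ‖x‖ = ‖g 0‖ * ‖x‖ + ‖x‖ by ring, Real.exp_add]; ring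
      _ ≤ _ := by
          refine mul_le_mul (mul_le_mul_of_nonneg_left (by linarith) (by linarith))
            (Real.exp_le_exp.2 (mul_le_mul_of_nonneg_right hKG (norm_nonneg x)))
            (Real.exp_pos _).le (by positivity)

lemma continuous_gdens (hU : Pot U g) (ε : ℝ) : Continuous (gdens U g ε) := by
  have := hU.lip.continuous
  have := hU.contDiff.continuous
  unfold gdens dens
  fun_prop

lemma integrable_gdens (hU : Pot U g) {ε : ℝ} (hε : 0 ≤ ε) (hε1 : ε ≤ 1) :
    Integrable (gdens U g ε) (gam d) := by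
  obtain ⟨K, -, -, h⟩ := dens_bounds hU hε hε1
  exact ((Smooth.integrable_exp_norm K).const_mul K).mono'
    (continuous_gdens hU ε).aestronglyMeasurable (Filter.Eventually.of_forall h)

/-- Stein's identity for the tilt. -/
lemma tilt_linear (hC : GaussCov) (hU : Pot U g) {ε : ℝ} (hε : 0 ≤ ε) (hε1 : ε ≤ 1) (a : E d)
    (ha : ‖a‖ ≤ 1) :
    ∫ z, ⟪a, z⟫ ∂tilt U ε = -(ε * ∫ z, uf g a z ∂tilt U ε) := by
  obtain ⟨K, hK, hKd, hKg⟩ := dens_bounds hU hε hε1
  have hK1 : 1 ≤ K := by
    have := Real.sqrt_nonneg (d : ℝ); linarith [norm_nonneg (g 0)]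
  have hgl : ∀ x : E d, HasGradientAt (fun z => ⟪a, z⟫) a x := fun x => by
    rw [hasGradientAt_iff_hasFDerivAt]
    exact (innerSL ℝ a).hasFDerivAt.congr_fderiv (by ext v; simp)
  have h := hC d (dens U ε) (fun z => ⟪a, z⟫) (gdens U g ε) (fun _ => a) K (continuous_gdens hU ε)
    continuous_const (hasGradientAt_dens hU ε) hgl hKd hKg
    (fun x => (abs_real_inner_le_norm a x).trans <|
      (mul_le_of_le_one_left (norm_nonneg x) ha).trans
        (le_trans (by nlinarith [norm_nonneg x]) (norm_sub_le_growth hK1 x)))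
    (fun x => ha.trans (le_trans (by nlinarith [norm_nonneg x]) (norm_sub_le_growth hK1 x)))
  have e0 : ∫ z, ⟪a, z⟫ ∂gam d = 0 := by
    unfold gam
    simp only [real_inner_comm _ a, P157.integral_inner]
  have e1 : ∀ r : ℝ, ∀ z : E d, ou r (fun _ => a) z = a := fun r z => by simp [ou]
  simp only [cov', e0, mul_zero, sub_zero, e1] at h
  rw [integral_mul_const, integral_exp_neg_Ioi_zero, one_mul] at h
  have e2 : ∫ z, ⟪gdens U g ε z, a⟫ ∂gam d = -(ε * ∫ z, dens U ε z * uf g a z ∂gam d) := by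
    rw [← integral_const_mul, ← integral_neg]
    refine integral_congr_ae (Filter.Eventually.of_forall fun z => ?_)
    simp only [gdens, uf]
    rw [real_inner_smul_left, real_inner_comm a (g z)]
    ring
  rw [e2] at h
  obtain ⟨hpos, h1⟩ := tilt_integral hU hε fun z => ⟪a, z⟫
  obtain ⟨-, h2⟩ := tilt_integral hU hε (uf g a)
  rw [h, ← h2] at h1
  refine mul_right_cancel₀ hpos.ne' (h1.trans ?_)
  ring

/-- The tilt almost preserves the drift under the semigroup. -/
lemma tilt_shift (hC : GaussCov) (hU : Pot U g) {ε : ℝ} (hε : 0 ≤ ε) (hε1 : ε ≤ 1) {a : E d}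
    (ha : ‖a‖ ≤ 1) :
    |(∫ z, uf g a z ∂tilt U ε) - ∫ z, ou ε (uf g a) z ∂tilt U ε|
      ≤ ε ^ 2 * ∫ z, ‖g z‖ ∂tilt U ε := by
  obtain ⟨K, hK, hKd, hKg⟩ := dens_bounds hU hε hε1
  have hsd := Real.sqrt_nonneg (d : ℝ)
  have hK1 : 1 ≤ K := by linarith [norm_nonneg (g 0)]
  have hlin : ∀ x : E d, ∀ t : ℝ, t ≤ ‖g 0‖ + Real.sqrt d + 1 + ‖x‖ →
      t ≤ K * Real.exp (K * ‖x‖) := fun x t ht =>
    le_trans (le_trans ht (by nlinarith [norm_nonneg x])) (norm_sub_le_growth hK1 x)
  set u := uf g a with hu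
  set gv := gu g a with hgv
  have huc : Continuous u := (contDiff_uf hU).continuous
  have hgc : Continuous gv := continuous_gu hU
  have hul := norm_uf_le hU ha
  have hgl := norm_gu_le' hU ha
  have hgb : ∀ r : ℝ, ∀ z, ‖ou r gv z‖ ≤ 1 := fun r z => by
    refine (norm_integral_le_of_norm_le_const (μ := gam d)
      (f := fun w => gv (ouPt r z w)) (C := 1)
      (Filter.Eventually.of_forall fun w => norm_gu_le hU ha _)).trans ?_
    simp
  have hgr_c : Continuous fun z => Real.exp (-ε) • ou ε gv z := by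
    have hl : ∀ x : E d, Continuous fun w : E d => ouPt ε x w := fun x => by unfold ouPt; fun_prop
    have hr : ∀ w : E d, Continuous fun x : E d => ouPt ε x w := fun w => by unfold ouPt; fun_prop
    have hcont : Continuous fun z => ∫ w, gv (ouPt ε z w) ∂gam d :=
      continuous_of_dominated (bound := fun _ => (1 : ℝ))
        (fun x => (hgc.comp (hl x)).aestronglyMeasurable)
        (fun x => Filter.Eventually.of_forall fun w => norm_gu_le hU ha _)
        (integrable_const _) (Filter.Eventually.of_forall fun w => hgc.comp (hr w))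
    exact hcont.const_smul (Real.exp (-ε))
  have h1 := hC d (dens U ε) u (gdens U g ε) gv K (continuous_gdens hU ε) hgc
    (hasGradientAt_dens hU ε) (hasGradientAt_uf hU) hKd hKg
    (fun x => hlin x _ (by have := hul x; rw [Real.norm_eq_abs] at this; linarith))
    (fun x => hlin x _ (by linarith [norm_gu_le hU ha x, norm_nonneg x, norm_nonneg (g 0)]))
  have h2 := hC d (dens U ε) (ou ε u) (gdens U g ε) (fun z => Real.exp (-ε) • ou ε gv z) K
    (continuous_gdens hU ε) hgr_c (hasGradientAt_dens hU ε) (hasGradientAt_ou hU ha hε) hKd hKg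
    (fun x => hlin x _ (by
      have := norm_ou_le hul zero_le_one hε x
      rw [Real.norm_eq_abs] at this; linarith))
    (fun x => hlin x _ (by
      rw [norm_smul, Real.norm_eq_abs, abs_of_pos (Real.exp_pos _)]
      linarith [mul_le_mul (Real.exp_le_one_iff.2 (by linarith : -ε ≤ 0)) (hgb ε x)
        (norm_nonneg _) zero_le_one, norm_nonneg x, norm_nonneg (g 0)]))
  set F : ℝ → ℝ := fun r => Real.exp (-r) * ∫ z, ⟪gdens U g ε z, ou r gv z⟫ ∂gam d with hF
  have e2 : ∀ r ∈ Set.Ioi (0 : ℝ),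
      Real.exp (-r) * ∫ z, ⟪gdens U g ε z, ou r (fun z => Real.exp (-ε) • ou ε gv z) z⟫ ∂gam d
        = F (r + ε) := fun r hr => by
    have e : ∀ z, ou r (fun z => Real.exp (-ε) • ou ε gv z) z
        = Real.exp (-ε) • ou (r + ε) gv z := fun z => by
      rw [← ou_ou hgc hgl le_rfl (le_of_lt hr) hε z, ou, ou, integral_smul]
    simp only [e, real_inner_smul_right, integral_const_mul, hF, neg_add, Real.exp_add]
    ring
  rw [setIntegral_congr_fun measurableSet_Ioi e2] at h2
  simp only [cov', integral_ou huc hul zero_le_one hε] at h1 h2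
  set M := ∫ z, ‖gdens U g ε z‖ ∂gam d with hM
  have hM0 : 0 ≤ M := integral_nonneg fun z => norm_nonneg _
  have hFb : ∀ r : ℝ, ‖F r‖ ≤ Real.exp (-r) * M := fun r => by
    rw [hF, norm_mul, Real.norm_eq_abs, abs_of_pos (Real.exp_pos _)]
    refine mul_le_mul_of_nonneg_left (norm_integral_le_of_norm_le
      (integrable_gdens hU hε hε1).norm (Filter.Eventually.of_forall fun z => ?_))
      (Real.exp_pos _).le
    exact (norm_inner_le_norm _ _).trans (mul_le_of_le_one_right (norm_nonneg _) (hgb r z))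
  have hFm : StronglyMeasurable F := by
    have hc : Continuous fun p : (ℝ × E d) × E d => gv (ouPt p.1.1 p.1.2 p.2) :=
      hgc.comp (by unfold ouPt; fun_prop)
    have hou : StronglyMeasurable fun p : ℝ × E d => ou p.1 gv p.2 :=
      hc.stronglyMeasurable.integral_prod_right'
    refine (Real.continuous_exp.comp continuous_neg).stronglyMeasurable.mul ?_
    exact ((((continuous_gdens hU ε).comp continuous_snd).stronglyMeasurable.inner hou)
      : StronglyMeasurable fun p : ℝ × E d => ⟪gdens U g ε p.2, ou p.1 gv p.2⟫).integral_prod_right'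
  have hFi : IntegrableOn F (Set.Ioi 0) := by
    refine Integrable.mono' (g := fun r => Real.exp (-r) * M) ?_ hFm.aestronglyMeasurable
      (Filter.Eventually.of_forall hFb)
    have h := (integrableOn_exp_mul_Ioi (show (-1 : ℝ) < 0 by norm_num) 0).mul_const M
    simpa [IntegrableOn] using h
  have hsh : ∫ r in Set.Ioi (0 : ℝ), F (r + ε) = ∫ r in Set.Ioi ε, F r := by
    have h := (measurePreserving_add_right volume ε).setIntegral_preimage_emb
      (measurableEmbedding_addRight ε) F (Set.Ioi ε)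
    rwa [Set.preimage_add_const_Ioi, sub_self] at h
  rw [hsh] at h2
  have hsplit : ∫ r in Set.Ioi (0 : ℝ), F r
      = (∫ r in Set.Ioc 0 ε, F r) + ∫ r in Set.Ioi ε, F r := by
    rw [← setIntegral_union Set.Ioc_disjoint_Ioi_same measurableSet_Ioi
      (hFi.mono_set Set.Ioc_subset_Ioi_self) (hFi.mono_set (Set.Ioi_subset_Ioi hε)),
      Set.Ioc_union_Ioi_eq_Ioi hε]
  have hsmall : ‖∫ r in Set.Ioc 0 ε, F r‖ ≤ M * ε := by
    have h := norm_setIntegral_le_of_norm_le_const (f := F) (C := M) (μ := volume)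
      (s := Set.Ioc 0 ε) measure_Ioc_lt_top fun r hr => (hFb r).trans
        (mul_le_of_le_one_left hM0 (Real.exp_le_one_iff.2 (by linarith [hr.1])))
    simpa [Real.volume_real_Ioc_of_le hε] using h
  obtain ⟨hpos, t1⟩ := tilt_integral hU hε u
  obtain ⟨-, t2⟩ := tilt_integral hU hε (ou ε u)
  obtain ⟨-, t3⟩ := tilt_integral hU hε fun z => ‖g z‖
  have hMe : M = ε * ((∫ z, ‖g z‖ ∂tilt U ε) * ∫ z, dens U ε z ∂gam d) := by
    rw [t3, hM, ← integral_const_mul]
    refine integral_congr_ae (Filter.Eventually.of_forall fun z => ?_)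
    simp [gdens, norm_smul, abs_of_nonneg hε, abs_of_pos (show 0 < dens U ε z from Real.exp_pos _)]
    ring
  have key : ((∫ z, u z ∂tilt U ε) - ∫ z, ou ε u z ∂tilt U ε) * ∫ z, dens U ε z ∂gam d
      = ∫ r in Set.Ioc 0 ε, F r := by
    linarith [sub_mul (∫ z, u z ∂tilt U ε) (∫ z, ou ε u z ∂tilt U ε) (∫ z, dens U ε z ∂gam d)]
  refine le_of_mul_le_mul_right ?_ hpos
  rw [← abs_of_pos hpos, ← abs_mul, key, abs_of_pos hpos]
  rw [Real.norm_eq_abs] at hsmall
  refine hsmall.trans (le_of_eq ?_)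
  rw [hMe]; ring

/-- The mean correction against the point without its fluctuation. -/
lemma outer (hSh : GaussShift) (hU : Pot U g) (Q : Quad q) {A : ℝ} (hA : Q.wt ≤ A)
    {ε : ℝ} (hε : 0 < ε) (hε2 : ε ≤ 1 / 2) {a : E d} (ha : ‖a‖ ≤ 1) :
    |(∫ x, uf g a (bt Q g ε (blocks (q := q) x)) ∂noise d q)
        - ∫ z, ou ε (uf g a) (z - ε • gQuad Q g z) ∂gam d|
      ≤ A ^ 2 * (ε * Real.sqrt ε) * Real.sqrt d := by
  have hA0 : 0 ≤ A := le_trans (Finset.sum_nonneg fun i _ => abs_nonneg _) hA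
  have hg := hU.lip.continuous
  set u := uf g a with hu
  set h := ou ε u with hh
  have huc : Continuous u := (contDiff_uf hU).continuous
  have hul := norm_uf_le hU ha
  have hhl : ∀ x, ‖h x‖ ≤ (‖g 0‖ + Real.sqrt d) + 1 * ‖x‖ := fun x =>
    (norm_ou_le hul zero_le_one hε.le x).trans (le_of_eq (by ring))
  have hhlip : ∀ x y, ‖h x - h y‖ ≤ 1 * ‖x - y‖ :=
    ou_lip zero_le_one (fun x y => uf_lip hU ha x y) hε.le
  have hhc : Continuous h := continuous_of_lip zero_le_one hhlip
  obtain ⟨he, hT⟩ := test_ou hU ha hε hε2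
  let i2 : Fin (2 * q + 4) := ⟨2, by omega⟩
  let i1 : Fin (2 * q + 4) := ⟨1, by omega⟩
  let B : E ((2 * q + 4) * d) → E d := fun x =>
    (blocks (q := q) x).z' - ε • drift Q g (blocks (q := q) x).z' (blocks (q := q) x).w'
  have hBc : Continuous B := by
    have := hU.lip.continuous
    simp only [B, drift, blocks, ouPt]
    fun_prop
  have hBl : Lin B := (lin_blk _).sub ((lin_drift hU Q (lin_blk _) fun i => lin_blk _).smul _)
  -- the noise of the semigroup
  have s1 : ∫ x, u (bt Q g ε (blocks (q := q) x)) ∂noise d q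
      = ∫ x, h (B x) ∂noise d q := by
    have hf : Continuous fun x => u (bt Q g ε (blocks (q := q) x)) :=
      huc.comp (continuous_bt hU Q ε)
    have hfi : Integrable (fun x => u (bt Q g ε (blocks (q := q) x))) (noise d q) :=
      (Lin.comp (norm_nonneg _) zero_le_one hul (lin_bt hU Q ε)).integrable hf
    have hm := (BlockLaw.continuous_repl (d := d) i2).aemeasurable
      (μ := (gam d).prod (noise d q))
    have hfi' : Integrable (fun x => u (bt Q g ε (blocks (q := q) x)))
        (((gam d).prod (noise d q)).map fun p => BlockLaw.repl i2 p.1 p.2) := by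
      rwa [BlockLaw.map_repl]
    have : IsProbabilityMeasure (noise d q) := by unfold noise; infer_instance
    conv_lhs => rw [← BlockLaw.map_repl i2]
    have hfp : Integrable (fun p : E d × E ((2 * q + 4) * d) =>
        u (bt Q g ε (blocks (q := q) (BlockLaw.repl i2 p.1 p.2))))
        ((gam d).prod (noise d q)) := hfi'.comp_aemeasurable hm
    rw [integral_map hm hf.aestronglyMeasurable, integral_prod_symm _ hfp]
    refine integral_congr_ae (Filter.Eventually.of_forall fun x => ?_)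
    refine integral_congr_ae (Filter.Eventually.of_forall fun z => ?_)
    have e1 : (⟨1, by omega⟩ : Fin (2 * q + 4)) ≠ i2 := by simp [i2, Fin.ext_iff]
    have e2 : ∀ i : Fin q, (⟨4 + q + i, by omega⟩ : Fin (2 * q + 4)) ≠ i2 := fun i => by
      simp only [i2, ne_eq, Fin.ext_iff]; omega
    simp only [B, bt, blocks, BlockLaw.blk_repl, e1, e2, ↓reduceIte, i2]
  -- the point `z'`
  have s2 : ∫ x, h (B x) ∂noise d q = ∫ z, ∫ x, h (z - ε • drift Q g z
      (fun i => (blocks (q := q) x).w' i)) ∂noise d q ∂gam d := by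
    rw [BlockLaw.integral_repl i1 (fun x => h (B x)) (hhc.comp hBc)
      ((Lin.comp (by positivity) zero_le_one hhl hBl).integrable (hhc.comp hBc))]
    refine integral_congr_ae (Filter.Eventually.of_forall fun z => ?_)
    refine integral_congr_ae (Filter.Eventually.of_forall fun x => ?_)
    have e2 : ∀ i : Fin q, (⟨4 + q + i, by omega⟩ : Fin (2 * q + 4)) ≠ i1 := fun i => by
      simp only [i1, ne_eq, Fin.ext_iff]; omega
    simp only [B, blocks, BlockLaw.blk_repl, e2, ↓reduceIte, i1]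
  -- the shift
  have key : ∀ z, ‖(∫ x, h (z - ε • drift Q g z (fun i => (blocks (q := q) x).w' i)) ∂noise d q)
      - h (z - ε • gQuad Q g z)‖ ≤ A ^ 2 * (ε * Real.sqrt ε) * Real.sqrt d := by
    intro z
    set ξ : E ((2 * q + 4) * d) → E d := fun x =>
      -(ε • (drift Q g z (fun i => (blocks (q := q) x).w' i) - gQuad Q g z)) with hξ
    have hξC : ContDiff ℝ 1 ξ := by
      simp only [hξ, drift, ouPt, blocks]
      refine (ContDiff.const_smul ε (ContDiff.sub (ContDiff.sum fun i _ => ?_) contDiff_const)).neg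
      exact ((contDiff_g hU).comp (contDiff_const.add
        ((BlockLaw.blkL (d := d) ⟨4 + q + i, by omega⟩).contDiff.const_smul _))).const_smul _
    have hξL : LipschitzWith (ε * A).toNNReal ξ := by
      refine LipschitzWith.of_dist_le_mul fun x y => ?_
      rw [Real.coe_toNNReal _ (by positivity), dist_eq_norm, dist_eq_norm]
      have e : ξ x - ξ y = -(ε • ∑ i, Q.a i • (g (ouPt (Q.r i) z ((blocks (q := q) x).w' i))
          - g (ouPt (Q.r i) z ((blocks (q := q) y).w' i)))) := by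
        simp only [hξ, drift, smul_sub, Finset.sum_sub_distrib]; abel
      rw [e, norm_neg, norm_smul, Real.norm_eq_abs, abs_of_pos hε, mul_assoc]
      refine mul_le_mul_of_nonneg_left ((norm_sum_le _ _).trans ?_) hε.le
      refine le_trans ?_ (mul_le_mul_of_nonneg_right hA (norm_nonneg _))
      rw [Quad.wt, Finset.sum_mul]
      refine Finset.sum_le_sum fun i _ => ?_
      rw [norm_smul, Real.norm_eq_abs]
      refine mul_le_mul_of_nonneg_left ((norm_g_sub hU _ _).trans ?_) (abs_nonneg _)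
      rw [ouPt_eq, ouPt_eq, add_sub_add_left_eq_sub, ← smul_sub, norm_smul, Real.norm_eq_abs,
        abs_of_nonneg (nz_nonneg _)]
      refine (mul_le_of_le_one_left (norm_nonneg _) (nz_le_one _)).trans ?_
      simp only [blocks, ← BlockLaw.blk_sub]
      exact BlockLaw.norm_blk_le _ _
    have hξ0 : ∫ x, ξ x ∂gam ((2 * q + 4) * d) = 0 := by
      have hi : ∀ i : Fin q, Integrable
          (fun x => Q.a i • g (ouPt (Q.r i) z ((blocks (q := q) (d := d) x).w' i)))
          (noise d q) := fun i =>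
        ((lin_g_comp hU (lin_ouPt _ (Lin.const z) (lin_blk _))).smul _).integrable
          (by simp only [blocks, ouPt]; fun_prop)
      have hd : ∫ x, drift Q g z (fun i => (blocks (q := q) x).w' i) ∂noise d q
          = gQuad Q g z := by
        simp only [drift, gQuad]
        rw [integral_finsetSum _ fun i _ => hi i]
        refine Finset.sum_congr rfl fun i _ => ?_
        rw [integral_smul]
        congr 1
        exact BlockLaw.integral_blk _ (fun w => g (ouPt (Q.r i) z w))
          (hg.comp (by unfold ouPt; fun_prop))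
      have : IsProbabilityMeasure (noise d q) := by unfold noise; infer_instance
      show ∫ x, ξ x ∂noise d q = 0
      have hdi : Integrable (fun x => drift Q g z (fun i => (blocks (q := q) x).w' i))
          (noise d q) := by
        simp only [drift]
        exact integrable_finsetSum _ fun i _ => hi i
      simp only [hξ, integral_neg, integral_smul]
      rw [integral_sub hdi (integrable_const _), hd]
      simp
    have h3 := hSh d ((2 * q + 4) * d) ξ _ hξC hξL hξ0 h _ he _ hT (z - ε • gQuad Q g z)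
    rw [Real.coe_toNNReal _ (by positivity)] at h3
    have e : ∀ x, z - ε • gQuad Q g z + ξ x
        = z - ε • drift Q g z (fun i => (blocks (q := q) x).w' i) := fun x => by
      simp only [hξ]; module
    simp only [e] at h3
    refine h3.trans ?_
    have h4 : ∫ r in Set.Icc (0 : ℝ) 1, ∫ x,
        frob (he (z - ε • gQuad Q g z + r • ξ x)) ∂gam ((2 * q + 4) * d) ≤ 1 / Real.sqrt ε := by
      refine (le_abs_self _).trans ?_
      have := norm_setIntegral_le_of_norm_le_const (μ := volume) (s := Set.Icc (0 : ℝ) 1)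
        (f := fun r => ∫ x, frob (he (z - ε • gQuad Q g z + r • ξ x)) ∂gam ((2 * q + 4) * d))
        (C := 1 / Real.sqrt ε) measure_Icc_lt_top fun r _ => by
          refine (norm_integral_le_of_norm_le_const (C := 1 / Real.sqrt ε)
            (Filter.Eventually.of_forall fun x => ?_)).trans (le_of_eq (by simp))
          rw [Real.norm_eq_abs]
          exact (abs_of_nonneg (Real.sqrt_nonneg _)).trans_le (hT.hess_le _)
      simpa using this
    refine (mul_le_mul_of_nonneg_left h4 (by positivity)).trans (le_of_eq ?_)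
    rw [show (ε * A) ^ 2 * Real.sqrt d * (1 / Real.sqrt ε)
      = A ^ 2 * Real.sqrt d * ε * (ε / Real.sqrt ε) by ring, Real.div_sqrt]
    ring
  rw [s1, s2]
  have hin : Integrable (fun z => ∫ x, h (z - ε • drift Q g z
      (fun i => (blocks (q := q) x).w' i)) ∂noise d q) (gam d) := by
    have hjc : Continuous fun p : E d × E ((2 * q + 4) * d) =>
        h (p.1 - ε • drift Q g p.1 (fun i => (blocks (q := q) p.2).w' i)) := by
      refine hhc.comp (continuous_fst.sub (Continuous.const_smul ?_ ε))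
      exact continuous_drift hU Q continuous_fst
        fun i => (BlockLaw.continuous_blk _).comp continuous_snd
    have hc : StronglyMeasurable fun z => ∫ x, h (z - ε • drift Q g z
        (fun i => (blocks (q := q) x).w' i)) ∂noise d q := by
      have : IsProbabilityMeasure (noise d q) := by unfold noise; infer_instance
      exact hjc.stronglyMeasurable.integral_prod_right'
    have hl : Lin fun z => h (z - ε • gQuad Q g z) := by
      refine Lin.comp (by positivity) zero_le_one hhl ((lin_id d).sub (Lin.smul ε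
        (Lin.sum _ fun i => Lin.smul _ (Lin.of_le (a := ‖g 0‖ + Real.sqrt d) (b := 1)
          (by positivity) zero_le_one fun x => ?_))))
      exact (norm_ou_le (norm_g_le hU) zero_le_one (Q.r_nonneg i) x).trans (le_of_eq (by ring))
    obtain ⟨C, hC, hl⟩ := hl
    refine Integrable.mono' (g := fun z : E d =>
      (A ^ 2 * (ε * Real.sqrt ε) * Real.sqrt d + C) + C * ‖z‖)
      ((integrable_const _).add ((integrable_norm d).const_mul C)) hc.aestronglyMeasurable
      (Filter.Eventually.of_forall fun z => ?_)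
    have := norm_le_norm_add_norm_sub' (∫ x, h (z - ε • drift Q g z
      (fun i => (blocks (q := q) x).w' i)) ∂noise d q) (h (z - ε • gQuad Q g z))
    linarith [key z, hl z]
  have hgq : Continuous fun z => h (z - ε • gQuad Q g z) := by
    refine hhc.comp (continuous_id.sub (Continuous.const_smul ?_ ε))
    exact continuous_gQuad hU Q
  have hgi : Integrable (fun z => h (z - ε • gQuad Q g z)) (gam d) := by
    refine Lin.integrable (Lin.comp (by positivity) zero_le_one hhl ((lin_id d).sub (Lin.smul ε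
      (Lin.sum _ fun i => Lin.smul _ (Lin.of_le (a := ‖g 0‖ + Real.sqrt d) (b := 1)
        (by positivity) zero_le_one fun x => ?_))))) hgq
    exact (norm_ou_le (norm_g_le hU) zero_le_one (Q.r_nonneg i) x).trans (le_of_eq (by ring))
  rw [← integral_sub hin hgi]
  refine (norm_integral_le_of_norm_le_const (μ := gam d)
    (f := fun z => (∫ x, h (z - ε • drift Q g z (fun i => (blocks (q := q) x).w' i)) ∂noise d q)
      - h (z - ε • gQuad Q g z)) (Filter.Eventually.of_forall key)).trans ?_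
  simp

/-- Replacing the quadrature by the exact drift. -/
lemma quad (hSt : StarDeriv) (hU : Pot U g) (Q : Quad q) {ζ : ℝ} (hQ : QuadErr Q g ζ)
    {ε : ℝ} (hε : 0 ≤ ε) {a : E d} (ha : ‖a‖ ≤ 1) :
    |(∫ z, ou ε (uf g a) (z - ε • gQuad Q g z) ∂gam d)
        - ∫ z, ou ε (uf g a) (z - ε • gStar g z) ∂gam d| ≤ ε * ζ := by
  obtain ⟨DG, -, hDG⟩ := hSt d U g hU
  set h := ou ε (uf g a) with hh
  have hlip : ∀ x y, ‖h x - h y‖ ≤ 1 * ‖x - y‖ :=
    ou_lip zero_le_one (fun x y => uf_lip hU ha x y) hε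
  have hhc : Continuous h := continuous_of_lip zero_le_one hlip
  have hqc : Continuous (gQuad Q g) := continuous_gQuad hU Q
  have hsc : Continuous (gStar g) :=
    continuous_iff_continuousAt.2 fun z => (hDG z).1.continuousAt
  have hql : Lin (gQuad Q g) :=
    Lin.sum _ fun i => Lin.smul _ (Lin.of_le (a := ‖g 0‖ + Real.sqrt d) (b := 1)
      (by positivity) zero_le_one fun x =>
      (norm_ou_le (norm_g_le hU) zero_le_one (Q.r_nonneg i) x).trans (le_of_eq (by ring)))
  have hsl : Lin (gStar g) := Lin.of_le (a := ‖g 0‖ + Real.sqrt d) (b := 1) (by positivity)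
    zero_le_one fun x => (norm_gStar_le hU x).trans (le_of_eq (by ring))
  have hhl : ∀ x, ‖h x‖ ≤ (‖g 0‖ + Real.sqrt d) + 1 * ‖x‖ := fun x =>
    (norm_ou_le (norm_uf_le hU ha) zero_le_one hε x).trans (le_of_eq (by ring))
  have i1 : Integrable (fun z => h (z - ε • gQuad Q g z)) (gam d) :=
    (Lin.comp (by positivity) zero_le_one hhl ((lin_id d).sub (hql.smul ε))).integrable
      (hhc.comp (continuous_id.sub (hqc.const_smul ε)))
  have i2 : Integrable (fun z => h (z - ε • gStar g z)) (gam d) :=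
    (Lin.comp (by positivity) zero_le_one hhl ((lin_id d).sub (hsl.smul ε))).integrable
      (hhc.comp (continuous_id.sub (hsc.const_smul ε)))
  have hid : Integrable (fun z => ‖gQuad Q g z - gStar g z‖) (gam d) :=
    ((hql.sub hsl).integrable (hqc.sub hsc)).norm
  rw [← integral_sub i1 i2]
  refine (norm_integral_le_of_norm_le (μ := gam d)
    (f := fun z => h (z - ε • gQuad Q g z) - h (z - ε • gStar g z)) (hid.const_mul ε)
    (Filter.Eventually.of_forall fun z => ?_)).trans ?_
  · refine (hlip _ _).trans (le_of_eq ?_)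
    rw [one_mul, sub_sub_sub_cancel_left, ← smul_sub, norm_smul, Real.norm_eq_abs,
      abs_of_nonneg hε, norm_sub_rev]
  · rw [integral_const_mul]
    exact mul_le_mul_of_nonneg_left (int_le_of_sq_le _ hid
      ((hql.sub hsl).integrable_sq (hqc.sub hsc)) hQ.1 hQ.2) hε

/-- The covariance is controlled by the variances. -/
lemma abs_cov_le (μ : Measure (E d)) [IsProbabilityMeasure μ] {φ ψ : E d → ℝ}
    (h1 : Integrable φ μ) (h2 : Integrable ψ μ) (h11 : Integrable (fun x => φ x ^ 2) μ)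
    (h22 : Integrable (fun x => ψ x ^ 2) μ) (h12 : Integrable (fun x => φ x * ψ x) μ)
    {t : ℝ} (ht : 0 < t) : |cov' μ φ ψ| ≤ (t * cov' μ φ φ + cov' μ ψ ψ / t) / 2 := by
  have key : ∀ s : ℝ, 0 ≤ t ^ 2 * cov' μ φ φ + 2 * (t * s) * cov' μ φ ψ + s ^ 2 * cov' μ ψ ψ := by
    intro s
    have i1 : Integrable (fun x => t ^ 2 * φ x ^ 2) μ := h11.const_mul _
    have i2 : Integrable (fun x => 2 * (t * s) * (φ x * ψ x)) μ := h12.const_mul _
    have i3 : Integrable (fun x => s ^ 2 * ψ x ^ 2) μ := h22.const_mul _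
    have i12 : Integrable (fun x => t ^ 2 * φ x ^ 2 + 2 * (t * s) * (φ x * ψ x)) μ := i1.add i2
    have j1 : Integrable (fun x => t * φ x) μ := h1.const_mul _
    have j2 : Integrable (fun x => s * ψ x) μ := h2.const_mul _
    have i0 : Integrable (fun x => t * φ x + s * ψ x) μ := j1.add j2
    have e : (fun x => (t * φ x + s * ψ x) ^ 2)
        = fun x => t ^ 2 * φ x ^ 2 + 2 * (t * s) * (φ x * ψ x) + s ^ 2 * ψ x ^ 2 := by
      funext x; ring
    have h := sq_int_le μ i0 (by rw [e]; exact i12.add i3)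
    rw [e, integral_add i12 i3, integral_add i1 i2, integral_add j1 j2] at h
    simp only [integral_const_mul] at h
    simp only [cov', ← sq]
    linarith
  have k1 := key 1
  have k2 := key (-1)
  have hw : t * (cov' μ ψ ψ / t) = cov' μ ψ ψ := mul_div_cancel₀ _ ht.ne'
  generalize cov' μ ψ ψ / t = w at hw ⊢
  rw [abs_le]
  constructor
  · refine le_of_mul_le_mul_left ?_ ht
    linarith
  · refine le_of_mul_le_mul_left ?_ ht
    linarith

lemma norm_DG_le {DG : E d → E d →L[ℝ] E d}
    (hDG : ∀ z, HasFDerivAt (gStar g) (DG z) z ∧ ‖DG z‖ ≤ 1 / 2) (z v : E d) :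
    ‖DG z v‖ ≤ 1 / 2 * ‖v‖ :=
  ((DG z).le_opNorm v).trans (mul_le_mul_of_nonneg_right (hDG z).2 (norm_nonneg v))

/-- Bounds under a tilt: first moment of the drift and the covariance of the interpolation. -/
lemma tilt_bounds (hU : Pot U g) {DG : E d → E d →L[ℝ] E d} (hDGc : Continuous DG)
    (hDG : ∀ z, HasFDerivAt (gStar g) (DG z) z ∧ ‖DG z‖ ≤ 1 / 2) {C₁ Λ t : ℝ} (hΛ : 1 ≤ Λ)
    (hd : Real.sqrt d ≤ Λ) (hg0 : ‖g 0‖ ≤ Λ) (ht : 0 ≤ t)
    (hmom : ∫ z, ‖z‖ ^ 2 ∂tilt U t ≤ C₁ * Λ ^ 2) :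
    ∫ z, ‖g z‖ ∂tilt U t ≤ (C₁ + 2) * Λ ∧ ∫ z, ‖gStar g z‖ ∂tilt U t ≤ (C₁ + 3) * Λ ∧
      ∀ φ : E d → ℝ, ContDiff ℝ 1 φ → (∀ x y, |φ x - φ y| ≤ 2 * ‖x - y‖) →
        |cov' (tilt U t) φ (fun z => ⟪g z, gStar g z⟫)| ≤ (11 + 4 * C₁) * Λ := by
  have hW := hU.logConc ht
  have : IsProbabilityMeasure (tilt U t) := LogConcave.isProb hW
  have hgc := hU.lip.continuous
  have hsc : Continuous (gStar g) :=
    continuous_iff_continuousAt.2 fun z => (hDG z).1.continuousAt
  have hint : ∀ f : E d → ℝ, Continuous f → LogConcave.Poly f → Integrable f (tilt U t) :=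
    fun f hf hp => hp.integrable hW hf
  have hsB : ∀ z, ‖gStar g z‖ ≤ 2 * Λ + ‖z‖ := fun z => by linarith [norm_gStar_le hU z]
  have hgB : ∀ z, ‖g z‖ ≤ Λ + ‖z‖ := fun z => by linarith [norm_g_le hU z]
  have pn : LogConcave.Poly fun z : E d => ‖z‖ :=
    LogConcave.Poly.of_le (A := 1) (N := 1) fun z => by
      rw [abs_of_nonneg (norm_nonneg z)]; linarith
  have pg : LogConcave.Poly fun z => ‖g z‖ :=
    LogConcave.Poly.of_le (A := Λ) (N := 1) fun z => by
      rw [abs_of_nonneg (norm_nonneg _)]; nlinarith [hgB z, norm_nonneg z]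
  have ps : LogConcave.Poly fun z => ‖gStar g z‖ :=
    LogConcave.Poly.of_le (A := 2 * Λ) (N := 1) fun z => by
      rw [abs_of_nonneg (norm_nonneg _)]; nlinarith [hsB z, norm_nonneg z]
  have in1 : Integrable (fun z : E d => ‖z‖) (tilt U t) := hint _ continuous_norm pn
  have in2 : Integrable (fun z : E d => ‖z‖ ^ 2) (tilt U t) :=
    hint _ (continuous_norm.pow 2) (pn.pow 2)
  have hz : ∫ z, ‖z‖ ∂tilt U t ≤ (C₁ + 1) * Λ := by
    have : ∫ z, Λ * ‖z‖ ∂tilt U t ≤ ∫ z, (‖z‖ ^ 2 + Λ ^ 2) ∂tilt U t :=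
      integral_mono (in1.const_mul Λ) (in2.add (integrable_const _)) fun z => by
        nlinarith [sq_nonneg (‖z‖ - Λ), norm_nonneg z]
    rw [integral_const_mul, integral_add in2 (integrable_const _), integral_const, probReal_univ,
      one_smul] at this
    refine le_of_mul_le_mul_left ?_ (by linarith : 0 < Λ)
    linarith
  refine ⟨?_, ?_, ?_⟩
  · refine (integral_mono (hint _ hgc.norm pg) ((integrable_const Λ).add in1) hgB).trans ?_
    rw [integral_add' (integrable_const _) in1, integral_const, probReal_univ, one_smul]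
    linarith
  · refine (integral_mono (hint _ hsc.norm ps) ((integrable_const (2 * Λ)).add in1) hsB).trans ?_
    rw [integral_add' (integrable_const _) in1, integral_const, probReal_univ, one_smul]
    linarith
  intro φ hφ hφl
  set ψ : E d → ℝ := fun z => ⟪g z, gStar g z⟫ with hψ
  have hsC : ContDiff ℝ 1 (gStar g) := contDiff_one_iff_fderiv.2
    ⟨fun z => (hDG z).1.differentiableAt, by
      rw [show fderiv ℝ (gStar g) = DG from funext fun z => (hDG z).1.fderiv]; exact hDGc⟩
  have hψC : ContDiff ℝ 1 ψ := (contDiff_g hU).inner ℝ hsC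
  have hψb : ∀ z, ‖gradient ψ z‖ ≤ 3 * Λ + 2 * ‖z‖ := fun z => by
    rw [norm_gradient]
    have hgd : HasFDerivAt g (fderiv ℝ g z) z :=
      (((contDiff_g hU).differentiable (by norm_num)) z).hasFDerivAt
    have hgn : ‖fderiv ℝ g z‖ ≤ 1 := by
      simpa using norm_fderiv_le_of_lipschitz ℝ (x₀ := z) hU.lip
    refine ContinuousLinearMap.opNorm_le_bound _ (by positivity) fun v => ?_
    rw [fderiv_inner_apply ℝ hgd.differentiableAt (hDG z).1.differentiableAt, (hDG z).1.fderiv]
    refine (norm_add_le _ _).trans ?_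
    have h1 : ‖⟪g z, DG z v⟫‖ ≤ (Λ + ‖z‖) * (1 / 2 * ‖v‖) :=
      (norm_inner_le_norm _ _).trans (mul_le_mul (hgB z) (norm_DG_le hDG z v) (norm_nonneg _)
        (by positivity))
    have h2 : ‖⟪fderiv ℝ g z v, gStar g z⟫‖ ≤ (1 * ‖v‖) * (2 * Λ + ‖z‖) :=
      (norm_inner_le_norm _ _).trans (mul_le_mul (((fderiv ℝ g z).le_opNorm v).trans
        (mul_le_mul_of_nonneg_right hgn (norm_nonneg v))) (hsB z) (norm_nonneg _) (by positivity))
    nlinarith [norm_nonneg v, norm_nonneg z, mul_nonneg (norm_nonneg v) (norm_nonneg z),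
      mul_nonneg (norm_nonneg v) (by linarith : 0 ≤ Λ)]
  have hφb : ∀ z, ‖gradient φ z‖ ≤ 2 := norm_gradient_le two_pos.le hφl
  have pφ : LogConcave.Poly φ :=
    LogConcave.poly_fun (hasGradientAt_gradient hφ) (K := 2) (N := 0) fun x => by simpa using hφb x
  have hψb' : ∀ z, ‖gradient ψ z‖ ≤ 3 * Λ * (1 + ‖z‖) ^ 1 := fun z => by
    nlinarith [hψb z, norm_nonneg z]
  have pψ : LogConcave.Poly ψ := LogConcave.poly_fun (hasGradientAt_gradient hψC) hψb'
  have hc1 := hφ.continuous
  have hc2 := hψC.continuous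
  refine (abs_cov_le _ (hint _ hc1 pφ) (hint _ hc2 pψ) (hint _ (hc1.pow 2) (pφ.pow 2))
    (hint _ (hc2.pow 2) (pψ.pow 2)) (hint _ (hc1.mul hc2) (pφ.mul pψ))
    (by linarith : (0 : ℝ) < Λ)).trans ?_
  have v1 : cov' (tilt U t) φ φ ≤ 4 := by
    refine (poincare d _ _ 1 hW φ (gradient φ) (continuous_gradient hφ)
      (hasGradientAt_gradient hφ) 2 0 (fun x => by simpa using hφb x)).trans ?_
    rw [div_one]
    refine (integral_mono_of_nonneg (Filter.Eventually.of_forall fun z => sq_nonneg _)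
      (integrable_const 4) (Filter.Eventually.of_forall fun z => ?_)).trans (le_of_eq
        (show ∫ _ : E d, (4 : ℝ) ∂tilt U t = 4 by rw [integral_const, probReal_univ, one_smul]))
    have := pow_le_pow_left₀ (norm_nonneg _) (hφb z) 2
    linarith
  have v2 : cov' (tilt U t) ψ ψ ≤ (18 + 8 * C₁) * Λ ^ 2 := by
    refine (poincare d _ _ 1 hW ψ (gradient ψ) (continuous_gradient hψC)
      (hasGradientAt_gradient hψC) _ 1 hψb').trans ?_
    rw [div_one]
    refine (integral_mono_of_nonneg (Filter.Eventually.of_forall fun z => sq_nonneg _)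
      ((integrable_const (18 * Λ ^ 2)).add (in2.const_mul 8))
      (Filter.Eventually.of_forall fun z => ?_)).trans ?_
    · have := pow_le_pow_left₀ (norm_nonneg _) (hψb z) 2
      simp only [Pi.add_apply]
      nlinarith [sq_nonneg (3 * Λ - 2 * ‖z‖)]
    · rw [integral_add' (integrable_const _) (in2.const_mul 8), integral_const, probReal_univ,
        one_smul, integral_const_mul]
      linarith
  have h1 := mul_le_mul_of_nonneg_left v1 (by linarith : (0 : ℝ) ≤ Λ)
  have h2 : cov' (tilt U t) ψ ψ / Λ ≤ (18 + 8 * C₁) * Λ := by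
    rw [div_le_iff₀ (by linarith : (0 : ℝ) < Λ)]; linarith
  linarith

/-- The exact map against the target. -/
lemma interp_bound (hI : Interp) (hU : Pot U g) {DG : E d → E d →L[ℝ] E d}
    (hDGc : Continuous DG) (hDG : ∀ z, HasFDerivAt (gStar g) (DG z) z ∧ ‖DG z‖ ≤ 1 / 2)
    {C₁ Λ : ℝ} (hΛ : 1 ≤ Λ) (hd : Real.sqrt d ≤ Λ) (hg0 : ‖g 0‖ ≤ Λ)
    (hmom : ∀ t, 0 ≤ t → t ≤ 1 → ∫ z, ‖z‖ ^ 2 ∂tilt U t ≤ C₁ * Λ ^ 2)
    {ε : ℝ} (hε : 0 < ε) (hε2 : ε ≤ 1 / 2) {a : E d} (ha : ‖a‖ ≤ 1) :
    |(∫ z, ou ε (uf g a) z ∂tilt U ε) - ∫ z, ou ε (uf g a) (z - ε • gStar g z) ∂gam d|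
      ≤ (14 + 5 * C₁) * (ε ^ 2 * Λ) := by
  obtain ⟨he, hT⟩ := test_ou hU ha hε hε2
  set h := ou ε (uf g a) with hh
  set gr := fun z => Real.exp (-ε) • ou ε (gu g a) z with hgr
  have hgr1 : ∀ z, ‖gr z‖ ≤ 1 := fun z => by
    rw [hgr, norm_smul, Real.norm_eq_abs, abs_of_pos (Real.exp_pos _)]
    refine (mul_le_of_le_one_left (norm_nonneg _) (Real.exp_le_one_iff.2 (by linarith))).trans ?_
    simpa using norm_ou_le (norm_gu_le' hU ha) le_rfl hε.le z
  have hI' := hI d U g DG hU hDGc hDG h gr he _ hT 0 ε 0 hε.le le_rfl zero_le_one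
  have e0 : tilt U (0 * ε) = gam d := by
    rw [Joint.gam_eq_gibbs, tilt]
    simp
  simp only [e0, phiMap, sub_zero, add_zero, one_mul] at hI'
  rw [hI']
  have hlipS : ∀ x y, ‖gStar g x - gStar g y‖ ≤ 1 / 2 * ‖x - y‖ := fun x y =>
    convex_univ.norm_image_sub_le_of_norm_hasFDerivWithin_le
      (fun z _ => (hDG z).1.hasFDerivWithinAt) (fun z _ => (hDG z).2) (Set.mem_univ y)
      (Set.mem_univ x)
  have hsC : ContDiff ℝ 1 (gStar g) := contDiff_one_iff_fderiv.2
    ⟨fun z => (hDG z).1.differentiableAt, by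
      rw [show fderiv ℝ (gStar g) = DG from funext fun z => (hDG z).1.fderiv]; exact hDGc⟩
  have hgrc : Continuous gr :=
    continuous_iff_continuousAt.2 fun z => (hT.hess z).continuousAt
  have hhC : ContDiff ℝ 1 h := contDiff_of_grad hT.grad hgrc
  have hhl : ∀ x y, ‖h x - h y‖ ≤ 1 * ‖x - y‖ :=
    ou_lip zero_le_one (fun x y => uf_lip hU ha x y) hε.le
  have hb : ∀ s ∈ Set.uIoc (0 : ℝ) 1,
      ‖interpRate U g DG h gr 0 ε s‖ ≤ (14 + 5 * C₁) * (ε ^ 2 * Λ) := by
    intro s hs
    rw [Set.uIoc_of_le zero_le_one] at hs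
    have hs0 : 0 ≤ s * ε := mul_nonneg hs.1.le hε.le
    have hs1 : s * ε ≤ 1 := mul_le_one₀ hs.2 hε.le (by linarith)
    obtain ⟨-, hS, hcov⟩ := tilt_bounds hU hDGc hDG hΛ hd hg0 hs0 (hmom _ hs0 hs1)
    have : IsProbabilityMeasure (tilt U (s * ε)) := LogConcave.isProb (hU.logConc hs0)
    set φ : E d → ℝ := fun z => h (phiMap g 0 ε (1 - s) z) with hφ
    have hv : 0 ≤ (1 - s) * ε ∧ (1 - s) * ε ≤ 1 :=
      ⟨mul_nonneg (by linarith [hs.2]) hε.le,
        mul_le_one₀ (by linarith [hs.1]) hε.le (by linarith)⟩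
    have hφC : ContDiff ℝ 1 φ := by
      simp only [hφ, phiMap]
      exact hhC.comp (contDiff_id.sub ((hsC.add contDiff_const).const_smul _))
    have hφl : ∀ x y, |φ x - φ y| ≤ 2 * ‖x - y‖ := fun x y => by
      refine (hhl _ _).trans ?_
      rw [one_mul, phiMap, phiMap, sub_sub_sub_comm, ← smul_sub, add_sub_add_right_eq_sub]
      refine (norm_sub_le _ _).trans ?_
      rw [norm_smul, Real.norm_eq_abs, abs_of_nonneg hv.1]
      have := mul_le_mul hv.2 (hlipS x y) (norm_nonneg _) zero_le_one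
      linarith [norm_nonneg (x - y)]
    have hcov' := hcov φ hφC hφl
    have hin : ‖∫ z, ⟪gr (phiMap g 0 ε (1 - s) z), DG z (gStar g z)⟫ ∂tilt U (s * ε)‖
        ≤ (C₁ + 3) * Λ := by
      refine le_trans (norm_integral_le_of_norm_le ?_ (Filter.Eventually.of_forall fun z => ?_)) hS
      · refine (LogConcave.Poly.of_le (A := ‖g 0‖ + Real.sqrt d + 1) (N := 1) fun z => ?_).integrable
          (hU.logConc hs0) (continuous_iff_continuousAt.2 fun z => (hDG z).1.continuousAt).norm
        rw [abs_of_nonneg (norm_nonneg _)]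
        nlinarith [norm_gStar_le hU z, norm_nonneg z, norm_nonneg (g 0), Real.sqrt_nonneg (d : ℝ)]
      · refine (norm_inner_le_norm _ _).trans ?_
        refine (mul_le_of_le_one_left (norm_nonneg _) (hgr1 _)).trans ?_
        refine (norm_DG_le hDG z _).trans ?_
        linarith [norm_nonneg (gStar g z)]
    rw [interpRate, Real.norm_eq_abs]
    simp only [inner_zero_right, integral_zero, mul_zero, zero_add]
    refine (abs_add_le _ _).trans ?_
    rw [abs_mul, abs_mul ((s : ℝ) * ε ^ 2), abs_of_nonneg (by nlinarith [hs.2] : 0 ≤ (1 - s) * ε ^ 2),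
      abs_of_nonneg (by nlinarith [hs.1] : 0 ≤ s * ε ^ 2)]
    have h1 := mul_le_mul (mul_le_of_le_one_left (sq_nonneg ε) (by linarith [hs.1] : 1 - s ≤ 1))
      hin (norm_nonneg _) (sq_nonneg ε)
    have h2 := mul_le_mul (mul_le_of_le_one_left (sq_nonneg ε) hs.2) hcov' (abs_nonneg _)
      (sq_nonneg ε)
    rw [Real.norm_eq_abs] at h1
    linarith
  simpa using intervalIntegral.norm_integral_le_of_norm_le_const hb

end Mean

/-- The mean of a step. -/
theorem meanBound (hC : GaussCov) (hSt : StarDeriv) (hSh : GaussShift) (hI : Interp)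
    (hT : TiltFacts) : MeanBound := by
  intro A hA
  obtain ⟨C₁, hC₁, hT1⟩ := hT 1
  refine ⟨A ^ 2 + 16 + 6 * C₁, by positivity, ?_⟩
  intro d q Q hQ U g hU ε Λ ζ hε hε2 hΛ hd hg0 hζ
  obtain ⟨DG, hDGc, hDG⟩ := hSt d U g hU
  obtain ⟨-, hmom', -⟩ := hT1 d U g hU
  have hmom : ∀ t, 0 ≤ t → t ≤ 1 → ∫ z, ‖z‖ ^ 2 ∂tilt U t ≤ C₁ * Λ ^ 2 := fun t h0 h1 => by
    simpa using hmom' Λ t hd hg0 h0 h1
  obtain ⟨hg1, -, -⟩ := Mean.tilt_bounds hU hDGc hDG hΛ hd hg0 hε.le (hmom ε hε.le (by linarith))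
  have hW := hU.logConc hε.le
  have : IsProbabilityMeasure (tilt U ε) := LogConcave.isProb hW
  have hgi : Integrable g (tilt U ε) := by
    refine (integrable_norm_iff hU.lip.continuous.aestronglyMeasurable).1 ?_
    refine (LogConcave.Poly.of_le (A := ‖g 0‖ + 1) (N := 1) fun z => ?_).integrable hW
      hU.lip.continuous.norm
    rw [abs_of_nonneg (norm_nonneg _)]
    nlinarith [Mean.norm_g_le hU z, norm_nonneg z, norm_nonneg (g 0)]
  have hzi : Integrable (fun z : E d => z) (tilt U ε) := by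
    refine (integrable_norm_iff continuous_id.aestronglyMeasurable).1 ?_
    refine (LogConcave.Poly.of_le (A := 1) (N := 1) fun z => ?_).integrable hW continuous_norm
    simp only [id_eq, pow_one, one_mul, abs_norm]
    linarith
  have hbi : Integrable (fun x => g (Mean.bt Q g ε (blocks (q := q) x))) (noise d q) :=
    (Mean.lin_g_comp hU (Mean.lin_bt hU Q ε)).integrable
      (hU.lip.continuous.comp (Mean.continuous_bt hU Q ε))
  set v := (∫ x, xhat Q g ε (blocks x) ∂noise d q) - ∫ z, z ∂tilt U ε with hv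
  set X := (A ^ 2 + 16 + 6 * C₁) * (ε ^ 2 * Real.sqrt ε * Λ + ζ) with hX
  have key : ∀ a : E d, ‖a‖ ≤ 1 → ⟪a, v⟫ ≤ X := by
    intro a ha
    have o1 := Mean.outer hSh hU Q hQ hε hε2 ha
    have o2 := Mean.quad hSt hU Q hζ hε.le ha
    have o3 := Mean.interp_bound hI hU hDGc hDG hΛ hd hg0 hmom hε hε2 ha
    have o4 := (Mean.tilt_shift hC hU hε.le (by linarith) ha).trans
      (mul_le_mul_of_nonneg_left hg1 (sq_nonneg ε))
    have o5 := Mean.tilt_linear hC hU hε.le (by linarith) a ha
    have e1 : ⟪a, ∫ x, xhat Q g ε (blocks x) ∂noise d q⟫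
        = -(ε * ∫ x, Mean.uf g a (Mean.bt Q g ε (blocks (q := q) x)) ∂noise d q) := by
      rw [Mean.mean_xhat hU Q ε, inner_neg_right, real_inner_smul_right, ← integral_inner hbi a]
      rfl
    have e2 : ⟪a, ∫ z, z ∂tilt U ε⟫ = -(ε * ∫ z, Mean.uf g a z ∂tilt U ε) := by
      rw [← integral_inner hzi a]; exact o5
    rw [hv, inner_sub_right, e1, e2]
    have hs : ε * ε ≤ ε * Real.sqrt ε := by
      refine mul_le_mul_of_nonneg_left ?_ hε.le
      calc ε = Real.sqrt ε * Real.sqrt ε := (Real.mul_self_sqrt hε.le).symm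
        _ ≤ 1 * Real.sqrt ε :=
          mul_le_mul_of_nonneg_right (Real.sqrt_le_one.2 (by linarith)) (Real.sqrt_nonneg _)
        _ = _ := one_mul _
    have hsΛ : ε ^ 2 * Λ ≤ ε * Real.sqrt ε * Λ := by
      rw [sq]; exact mul_le_mul_of_nonneg_right hs (by linarith)
    have hAd : A ^ 2 * (ε * Real.sqrt ε) * Real.sqrt d ≤ A ^ 2 * (ε * Real.sqrt ε) * Λ :=
      mul_le_mul_of_nonneg_left hd (by positivity)
    set p := ∫ x, Mean.uf g a (Mean.bt Q g ε (blocks (q := q) x)) ∂noise d q
    set r := ∫ z, Mean.uf g a z ∂tilt U ε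
    have hpr : |p - r| ≤ (A ^ 2 + 16 + 6 * C₁) * (ε * Real.sqrt ε * Λ) + ε * ζ := by
      rw [abs_le] at o1 o2 o3 o4 ⊢
      have := mul_le_mul_of_nonneg_left hsΛ (by linarith : (0 : ℝ) ≤ 14 + 5 * C₁)
      have := mul_le_mul_of_nonneg_left hsΛ (by linarith : (0 : ℝ) ≤ C₁ + 2)
      constructor <;> linarith
    have h := mul_le_mul_of_nonneg_left ((abs_le.1 hpr).1) hε.le
    have hζ0 := hζ.1
    have hεζ : ε * (ε * ζ) ≤ (A ^ 2 + 16 + 6 * C₁) * ζ := by
      have : ε * ε ≤ A ^ 2 + 16 + 6 * C₁ := by nlinarith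
      calc ε * (ε * ζ) = ε * ε * ζ := by ring
        _ ≤ _ := mul_le_mul_of_nonneg_right this hζ0
    rw [hX]
    linarith
  rcases eq_or_ne ‖v‖ 0 with h0 | h0
  · rw [h0, hX]
    have := hζ.1
    positivity
  · have h := key (‖v‖⁻¹ • v) (le_of_eq (by
      rw [norm_smul, norm_inv, norm_norm, inv_mul_cancel₀ h0]))
    rwa [real_inner_smul_left, real_inner_self_eq_norm_sq, sq, ← mul_assoc, inv_mul_cancel₀ h0,
      one_mul] at h

end Vale.Agent.P347
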