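import Vale.Agent.P347.Interface

/-!
P347: powers of a symmetric positive contraction for a nonnegative bilinear form, and the
logarithmic accumulation of the errors along a perturbed iteration.
-/

namespace Vale.Agent.P347

namespace Neumann

open Finset

variable {H : Type*} [AddCommGroup H] [Module ℝ H]

/-- A symmetric positive contraction of a nonnegative symmetric form. -/
structure Good (B : H →ₗ[ℝ] H →ₗ[ℝ] ℝ) (M : H →ₗ[ℝ] H) : Prop where
  symm : ∀ x y, B x y = B y x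
  nonneg : ∀ x, 0 ≤ B x x
  adj : ∀ x y, B (M x) y = B x (M y)
  pos : ∀ x, 0 ≤ B x (M x)
  contr : ∀ x, B (M x) (M x) ≤ B x x

/-- The seminorm of a nonnegative form. -/
noncomputable def nrm (B : H →ₗ[ℝ] H →ₗ[ℝ] ℝ) (x : H) : ℝ := Real.sqrt (B x x)

variable {B : H →ₗ[ℝ] H →ₗ[ℝ] ℝ} {M : H →ₗ[ℝ] H}

lemma nrm_nonneg (x : H) : 0 ≤ nrm B x := Real.sqrt_nonneg _

lemma nrm_sq (hM : Good B M) (x : H) : nrm B x ^ 2 = B x x := Real.sq_sqrt (hM.nonneg x)

lemma inner_le (hM : Good B M) (x y : H) : B x y ≤ nrm B x * nrm B y := by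
  have key : ∀ t : ℝ, 0 ≤ B y y * (t * t) + (2 * B x y) * t + B x x := fun t => by
    have h := hM.nonneg (x + t • y)
    simp only [map_add, map_smul, LinearMap.add_apply, LinearMap.smul_apply, smul_eq_mul] at h
    rw [hM.symm y x] at h
    linarith
  have h := discrim_le_zero key
  have h2 : B x y ^ 2 ≤ (nrm B x * nrm B y) ^ 2 := by
    rw [mul_pow, nrm_sq hM, nrm_sq hM]
    rw [discrim] at h
    nlinarith
  exact le_of_abs_le (abs_le_of_sq_le_sq h2 (mul_nonneg (nrm_nonneg _) (nrm_nonneg _)))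

lemma nrm_add (hM : Good B M) (x y : H) : nrm B (x + y) ≤ nrm B x + nrm B y := by
  rw [nrm, Real.sqrt_le_left (add_nonneg (nrm_nonneg _) (nrm_nonneg _))]
  simp only [map_add, LinearMap.add_apply]
  nlinarith [inner_le hM x y, nrm_sq hM x, nrm_sq hM y, hM.symm x y]

lemma nrm_smul (c : ℝ) (x : H) : nrm B (c • x) = |c| * nrm B x := by
  rw [nrm, nrm, map_smul, map_smul, LinearMap.smul_apply, smul_eq_mul, smul_eq_mul, ← mul_assoc,
    Real.sqrt_mul (mul_self_nonneg c), Real.sqrt_mul_self_eq_abs]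

lemma nrm_zero : nrm B (0 : H) = 0 := by simp [nrm]

lemma nrm_neg (x : H) : nrm B (-x) = nrm B x := by simp [nrm]

lemma nrm_sub (hM : Good B M) (x y : H) : nrm B (x - y) ≤ nrm B x + nrm B y := by
  rw [sub_eq_add_neg]
  exact (nrm_add hM _ _).trans_eq (by rw [nrm_neg])

lemma nrm_sum (hM : Good B M) {ι : Type*} (s : Finset ι) (x : ι → H) :
    nrm B (∑ i ∈ s, x i) ≤ ∑ i ∈ s, nrm B (x i) :=
  Finset.le_sum_of_subadditive (nrm B) nrm_zero.le (nrm_add hM) s x

lemma nrm_map (hM : Good B M) (x : H) : nrm B (M x) ≤ nrm B x :=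
  Real.sqrt_le_sqrt (hM.contr x)

lemma nrm_pow (hM : Good B M) (j : ℕ) (x : H) : nrm B ((M ^ j) x) ≤ nrm B x := by
  induction j generalizing x with
  | zero => simp
  | succ j ih =>
    rw [pow_succ, Module.End.mul_apply]
    exact (ih _).trans (nrm_map hM x)

lemma pow_succ_left (j : ℕ) (x : H) : (M ^ (j + 1)) x = M ((M ^ j) x) := by
  rw [pow_succ', Module.End.mul_apply]

lemma pow_shift (j : ℕ) (x : H) : M ((M ^ j) x) = (M ^ j) (M x) := by
  rw [← pow_succ_left, pow_succ, Module.End.mul_apply]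

lemma adj_pow (hM : Good B M) (j : ℕ) (x y : H) : B ((M ^ j) x) y = B x ((M ^ j) y) := by
  induction j generalizing x y with
  | zero => simp
  | succ j ih => rw [pow_succ_left, hM.adj, ih, ← pow_shift, pow_succ_left]

/-- The moments are decreasing. -/
lemma moment_succ_le (hM : Good B M) (k : ℕ) (z : H) :
    B z ((M ^ (k + 1)) z) ≤ B z ((M ^ k) z) := by
  rcases Nat.even_or_odd k with ⟨i, rfl⟩ | ⟨i, rfl⟩
  · have e1 : B z ((M ^ (i + i)) z) = B ((M ^ i) z) ((M ^ i) z) := by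
      rw [adj_pow hM, ← Module.End.mul_apply, ← pow_add]
    have e2 : B z ((M ^ (i + i + 1)) z) = B ((M ^ i) z) (M ((M ^ i) z)) := by
      rw [adj_pow hM, pow_succ_left, ← pow_shift i ((M ^ i) z),
        ← Module.End.mul_apply (M ^ i), ← pow_add]
    rw [e1, e2]
    set y := (M ^ i) z
    calc B y (M y) ≤ nrm B y * nrm B (M y) := inner_le hM _ _
      _ ≤ nrm B y * nrm B y := mul_le_mul_of_nonneg_left (nrm_map hM y) (nrm_nonneg _)
      _ = B y y := by rw [← sq, nrm_sq hM]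
  · set y := (M ^ i) z with hy
    have e1 : B z ((M ^ (2 * i + 1)) z) = B y (M y) := by
      rw [hy, adj_pow hM, pow_shift i z, ← Module.End.mul_apply (M ^ i), ← pow_add,
        ← pow_shift, ← pow_succ_left, show i + i = 2 * i by ring]
    have e2 : B z ((M ^ (2 * i + 1 + 1)) z) = B (M y) (M y) := by
      rw [hy, ← pow_succ_left, adj_pow hM, ← Module.End.mul_apply, ← pow_add,
        show i + 1 + (i + 1) = 2 * i + 1 + 1 by ring]
    rw [e1, e2]
    have key : ∀ t : ℝ, 0 ≤ B y (M y) * (t * t) + (2 * B (M y) (M y)) * t + B (M y) (M (M y)) :=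
      fun t => by
      have h := hM.pos (M y + t • y)
      simp only [map_add, map_smul, LinearMap.add_apply, LinearMap.smul_apply, smul_eq_mul] at h
      rw [show B y (M (M y)) = B (M y) (M y) from (hM.adj _ _).symm] at h
      linarith
    have h := discrim_le_zero key
    rw [discrim] at h
    have h3 : B (M y) (M (M y)) ≤ B (M y) (M y) := by
      calc B (M y) (M (M y)) ≤ nrm B (M y) * nrm B (M (M y)) := inner_le hM _ _
        _ ≤ nrm B (M y) * nrm B (M y) :=
            mul_le_mul_of_nonneg_left (nrm_map hM _) (nrm_nonneg _)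
        _ = B (M y) (M y) := by rw [← sq, nrm_sq hM]
    nlinarith [hM.pos y, hM.nonneg (M y), mul_le_mul_of_nonneg_left h3 (hM.pos y)]

lemma moment_nonneg (hM : Good B M) (k : ℕ) (z : H) : 0 ≤ B z ((M ^ k) z) := by
  rcases Nat.even_or_odd k with ⟨i, rfl⟩ | ⟨i, rfl⟩
  · rw [pow_add, Module.End.mul_apply, ← adj_pow hM]
    exact hM.nonneg _
  · rw [show 2 * i + 1 = i + (i + 1) by ring, pow_add, Module.End.mul_apply, ← adj_pow hM,
      pow_succ_left]
    exact hM.pos _

/-- `(j + 1) ‖(1 - M) M ^ j x‖ ≤ ‖x‖`. -/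
lemma nrm_diff_pow (hM : Good B M) (j : ℕ) (x : H) :
    ((j : ℝ) + 1) * nrm B ((M ^ j) x - (M ^ (j + 1)) x) ≤ nrm B x := by
  obtain ⟨z, hz⟩ : ∃ z, z = x - M x := ⟨_, rfl⟩
  set s : ℕ → ℝ := fun k => B x ((M ^ k) x) with hs
  set d : ℕ → ℝ := fun k => s k - s (k + 1) with hd
  set e : ℕ → ℝ := fun k => B z ((M ^ k) z) with he
  have hde : ∀ k, e k = d k - d (k + 1) := fun k => by
    have h1 : B (M x) ((M ^ k) x) = s (k + 1) := by
      rw [hM.adj, ← pow_succ_left]
    have h2 : B (M x) ((M ^ k) (M x)) = s (k + 2) := by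
      rw [hM.adj, ← pow_shift, ← pow_succ_left, ← pow_succ_left]
    have h3 : B x ((M ^ k) (M x)) = s (k + 1) := by
      rw [← pow_shift, ← pow_succ_left]
    simp only [he, hz, map_sub, LinearMap.sub_apply, h1, h2, h3]
    simp only [hd, hs]
  have hen : ∀ k, 0 ≤ e k := fun k => moment_nonneg hM k z
  have hea : ∀ a b, a ≤ b → e b ≤ e a := fun a b hab =>
    antitone_nat_of_succ_le (f := e) (fun k => moment_succ_le hM k z) hab
  have hda : ∀ a b, a ≤ b → d b ≤ d a := fun a b hab =>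
    antitone_nat_of_succ_le (f := d) (fun k => by have := hde k; have := hen k; linarith) hab
  have hdn : ∀ k, 0 ≤ d k := fun k => sub_nonneg.2 (moment_succ_le hM k x)
  have h1 : ((j : ℝ) + 1) * d j ≤ s 0 := by
    calc ((j : ℝ) + 1) * d j = ∑ _l ∈ range (j + 1), d j := by simp
      _ ≤ ∑ l ∈ range (j + 1), d l := sum_le_sum fun l hl => hda l j (by simp at hl; omega)
      _ = s 0 - s (j + 1) := Finset.sum_range_sub' s (j + 1)
      _ ≤ s 0 := sub_le_self _ (moment_nonneg hM _ x)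
  have h2 : ((j : ℝ) + 1) * e (2 * j) ≤ d j := by
    calc ((j : ℝ) + 1) * e (2 * j) = ∑ _l ∈ range (j + 1), e (2 * j) := by simp
      _ ≤ ∑ l ∈ range (j + 1), e (j + l) :=
          sum_le_sum fun l hl => hea _ _ (by simp at hl; omega)
      _ = ∑ l ∈ range (j + 1), (d (j + l) - d (j + (l + 1))) :=
          sum_congr rfl fun l _ => by rw [hde, add_assoc]
      _ = d j - d (j + (j + 1)) := Finset.sum_range_sub' (fun l => d (j + l)) (j + 1)
      _ ≤ d j := sub_le_self _ (hdn _)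
  have h3 : e (2 * j) = nrm B ((M ^ j) x - (M ^ (j + 1)) x) ^ 2 := by
    rw [nrm_sq hM]
    simp only [he]
    rw [two_mul, pow_add, Module.End.mul_apply, ← adj_pow hM, hz, map_sub, ← pow_shift,
      pow_succ_left]
  rw [← abs_of_nonneg (nrm_nonneg (B := B) ((M ^ j) x - (M ^ (j + 1)) x)),
    ← abs_of_nonneg (by positivity : (0 : ℝ) ≤ (j : ℝ) + 1), ← abs_mul]
  refine abs_le_of_sq_le_sq ?_ (nrm_nonneg x)
  rw [mul_pow, ← h3, nrm_sq hM]
  have hs0 : s 0 = B x x := by simp [hs]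
  have := mul_le_mul_of_nonneg_left h2 (by positivity : (0 : ℝ) ≤ (j : ℝ) + 1)
  rw [← hs0]
  calc ((j : ℝ) + 1) ^ 2 * e (2 * j) = ((j : ℝ) + 1) * (((j : ℝ) + 1) * e (2 * j)) := by ring
    _ ≤ ((j : ℝ) + 1) * d j := this
    _ ≤ s 0 := h1

/-- The drift of a perturbed orbit. -/
lemma drift_le (hM : Good B M) (f : ℕ → H) (h0 : nrm B (f 0) ≤ 1) (m : ℕ) :
    ∀ j : ℕ, nrm B ((M ^ j) (f m) - (M ^ (j + 1)) (f m)) ≤ 1 / ((j : ℝ) + m + 1)
      + ∑ i ∈ range m, nrm B (f (i + 1) - M (f i)) / ((j : ℝ) + ((m : ℝ) - i)) := by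
  induction m with
  | zero =>
    intro j
    simp only [range_zero, sum_empty, add_zero, Nat.cast_zero]
    rw [le_div_iff₀ (by positivity), mul_comm]
    exact (nrm_diff_pow hM j _).trans h0
  | succ m ih =>
    intro j
    obtain ⟨D, hD⟩ : ∃ D, D = f (m + 1) - M (f m) := ⟨_, rfl⟩
    have hf : f (m + 1) = M (f m) + D := by rw [hD]; abel
    have e : (M ^ j) (f (m + 1)) - (M ^ (j + 1)) (f (m + 1))
        = ((M ^ (j + 1)) (f m) - (M ^ (j + 1 + 1)) (f m))
          + ((M ^ j) D - (M ^ (j + 1)) D) := by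
      rw [hf, map_add, map_add, ← pow_shift, ← pow_succ_left,
        ← pow_shift (j + 1) (f m), ← pow_succ_left]
      abel
    rw [e, sum_range_succ, ← hD]
    refine (nrm_add hM _ _).trans ?_
    have h1 := ih (j + 1)
    have h2 : nrm B ((M ^ j) D - (M ^ (j + 1)) D) ≤ nrm B D / ((j : ℝ) + 1) := by
      rw [le_div_iff₀ (by positivity), mul_comm]
      exact nrm_diff_pow hM j D
    push_cast at h1 ⊢
    have e1 : (j : ℝ) + 1 + m + 1 = j + (m + 1) + 1 := by ring
    have e2 : ∀ i : ℕ, (j : ℝ) + 1 + (m - i) = j + (m + 1 - i) := fun i => by ring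
    simp only [e1, e2] at h1
    rw [show (j : ℝ) + (m + 1 - m) = j + 1 by ring]
    linarith

lemma harm_le {m n : ℕ} (h : m ≤ n + 1) :
    ∑ i ∈ range m, (1 : ℝ) / ((i : ℝ) + 1) ≤ 1 + Real.log (n + 1) := by
  have e : ∑ i ∈ range m, (1 : ℝ) / ((i : ℝ) + 1) = (harmonic m : ℝ) := by
    simp [harmonic]
  rw [e]
  refine (harmonic_le_one_add_log m).trans ?_
  rcases Nat.eq_zero_or_pos m with rfl | hm
  · simpa using Real.log_nonneg (by linarith [(n.cast_nonneg : (0 : ℝ) ≤ n)] : (1 : ℝ) ≤ n + 1)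
  · have h1 : (0 : ℝ) < m := by exact_mod_cast hm
    have h2 : (m : ℝ) ≤ n + 1 := by exact_mod_cast h
    linarith [Real.log_le_log h1 h2]

lemma reflect_sum (m : ℕ) :
    ∑ i ∈ range m, (1 : ℝ) / ((m : ℝ) - i) = ∑ i ∈ range m, (1 : ℝ) / ((i : ℝ) + 1) := by
  rw [← sum_range_reflect (fun i => (1 : ℝ) / ((i : ℝ) + 1)) m]
  refine sum_congr rfl fun i hi => ?_
  simp only [mem_range] at hi
  rw [show ((m - 1 - i : ℕ) : ℝ) = (m : ℝ) - 1 - i by
    rw [Nat.cast_sub (by omega), Nat.cast_sub (by omega)]; simp]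
  ring

lemma sum_inv_sqrt (n : ℕ) :
    ∑ i ∈ range n, 1 / Real.sqrt ((i : ℝ) + 1) ≤ 2 * Real.sqrt n := by
  induction n with
  | zero => simp
  | succ n ih =>
    rw [sum_range_succ]
    push_cast
    have hb : 0 < Real.sqrt ((n : ℝ) + 1) := Real.sqrt_pos.2 (by positivity)
    have h1 : 1 / Real.sqrt ((n : ℝ) + 1) ≤ 2 * (Real.sqrt ((n : ℝ) + 1) - Real.sqrt n) := by
      rw [div_le_iff₀ hb]
      nlinarith [Real.sq_sqrt (by positivity : (0 : ℝ) ≤ (n : ℝ) + 1),
        Real.sq_sqrt (n.cast_nonneg : (0 : ℝ) ≤ n),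
        sq_nonneg (Real.sqrt ((n : ℝ) + 1) - Real.sqrt n)]
    linarith

end Neumann

open Finset Neumann in
theorem neumannBound : NeumannBound := by
  refine ⟨1 / 6, 4, by norm_num, by norm_num, fun H _ _ B M hs hn ha hp hc f n δ r τ hδ hr hτ
    hδc hrc hτc hf hD => ?_⟩
  have hM : Good B M := ⟨hs, hn, ha, hp, hc⟩
  set D : ℕ → ℝ := fun i => nrm B (f (i + 1) - M (f i)) with hDdef
  set a : ℕ → ℝ := fun i => nrm B (f i - M (f i)) with hadef
  set L : ℝ := 1 + Real.log (n + 1) with hL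
  have hL1 : 1 ≤ L := le_add_of_nonneg_right
    (Real.log_nonneg (by linarith [(n.cast_nonneg : (0 : ℝ) ≤ n)]))
  have hf1 : ∀ i < n, nrm B (f i) ≤ 1 := fun i hi => by
    rw [nrm, Real.sqrt_le_one]; exact hf i hi
  have hstep : ∀ i < n, a i ≤ 3 / ((i : ℝ) + 1) →
      D i ≤ δ * (3 / ((i : ℝ) + 1)) + r * (2 / Real.sqrt ((i : ℝ) + 1)) + τ := fun i hi hai => by
    refine (hD i hi).trans ?_
    have hb : 0 < Real.sqrt ((i : ℝ) + 1) := Real.sqrt_pos.2 (by positivity)
    have h2 : Real.sqrt (B (f i) (f i - M (f i))) ≤ 2 / Real.sqrt ((i : ℝ) + 1) := by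
      rw [Real.sqrt_le_left (by positivity), div_pow, Real.sq_sqrt (by positivity)]
      refine (inner_le hM _ _).trans ?_
      calc nrm B (f i) * a i ≤ 1 * (3 / ((i : ℝ) + 1)) :=
            mul_le_mul (hf1 i hi) hai (nrm_nonneg _) zero_le_one
        _ ≤ 2 ^ 2 / ((i : ℝ) + 1) := by rw [one_mul]; gcongr; norm_num
    gcongr
    exact hai
  have hmain : ∀ m < n, a m ≤ 3 / ((m : ℝ) + 1) := by
    intro m
    induction m using Nat.strong_induction_on with
    | _ m ih =>
      intro hm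
      have h := drift_le hM f (hf1 0 (by omega)) m 0
      simp only [pow_zero, Module.End.one_apply, zero_add, pow_one, Nat.cast_zero] at h
      refine h.trans ?_
      have hm1 : (0 : ℝ) < (m : ℝ) + 1 := by positivity
      have hsm : 0 < Real.sqrt ((m : ℝ) + 1) := Real.sqrt_pos.2 hm1
      have hmn : (m : ℝ) + 1 ≤ n := by exact_mod_cast hm
      have S1 : ∑ i ∈ range m, (1 / ((m : ℝ) - i)) * (1 / ((i : ℝ) + 1))
          ≤ 2 * L / ((m : ℝ) + 1) := by
        have e : ∀ i ∈ range m, (1 / ((m : ℝ) - i)) * (1 / ((i : ℝ) + 1))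
            = (1 / ((m : ℝ) + 1)) * (1 / ((m : ℝ) - i) + 1 / ((i : ℝ) + 1)) := fun i hi => by
          simp only [mem_range] at hi
          have : (0 : ℝ) < (m : ℝ) - i := sub_pos.2 (by exact_mod_cast hi)
          field_simp
          ring
        rw [sum_congr rfl e, ← mul_sum, sum_add_distrib, reflect_sum, ← two_mul,
          one_div, ← div_eq_inv_mul]
        gcongr
        exact harm_le (by omega)
      have S2 : ∑ i ∈ range m, (1 / ((m : ℝ) - i)) * (1 / Real.sqrt ((i : ℝ) + 1))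
          ≤ 2 * L / Real.sqrt ((m : ℝ) + 1) := by
        calc ∑ i ∈ range m, (1 / ((m : ℝ) - i)) * (1 / Real.sqrt ((i : ℝ) + 1))
            ≤ ∑ i ∈ range m, Real.sqrt ((m : ℝ) + 1) *
                ((1 / ((m : ℝ) - i)) * (1 / ((i : ℝ) + 1))) := by
              refine sum_le_sum fun i hi => ?_
              simp only [mem_range] at hi
              have hmi : (0 : ℝ) < (m : ℝ) - i := sub_pos.2 (by exact_mod_cast hi)
              rw [mul_left_comm (Real.sqrt ((m : ℝ) + 1))]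
              refine mul_le_mul_of_nonneg_left ?_ (by positivity)
              have hi0 : 0 < Real.sqrt ((i : ℝ) + 1) := Real.sqrt_pos.2 (by positivity)
              rw [mul_one_div, div_le_div_iff₀ hi0 (by positivity), one_mul]
              calc (i : ℝ) + 1 = Real.sqrt ((i : ℝ) + 1) * Real.sqrt ((i : ℝ) + 1) :=
                    (Real.mul_self_sqrt (by positivity)).symm
                _ ≤ Real.sqrt ((m : ℝ) + 1) * Real.sqrt ((i : ℝ) + 1) := by gcongr
          _ ≤ Real.sqrt ((m : ℝ) + 1) * (2 * L / ((m : ℝ) + 1)) := by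
              rw [← mul_sum]; gcongr
          _ = 2 * L / Real.sqrt ((m : ℝ) + 1) := by
              field_simp
              rw [Real.sq_sqrt hm1.le]
      have S3 : ∑ i ∈ range m, 1 / ((m : ℝ) - i) ≤ L := by
        rw [reflect_sum]; exact harm_le (by omega)
      have hsum : ∑ i ∈ range m, D i / ((m : ℝ) - i)
          ≤ 3 * δ * (2 * L / ((m : ℝ) + 1)) + 2 * r * (2 * L / Real.sqrt ((m : ℝ) + 1))
            + τ * L := by
        calc ∑ i ∈ range m, D i / ((m : ℝ) - i)
            ≤ ∑ i ∈ range m, (3 * δ * ((1 / ((m : ℝ) - i)) * (1 / ((i : ℝ) + 1)))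
                + 2 * r * ((1 / ((m : ℝ) - i)) * (1 / Real.sqrt ((i : ℝ) + 1)))
                + τ * (1 / ((m : ℝ) - i))) := by
              refine sum_le_sum fun i hi => ?_
              simp only [mem_range] at hi
              have hmi : (0 : ℝ) < (m : ℝ) - i := sub_pos.2 (by exact_mod_cast hi)
              rw [div_le_iff₀ hmi]
              refine (hstep i (by omega) (ih i hi (by omega))).trans_eq ?_
              field_simp
          _ ≤ _ := by
              rw [sum_add_distrib, sum_add_distrib, ← mul_sum, ← mul_sum, ← mul_sum]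
              gcongr
      have hsn : Real.sqrt ((m : ℝ) + 1) ≤ Real.sqrt n := Real.sqrt_le_sqrt hmn
      have t1 : 3 * δ * (2 * L / ((m : ℝ) + 1)) ≤ 1 / ((m : ℝ) + 1) := by
        rw [← mul_div_assoc]; gcongr; nlinarith
      have t2 : 2 * r * (2 * L / Real.sqrt ((m : ℝ) + 1)) ≤ (2 / 3) / ((m : ℝ) + 1) := by
        have e : (2 / 3) / ((m : ℝ) + 1)
            = (2 / 3) / Real.sqrt ((m : ℝ) + 1) / Real.sqrt ((m : ℝ) + 1) := by
          rw [div_div, div_div, Real.mul_self_sqrt hm1.le, ← div_div]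
        rw [e, ← mul_div_assoc]
        gcongr
        rw [le_div_iff₀ hsm]
        nlinarith [mul_le_mul_of_nonneg_left hsn (mul_nonneg hr (zero_le_one.trans hL1))]
      have t3 : τ * L ≤ (1 / 6) / ((m : ℝ) + 1) := by
        rw [le_div_iff₀ hm1]
        nlinarith [mul_le_mul_of_nonneg_left hmn (mul_nonneg hτ (zero_le_one.trans hL1))]
      have t4 : 1 / ((m : ℝ) + 1) + (1 / ((m : ℝ) + 1) + (2 / 3) / ((m : ℝ) + 1)
          + (1 / 6) / ((m : ℝ) + 1)) ≤ 3 / ((m : ℝ) + 1) := by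
        rw [← add_div, ← add_div, ← add_div]; gcongr; norm_num
      linarith
  show ∑ i ∈ range n, D i ≤ _
  calc ∑ i ∈ range n, D i
      ≤ ∑ i ∈ range n, (3 * δ * (1 / ((i : ℝ) + 1)) + 2 * r * (1 / Real.sqrt ((i : ℝ) + 1)) + τ) := by
        refine sum_le_sum fun i hi => ?_
        simp only [mem_range] at hi
        refine (hstep i hi (hmain i hi)).trans_eq ?_
        ring
    _ ≤ 3 * δ * L + 2 * r * (2 * Real.sqrt n) + τ * n := by
        rw [sum_add_distrib, sum_add_distrib, ← mul_sum, ← mul_sum, sum_const, card_range,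
          nsmul_eq_mul, mul_comm (n : ℝ)]
        gcongr
        · exact harm_le (by omega)
        · exact sum_inv_sqrt n
    _ ≤ _ := by
        have h1 : r * Real.sqrt n * 1 ≤ r * Real.sqrt n * L :=
          mul_le_mul_of_nonneg_left hL1 (by positivity)
        nlinarith [mul_nonneg hδ (zero_le_one.trans hL1), mul_nonneg hτ (n.cast_nonneg : (0:ℝ) ≤ n)]

end Vale.Agent.P347
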