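import Vale.Agent.P347.Phases
import Vale.Agent.P347.Contraction
import Vale.Agent.P347.PerPoint
import Vale.Agent.P347.Neumann

/-!
P347: the first phase.  From `0`, `stepsOf ι d` steps of the approximate chain come within total
variation `1/40` of the law of `y`: the per-step errors add up logarithmically (`NeumannBound`)
and the start is forgotten by `Contraction`.
-/

namespace Vale.Agent.P347

open MeasureTheory Filter Topology

namespace Phase1

variable {d q : ℕ} {V : E d → ℝ} {η : ℝ}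

/-- Bounded measurable functions. -/
def bdd (d : ℕ) : Submodule ℝ (E d → ℝ) where
  carrier := {f | Measurable f ∧ ∃ C : ℝ, ∀ x, |f x| ≤ C}
  add_mem' := by
    rintro f g ⟨hf, C, hC⟩ ⟨hg, D, hD⟩
    exact ⟨hf.add hg, C + D, fun x => (abs_add_le _ _).trans (add_le_add (hC x) (hD x))⟩
  zero_mem' := ⟨measurable_const, 0, fun x => by simp⟩
  smul_mem' := by
    rintro c f ⟨hf, C, hC⟩
    exact ⟨hf.const_smul c, |c| * C, fun x => by
      simpa [abs_mul] using mul_le_mul_of_nonneg_left (hC x) (abs_nonneg c)⟩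

lemma integrable_of_bdd {μ : Measure (E d)} [IsFiniteMeasure μ] {f : E d → ℝ} (hf : f ∈ bdd d) :
    Integrable f μ := by
  obtain ⟨C, hC⟩ := hf.2
  exact Integrable.of_bound hf.1.aestronglyMeasurable C
    (Eventually.of_forall fun x => by simpa using hC x)

lemma mul_mem {f g : E d → ℝ} (hf : f ∈ bdd d) (hg : g ∈ bdd d) :
    (fun x => f x * g x) ∈ bdd d := by
  obtain ⟨C, hC⟩ := hf.2
  obtain ⟨D, hD⟩ := hg.2
  exact ⟨hf.1.mul hg.1, C * D, fun x => by
    rw [abs_mul]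
    exact mul_le_mul (hC x) (hD x) (abs_nonneg _) ((abs_nonneg _).trans (hC x))⟩

lemma sm_mem (τ : ℝ) {f : E d → ℝ} (hf : f ∈ bdd d) : sm τ f ∈ bdd d := by
  obtain ⟨C, hC⟩ := hf.2
  refine ⟨Per.measurable_sm τ hf.1, C, fun x => ?_⟩
  have : IsProbabilityMeasure (gam d) := by unfold gam; infer_instance
  refine (norm_integral_le_of_norm_le_const (μ := gam d) (f := fun w => f (x + Real.sqrt τ • w))
    (Eventually.of_forall fun w => hC _)).trans ?_
  simp

lemma sm_add (τ : ℝ) {f g : E d → ℝ} (hf : f ∈ bdd d) (hg : g ∈ bdd d) (x : E d) :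
    sm τ (fun z => f z + g z) x = sm τ f x + sm τ g x := by
  have : IsProbabilityMeasure (gam d) := by unfold gam; infer_instance
  have hi : ∀ {u : E d → ℝ}, u ∈ bdd d →
      Integrable (fun w => u (x + Real.sqrt τ • w)) (gam d) := fun hu =>
    integrable_of_bdd ⟨hu.1.comp (by fun_prop), hu.2.choose, fun w => hu.2.choose_spec _⟩
  exact integral_add (hi hf) (hi hg)

lemma isProb_prox (hP : GibbsProb) (hV : Admissible d V) (hη : 0 < η) (y : E d) :
    IsProbabilityMeasure (prox V η y) :=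
  (hP d _ _ _ (hV.logConc_prox hη y)).1

lemma mop_add (hP : GibbsProb) (hV : Admissible d V) (hη : 0 < η) {f g : E d → ℝ}
    (hf : f ∈ bdd d) (hg : g ∈ bdd d) (y : E d) :
    mop V η (fun z => f z + g z) y = mop V η f y + mop V η g y := by
  have := isProb_prox hP hV hη y
  simp only [mop]
  rw [← integral_add (integrable_of_bdd (sm_mem η hf)) (integrable_of_bdd (sm_mem η hg))]
  exact integral_congr_ae (Eventually.of_forall fun x => sm_add η hf hg x)

lemma mop_smul (V : E d → ℝ) (η c : ℝ) (f : E d → ℝ) (y : E d) :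
    mop V η (fun z => c * f z) y = c * mop V η f y := by
  simp only [mop, sm, integral_const_mul]

/-- A bounded measurable function is a multiple of one bounded by `1`. -/
lemma exists_scale {f : E d → ℝ} (hf : f ∈ bdd d) :
    ∃ (c : ℝ) (u : E d → ℝ), Measurable u ∧ (∀ x, |u x| ≤ 1) ∧ f = fun x => c * u x := by
  obtain ⟨C, hC⟩ := hf.2
  refine ⟨|C| + 1, fun x => f x / (|C| + 1), hf.1.div_const _, fun x => ?_, funext fun x => ?_⟩
  · rw [abs_div, abs_of_pos (show 0 < |C| + 1 by positivity), div_le_one (by positivity)]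
    linarith [hC x, le_abs_self C]
  · rw [mul_div_cancel₀ _ (by positivity)]

lemma mop_mem (hM : MopFacts) (hV : Admissible d V) (hη : 0 < η) (h1 : η ≤ 1) {f : E d → ℝ}
    (hf : f ∈ bdd d) : mop V η f ∈ bdd d := by
  obtain ⟨c, u, hu, hub, rfl⟩ := exists_scale hf
  obtain ⟨hm, hb, -⟩ := (hM d V hV η hη h1).2.1 u hu hub
  rw [show mop V η (fun x => c * u x) = fun y => c * mop V η u y from funext (mop_smul V η c u)]
  exact ⟨hm.const_mul c, |c|, fun y => by
    rw [abs_mul]; exact mul_le_of_le_one_right (abs_nonneg c) (hb y)⟩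

lemma mop_facts (hM : MopFacts) (hV : Admissible d V) (hη : 0 < η) (h1 : η ≤ 1) {f g : E d → ℝ}
    (hf : f ∈ bdd d) (hg : g ∈ bdd d) :
    ∫ y, mop V η f y ^ 2 ∂pLaw V η ≤ ∫ y, f y ^ 2 ∂pLaw V η ∧
      0 ≤ ∫ y, f y * mop V η f y ∂pLaw V η ∧
      ∫ y, mop V η f y ∂pLaw V η = ∫ y, f y ∂pLaw V η ∧
      ∫ y, f y * mop V η g y ∂pLaw V η = ∫ y, mop V η f y * g y ∂pLaw V η := by
  obtain ⟨c, u, hu, hub, rfl⟩ := exists_scale hf
  obtain ⟨e, v, hv, hvb, rfl⟩ := exists_scale hg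
  obtain ⟨-, -, hc, hp, -, hi⟩ := (hM d V hV η hη h1).2.1 u hu hub
  have hs := (hM d V hV η hη h1).2.2 u v hu hv hub hvb
  simp only [mop_smul, mul_pow, mul_mul_mul_comm c _ c, mul_mul_mul_comm c _ e, integral_const_mul]
  exact ⟨mul_le_mul_of_nonneg_left hc (sq_nonneg c), mul_nonneg (mul_self_nonneg c) hp, by rw [hi],
    by rw [hs]⟩

/-- The form `∫ f g` under the law of `y`. -/
noncomputable def form (hP : GibbsProb) (hV : Admissible d V) (η : ℝ) :
    bdd d →ₗ[ℝ] bdd d →ₗ[ℝ] ℝ :=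
  LinearMap.mk₂ ℝ (fun f g => ∫ y, f.1 y * g.1 y ∂pLaw V η)
    (fun f f' g => by
      have := isProb_pLaw hP hV η
      simp only [Submodule.coe_add, Pi.add_apply, add_mul]
      exact integral_add (integrable_of_bdd (mul_mem f.2 g.2)) (integrable_of_bdd (mul_mem f'.2 g.2)))
    (fun c f g => by
      simp only [Submodule.coe_smul, Pi.smul_apply, smul_eq_mul, mul_assoc, integral_const_mul])
    (fun f g g' => by
      have := isProb_pLaw hP hV η
      simp only [Submodule.coe_add, Pi.add_apply, mul_add]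
      exact integral_add (integrable_of_bdd (mul_mem f.2 g.2)) (integrable_of_bdd (mul_mem f.2 g'.2)))
    (fun c f g => by
      simp only [Submodule.coe_smul, Pi.smul_apply, smul_eq_mul, mul_left_comm _ c,
        integral_const_mul])

/-- The exact chain on bounded measurable functions. -/
noncomputable def opM (hP : GibbsProb) (hM : MopFacts) (hV : Admissible d V) (hη : 0 < η)
    (h1 : η ≤ 1) : bdd d →ₗ[ℝ] bdd d where
  toFun f := ⟨mop V η f.1, mop_mem hM hV hη h1 f.2⟩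
  map_add' f g := Subtype.ext (funext fun y => mop_add hP hV hη f.2 g.2 y)
  map_smul' c f := Subtype.ext (funext fun y => mop_smul V η c f.1 y)

lemma sqrt_add_le (a b : ℝ) : Real.sqrt (a + b) ≤ Real.sqrt a + Real.sqrt b := by
  rcases le_or_gt a 0 with ha | ha
  · rw [Real.sqrt_eq_zero'.2 ha, zero_add]
    exact Real.sqrt_le_sqrt (by linarith)
  rcases le_or_gt b 0 with hb | hb
  · rw [Real.sqrt_eq_zero'.2 hb, add_zero]
    exact Real.sqrt_le_sqrt (by linarith)
  rw [Real.sqrt_le_iff]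
  refine ⟨by positivity, ?_⟩
  nlinarith [Real.sq_sqrt ha.le, Real.sq_sqrt hb.le,
    mul_nonneg (Real.sqrt_nonneg a) (Real.sqrt_nonneg b)]

/-- The accumulated error of `n` steps in the mean. -/
lemma mean_error (hP : GibbsProb) (hM : MopFacts) (hV : Admissible d V) (hη : 0 < η) (h1 : η ≤ 1)
    {c C : ℝ}
    (hN : ∀ (H : Type) [AddCommGroup H] [Module ℝ H] (B : H →ₗ[ℝ] H →ₗ[ℝ] ℝ) (M : H →ₗ[ℝ] H),
      (∀ x y, B x y = B y x) → (∀ x, 0 ≤ B x x) → (∀ x y, B (M x) y = B x (M y)) →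
      (∀ x, 0 ≤ B x (M x)) → (∀ x, B (M x) (M x) ≤ B x x) →
      ∀ f : ℕ → H, ∀ n : ℕ, ∀ δ r τ : ℝ, 0 ≤ δ → 0 ≤ r → 0 ≤ τ →
        δ * (1 + Real.log (n + 1)) ≤ c → r * Real.sqrt n * (1 + Real.log (n + 1)) ≤ c →
        τ * n * (1 + Real.log (n + 1)) ≤ c →
        (∀ i < n, B (f i) (f i) ≤ 1) →
        (∀ i < n, Real.sqrt (B (f (i + 1) - M (f i)) (f (i + 1) - M (f i)))
            ≤ δ * Real.sqrt (B (f i - M (f i)) (f i - M (f i)))
              + r * Real.sqrt (B (f i) (f i - M (f i))) + τ) →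
        ∑ i ∈ Finset.range n, Real.sqrt (B (f (i + 1) - M (f i)) (f (i + 1) - M (f i)))
          ≤ C * (δ * (1 + Real.log (n + 1)) + r * Real.sqrt n * (1 + Real.log (n + 1)) + τ * n))
    {f : ℕ → E d → ℝ} (hfm : ∀ i, Measurable (f i)) (hfb : ∀ i x, |f i x| ≤ 1) {n : ℕ}
    {δ r τ : ℝ} (hδ : 0 ≤ δ) (hr : 0 ≤ r) (hτ : 0 ≤ τ)
    (c1 : δ * (1 + Real.log (n + 1)) ≤ c)
    (c2 : r * Real.sqrt n * (1 + Real.log (n + 1)) ≤ c)
    (c3 : τ * n * (1 + Real.log (n + 1)) ≤ c)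
    (hstep : ∀ i, ∫ y, (f (i + 1) y - mop V η (f i) y) ^ 2 ∂pLaw V η
      ≤ δ ^ 2 * (∫ y, (f i y - mop V η (f i) y) ^ 2 ∂pLaw V η)
        + r ^ 2 * (∫ y, f i y * (f i y - mop V η (f i) y) ∂pLaw V η) + τ ^ 2) :
    |(∫ y, f n y ∂pLaw V η) - ∫ y, f 0 y ∂pLaw V η|
      ≤ C * (δ * (1 + Real.log (n + 1)) + r * Real.sqrt n * (1 + Real.log (n + 1)) + τ * n) := by
  have := isProb_pLaw hP hV η
  set F : ℕ → bdd d := fun i => ⟨f i, hfm i, 1, hfb i⟩
  set B := form hP hV η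
  set M := opM hP hM hV hη h1
  have hB : ∀ x y : bdd d, B x y = ∫ u, x.1 u * y.1 u ∂pLaw V η := fun x y => rfl
  have hMx : ∀ x : bdd d, (M x).1 = mop V η x.1 := fun x => rfl
  have he : ∀ i, B (F (i + 1) - M (F i)) (F (i + 1) - M (F i)) =
      ∫ y, (f (i + 1) y - mop V η (f i) y) ^ 2 ∂pLaw V η := fun i => by
    rw [hB]; simp [sq, F, hMx]
  have hsum := hN (bdd d) B M
    (fun x y => by rw [hB, hB]; simp only [mul_comm])
    (fun x => by rw [hB]; exact integral_nonneg fun u => mul_self_nonneg _)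
    (fun x y => by rw [hB, hB, hMx, hMx]; exact ((mop_facts hM hV hη h1 x.2 y.2).2.2.2).symm)
    (fun x => by rw [hB, hMx]; exact (mop_facts hM hV hη h1 x.2 x.2).2.1)
    (fun x => by
      rw [hB, hB, hMx]
      simpa only [← sq] using (mop_facts hM hV hη h1 x.2 x.2).1)
    F n δ r τ hδ hr hτ c1 c2 c3
    (fun i _ => by
      rw [hB]
      refine (integral_mono (integrable_of_bdd (mul_mem (F i).2 (F i).2)) (integrable_const 1)
        fun u => ?_).trans (le_of_eq (by simp))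
      have := abs_le.1 (hfb i u)
      show f i u * f i u ≤ 1
      nlinarith)
    (fun i _ => by
      rw [he]
      refine (Real.sqrt_le_sqrt (hstep i)).trans ((sqrt_add_le _ _).trans (add_le_add
        ((sqrt_add_le _ _).trans (le_of_eq ?_)) (le_of_eq (Real.sqrt_sq hτ))))
      rw [Real.sqrt_mul (sq_nonneg δ), Real.sqrt_mul (sq_nonneg r), Real.sqrt_sq hδ,
        Real.sqrt_sq hr, hB, hB]
      simp [sq, F, hMx])
  refine le_trans ?_ hsum
  have htel : (∫ y, f n y ∂pLaw V η) - ∫ y, f 0 y ∂pLaw V η =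
      ∑ i ∈ Finset.range n, ((∫ y, f (i + 1) y ∂pLaw V η) - ∫ y, f i y ∂pLaw V η) :=
    (Finset.sum_range_sub (fun i => ∫ y, f i y ∂pLaw V η) n).symm
  rw [htel]
  refine (Finset.abs_sum_le_sum_abs _ _).trans (Finset.sum_le_sum fun i _ => ?_)
  rw [he]
  have hm := mop_mem hM hV hη h1 (F i).2
  obtain ⟨D, hD⟩ := hm.2
  rw [← (mop_facts hM hV hη h1 (F i).2 (F i).2).2.2.1]
  show |(∫ y, f (i + 1) y ∂pLaw V η) - ∫ y, mop V η (f i) y ∂pLaw V η| ≤ _
  rw [← integral_sub (integrable_of_bdd (F (i + 1)).2) (integrable_of_bdd hm)]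
  exact Real.abs_le_sqrt (Per.sq_integral_le (pLaw V η)
    ((hfm (i + 1)).sub hm.1).aestronglyMeasurable (B := 1 + D) fun x =>
      (abs_sub _ _).trans (add_le_add (hfb (i + 1) x) (hD x)))

/-- The sizes which occur in dimension `d`. -/
lemma sizes {ι : ℝ} {d : ℕ} (hι : 0 < ι) (hι' : ι ≤ 1 / 20) (hd : 3 ≤ d) :
    0 < etaOf ι d ∧ (d : ℝ)⁻¹ ≤ etaOf ι d ∧ etaOf ι d ≤ 1 ∧ 1 ≤ Real.log d ∧
      1 ≤ stepsOf ι d ∧ 12 * Real.log d ≤ etaOf ι d * stepsOf ι d ∧
      etaOf ι d * stepsOf ι d ≤ 13 * Real.log d ∧ (stepsOf ι d : ℝ) ≤ 13 * (d : ℝ) ^ 2 ∧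
      1 + Real.log ((stepsOf ι d : ℝ) + 1) ≤ 6 * Real.log d := by
  have hd' : (3 : ℝ) ≤ d := by exact_mod_cast hd
  have hd0 : (0 : ℝ) < d := by linarith
  set η := etaOf ι d with hη
  have h0 : 0 < η := Real.rpow_pos_of_pos hd0 _
  have h1 : η ≤ 1 := Real.rpow_le_one_of_one_le_of_nonpos (by linarith) (by linarith)
  have hlow : (d : ℝ)⁻¹ ≤ η := by
    rw [← Real.rpow_neg_one]
    exact Real.rpow_le_rpow_of_exponent_le (by linarith) (by linarith)
  have hlog : 1 ≤ Real.log d := by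
    rw [Real.le_log_iff_exp_le hd0]
    linarith [Real.exp_one_lt_d9]
  have hup : Real.log d ≤ d := (Real.log_le_sub_one_of_pos hd0).trans (by linarith)
  set n := stepsOf ι d with hn
  have hx : 0 ≤ 12 * Real.log d / η := by positivity
  have ha : 12 * Real.log d / η ≤ n := Nat.le_ceil _
  have hb : (n : ℝ) < 12 * Real.log d / η + 1 := Nat.ceil_lt_add_one hx
  have hna : 12 * Real.log d ≤ η * n := by
    rw [div_le_iff₀ h0] at ha
    linarith
  have hnb : η * n ≤ 13 * Real.log d := by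
    have h := mul_le_mul_of_nonneg_left hb.le h0.le
    rw [mul_add, mul_div_cancel₀ _ h0.ne'] at h
    linarith
  have hn1 : 1 ≤ n := Nat.ceil_pos.2 (by positivity)
  have hn2 : (n : ℝ) ≤ 13 * (d : ℝ) ^ 2 := by
    have h2 : (d : ℝ)⁻¹ * n ≤ 13 * d := by
      linarith [mul_le_mul_of_nonneg_right hlow (Nat.cast_nonneg n)]
    rw [inv_mul_le_iff₀ hd0] at h2
    linarith
  refine ⟨h0, hlow, h1, hlog, hn1, hna, hnb, hn2, ?_⟩
  have h3 : Real.log ((n : ℝ) + 1) ≤ Real.log (14 * (d : ℝ) ^ 2) :=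
    Real.log_le_log (by positivity) (by nlinarith)
  rw [Real.log_mul (by norm_num) (by positivity), Real.log_pow] at h3
  have h14 : Real.log 14 ≤ 3 := by
    rw [Real.log_le_iff_le_exp (by norm_num), show (3 : ℝ) = (3 : ℕ) * 1 by norm_num, Real.exp_nat_mul]
    exact le_trans (by norm_num) (pow_le_pow_left₀ (by norm_num) Real.exp_one_gt_d9.le 3)
  push_cast at h3
  linarith

/-- The start is forgotten. -/
lemma kappa_le {η D : ℝ} {m : ℕ} (h0 : 0 < η) (hlow : D⁻¹ ≤ η) (h1 : η ≤ 1) (hD0 : 0 < D)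
    (hD1 : 1 ≤ D) {C₂ : ℝ} (hC₂ : 0 ≤ C₂) (hna : 12 * Real.log D ≤ η * ((m : ℝ) + 1)) :
    C₂ / Real.sqrt η * (1 - η / 4) ^ m ≤ 2 * C₂ * D⁻¹ ^ 2 := by
  have hq0 : 0 ≤ 1 - η / 4 := by linarith
  have h4 : (1 - η / 4) ^ m ≤ Real.exp (-(η / 4) * m) := by
    rw [mul_comm, Real.exp_nat_mul]
    exact pow_le_pow_left₀ hq0 (by linarith [Real.add_one_le_exp (-(η / 4))]) m
  have h5 : Real.exp (-(η / 4) * m) ≤ 2 * D⁻¹ ^ 3 := by
    calc Real.exp (-(η / 4) * m) ≤ Real.exp (-(3 * Real.log D) + 1 / 4) :=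
          Real.exp_le_exp.2 (by linarith)
      _ = Real.exp (1 / 4) * D⁻¹ ^ 3 := by
          rw [Real.exp_add, Real.exp_neg, show 3 * Real.log D = (3 : ℕ) * Real.log D by norm_num,
            Real.exp_nat_mul, Real.exp_log hD0, inv_pow, mul_comm]
      _ ≤ 2 * D⁻¹ ^ 3 := by
          refine mul_le_mul_of_nonneg_right ?_ (by positivity)
          have := Real.exp_bound_div_one_sub_of_interval (x := 1 / 4) (by norm_num) (by norm_num)
          norm_num at this ⊢
          linarith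
  have h6 : (Real.sqrt η)⁻¹ ≤ D := by
    rw [inv_le_comm₀ (Real.sqrt_pos.2 h0) hD0]
    exact Real.le_sqrt_of_sq_le
      ((pow_le_of_le_one (by positivity) (inv_le_one_of_one_le₀ hD1) two_ne_zero).trans hlow)
  calc C₂ / Real.sqrt η * (1 - η / 4) ^ m ≤ C₂ * D * (2 * D⁻¹ ^ 3) :=
        mul_le_mul (by rw [div_eq_mul_inv]; exact mul_le_mul_of_nonneg_left h6 hC₂)
          (h4.trans h5) (by positivity) (by positivity)
    _ = _ := by field_simp

/-- The first absolute moment from the second. -/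
lemma norm_moment {μ : Measure (E d)} [IsProbabilityMeasure μ] {C D : ℝ} (hD : 1 ≤ D)
    (hi : Integrable (fun y : E d => ‖y‖ ^ (2 * 1)) μ) (hle : ∫ y, ‖y‖ ^ (2 * 1) ∂μ ≤ C * D ^ 1) :
    Integrable (fun y : E d => ‖y‖) μ ∧ ∫ y, ‖y‖ ∂μ ≤ (1 + C) * D := by
  have hp : ∀ y : E d, ‖y‖ ≤ 1 + ‖y‖ ^ (2 * 1) := fun y => by
    rw [mul_one]
    nlinarith [sq_nonneg (‖y‖ - 1)]
  have hn : Integrable (fun y : E d => ‖y‖) μ :=
    ((integrable_const 1).add hi).mono' continuous_norm.aestronglyMeasurable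
      (Eventually.of_forall fun y => by rw [norm_norm]; exact hp y)
  refine ⟨hn, (integral_mono hn ((integrable_const 1).add hi) hp).trans ?_⟩
  rw [integral_add' (integrable_const _) hi, integral_const, probReal_univ, one_smul]
  rw [pow_one] at hle
  linarith

end Phase1

open Phase1 in
/-- The first phase. -/
theorem chainPhase (hE : ChainError) (hM : MopFacts) (hN : NeumannBound) (hC : Contraction)
    (hP : GibbsProb) (hT : TiltFacts) : ChainPhase := by
  intro ι hι hι'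
  obtain ⟨K, hE⟩ := hE ι hι hι'
  refine ⟨K, fun A hA => ?_⟩
  obtain ⟨D₀, C₁, hC₁, hE⟩ := hE A hA
  obtain ⟨c, CN, hc, hCN, hN⟩ := hN
  obtain ⟨η₀, C₂, hη₀, hC₂, hC⟩ := hC A hA
  obtain ⟨C₃, hC₃, hmom⟩ := pLaw_moment hP hT 1
  set s := Real.sqrt C₁
  have hs : 0 ≤ s := Real.sqrt_nonneg _
  -- the quantities which have to be small
  have hbig : ∀ᶠ d : ℕ in atTop,
      etaOf ι d ≤ η₀ ∧ 78 * s * (Real.log d ^ 2 * (d : ℝ) ^ (-(2 * ι)) + (d : ℝ)⁻¹) ≤ c ∧
      CN * (78 * s * (2 * (Real.log d ^ 2 * (d : ℝ) ^ (-(2 * ι))) + (d : ℝ)⁻¹))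
        + 2 * C₂ * (1 + C₃) * (d : ℝ)⁻¹ ≤ 1 / 40 := by
    have t0 : Tendsto (fun d : ℕ => etaOf ι d) atTop (𝓝 0) :=
      (tendsto_rpow_neg_atTop (by linarith : 0 < 1 / 4 + ι)).comp tendsto_natCast_atTop_atTop
    have t1 : Tendsto (fun d : ℕ => Real.log d ^ 2 * (d : ℝ) ^ (-(2 * ι))) atTop (𝓝 0) := by
      refine (((isLittleO_log_rpow_rpow_atTop 2 (by linarith : 0 < 2 * ι)).tendsto_div_nhds_zero).comp
        tendsto_natCast_atTop_atTop).congr fun d => ?_
      simp only [Function.comp_apply]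
      rw [Real.rpow_two, Real.rpow_neg (Nat.cast_nonneg d), div_eq_mul_inv]
    have t2 : Tendsto (fun d : ℕ => (d : ℝ)⁻¹) atTop (𝓝 0) :=
      tendsto_inv_atTop_zero.comp tendsto_natCast_atTop_atTop
    have t3 : Tendsto (fun d : ℕ => 78 * s * (Real.log d ^ 2 * (d : ℝ) ^ (-(2 * ι)) + (d : ℝ)⁻¹))
        atTop (𝓝 0) := by simpa using (t1.add t2).const_mul (78 * s)
    have t4 : Tendsto (fun d : ℕ =>
        CN * (78 * s * (2 * (Real.log d ^ 2 * (d : ℝ) ^ (-(2 * ι))) + (d : ℝ)⁻¹))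
          + 2 * C₂ * (1 + C₃) * (d : ℝ)⁻¹) atTop (𝓝 0) := by
      simpa using ((((t1.const_mul 2).add t2).const_mul (78 * s)).const_mul CN).add
        (t2.const_mul (2 * C₂ * (1 + C₃)))
    exact (t0.eventually_le_const hη₀).and ((t3.eventually_le_const hc).and
      (t4.eventually_le_const (by norm_num)))
  obtain ⟨D₁, hD₁⟩ := eventually_atTop.1 hbig
  refine ⟨max D₀ (max D₁ 3), fun d q hd Q hQ V hV φ hφm hφb => ?_⟩
  obtain ⟨hdη, hdc, hdfin⟩ := hD₁ d (by omega)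
  obtain ⟨h0, hlow, h1, hlog, hn1, hna, hnb, hn2, hL⟩ := sizes hι hι' (show 3 ≤ d by omega)
  set η := etaOf ι d with hη
  set n := stepsOf ι d with hn
  set L := 1 + Real.log ((n : ℝ) + 1)
  have hL1 : 0 ≤ L := by
    have : 0 ≤ Real.log ((n : ℝ) + 1) := Real.log_nonneg (by linarith [n.cast_nonneg (α := ℝ)])
    positivity
  have hd0 : (0 : ℝ) < d := Nat.cast_pos.2 (by omega)
  have hd1 : (1 : ℝ) ≤ d := Nat.one_le_cast.2 (by omega)
  have := isProb_pLaw hP hV η
  -- the iterates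
  set f : ℕ → E d → ℝ := fun i => (mhat V Q η)^[i] φ
  have hsucc : ∀ i, f (i + 1) = mhat V Q η (f i) := fun i => Function.iterate_succ_apply' _ _ _
  have hlip : ∀ k y y', |f (k + 1) y - f (k + 1) y'| ≤
      C₂ / Real.sqrt η * (1 - η / 4) ^ k * ‖y - y'‖ := fun k y y' =>
    hC d q Q hQ.1 V hV η h0 hdη φ hφm hφb k y y'
  have hfb : ∀ i x, |f i x| ≤ 1 := by
    intro i
    induction i with
    | zero => exact hφb
    | succ i ih => rw [hsucc]; exact Contraction.mhat_abs_le ih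
  have hfm : ∀ i, Measurable (f i) := by
    rintro (_ | k)
    · exact hφm
    · refine (LipschitzWith.of_dist_le_mul
        (K := Real.toNNReal (C₂ / Real.sqrt η * (1 - η / 4) ^ k)) fun y y' => ?_).continuous.measurable
      rw [Real.dist_eq, dist_eq_norm, Real.coe_toNNReal']
      exact (hlip k y y').trans (mul_le_mul_of_nonneg_right (le_max_left _ _) (norm_nonneg _))
  -- the accumulated error
  set p := (d : ℝ) ^ (-(2 * ι))
  have hp : 0 < p := Real.rpow_pos_of_pos hd0 _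
  set u := Real.log d ^ 2 * p
  have hu : 0 ≤ u := by positivity
  have hp4 : (d : ℝ) ^ (-(4 * ι)) = p ^ 2 := by
    rw [← Real.rpow_natCast p 2, ← Real.rpow_mul hd0.le]
    congr 1
    push_cast
    ring
  have hp10 : (d : ℝ) ^ (-(10 : ℝ)) = ((d : ℝ)⁻¹ ^ 5) ^ 2 := by
    rw [← pow_mul, inv_pow, Real.rpow_neg hd0.le]
    norm_num
  have b1 : s * p * L ≤ 78 * s * u := by
    calc s * p * L ≤ s * p * (6 * Real.log d) := mul_le_mul_of_nonneg_left hL (by positivity)
      _ ≤ s * p * (78 * Real.log d ^ 2) := mul_le_mul_of_nonneg_left (by nlinarith) (by positivity)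
      _ = 78 * s * u := by ring
  have b2 : s * Real.sqrt η * p * Real.sqrt n * L ≤ 78 * s * u := by
    have hsq : Real.sqrt η * Real.sqrt n ≤ 13 * Real.log d := by
      rw [← Real.sqrt_mul h0.le]
      exact (Real.sqrt_le_sqrt hnb).trans ((Real.sqrt_le_left (by positivity)).2 (by nlinarith))
    calc s * Real.sqrt η * p * Real.sqrt n * L = s * p * ((Real.sqrt η * Real.sqrt n) * L) := by ring
      _ ≤ s * p * ((13 * Real.log d) * (6 * Real.log d)) :=
          mul_le_mul_of_nonneg_left (mul_le_mul hsq hL hL1 (by positivity)) (by positivity)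
      _ = 78 * s * u := by ring
  have b3 : s * (d : ℝ)⁻¹ ^ 5 * n * L ≤ 78 * s * (d : ℝ)⁻¹ := by
    have hup : Real.log d ≤ d := (Real.log_le_sub_one_of_pos hd0).trans (by linarith)
    calc s * (d : ℝ)⁻¹ ^ 5 * n * L ≤ s * (d : ℝ)⁻¹ ^ 5 * (13 * (d : ℝ) ^ 2) * (6 * d) :=
          mul_le_mul (mul_le_mul_of_nonneg_left hn2 (by positivity))
            (hL.trans (by linarith)) hL1 (by positivity)
      _ = 78 * s * ((d : ℝ)⁻¹ * (d : ℝ)⁻¹) := by field_simp; ring
      _ ≤ 78 * s * (d : ℝ)⁻¹ := mul_le_mul_of_nonneg_left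
          (mul_le_of_le_one_left (by positivity) (inv_le_one_of_one_le₀ hd1)) (by positivity)
  have hinv : 0 ≤ 78 * s * (d : ℝ)⁻¹ := by positivity
  have hu' : 0 ≤ 78 * s * u := by positivity
  have hmean := mean_error hP hM hV h0 h1 hN hfm hfb (n := n) (δ := s * p)
    (r := s * Real.sqrt η * p) (τ := s * (d : ℝ)⁻¹ ^ 5) (by positivity) (by positivity)
    (by positivity) (by linarith) (by linarith) (by linarith) (fun i => by
      rw [hsucc]
      refine (hE d q (by omega) Q hQ V hV (f i) (hfm i) (hfb i)).trans (le_of_eq ?_)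
      rw [hp4, hp10, mul_pow, mul_pow, mul_pow, mul_pow, Real.sq_sqrt hC₁, Real.sq_sqrt h0.le]
      rfl)
  have hτn : s * (d : ℝ)⁻¹ ^ 5 * n ≤ 78 * s * (d : ℝ)⁻¹ := by
    refine le_trans ?_ b3
    exact le_mul_of_one_le_right (by positivity) (le_add_of_nonneg_right
      (Real.log_nonneg (by linarith [n.cast_nonneg (α := ℝ)])))
  have hmean' : |(∫ y, f n y ∂pLaw V η) - ∫ y, φ y ∂pLaw V η| ≤
      CN * (78 * s * (2 * u + (d : ℝ)⁻¹)) :=
    hmean.trans (mul_le_mul_of_nonneg_left (by linarith) hCN)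
  -- the start
  obtain ⟨m, hm⟩ : ∃ m, n = m + 1 := ⟨n - 1, by omega⟩
  obtain ⟨hmi, hmle⟩ := hmom d V hV η h0.le h1
  obtain ⟨hnorm, hn0⟩ := norm_moment hd1 hmi hmle
  set κ := C₂ / Real.sqrt η * (1 - η / 4) ^ m
  have hκ : κ ≤ 2 * C₂ * (d : ℝ)⁻¹ ^ 2 := kappa_le h0 hlow h1 hd0 hd1 hC₂ (by
    have hcast : (n : ℝ) = m + 1 := by rw [hm]; push_cast; ring
    rw [hcast] at hna
    exact hna)
  have hstart : |f n 0 - ∫ y, f n y ∂pLaw V η| ≤ 2 * C₂ * (1 + C₃) * (d : ℝ)⁻¹ := by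
    have hi : Integrable (f n) (pLaw V η) :=
      integrable_of_bdd ⟨hfm n, 1, hfb n⟩
    rw [show f n 0 - ∫ y, f n y ∂pLaw V η = ∫ y, (f n 0 - f n y) ∂pLaw V η by
      rw [integral_sub (integrable_const _) hi, integral_const, probReal_univ, one_smul]]
    refine (abs_integral_le_integral_abs).trans ((integral_mono ((integrable_const _).sub hi).abs
      (hnorm.const_mul κ) fun y => ?_).trans ?_)
    · have := hlip m 0 y
      rw [zero_sub, norm_neg, ← hm] at this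
      exact this
    · rw [integral_const_mul]
      refine (mul_le_mul hκ hn0 (integral_nonneg fun y => norm_nonneg y) (by positivity)).trans
        (le_of_eq ?_)
      field_simp
  calc |(mhat V Q η)^[n] φ 0 - ∫ y, φ y ∂pLaw V η|
      ≤ |f n 0 - ∫ y, f n y ∂pLaw V η| + |(∫ y, f n y ∂pLaw V η) - ∫ y, φ y ∂pLaw V η| :=
        abs_sub_le _ _ _
    _ ≤ 1 / 40 := by linarith

end Vale.Agent.P347
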