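import Vale.Agent.P347.LogConcave
import Vale.Agent.P347.Coord
import Vale.Agent.P347.Contraction
import Vale.Agent.P347.Chain
import Vale.Agent.P347.Smooth

/-!
P347: the exact proximal step is a `1/(1+η)` contraction for the transport distance.
-/

namespace Vale.Agent.P347

open MeasureTheory ProbabilityTheory Filter
open scoped RealInnerProductSpace

namespace ProxLip

variable {d : ℕ} {V : E d → ℝ} {η : ℝ}

lemma hasDerivAt_num (hV : Admissible d V) (hη : 0 < η) {h : E d → ℝ} (hc : Continuous h)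
    {B : ℝ} (hb : ∀ x, |h x| ≤ B) (y v : E d) (t₀ : ℝ) :
    HasDerivAt (fun t => ∫ x, Real.exp (-(V x + ‖x - (y + t • v)‖ ^ 2 / (2 * η))) * h x)
      (∫ x, ⟪η⁻¹ • (x - (y + t₀ • v)), v⟫ *
        (Real.exp (-(V x + ‖x - (y + t₀ • v)‖ ^ 2 / (2 * η))) * h x)) t₀ := by
  have hB : 0 ≤ B := (abs_nonneg _).trans (hb 0)
  set y₀ := y + t₀ • v with hy₀
  have hW := hV.logConc_prox (η := 2 * η) (by linarith) y₀
  set W' : E d → ℝ := fun x => V x + ‖x - y₀‖ ^ 2 / (2 * (2 * η))
  set C : ℝ := B * η⁻¹ * ‖v‖ * (1 + ‖y₀‖ + ‖v‖) * Real.exp (‖v‖ ^ 2 / (2 * η))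
  have hF : ∀ t : ℝ,
      Continuous fun x => Real.exp (-(V x + ‖x - (y + t • v)‖ ^ 2 / (2 * η))) * h x :=
    fun t => by have := hV.1.continuous; fun_prop
  refine (hasDerivAt_integral_of_dominated_loc_of_deriv_le (Metric.ball_mem_nhds t₀ one_pos)
    (F := fun t x => Real.exp (-(V x + ‖x - (y + t • v)‖ ^ 2 / (2 * η))) * h x)
    (F' := fun t x => ⟪η⁻¹ • (x - (y + t • v)), v⟫ *
      (Real.exp (-(V x + ‖x - (y + t • v)‖ ^ 2 / (2 * η))) * h x))
    (bound := fun x => C * ((1 + ‖x‖) ^ 1 * Real.exp (-W' x)))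
    (Eventually.of_forall fun t => (hF t).aestronglyMeasurable) ?_ ?_ ?_ ?_ ?_).2
  · have hW0 := hV.logConc_prox hη y₀
    refine ((LogConcave.integrable_exp_neg hW0).const_mul B).mono' (hF t₀).aestronglyMeasurable
      (ae_of_all _ fun x => ?_)
    rw [Real.norm_eq_abs, abs_mul, abs_of_pos (Real.exp_pos _), mul_comm B]
    exact mul_le_mul_of_nonneg_left (hb x) (Real.exp_pos _).le
  · exact ((Continuous.inner (by fun_prop) continuous_const).mul (hF t₀)).aestronglyMeasurable
  · refine ae_of_all _ fun x t ht => ?_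
    have ht' : |t - t₀| ≤ 1 := by
      rw [Metric.mem_ball, Real.dist_eq] at ht; exact ht.le
    set u := (t - t₀) • v
    have hu : ‖u‖ ≤ ‖v‖ := by
      rw [norm_smul, Real.norm_eq_abs]; exact mul_le_of_le_one_left (norm_nonneg _) ht'
    have hxy : x - (y + t • v) = (x - y₀) - u := by rw [hy₀]; module
    have h1 : ‖η⁻¹ • (x - (y + t • v))‖ ≤ η⁻¹ * ((1 + ‖y₀‖ + ‖v‖) * (1 + ‖x‖)) := by
      rw [norm_smul, Real.norm_eq_abs, abs_of_pos (inv_pos.2 hη), hxy]
      refine mul_le_mul_of_nonneg_left ?_ (inv_pos.2 hη).le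
      have a := norm_sub_le (x - y₀) u
      have b := norm_sub_le x y₀
      nlinarith [norm_nonneg x, norm_nonneg y₀, norm_nonneg v]
    have h2 : Real.exp (-(V x + ‖x - (y + t • v)‖ ^ 2 / (2 * η)))
        ≤ Real.exp (‖v‖ ^ 2 / (2 * η)) * Real.exp (-W' x) := by
      rw [← Real.exp_add, Real.exp_le_exp, hxy]
      have a := norm_add_le (x - y₀ - u) u
      rw [sub_add_cancel] at a
      have b : ‖x - y₀‖ ^ 2 ≤ 2 * ‖x - y₀ - u‖ ^ 2 + 2 * ‖v‖ ^ 2 := by
        nlinarith [sq_nonneg (‖x - y₀ - u‖ - ‖u‖), norm_nonneg (x - y₀), norm_nonneg u]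
      have c : ‖x - y₀‖ ^ 2 / (2 * (2 * η))
          ≤ ‖x - y₀ - u‖ ^ 2 / (2 * η) + ‖v‖ ^ 2 / (2 * η) := by
        rw [← add_div, div_le_div_iff₀ (by positivity) (by positivity)]
        nlinarith
      simp only [W']
      linarith
    rw [norm_mul, norm_mul, Real.norm_eq_abs, Real.norm_eq_abs, Real.norm_eq_abs,
      abs_of_pos (Real.exp_pos _), pow_one]
    calc |⟪η⁻¹ • (x - (y + t • v)), v⟫| * (Real.exp _ * |h x|)
        ≤ (η⁻¹ * ((1 + ‖y₀‖ + ‖v‖) * (1 + ‖x‖)) * ‖v‖) *
            ((Real.exp (‖v‖ ^ 2 / (2 * η)) * Real.exp (-W' x)) * B) := by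
          refine mul_le_mul ((abs_real_inner_le_norm _ _).trans ?_)
            (mul_le_mul h2 (hb x) (abs_nonneg _) (by positivity)) (by positivity) (by positivity)
          exact mul_le_mul_of_nonneg_right h1 (norm_nonneg _)
      _ = _ := by simp only [C]; ring
  · exact ((LogConcave.integrable_weight hW 1).const_mul C)
  · refine ae_of_all _ fun x t _ => ?_
    have h1 : HasDerivAt (fun s : ℝ => x - (y + s • v)) (-v) t := by
      simpa using (((hasDerivAt_id t).smul_const v).const_add y).const_sub x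
    have h2 := (((h1.norm_sq).div_const (2 * η)).const_add (V x)).neg.exp.mul_const (h x)
    refine h2.congr_deriv ?_
    rw [inner_neg_right, real_inner_smul_left, Pi.neg_apply]
    field_simp

theorem deriv_prox (hV : Admissible d V) (hη : 0 < η) {h : E d → ℝ} (hc : Continuous h)
    {B : ℝ} (hb : ∀ x, |h x| ≤ B) (y v : E d) (t : ℝ) :
    HasDerivAt (fun s => ∫ x, h x ∂prox V η (y + s • v))
      (cov' (prox V η (y + t • v)) (fun x => ⟪η⁻¹ • (x - (y + t • v)), v⟫) h) t := by
  have hW := fun s : ℝ => hV.logConc_prox hη (y + s • v)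
  have hN := hasDerivAt_num hV hη hc hb y v t
  have hZ := hasDerivAt_num hV hη (continuous_const (y := (1 : ℝ))) (B := 1)
    (fun _ => le_of_eq abs_one) y v t
  simp only [mul_one] at hZ
  have hd := hN.div hZ (LogConcave.integral_pos (hW t)).ne'
  have e : (fun s => ∫ x, h x ∂prox V η (y + s • v)) = fun s =>
      (∫ x, Real.exp (-(V x + ‖x - (y + s • v)‖ ^ 2 / (2 * η))) * h x) /
        ∫ x, Real.exp (-(V x + ‖x - (y + s • v)‖ ^ 2 / (2 * η))) :=
    funext fun s => LogConcave.integral_gibbs (hW s) h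
  rw [e]
  refine hd.congr_deriv ?_
  simp only [cov', prox, LogConcave.integral_gibbs (hW t)]
  have hz := (LogConcave.integral_pos (hW t)).ne'
  set Wt : E d → ℝ := fun x => Real.exp (-(V x + ‖x - (y + t • v)‖ ^ 2 / (2 * η)))
  set l : E d → ℝ := fun x => ⟪η⁻¹ • (x - (y + t • v)), v⟫
  rw [show (fun x => Wt x * (l x * h x)) = fun x => l x * (Wt x * h x) from
      funext fun x => by ring,
    show (fun x => Wt x * l x) = fun x => l x * Wt x from funext fun x => mul_comm _ _]
  change _ = (∫ x, l x * (Wt x * h x)) / (∫ x, Wt x)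
    - (∫ x, l x * Wt x) / (∫ x, Wt x) * ((∫ x, Wt x * h x) / ∫ x, Wt x)
  change ((∫ x, l x * (Wt x * h x)) * (∫ x, Wt x)
    - (∫ x, Wt x * h x) * ∫ x, l x * Wt x) / (∫ x, Wt x) ^ 2 = _
  revert hz
  generalize (∫ x, l x * (Wt x * h x)) = A
  generalize (∫ x, Wt x * h x) = B'
  generalize (∫ x, l x * Wt x) = C'
  generalize (∫ x, Wt x) = Z
  intro hz
  field_simp

/-- The derivative in the centre is bounded by the Poincaré inequality. -/
theorem prox_lip (hV : Admissible d V) (hη : 0 < η) {h : E d → ℝ} {gh : E d → E d}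
    (hgc : Continuous gh) (hg : ∀ x, HasGradientAt h (gh x) x) {B L : ℝ} (hb : ∀ x, |h x| ≤ B)
    (hL : 0 ≤ L) (hgL : ∀ x, ‖gh x‖ ≤ L) (a b : E d) :
    |(∫ x, h x ∂prox V η a) - ∫ x, h x ∂prox V η b| ≤ L / (1 + η) * ‖a - b‖ := by
  have hc : Continuous h := continuous_iff_continuousAt.2 fun x => (hg x).continuousAt
  set v := a - b
  have hbound : ∀ t : ℝ,
      |cov' (prox V η (b + t • v)) (fun x => ⟪η⁻¹ • (x - (b + t • v)), v⟫) h|
        ≤ L / (1 + η) * ‖v‖ := by
    intro t
    set y := b + t • v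
    have hW := hV.logConc_prox hη y
    have := LogConcave.isProb hW
    have : IsProbabilityMeasure (prox V η y) := this
    set l : E d → ℝ := fun x => ⟪η⁻¹ • (x - y), v⟫
    have hlg : ∀ x, HasGradientAt l (η⁻¹ • v) x := fun x => by
      rw [hasGradientAt_iff_hasFDerivAt]
      have : HasFDerivAt l ((InnerProductSpace.toDual ℝ (E d) (η⁻¹ • v)) : E d →L[ℝ] ℝ) x := by
        have e : l = fun z => InnerProductSpace.toDual ℝ (E d) (η⁻¹ • v) (z - y) := funext fun z => by
          rw [InnerProductSpace.toDual_apply_apply]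
          simp only [l, real_inner_smul_left, real_inner_comm v (z - y)]
        rw [e]
        exact (InnerProductSpace.toDual ℝ (E d) (η⁻¹ • v) : E d →L[ℝ] ℝ).hasFDerivAt.comp x
          ((hasFDerivAt_id x).sub_const y)
      exact this
    have hlc : Continuous l := by simp only [l]; fun_prop
    have hlp : LogConcave.Poly l := LogConcave.poly_fun hlg (K := ‖η⁻¹ • v‖) (N := 0) fun x => by simp
    have hhp : LogConcave.Poly h := LogConcave.Poly.of_bound hb
    have vl := poincare d _ _ _ hW l (fun _ => η⁻¹ • v) continuous_const hlg ‖η⁻¹ • v‖ 0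
      (fun x => by simp)
    have vh := poincare d _ _ _ hW h gh hgc hg L 0 (fun x => by simpa using hgL x)
    change cov' (prox V η y) l l ≤ _ at vl
    change cov' (prox V η y) h h ≤ _ at vh
    have hm : (0 : ℝ) < 1 + η⁻¹ := by positivity
    have vl' : cov' (prox V η y) l l ≤ ‖η⁻¹ • v‖ ^ 2 / (1 + η⁻¹) := by
      refine vl.trans (le_of_eq ?_)
      simp
    have vh' : cov' (prox V η y) h h ≤ L ^ 2 / (1 + η⁻¹) := by
      refine vh.trans (div_le_div_of_nonneg_right ?_ hm.le)
      refine (integral_mono_of_nonneg (ae_of_all _ fun x => sq_nonneg _) (integrable_const (L ^ 2))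
        (ae_of_all _ fun x => pow_le_pow_left₀ (norm_nonneg _) (hgL x) 2)).trans ?_
      simp
    set μ := prox V η y
    set p := fun x => l x - ∫ z, l z ∂μ
    set r := fun x => h x - ∫ z, h z ∂μ
    have il : Integrable l μ := hlp.integrable hW hlc
    have ih : Integrable h μ := hhp.integrable hW hc
    have ilh : Integrable (fun x => l x * h x) μ := (hlp.mul hhp).integrable hW (hlc.mul hc)
    have ill : Integrable (fun x => l x * l x) μ := (hlp.mul hlp).integrable hW (hlc.mul hlc)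
    have ihh : Integrable (fun x => h x * h x) μ := (hhp.mul hhp).integrable hW (hc.mul hc)
    have cov_eq : ∀ {f g : E d → ℝ}, Integrable f μ → Integrable g μ →
        Integrable (fun x => f x * g x) μ →
        Integrable (fun x => (f x - ∫ z, f z ∂μ) * (g x - ∫ z, g z ∂μ)) μ ∧
          ∫ x, (f x - ∫ z, f z ∂μ) * (g x - ∫ z, g z ∂μ) ∂μ = cov' μ f g := by
      intro f g hf hg hfg
      have e : (fun x => (f x - ∫ z, f z ∂μ) * (g x - ∫ z, g z ∂μ)) = fun x =>
          f x * g x - ((∫ z, g z ∂μ) * f x + (∫ z, f z ∂μ) * g x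
            - (∫ z, f z ∂μ) * ∫ z, g z ∂μ) := funext fun x => by ring
      have i1 : Integrable (fun x => (∫ z, g z ∂μ) * f x + (∫ z, f z ∂μ) * g x) μ :=
        (hf.const_mul _).add (hg.const_mul _)
      have i2 : Integrable (fun x => (∫ z, g z ∂μ) * f x + (∫ z, f z ∂μ) * g x
          - (∫ z, f z ∂μ) * ∫ z, g z ∂μ) μ := i1.sub (integrable_const _)
      refine ⟨by rw [e]; exact hfg.sub i2, ?_⟩
      rw [e, integral_sub hfg i2, integral_sub i1 (integrable_const _),
        integral_add (hf.const_mul _) (hg.const_mul _)]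
      simp only [integral_const_mul, integral_const, probReal_univ, one_smul, cov']
      ring
    obtain ⟨i1, e1⟩ := cov_eq il ih ilh
    obtain ⟨i2, e2⟩ := cov_eq il il ill
    obtain ⟨i3, e3⟩ := cov_eq ih ih ihh
    simp only [← sq] at i2 e2 i3 e3
    have hcs := LogConcave.sq_integral_mul_le i2 i3 i1
    rw [e1, e2, e3] at hcs
    have hsq : cov' μ l h ^ 2 ≤ (L / (1 + η) * ‖v‖) ^ 2 := by
      refine hcs.trans ((mul_le_mul vl' vh' ?_ (by positivity)).trans (le_of_eq ?_))
      · rw [← e3]; exact integral_nonneg fun x => sq_nonneg _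
      · rw [norm_smul, Real.norm_eq_abs, abs_of_pos (inv_pos.2 hη)]
        field_simp
        ring
    exact abs_le_of_sq_le_sq hsq (by positivity)
  have hmv := norm_image_sub_le_of_norm_deriv_le_segment'
    (f := fun s => ∫ x, h x ∂prox V η (b + s • v)) (C := L / (1 + η) * ‖v‖)
    (fun t _ => (deriv_prox hV hη hc hb b v t).hasDerivWithinAt)
    (fun t _ => hbound t) 1 ⟨zero_le_one, le_rfl⟩
  simpa [v] using hmv

/-- A Lipschitz bounded function stays Lipschitz, with a smaller constant. -/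
theorem mop_lip (hV : Admissible d V) (hη : 0 < η) {f : E d → ℝ} (hf : Measurable f)
    (hb : ∀ x, |f x| ≤ 1) {L : ℝ} (hL : 0 ≤ L)
    (hlip : ∀ a b, |sm η f a - sm η f b| ≤ L * ‖a - b‖) (a b : E d) :
    |mop V η f a - mop V η f b| ≤ L / (1 + η) * ‖a - b‖ := by
  obtain ⟨⟨he, B, hT, -⟩, -⟩ := smoothFacts d f 1 η hf hb hη
  have hgL : ∀ x, ‖smGrad η f x‖ ≤ L := fun x => by
    have h := (hT.grad x).hasFDerivAt.le_of_lipschitz
      (C := L.toNNReal) (LipschitzWith.of_dist_le_mul fun a b => by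
        rw [Real.coe_toNNReal _ hL, Real.dist_eq, dist_eq_norm]; exact hlip a b)
    rw [LinearIsometryEquiv.norm_map, Real.coe_toNNReal _ hL] at h
    exact h
  exact prox_lip hV hη (continuous_iff_continuousAt.2 fun x => (hT.hess x).continuousAt)
    hT.grad (fun x => Chain.abs_sm_le hb x) hL hgL a b

end ProxLip

end Vale.Agent.P347
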