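import Vale.Agent.P347.QuadOU

/-!
P347, seat C: the quadrature of the exact drift with `d^ι` nodes.
-/

namespace Vale.Agent.P347

open MeasureTheory ProbabilityTheory Finset
open scoped RealInnerProductSpace NNReal

namespace QuadProof

open Neumann QuadOU

attribute [local instance] QuadOU.prob_gam

/-- A left Riemann sum of an exponentially decaying function. -/
lemma riemann {X : Type*} [NormedAddCommGroup X] [NormedSpace ℝ X] [CompleteSpace X] {F : ℝ → X}
    {h ω G : ℝ} (hh : 0 < h) (hF : ContinuousOn F (Set.Ici 0))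
    (hG : ∀ r, 0 ≤ r → ‖F r‖ ≤ G * Real.exp (-r))
    (hω : ∀ s r, 0 ≤ s → s ≤ r → r ≤ s + h → ‖F r - F s‖ ≤ ω) (N : ℕ) :
    ‖(∫ r in Set.Ioi (0 : ℝ), F r) - ∑ i ∈ range N, h • F (i * h)‖
      ≤ N * h * ω + G * Real.exp (-(N * h)) := by
  obtain ⟨a, ha⟩ : ∃ a : ℕ → ℝ, a = fun i : ℕ => i * h := ⟨_, rfl⟩
  have ha0 : ∀ i : ℕ, 0 ≤ a i := fun i => by rw [ha]; positivity
  have hai : ∀ i : ℕ, a i ≤ a (i + 1) := fun i => by
    rw [ha]; exact mul_le_mul_of_nonneg_right (by simp) hh.le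
  have hint : IntegrableOn F (Set.Ioi 0) :=
    Integrable.mono' ((integrableOn_exp_neg_Ioi 0).const_mul G)
      ((hF.mono Set.Ioi_subset_Ici_self).aestronglyMeasurable measurableSet_Ioi)
      ((ae_restrict_mem measurableSet_Ioi).mono fun r hr => hG r (le_of_lt hr))
  have hii : ∀ i : ℕ, IntervalIntegrable F volume (a i) (a (i + 1)) := fun i =>
    ContinuousOn.intervalIntegrable_of_Icc (hai i) (hF.mono fun r hr => (ha0 i).trans hr.1)
  have hN : IntervalIntegrable F volume 0 (N * h) :=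
    ContinuousOn.intervalIntegrable_of_Icc (by positivity) (hF.mono fun r hr => hr.1)
  have htail : IntegrableOn F (Set.Ioi ((N : ℝ) * h)) :=
    hint.mono_set (Set.Ioi_subset_Ioi (by positivity))
  have e : ∫ r in Set.Ioi (0 : ℝ), F r
      = (∑ i ∈ range N, ∫ r in (a i)..(a (i + 1)), F r) + ∫ r in Set.Ioi ((N : ℝ) * h), F r := by
    rw [intervalIntegral.sum_integral_adjacent_intervals fun k _ => hii k, ha]
    simp only [Nat.cast_zero, zero_mul]
    exact (intervalIntegral.integral_interval_add_Ioi hint htail).symm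
  rw [e, add_sub_right_comm, ← sum_sub_distrib]
  refine (norm_add_le _ _).trans (add_le_add ?_ ?_)
  · refine (norm_sum_le _ _).trans ((sum_le_sum (g := fun _ => h * ω) fun i _ => ?_).trans
      (le_of_eq (by simp; ring)))
    have e2 : (∫ r in (a i)..(a (i + 1)), F r) - h • F (i * h)
        = ∫ r in (a i)..(a (i + 1)), (F r - F (a i)) := by
      rw [intervalIntegral.integral_sub (hii i) intervalIntegrable_const,
        intervalIntegral.integral_const, show a (i + 1) - a i = h by rw [ha]; push_cast; ring, ha]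
    rw [e2]
    refine (intervalIntegral.norm_integral_le_of_norm_le_const (C := ω) fun r hr => ?_).trans
      (le_of_eq ?_)
    · rw [Set.uIoc_of_le (hai i)] at hr
      refine hω _ _ (ha0 i) hr.1.le (hr.2.trans_eq ?_)
      rw [ha]; push_cast; ring
    · rw [show a (i + 1) - a i = h by rw [ha]; push_cast; ring, abs_of_pos hh, mul_comm]
  · refine (norm_integral_le_of_norm_le ((integrableOn_exp_neg_Ioi _).const_mul G)
      ((ae_restrict_mem measurableSet_Ioi).mono fun r hr =>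
        hG r (le_of_lt (lt_of_le_of_lt (by positivity) hr)))).trans (le_of_eq ?_)
    rw [integral_const_mul, integral_exp_neg_Ioi]

lemma exp_sub_le {s r : ℝ} (hs : 0 ≤ s) (hsr : s ≤ r) :
    |Real.exp (-r) - Real.exp (-s)| ≤ r - s := by
  have h1 : Real.exp (-r) = Real.exp (-s) * Real.exp (-(r - s)) := by
    rw [← Real.exp_add]; ring_nf
  have h2 : Real.exp (-s) ≤ 1 := Real.exp_le_one_iff.2 (by linarith)
  have h3 : Real.exp (-(r - s)) ≤ 1 := Real.exp_le_one_iff.2 (by linarith)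
  have h4 := Real.add_one_le_exp (-(r - s))
  rw [h1, abs_of_nonpos (by nlinarith [Real.exp_nonneg (-s)])]
  nlinarith [Real.exp_nonneg (-s)]

lemma sc_sub_le {s r : ℝ} (hs : 0 ≤ s) (hsr : s ≤ r) :
    |sc r - sc s| ≤ 2 * Real.sqrt (r - s) := by
  have hle : sc s ≤ sc r := Real.sqrt_le_sqrt (by gcongr)
  have h1 := exp_sub_le (s := 2 * s) (r := 2 * r) (by positivity) (by linarith)
  rw [abs_of_nonneg (sub_nonneg.2 hle)]
  refine (abs_le_of_sq_le_sq' ?_ (by positivity)).2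
  rw [mul_pow, Real.sq_sqrt (sub_nonneg.2 hsr)]
  nlinarith [sc_sq hs, sc_sq (hs.trans hsr), sc_nonneg s, abs_le.1 h1]

variable {d : ℕ} {g : E d → E d}

/-- The growth of a field with derivative at most one, averaged over the noise. -/
noncomputable def G (g : E d → E d) (z : E d) : ℝ := ‖g 0‖ + ‖z‖ + Real.sqrt d

lemma G_nonneg (z : E d) : 0 ≤ G g z := by unfold G; positivity

lemma g_le (hg : LipschitzWith 1 g) (z : E d) : ‖g z‖ ≤ ‖g 0‖ + ‖z‖ := by
  have h := hg.norm_sub_le z 0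
  simp only [NNReal.coe_one, one_mul, sub_zero] at h
  linarith [norm_le_norm_add_norm_sub (g 0) (g z), norm_sub_rev (g 0) (g z)]

lemma g_ou_le (hg : LipschitzWith 1 g) {r : ℝ} (hr : 0 ≤ r) (z w : E d) :
    ‖g (ouPt r z w)‖ ≤ ‖g 0‖ + ‖z‖ + ‖w‖ := by
  linarith [g_le hg (ouPt r z w), norm_ouPt r hr z w]

lemma int_norm : Integrable (fun w : E d => ‖w‖) (gam d) :=
  int_one 1 continuous_norm fun x => by simpa using norm_le_sq ‖x‖

lemma int_g (hg : LipschitzWith 1 g) {r : ℝ} (hr : 0 ≤ r) (z : E d) :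
    Integrable (fun w => g (ouPt r z w)) (gam d) :=
  int_comp (⟨g, 1, hg⟩ : Lip d) hr z

lemma ou_le (hg : LipschitzWith 1 g) {r : ℝ} (hr : 0 ≤ r) (z : E d) : ‖ou r g z‖ ≤ G g z := by
  refine (norm_integral_le_of_norm_le (g := fun w => ‖g 0‖ + ‖z‖ + ‖w‖)
    ((integrable_const _).add int_norm) (Filter.Eventually.of_forall (g_ou_le hg hr z))).trans ?_
  rw [integral_add (integrable_const _) int_norm, integral_const, probReal_univ, one_smul, G]
  linarith [integral_norm_le d]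

lemma ou_modulus (hg : LipschitzWith 1 g) (z : E d) {h s r : ℝ} (hh : h ≤ 1) (hs : 0 ≤ s)
    (hsr : s ≤ r) (hr : r ≤ s + h) :
    ‖Real.exp (-r) • ou r g z - Real.exp (-s) • ou s g z‖ ≤ 3 * Real.sqrt h * G g z := by
  have hh0 : 0 ≤ h := by linarith
  have hd : r - s ≤ Real.sqrt h := (show r - s ≤ h by linarith).trans
    (Real.le_sqrt_of_sq_le (by nlinarith))
  have hsq : Real.sqrt (r - s) ≤ Real.sqrt h := Real.sqrt_le_sqrt (by linarith)
  have hr0 : 0 ≤ r := hs.trans hsr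
  have h1 : ‖ou r g z - ou s g z‖ ≤ Real.sqrt h * ‖z‖ + 2 * Real.sqrt h * Real.sqrt d := by
    rw [ou, ou, ← integral_sub (int_g hg hr0 z) (int_g hg hs z)]
    refine (norm_integral_le_of_norm_le
      (g := fun w => Real.sqrt h * ‖z‖ + 2 * Real.sqrt h * ‖w‖)
      ((integrable_const _).add (int_norm.const_mul _))
      (Filter.Eventually.of_forall fun w => ?_)).trans ?_
    · refine (hg.norm_sub_le _ _).trans ?_
      rw [NNReal.coe_one, one_mul, ouPt_eq, ouPt_eq, add_sub_add_comm, ← sub_smul, ← sub_smul]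
      refine (norm_add_le _ _).trans (add_le_add ?_ ?_)
      · rw [norm_smul, Real.norm_eq_abs]
        exact mul_le_mul_of_nonneg_right ((exp_sub_le hs hsr).trans hd) (norm_nonneg _)
      · rw [norm_smul, Real.norm_eq_abs]
        exact mul_le_mul_of_nonneg_right ((sc_sub_le hs hsr).trans (by linarith)) (norm_nonneg _)
    · rw [integral_add (integrable_const _) (int_norm.const_mul _), integral_const, probReal_univ,
        one_smul, integral_const_mul]
      gcongr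
      exact integral_norm_le d
  rw [show Real.exp (-r) • ou r g z - Real.exp (-s) • ou s g z
    = Real.exp (-r) • (ou r g z - ou s g z) + (Real.exp (-r) - Real.exp (-s)) • ou s g z by module]
  refine (norm_add_le _ _).trans ?_
  rw [norm_smul, norm_smul, Real.norm_eq_abs, Real.norm_eq_abs, Real.abs_exp]
  calc Real.exp (-r) * ‖ou r g z - ou s g z‖ + |Real.exp (-r) - Real.exp (-s)| * ‖ou s g z‖
      ≤ 1 * (Real.sqrt h * ‖z‖ + 2 * Real.sqrt h * Real.sqrt d) + Real.sqrt h * G g z := by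
        gcongr
        · exact Real.exp_le_one_iff.2 (by linarith)
        · exact (exp_sub_le hs hsr).trans hd
        · exact ou_le hg hs z
    _ ≤ _ := by
        unfold G
        nlinarith [Real.sqrt_nonneg h, norm_nonneg (g 0), norm_nonneg z,
          mul_nonneg (Real.sqrt_nonneg h) (norm_nonneg (g 0)),
          mul_nonneg (Real.sqrt_nonneg h) (norm_nonneg z)]

lemma ou_continuousOn (hg : LipschitzWith 1 g) (z : E d) :
    ContinuousOn (fun r => Real.exp (-r) • ou r g z) (Set.Ici 0) := by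
  have hc : Continuous fun p : ℝ × E d => g (ouPt p.1 z p.2) :=
    hg.continuous.comp (by simp only [ouPt_eq, sc]; fun_prop)
  refine ((Real.continuous_exp.comp continuous_neg).continuousOn).smul ?_
  refine continuousOn_of_dominated (bound := fun w => ‖g 0‖ + ‖z‖ + ‖w‖)
    (fun r _ => ?_) (fun r hr => Filter.Eventually.of_forall fun w => g_ou_le hg hr z w)
    ((integrable_const _).add int_norm) (Filter.Eventually.of_forall fun w => ?_)
  · exact (hc.comp (by fun_prop : Continuous fun w : E d => (r, w))).aestronglyMeasurable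
  · exact (hc.comp (by fun_prop : Continuous fun r : ℝ => (r, w))).continuousOn

/-- The scale of the truncation and discretisation error. -/
noncomputable def eta (h : ℝ) (a N : ℕ) : ℝ :=
  3 * Real.sqrt h * (N * h) + Real.exp (-(N * h)) + a * h

/-- The exact integral against a block of grid values. -/
lemma block_le {X : Type*} [NormedAddCommGroup X] [NormedSpace ℝ X] [CompleteSpace X] {F : ℝ → X}
    {h C : ℝ} (hh : 0 < h) (hC : 0 ≤ C) (hF : ContinuousOn F (Set.Ici 0))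
    (hG : ∀ r, 0 ≤ r → ‖F r‖ ≤ C * Real.exp (-r))
    (hω : ∀ s r, 0 ≤ s → s ≤ r → r ≤ s + h → ‖F r - F s‖ ≤ 3 * Real.sqrt h * C) {a N : ℕ}
    (haN : a ≤ N) :
    ‖(∑ i ∈ Finset.Ico a N, h • F (i * h)) - ∫ r in Set.Ioi (0 : ℝ), F r‖ ≤ eta h a N * C := by
  have h2 : ‖∑ i ∈ range a, h • F (i * h)‖ ≤ a * h * C := by
    refine (norm_sum_le _ _).trans ((sum_le_sum (g := fun _ => h * C) fun i _ => ?_).trans
      (le_of_eq (by simp; ring)))
    rw [norm_smul, Real.norm_eq_abs, abs_of_pos hh]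
    refine mul_le_mul_of_nonneg_left ((hG _ (by positivity)).trans ?_) hh.le
    exact mul_le_of_le_one_right hC (Real.exp_le_one_iff.2 (by
      have : (0 : ℝ) ≤ i * h := by positivity
      linarith))
  rw [Finset.sum_Ico_eq_sub _ haN,
    show ∀ A B I : X, A - B - I = -(I - A) - B from fun A B I => by abel]
  refine (norm_sub_le _ _).trans ?_
  rw [norm_neg]
  refine (add_le_add (riemann hh hF hG hω N) h2).trans (le_of_eq ?_)
  rw [eta]; ring

lemma good_scalar (h : ℝ) (hh : 0 ≤ h) :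
    Good (LinearMap.mul ℝ ℝ) (Real.exp (-h) • LinearMap.id) where
  symm x y := mul_comm x y
  nonneg x := mul_self_nonneg x
  adj x y := by simp; ring
  pos x := by
    simp only [LinearMap.mul_apply', LinearMap.smul_apply, LinearMap.id_apply, smul_eq_mul]
    rw [mul_left_comm]
    exact mul_nonneg (Real.exp_nonneg _) (mul_self_nonneg x)
  contr x := by
    simp only [LinearMap.mul_apply', LinearMap.smul_apply, LinearMap.id_apply, smul_eq_mul]
    have h1 : Real.exp (-h) ≤ 1 := Real.exp_le_one_iff.2 (by linarith)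
    calc Real.exp (-h) * x * (Real.exp (-h) * x) = Real.exp (-h) ^ 2 * (x * x) := by ring
      _ ≤ _ := mul_le_of_le_one_left (mul_self_nonneg x) (pow_le_one₀ (Real.exp_nonneg _) h1)

lemma pow_scalar (h : ℝ) (i : ℕ) :
    ((Real.exp (-h) • LinearMap.id : ℝ →ₗ[ℝ] ℝ) ^ i) 1 = Real.exp (-(h * i)) := by
  induction i with
  | zero => simp
  | succ i ih =>
    rw [pow_succ', Module.End.mul_apply, ih]
    simp [← Real.exp_add]
    ring

/-- The Newton remainder constant. -/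
noncomputable def epsQ (p m : ℕ) : ℝ :=
  (1 + (p + 1 : ℕ) * ((p + 1 : ℕ) : ℝ) ^ (p + 1)) * (((p + 1 : ℕ) : ℝ) / m) ^ (p + 1)

/-- The total error. -/
noncomputable def theta (h : ℝ) (p m n : ℕ) : ℝ :=
  eta h (m * (p + 1)) (m * (p + 1) * 2 ^ n)
    + h * ((m * (p + 1) * 2 ^ n : ℕ) : ℝ) * epsQ p m

/-- The node times. -/
noncomputable def nr (h : ℝ) (p m n : ℕ) (i : Fin n × Fin m × Fin (p + 1)) : ℝ :=
  h * QuadOp.texp (p + 1) m i.1 i.2.1 i.2.2

/-- The node weights. -/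
noncomputable def na (h : ℝ) (p m n : ℕ) (i : Fin n × Fin m × Fin (p + 1)) : ℝ :=
  h * QuadOp.W (p + 1) (2 ^ (i.1 : ℕ)) i.2.2 * Real.exp (-nr h p m n i)

/-- The weight of the node at time zero. -/
noncomputable def a0 (h : ℝ) (p m n : ℕ) : ℝ := 1 - ∑ i, na h p m n i

lemma nodes_sum {X : Type*} [AddCommMonoid X] {p m n : ℕ}
    (f : ℕ → ℕ → Fin (p + 1) → X) :
    ∑ i : Fin n × Fin m × Fin (p + 1), f i.1 i.2.1 i.2.2
      = ∑ b ∈ range n, ∑ k ∈ range m, ∑ j : Fin (p + 1), f b k j := by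
  rw [Fintype.sum_prod_type, ← Fin.sum_univ_eq_sum_range]
  refine Finset.sum_congr rfl fun b _ => ?_
  rw [Fintype.sum_prod_type, ← Fin.sum_univ_eq_sum_range]

lemma wt_le {h : ℝ} (hh : 0 ≤ h) (p m n : ℕ) :
    ∑ i, |na h p m n i| ≤ 2 * ((p + 1 : ℕ) : ℝ) ^ (p + 2) := by
  refine le_of_eq_of_le ?_ (QuadOp.weight_le p m n hh)
  exact nodes_sum fun b k j =>
    |h * QuadOp.W (p + 1) (2 ^ b) j * Real.exp (-(h * QuadOp.texp (p + 1) m b k j))|

lemma theta_nonneg {h : ℝ} (hh : 0 ≤ h) (p m n : ℕ) : 0 ≤ theta h p m n := by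
  unfold theta eta epsQ; positivity

lemma a0_le {h : ℝ} (hh : 0 < h) (hh1 : h ≤ 1) (p n : ℕ) {m : ℕ} (hm : 0 < m) :
    |a0 h p m n| ≤ theta h p m n := by
  have haN : m * (p + 1) ≤ m * (p + 1) * 2 ^ n := Nat.le_mul_of_pos_right _ (by positivity)
  have hA : |(∑ i ∈ Finset.Ico (m * (p + 1)) (m * (p + 1) * 2 ^ n), h * Real.exp (-(i * h))) - 1|
      ≤ eta h (m * (p + 1)) (m * (p + 1) * 2 ^ n) := by
    have := block_le (F := fun r => Real.exp (-r)) hh zero_le_one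
      (by fun_prop : Continuous fun r : ℝ => Real.exp (-r)).continuousOn
      (fun r _ => by simp) (fun s r hs hsr hr => ?_) haN
    · rw [integral_exp_neg_Ioi_zero] at this
      simpa using this
    · have h1 : Real.sqrt h * Real.sqrt h ≤ 1 * Real.sqrt h :=
        mul_le_mul_of_nonneg_right (Real.sqrt_le_one.2 hh1) (Real.sqrt_nonneg h)
      rw [Real.mul_self_sqrt hh.le] at h1
      rw [Real.norm_eq_abs]
      linarith [exp_sub_le hs hsr, Real.sqrt_nonneg h]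
  have hB := QuadOp.compress (good_scalar h hh.le) p hm n (1 : ℝ)
  simp only [pow_scalar, Neumann.nrm, LinearMap.mul_apply', smul_eq_mul,
    Real.sqrt_mul_self_eq_abs, abs_one, mul_one, Real.sqrt_one] at hB
  have hB' := mul_le_mul_of_nonneg_left hB hh.le
  rw [← abs_of_pos hh, ← abs_mul, abs_of_pos hh, mul_sub, mul_sum, mul_sum] at hB'
  have e : ∑ i, na h p m n i = ∑ b ∈ range n, h * ∑ k ∈ range m, ∑ j : Fin (p + 1),
      QuadOp.W (p + 1) (2 ^ b) j * Real.exp (-(h * QuadOp.texp (p + 1) m b k j)) := by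
    simp only [mul_sum, ← mul_assoc]
    exact nodes_sum fun b k j =>
      h * QuadOp.W (p + 1) (2 ^ b) j * Real.exp (-(h * QuadOp.texp (p + 1) m b k j))
  simp only [mul_comm _ h] at hA
  rw [a0, e, theta, epsQ, mul_assoc h]
  rw [abs_sub_comm] at hA
  exact (abs_sub_le _ _ _).trans (add_le_add hA hB')

/-- The nodes and weights. -/
noncomputable def quad (h : ℝ) (hh : 0 ≤ h) (p m n : ℕ) :
    Quad (Fintype.card (Option (Fin n × Fin m × Fin (p + 1)))) where
  r i := ((Fintype.equivFin _).symm i).elim 0 (nr h p m n)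
  a i := ((Fintype.equivFin _).symm i).elim (a0 h p m n) (na h p m n)
  r_nonneg i := by
    rcases (Fintype.equivFin (Option (Fin n × Fin m × Fin (p + 1)))).symm i with _ | j
    · exact le_rfl
    · exact mul_nonneg hh (Nat.cast_nonneg _)
  sum_a := by
    rw [Equiv.sum_comp (Fintype.equivFin (Option (Fin n × Fin m × Fin (p + 1)))).symm
      fun o => o.elim (a0 h p m n) (na h p m n), Fintype.sum_option]
    simp [a0]

lemma quad_wt {h : ℝ} (hh : 0 < h) (hh1 : h ≤ 1) (p n : ℕ) {m : ℕ} (hm : 0 < m) :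
    (quad h hh.le p m n).wt ≤ theta h p m n + 2 * ((p + 1 : ℕ) : ℝ) ^ (p + 2) := by
  rw [Quad.wt, quad]
  simp only
  rw [Equiv.sum_comp (Fintype.equivFin (Option (Fin n × Fin m × Fin (p + 1)))).symm
    fun o => |o.elim (a0 h p m n) (na h p m n)|, Fintype.sum_option]
  exact add_le_add (a0_le hh hh1 p n hm) (wt_le hh.le p m n)

lemma gQuad_quad (h : ℝ) (hh : 0 ≤ h) (p m n : ℕ) (z : E d) :
    gQuad (quad h hh p m n) g z
      = a0 h p m n • g z + ∑ i, na h p m n i • ou (nr h p m n i) g z := by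
  rw [gQuad, quad]
  simp only
  rw [Equiv.sum_comp (Fintype.equivFin (Option (Fin n × Fin m × Fin (p + 1)))).symm
    fun o => o.elim (a0 h p m n) (na h p m n) • ou (o.elim 0 (nr h p m n)) g z,
    Fintype.sum_option]
  simp [QuadOU.ou_zero]

lemma int_G_sq (g : E d → E d) {Λ : ℝ} (hΛ : Real.sqrt d ≤ Λ) (hg0 : ‖g 0‖ ≤ Λ) :
    Integrable (fun z => G g z ^ 2) (gam d) ∧ ∫ z, G g z ^ 2 ∂gam d ≤ 9 * Λ ^ 2 := by
  have hi : Integrable (fun w : E d => ‖w‖ ^ 2) (gam d) := P157.integrable_norm_pow 2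
  have hb : ∀ z : E d, G g z ^ 2 ≤ 3 * (‖g 0‖ ^ 2 + d) + 3 * ‖z‖ ^ 2 := fun z => by
    unfold G
    nlinarith [sq_nonneg (‖g 0‖ - ‖z‖), sq_nonneg (‖g 0‖ - Real.sqrt d),
      sq_nonneg (‖z‖ - Real.sqrt d), Real.sq_sqrt (d.cast_nonneg : (0 : ℝ) ≤ d)]
  have hI : Integrable (fun z => G g z ^ 2) (gam d) :=
    Integrable.mono' ((integrable_const _).add (hi.const_mul 3))
      (by unfold G; fun_prop : Continuous fun z => G g z ^ 2).aestronglyMeasurable
      (Filter.Eventually.of_forall fun z => by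
        rw [Real.norm_eq_abs, abs_of_nonneg (sq_nonneg _)]
        exact hb z)
  refine ⟨hI, (integral_mono hI ((integrable_const _).add (hi.const_mul 3)) hb).trans ?_⟩
  rw [integral_add' (integrable_const _) (hi.const_mul 3), integral_const, probReal_univ, one_smul,
    integral_const_mul, integral_norm_sq]
  nlinarith [pow_le_pow_left₀ (norm_nonneg _) hg0 2, pow_le_pow_left₀ (Real.sqrt_nonneg _) hΛ 2,
    Real.sq_sqrt (d.cast_nonneg : (0 : ℝ) ≤ d)]

/-- The error of the quadrature. -/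
lemma quad_err (hg : LipschitzWith 1 g) {h Λ : ℝ} (hh : 0 < h) (hh1 : h ≤ 1) (p n : ℕ) {m : ℕ}
    (hm : 0 < m) (hΛ : Real.sqrt d ≤ Λ) (hg0 : ‖g 0‖ ≤ Λ) :
    ∫ z, ‖gQuad (quad h hh.le p m n) g z - gStar g z‖ ^ 2 ∂gam d
      ≤ (10 * theta h p m n * Λ) ^ 2 := by
  set θ := theta h p m n with hθ
  set a := m * (p + 1) with ha
  set N := m * (p + 1) * 2 ^ n with hN
  have hθ0 : 0 ≤ θ := theta_nonneg hh.le p m n
  obtain ⟨u, hu⟩ : ∃ u : Lip d, u = ⟨g, 1, hg⟩ := ⟨_, rfl⟩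
  obtain ⟨D, hD⟩ : ∃ D : Lip d, D = h • (∑ i ∈ Finset.Ico a N, ((step h hh.le) ^ i) u
      - ∑ b ∈ range n, ∑ k ∈ range m, ∑ j : Fin (p + 1),
          QuadOp.W (p + 1) (2 ^ b) j • ((step h hh.le) ^ QuadOp.texp (p + 1) m b k j) u) :=
    ⟨_, rfl⟩
  have hgood := good_step (d := d) h hh.le
  obtain ⟨hI, hG⟩ := int_G_sq g hΛ hg0
  have hDI : Integrable (fun z => ‖(D : E d → E d) z‖ ^ 2) (gam d) := by
    simpa only [real_inner_self_eq_norm_sq] using int_inner D D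
  have hgz : ∀ z, ‖g z‖ ≤ G g z := fun z => by
    unfold G; linarith [g_le hg z, Real.sqrt_nonneg (d : ℝ)]
  have hnu : Neumann.nrm form u ^ 2 ≤ 9 * Λ ^ 2 := by
    rw [Neumann.nrm_sq hgood, form_apply, hu]
    simp only [real_inner_self_eq_norm_sq]
    exact (integral_mono_of_nonneg (Filter.Eventually.of_forall fun z => sq_nonneg _) hI
      (Filter.Eventually.of_forall fun z => pow_le_pow_left₀ (norm_nonneg _) (hgz z) 2)).trans hG
  have hDn : ∫ z, ‖(D : E d → E d) z‖ ^ 2 ∂gam d ≤ θ ^ 2 * (9 * Λ ^ 2) := by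
    have h1 : Neumann.nrm form D ≤ θ * Neumann.nrm form u := by
      rw [hD, nrm_smul, abs_of_pos hh]
      refine (mul_le_mul_of_nonneg_left (QuadOp.compress hgood p hm n u) hh.le).trans ?_
      rw [hθ, theta, ← mul_assoc, ← mul_assoc]
      refine mul_le_mul_of_nonneg_right ?_ (nrm_nonneg _)
      rw [epsQ, ← mul_assoc]
      have : 0 ≤ eta h (m * (p + 1)) (m * (p + 1) * 2 ^ n) := by unfold eta; positivity
      linarith
    have h2 := pow_le_pow_left₀ (nrm_nonneg _) h1 2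
    rw [mul_pow, Neumann.nrm_sq hgood, form_apply] at h2
    simp only [real_inner_self_eq_norm_sq] at h2
    exact h2.trans (mul_le_mul_of_nonneg_left hnu (sq_nonneg _))
  have hpt : ∀ z, ‖gQuad (quad h hh.le p m n) g z - gStar g z‖
      ≤ 2 * θ * G g z + ‖(D : E d → E d) z‖ := fun z => by
    have hDz : (D : E d → E d) z
        = (∑ i ∈ Finset.Ico a N, h • Real.exp (-(i * h)) • ou (i * h) g z)
          - ∑ i, na h p m n i • ou (nr h p m n i) g z := by
      have e : ∑ i, na h p m n i • ou (nr h p m n i) g z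
          = ∑ b ∈ range n, ∑ k ∈ range m, ∑ j : Fin (p + 1),
            (h * QuadOp.W (p + 1) (2 ^ b) j * Real.exp (-(h * QuadOp.texp (p + 1) m b k j)))
              • ou (h * QuadOp.texp (p + 1) m b k j) g z :=
        nodes_sum fun b k j =>
          (h * QuadOp.W (p + 1) (2 ^ b) j * Real.exp (-(h * QuadOp.texp (p + 1) m b k j)))
            • ou (h * QuadOp.texp (p + 1) m b k j) g z
      rw [hD, e]
      simp only [SetLike.val_smul, AddSubgroupClass.coe_sub, Submodule.coe_sum, Pi.smul_apply,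
        Pi.sub_apply, Finset.sum_apply, step_pow, smul_sub, smul_sum, smul_smul, hu, mul_comm _ h,
        mul_assoc]
    have hblock : ‖(∑ i ∈ Finset.Ico a N, h • Real.exp (-(i * h)) • ou (i * h) g z) - gStar g z‖
        ≤ eta h a N * G g z :=
      block_le (F := fun r => Real.exp (-r) • ou r g z) hh (G_nonneg z) (ou_continuousOn hg z)
        (fun r hr => by
          rw [norm_smul, Real.norm_eq_abs, Real.abs_exp, mul_comm]
          exact mul_le_mul_of_nonneg_right (ou_le hg hr z) (Real.exp_nonneg _))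
        (fun s r hs hsr hr => ou_modulus hg z hh1 hs hsr hr)
        (Nat.le_mul_of_pos_right _ (by positivity))
    have he : gQuad (quad h hh.le p m n) g z - gStar g z = a0 h p m n • g z
        + ((∑ i ∈ Finset.Ico a N, h • Real.exp (-(i * h)) • ou (i * h) g z) - gStar g z)
        - (D : E d → E d) z := by
      rw [gQuad_quad, hDz]; abel
    rw [he]
    refine (norm_sub_le _ _).trans (add_le_add ((norm_add_le _ _).trans ?_) le_rfl)
    rw [norm_smul, Real.norm_eq_abs, mul_assoc, two_mul]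
    refine add_le_add (mul_le_mul (a0_le hh hh1 p n hm) (hgz z) (norm_nonneg _) hθ0)
      (hblock.trans (mul_le_mul_of_nonneg_right ?_ (G_nonneg z)))
    rw [hθ, theta]
    exact le_add_of_nonneg_right (by unfold epsQ; positivity)
  calc ∫ z, ‖gQuad (quad h hh.le p m n) g z - gStar g z‖ ^ 2 ∂gam d
      ≤ ∫ z, (8 * θ ^ 2 * G g z ^ 2 + 2 * ‖(D : E d → E d) z‖ ^ 2) ∂gam d :=
        integral_mono_of_nonneg (Filter.Eventually.of_forall fun z => sq_nonneg _)
          ((hI.const_mul _).add (hDI.const_mul _)) (Filter.Eventually.of_forall fun z => by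
            refine (pow_le_pow_left₀ (norm_nonneg _) (hpt z) 2).trans ?_
            nlinarith [sq_nonneg (2 * θ * G g z - ‖(D : E d → E d) z‖)])
    _ = 8 * θ ^ 2 * (∫ z, G g z ^ 2 ∂gam d) + 2 * ∫ z, ‖(D : E d → E d) z‖ ^ 2 ∂gam d := by
        rw [integral_add (hI.const_mul _) (hDI.const_mul _), integral_const_mul, integral_const_mul]
    _ ≤ 8 * θ ^ 2 * (9 * Λ ^ 2) + 2 * (θ ^ 2 * (9 * Λ ^ 2)) := by gcongr
    _ ≤ _ := by nlinarith [sq_nonneg (θ * Λ)]

/-- The chosen parameters make the error small. -/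
lemma theta_le (p K : ℕ) {ι x : ℝ} {m n : ℕ} (hx : 2 ≤ x) (hm : x ^ (ι / 2) ≤ m)
    (hmx : ((m * (p + 1) : ℕ) : ℝ) ≤ x) (hm1 : 0 < m)
    (hp : (2 * K + 6 : ℝ) ≤ ι / 2 * (p + 1 : ℕ))
    (hn1 : x ^ (5 * K + 14) ≤ (2 : ℝ) ^ n) (hn2 : (2 : ℝ) ^ n ≤ 2 * x ^ (5 * K + 14)) :
    theta (x ^ (4 * K + 12))⁻¹ p m n * x ^ (K + 2)
      ≤ 8 + 2 * ((1 + (p + 1 : ℕ) * ((p + 1 : ℕ) : ℝ) ^ (p + 1))
          * ((p + 1 : ℕ) : ℝ) ^ (p + 1)) := by
  have hx0 : 0 < x := by linarith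
  have hx1 : 1 ≤ x := by linarith
  set h := (x ^ (4 * K + 12))⁻¹ with hh
  set P : ℝ := ((p + 1 : ℕ) : ℝ) with hP
  set c := 1 + P * P ^ (p + 1) with hc
  obtain ⟨T, hT⟩ : ∃ T : ℝ, T = ((m * (p + 1) * 2 ^ n : ℕ) : ℝ) * h := ⟨_, rfl⟩
  have hsq : Real.sqrt h = (x ^ (2 * K + 6))⁻¹ := by
    rw [hh, Real.sqrt_inv, show 4 * K + 12 = (2 * K + 6) * 2 by ring, pow_mul,
      Real.sqrt_sq (by positivity)]
  have he : x ^ (5 * K + 14) * h = x ^ (K + 2) := by
    rw [hh, show 5 * K + 14 = K + 2 + (4 * K + 12) by ring, pow_add,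
      mul_inv_cancel_right₀ (by positivity)]
  have hT2 : x ^ (K + 2) ≤ T := by
    calc x ^ (K + 2) = 1 * (x ^ (5 * K + 14) * h) := by rw [he, one_mul]
      _ ≤ ((m * (p + 1) : ℕ) : ℝ) * ((2 : ℝ) ^ n * h) := by
          refine mul_le_mul ?_ (mul_le_mul_of_nonneg_right hn1 (by positivity)) (by positivity)
            (by positivity)
          exact_mod_cast Nat.one_le_iff_ne_zero.2 (by positivity)
      _ = T := by rw [hT]; push_cast; ring
  have hT3 : T ≤ 2 * x ^ (K + 3) := by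
    calc T = ((m * (p + 1) : ℕ) : ℝ) * ((2 : ℝ) ^ n * h) := by rw [hT]; push_cast; ring
      _ ≤ x * (2 * x ^ (5 * K + 14) * h) :=
          mul_le_mul hmx (mul_le_mul_of_nonneg_right hn2 (by positivity)) (by positivity) hx0.le
      _ = 2 * x ^ (K + 3) := by rw [mul_assoc 2, he, pow_succ x (K + 2)]; ring
  have hT0 : 0 ≤ T := le_trans (by positivity) hT2
  have key : ∀ a b : ℕ, a ≤ b → x ^ a / x ^ b ≤ 1 := fun a b hab => by
    rw [div_le_one (by positivity)]
    exact pow_le_pow_right₀ hx1 hab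
  have t1 : 3 * Real.sqrt h * T * x ^ (K + 2) ≤ 6 := by
    calc 3 * Real.sqrt h * T * x ^ (K + 2)
        ≤ 3 * (x ^ (2 * K + 6))⁻¹ * (2 * x ^ (K + 3)) * x ^ (K + 2) := by
          rw [hsq]; gcongr
      _ = 6 * (x ^ (K + 3 + (K + 2)) / x ^ (2 * K + 6)) := by rw [pow_add x (K + 3)]; ring
      _ ≤ 6 := mul_le_of_le_one_right (by norm_num) (key _ _ (by omega))
  have t2 : Real.exp (-T) * x ^ (K + 2) ≤ 1 := by
    rw [Real.exp_neg, inv_mul_le_one₀ (Real.exp_pos _)]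
    linarith [Real.add_one_le_exp T]
  have t3 : ((m * (p + 1) : ℕ) : ℝ) * h * x ^ (K + 2) ≤ 1 := by
    calc ((m * (p + 1) : ℕ) : ℝ) * h * x ^ (K + 2) ≤ x * h * x ^ (K + 2) := by
          gcongr
      _ = x ^ (K + 3) / x ^ (4 * K + 12) := by rw [hh, pow_succ x (K + 2)]; ring
      _ ≤ 1 := key _ _ (by omega)
  have hm' : x ^ (2 * K + 6) ≤ (m : ℝ) ^ (p + 1) := by
    calc x ^ (2 * K + 6) = x ^ ((2 * K + 6 : ℕ) : ℝ) := (Real.rpow_natCast _ _).symm
      _ ≤ x ^ (ι / 2 * (p + 1 : ℕ)) :=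
          Real.rpow_le_rpow_of_exponent_le hx1 (le_of_eq_of_le (by push_cast; ring) hp)
      _ = (x ^ (ι / 2)) ^ (p + 1) := by
          rw [Real.rpow_mul hx0.le, Real.rpow_natCast]
      _ ≤ _ := pow_le_pow_left₀ (by positivity) hm _
  have t4 : T * epsQ p m * x ^ (K + 2) ≤ 2 * (c * P ^ (p + 1)) := by
    calc T * epsQ p m * x ^ (K + 2)
        = T * (c * P ^ (p + 1)) * ((m : ℝ) ^ (p + 1))⁻¹ * x ^ (K + 2) := by
          rw [epsQ, ← hP, ← hc, div_pow]; ring
      _ ≤ 2 * x ^ (K + 3) * (c * P ^ (p + 1)) * (x ^ (2 * K + 6))⁻¹ * x ^ (K + 2) := by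
          have hc0 : 0 ≤ c := by rw [hc, hP]; positivity
          gcongr
      _ = 2 * (c * P ^ (p + 1)) * (x ^ (K + 3 + (K + 2)) / x ^ (2 * K + 6)) := by
          rw [pow_add x (K + 3)]; ring
      _ ≤ _ := mul_le_of_le_one_right (by rw [hc, hP]; positivity) (key _ _ (by omega))
  rw [theta, eta, mul_comm h ((m * (p + 1) * 2 ^ n : ℕ) : ℝ), ← hT, add_mul, add_mul, add_mul]
  linarith

/-- The number of nodes. -/
lemma count_le (p e : ℕ) {ι x : ℝ} {m n : ℕ} (hι : 0 < ι) (hx : 1 ≤ x)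
    (hm : (m : ℝ) ≤ 2 * x ^ (ι / 2)) (hn : (2 : ℝ) ^ n ≤ 2 * x ^ e)
    (hbig : (8 * e / ι + 1) * 2 * (p + 1 : ℕ) + 1 ≤ x ^ (ι / 4)) :
    ((n * (m * (p + 1)) + 1 : ℕ) : ℝ) ≤ x ^ ι := by
  have hx0 : 0 < x := by linarith
  have hl2 : (1 / 2 : ℝ) ≤ Real.log 2 := by linarith [Real.log_two_gt_d9]
  have h1 : 1 ≤ x ^ (ι / 4) := Real.one_le_rpow hx (by positivity)
  have hlog := Real.log_le_rpow_div hx0.le (show 0 < ι / 4 by positivity)
  have hn' : (n : ℝ) ≤ (8 * e / ι + 1) * x ^ (ι / 4) := by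
    have h := Real.log_le_log (by positivity) hn
    rw [Real.log_pow, Real.log_mul two_ne_zero (by positivity), Real.log_pow] at h
    have h0 : 0 ≤ (e : ℝ) * Real.log x := mul_nonneg (by positivity) (Real.log_nonneg hx)
    rcases le_or_gt (n : ℝ) 1 with hn1 | hn1
    · calc (n : ℝ) ≤ 1 * 1 := by linarith
        _ ≤ _ := mul_le_mul (le_add_of_nonneg_left (by positivity)) h1 zero_le_one (by positivity)
    · have h3 : ((n : ℝ) - 1) * (1 / 2) ≤ ((n : ℝ) - 1) * Real.log 2 :=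
        mul_le_mul_of_nonneg_left hl2 (by linarith)
      have h4 : (e : ℝ) * Real.log x ≤ e * (x ^ (ι / 4) / (ι / 4)) :=
        mul_le_mul_of_nonneg_left hlog (by positivity)
      have h5 : (e : ℝ) * (x ^ (ι / 4) / (ι / 4)) * 2 = 8 * e / ι * x ^ (ι / 4) := by
        field_simp; ring
      linarith
  have e1 : x ^ ι = x ^ (ι / 4) * (x ^ (ι / 4) * x ^ (ι / 2)) := by
    rw [← Real.rpow_add hx0, ← Real.rpow_add hx0]; ring_nf
  rw [e1]
  have h2 : 1 ≤ x ^ (ι / 4) * x ^ (ι / 2) :=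
    one_le_mul_of_one_le_of_one_le h1 (Real.one_le_rpow hx (by positivity))
  push_cast at hbig ⊢
  calc (n : ℝ) * (m * ((p : ℝ) + 1)) + 1
      ≤ (8 * e / ι + 1) * x ^ (ι / 4) * (2 * x ^ (ι / 2) * ((p : ℝ) + 1))
          + 1 * (x ^ (ι / 4) * x ^ (ι / 2)) := by
        gcongr
        linarith
    _ = ((8 * e / ι + 1) * 2 * ((p : ℝ) + 1) + 1) * (x ^ (ι / 4) * x ^ (ι / 2)) := by ring
    _ ≤ _ := mul_le_mul_of_nonneg_right hbig (by positivity)

end QuadProof

open QuadProof in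
/-- Few nodes suffice for the exact drift. -/
theorem quadExists : QuadExists := by
  intro ι hι K
  obtain ⟨ι₀, hι₀, hι₁, hιι⟩ : ∃ ι₀ : ℝ, 0 < ι₀ ∧ ι₀ ≤ 1 ∧ ι₀ ≤ ι :=
    ⟨min ι 1, lt_min hι one_pos, min_le_right _ _, min_le_left _ _⟩
  obtain ⟨p, hp⟩ : ∃ p : ℕ, (2 * K + 6 : ℝ) ≤ ι₀ / 2 * (p + 1 : ℕ) := by
    obtain ⟨p, hp⟩ := exists_nat_ge ((2 * K + 6 : ℝ) / (ι₀ / 2))
    refine ⟨p, ?_⟩
    rw [div_le_iff₀ (by positivity)] at hp
    push_cast
    linarith
  obtain ⟨C0, hC0⟩ : ∃ C : ℝ, C = 8 + 2 * ((1 + (p + 1 : ℕ) * ((p + 1 : ℕ) : ℝ) ^ (p + 1))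
      * ((p + 1 : ℕ) : ℝ) ^ (p + 1)) := ⟨_, rfl⟩
  have hC0' : 0 ≤ C0 := by rw [hC0]; positivity
  have hev : ∀ᶠ d : ℕ in Filter.atTop,
      (8 * ((5 * K + 14 : ℕ) : ℝ) / ι₀ + 1) * 2 * (p + 1 : ℕ) + 1 ≤ (d : ℝ) ^ (ι₀ / 4) :=
    ((tendsto_rpow_atTop (by positivity)).comp tendsto_natCast_atTop_atTop).eventually_ge_atTop _
  have hev2 : ∀ᶠ d : ℕ in Filter.atTop,
      max (max 2 ((2 * ((p + 1 : ℕ) : ℝ)) ^ 2)) (10 * C0) ≤ (d : ℝ) :=
    tendsto_natCast_atTop_atTop.eventually_ge_atTop _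
  obtain ⟨D, hD⟩ := Filter.eventually_atTop.1 (hev.and hev2)
  refine ⟨1 + 2 * ((p + 1 : ℕ) : ℝ) ^ (p + 2), le_add_of_nonneg_right (by positivity), D,
    fun d hd => ?_⟩
  obtain ⟨hbig, hbig2⟩ := hD d hd
  simp only [max_le_iff] at hbig2
  obtain ⟨⟨hd2, hdp⟩, hdC⟩ := hbig2
  have hd0 : (0 : ℝ) < d := by linarith
  have hd1 : (1 : ℝ) ≤ d := by linarith
  obtain ⟨m, hm⟩ : ∃ m : ℕ, m = ⌈(d : ℝ) ^ (ι₀ / 2)⌉₊ := ⟨_, rfl⟩
  obtain ⟨n, hn⟩ : ∃ n : ℕ, n = Nat.log 2 (d ^ (5 * K + 14)) + 1 := ⟨_, rfl⟩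
  have hx2 : (1 : ℝ) ≤ (d : ℝ) ^ (ι₀ / 2) := Real.one_le_rpow hd1 (by positivity)
  have hm1 : 0 < m := by rw [hm]; exact Nat.ceil_pos.2 (by linarith)
  have hmlo : (d : ℝ) ^ (ι₀ / 2) ≤ m := by rw [hm]; exact Nat.le_ceil _
  have hmhi : (m : ℝ) ≤ 2 * (d : ℝ) ^ (ι₀ / 2) := by
    rw [hm]; linarith [Nat.ceil_lt_add_one (le_trans zero_le_one hx2)]
  have hmx : ((m * (p + 1) : ℕ) : ℝ) ≤ d := by
    have h1 : (d : ℝ) ^ (ι₀ / 2) ≤ Real.sqrt d := by
      rw [Real.sqrt_eq_rpow]; exact Real.rpow_le_rpow_of_exponent_le hd1 (by linarith)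
    have h2 : 2 * ((p + 1 : ℕ) : ℝ) ≤ Real.sqrt d := Real.le_sqrt_of_sq_le hdp
    rw [Nat.cast_mul]
    calc (m : ℝ) * ((p + 1 : ℕ) : ℝ) ≤ 2 * Real.sqrt d * ((p + 1 : ℕ) : ℝ) := by
          gcongr; linarith
      _ = Real.sqrt d * (2 * ((p + 1 : ℕ) : ℝ)) := by ring
      _ ≤ Real.sqrt d * Real.sqrt d := by gcongr
      _ = d := Real.mul_self_sqrt hd0.le
  have hn1 : (d : ℝ) ^ (5 * K + 14) ≤ (2 : ℝ) ^ n := by
    rw [hn]
    exact_mod_cast (Nat.lt_pow_succ_log_self one_lt_two (d ^ (5 * K + 14))).le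
  have hn2 : (2 : ℝ) ^ n ≤ 2 * (d : ℝ) ^ (5 * K + 14) := by
    rw [hn, pow_succ, mul_comm]
    refine mul_le_mul_of_nonneg_left ?_ two_pos.le
    exact_mod_cast Nat.pow_log_le_self 2 (by
      have : 0 < d := by exact_mod_cast hd0
      positivity)
  obtain ⟨h, hh⟩ : ∃ h : ℝ, h = ((d : ℝ) ^ (4 * K + 12))⁻¹ := ⟨_, rfl⟩
  have hh0 : 0 < h := by rw [hh]; positivity
  have hh1 : h ≤ 1 := by rw [hh]; exact inv_le_one_of_one_le₀ (one_le_pow₀ hd1)
  have hθ : 10 * theta h p m n * (d : ℝ) ^ K ≤ 1 := by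
    have h1 := theta_le p K hd2 hmlo hmx hm1 hp hn1 hn2
    rw [← hC0, ← hh, pow_add, ← mul_assoc] at h1
    have h0 := theta_nonneg hh0.le p m n
    have hK : (0 : ℝ) ≤ theta h p m n * (d : ℝ) ^ K := by positivity
    nlinarith [mul_le_mul_of_nonneg_left hd1 hK]
  refine ⟨_, quad h hh0.le p m n, ?_, (quad_wt hh0 hh1 p n hm1).trans ?_, fun U g hU Λ hΛ hg0 => ?_⟩
  · simp only [Fintype.card_option, Fintype.card_prod, Fintype.card_fin]
    exact (count_le p (5 * K + 14) hι₀ hd1 hmhi hn2 hbig).trans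
      (Real.rpow_le_rpow_of_exponent_le hd1 hιι)
  · have h0 := theta_nonneg hh0.le p m n
    have : theta h p m n ≤ theta h p m n * (d : ℝ) ^ K :=
      le_mul_of_one_le_right h0 (one_le_pow₀ hd1)
    linarith
  · have hΛ0 : 0 ≤ Λ := le_trans (Real.sqrt_nonneg _) hΛ
    refine ⟨by positivity, (quad_err hU.lip hh0 hh1 p n hm1 hΛ hg0).trans ?_⟩
    refine pow_le_pow_left₀ (by have := theta_nonneg hh0.le p m n; positivity) ?_ 2
    rw [le_div_iff₀ (by positivity)]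
    calc 10 * theta h p m n * Λ * (d : ℝ) ^ K = 10 * theta h p m n * (d : ℝ) ^ K * Λ := by ring
      _ ≤ 1 * Λ := mul_le_mul_of_nonneg_right hθ hΛ0
      _ = Λ := one_mul _

end Vale.Agent.P347
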