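import Vale.Agent.P347.StepPath

/-!
P347, seat E1: one step against a smoothed test function.
-/

namespace Vale.Agent.P347

open MeasureTheory ProbabilityTheory
open scoped RealInnerProductSpace NNReal

namespace Step

attribute [local instance] gam_isProb noise_isProb

variable {d q : ℕ} {U : E d → ℝ} {g : E d → E d} {Q : Quad q} {A ε Λ M : ℝ}

lemma sm_mem {τ : ℝ} {Φ : E d → ℝ} (h0 : ∀ x, 0 ≤ Φ x) (h1 : ∀ x, Φ x ≤ 1) (x : E d) :
    sm τ Φ x ∈ Set.Icc (0 : ℝ) 1 := by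
  refine ⟨integral_nonneg fun w => h0 _, ?_⟩
  calc sm τ Φ x ≤ ∫ _ : E d, (1 : ℝ) ∂gam d :=
        integral_mono_of_nonneg (Filter.Eventually.of_forall fun w => h0 _) (integrable_const _)
          (Filter.Eventually.of_forall fun w => h1 _)
    _ = 1 := by simp

lemma psi_moments (hG : GibbsProb) (hP : Poincare) (hCM : CentralMoments) (hTF : TiltFacts)
    (k : ℕ) (hk : 1 ≤ k) {M : ℝ} (hM : 1 ≤ M) :
    ∃ C : ℝ, 0 ≤ C ∧ ∀ d q : ℕ, ∀ Q : Quad q, ∀ U : E d → ℝ, ∀ g : E d → E d, ∀ A ε Λ : ℝ,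
      Ctx Q U g A ε Λ M → ∀ DG : E d → E d →L[ℝ] E d, Continuous DG →
      (∀ z, HasFDerivAt (gStar g) (DG z) z ∧ ‖DG z‖ ≤ 1 / 2) →
      ∀ t : ℝ, 0 ≤ t → t ≤ 1 →
        cov' (tilt U t) (fun z => ⟪g z, gStar g z⟫) (fun z => ⟪g z, gStar g z⟫) ≤ C * Λ ^ 2 ∧
        Integrable
          (fun z => |⟪g z, gStar g z⟫ - ∫ u, ⟪g u, gStar g u⟫ ∂tilt U t| ^ k) (tilt U t) ∧
        ∫ z, |⟪g z, gStar g z⟫ - ∫ u, ⟪g u, gStar g u⟫ ∂tilt U t| ^ k ∂tilt U t
          ≤ C * Λ ^ k := by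
  obtain ⟨Cm, hCm0, hCm⟩ := hCM k hk
  obtain ⟨C2, hC20, hC2⟩ := integral_shifted_pow_le hG hTF 2
  obtain ⟨Ck, hCk0, hCk⟩ := integral_shifted_pow_le hG hTF (2 * k)
  refine ⟨(2 + M) ^ 2 * C2 + (1 + Cm * (2 + M) ^ (2 * k) * Ck), by positivity,
    fun d q Q U g A ε Λ c DG hc hDG t ht ht1 => ?_⟩
  obtain ⟨gψ, hgc, hgψ, hgb⟩ := c.psi_facts hc hDG
  have hμ := tilt_prob hG c.pot ht
  set ψ := fun z => ⟪g z, gStar g z⟫ with hψ
  set μ := tilt U t
  set m := ∫ u, ⟪g u, gStar g u⟫ ∂μ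
  have hψc : Continuous ψ := continuous_iff_continuousAt.2 fun z => (hgψ z).hasFDerivAt.continuousAt
  have hN : ∀ z, ‖gψ z‖ ≤ (2 + M) * (Λ + 1) * (1 + ‖z‖) ^ 1 := fun z => by
    refine (hgb z).trans ?_
    rw [pow_one, mul_assoc]
    refine mul_le_mul_of_nonneg_left ?_ (by linarith)
    nlinarith [norm_nonneg z, c.one_le]
  have hp2 := hP d _ _ 1 (c.pot.logConc ht) ψ gψ hgc hgψ _ 1 hN
  have hp3 := hCm d _ _ 1 (c.pot.logConc ht) ψ gψ hgc hgψ _ 1 hN
  simp only [div_one, one_pow] at hp2 hp3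
  have hpow : ∀ n : ℕ, ∫ z, ‖gψ z‖ ^ n ∂μ ≤ (2 + M) ^ n * ∫ z, (Λ + ‖z‖) ^ n ∂μ := fun n => by
    rw [← integral_const_mul]
    refine integral_mono_of_nonneg
      (Filter.Eventually.of_forall fun z => pow_nonneg (norm_nonneg _) _)
      ((integrable_tilt hG c.pot ht n _ (by fun_prop) 1 Λ zero_le_one c.Λ_pos.le fun z => by
        rw [Real.norm_eq_abs, abs_of_nonneg (pow_nonneg (by linarith [norm_nonneg z, c.Λ_pos]) _),
          one_mul]).const_mul _) (Filter.Eventually.of_forall fun z => ?_)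
    simp only
    rw [← mul_pow]
    exact pow_le_pow_left₀ (norm_nonneg _) (hgb z) n
  have hdev : ∀ z, |ψ z - m| ≤ (1 + M + |m|) * (Λ + ‖z‖) ^ 2 := fun z => by
    have h1 := c.psi_growth z
    rw [Real.norm_eq_abs] at h1
    have h2 : |m| ≤ |m| * (Λ + ‖z‖) ^ 2 := le_mul_of_one_le_right (abs_nonneg m)
      (one_le_pow₀ (by linarith [norm_nonneg z, c.one_le]))
    have h3 := abs_sub (ψ z) m
    linarith
  have hint : ∀ n : ℕ, Integrable (fun z => |ψ z - m| ^ n) μ := fun n =>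
    integrable_tilt hG c.pot ht (2 * n) _ (by fun_prop) ((1 + M + |m|) ^ n) Λ (by positivity)
      c.Λ_pos.le fun z => by
        rw [Real.norm_eq_abs, abs_pow, abs_abs, pow_mul, ← mul_pow]
        exact pow_le_pow_left₀ (abs_nonneg _) (hdev z) n
  refine ⟨?_, hint k, ?_⟩
  · refine (hp2.trans ((hpow 2).trans
      (mul_le_mul_of_nonneg_left (hC2 d U g c.pot Λ t c.one_le c.dim c.g0 ht ht1)
        (by positivity)))).trans ?_
    rw [← mul_assoc]
    exact mul_le_mul_of_nonneg_right (le_add_of_nonneg_right (by positivity)) (sq_nonneg Λ)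
  · have hsq : ∀ z, |ψ z - m| ^ (2 * k) = (ψ z - m) ^ (2 * k) := fun z =>
      Even.pow_abs (even_two_mul k) _
    calc ∫ z, |ψ z - m| ^ k ∂μ
        ≤ ∫ z, (Λ ^ k + (Λ ^ k)⁻¹ * |ψ z - m| ^ (2 * k)) ∂μ := by
          refine integral_mono (hint k) ((integrable_const _).add ((hint _).const_mul _)) fun z => ?_
          have := pow_le_base_add k c.Λ_pos (abs_nonneg (ψ z - m))
          rwa [div_eq_inv_mul] at this
      _ = Λ ^ k + (Λ ^ k)⁻¹ * ∫ z, (ψ z - m) ^ (2 * k) ∂μ := by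
          rw [integral_add (integrable_const _) ((hint _).const_mul _),
            integral_const_mul (Λ ^ k)⁻¹, integral_const]
          simp [hsq]
      _ ≤ Λ ^ k + (Λ ^ k)⁻¹ * (Cm * ((2 + M) ^ (2 * k) * (Ck * Λ ^ (2 * k)))) := by
          refine add_le_add le_rfl (mul_le_mul_of_nonneg_left ?_
            (inv_nonneg.2 (pow_nonneg c.Λ_pos.le k)))
          refine hp3.trans (mul_le_mul_of_nonneg_left ((hpow _).trans ?_) hCm0)
          exact mul_le_mul_of_nonneg_left (hCk d U g c.pot Λ t c.one_le c.dim c.g0 ht ht1)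
            (by positivity)
      _ = (1 + Cm * (2 + M) ^ (2 * k) * Ck) * Λ ^ k := by
          have := c.Λ_pos
          rw [two_mul k, pow_add Λ]; field_simp
      _ ≤ _ := mul_le_mul_of_nonneg_right (le_add_of_nonneg_left (by positivity))
          (pow_nonneg c.Λ_pos.le k)

lemma quad_l1 {ζ : ℝ} (c : Ctx Q U g A ε Λ M) (hG : GibbsProb) (hTF : TiltFacts)
    (hs : Continuous (gStar g)) (hz : QuadErr Q g ζ) :
    Integrable (fun z => ‖gQuad Q g z - gStar g z‖) (gam d) ∧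
      ∫ z, ‖gQuad Q g z - gStar g z‖ ∂gam d ≤ ζ := by
  obtain ⟨Cj, -, hj⟩ := hTF 0
  have h0 : tilt U 0 = gam d := (hj d U g c.pot).1
  have hq : Continuous (gQuad Q g) :=
    (LipschitzWith.of_dist_le' (K := Q.wt) fun x y => by
      simpa [dist_eq_norm] using gQuad_lip c.pot Q x y).continuous
  have hb : ∀ z, ‖gQuad Q g z - gStar g z‖ ≤ (A + 1) * (1 + M) * (Λ + ‖z‖) := fun z => by
    refine (norm_sub_le _ _).trans ((add_le_add (c.norm_gQuad z) (c.norm_gStar z)).trans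
      (le_of_eq ?_))
    ring
  have hA : 0 ≤ (A + 1) * (1 + M) :=
    mul_nonneg (by linarith [c.one_le_A]) (by linarith [c.one_le_M])
  have hi : ∀ n : ℕ, Integrable (fun z => ‖gQuad Q g z - gStar g z‖ ^ n) (gam d) := fun n => by
    rw [← h0]
    refine integrable_tilt hG c.pot le_rfl n _ ((hq.sub hs).norm.pow n)
      (((A + 1) * (1 + M)) ^ n) Λ (pow_nonneg hA n) c.Λ_pos.le fun z => ?_
    rw [Real.norm_eq_abs, abs_pow, abs_norm, ← mul_pow]
    exact pow_le_pow_left₀ (norm_nonneg _) (hb z) n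
  have hi1 : Integrable (fun z => ‖gQuad Q g z - gStar g z‖) (gam d) := by simpa using hi 1
  refine ⟨hi1, le_of_forall_pos_le_add fun η hη => ?_⟩
  have ht : 0 < ζ + η := by linarith [hz.1]
  calc ∫ z, ‖gQuad Q g z - gStar g z‖ ∂gam d
      ≤ ∫ z, ((2 * (ζ + η))⁻¹ * ‖gQuad Q g z - gStar g z‖ ^ 2 + (ζ + η) / 2) ∂gam d := by
        refine integral_mono hi1 (((hi 2).const_mul _).add (integrable_const _)) fun z => ?_
        have := le_amgm (norm_nonneg (gQuad Q g z - gStar g z)) ht le_rfl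
        rwa [div_eq_inv_mul] at this
    _ = (2 * (ζ + η))⁻¹ * ∫ z, ‖gQuad Q g z - gStar g z‖ ^ 2 ∂gam d + (ζ + η) / 2 := by
        rw [integral_add ((hi 2).const_mul _) (integrable_const _),
          integral_const_mul (2 * (ζ + η))⁻¹, integral_const]
        simp
    _ ≤ (2 * (ζ + η))⁻¹ * (ζ + η) ^ 2 + (ζ + η) / 2 := by
        gcongr
        exact hz.2.trans (pow_le_pow_left₀ hz.1 (by linarith) 2)
    _ = ζ + η := by field_simp; ring

/-- The distance of the deterministic map to the end of the path. -/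
lemma quad_shift {ζ : ℝ} (c : Ctx Q U g A ε Λ M) (hG : GibbsProb) (hTF : TiltFacts)
    (hs : Continuous (gStar g)) (hz : QuadErr Q g ζ) {h : E d → ℝ} {gr : E d → E d}
    {he : E d → E d →L[ℝ] E d} {B : ℝ} (hT : Test h gr he B) (e : E d) :
    |∫ z, (h (aMap Q g ε e z) - h (phiMap g e ε 1 z)) ∂gam d| ≤ B * ζ := by
  obtain ⟨hi, hle⟩ := quad_l1 c hG hTF hs hz
  have hB : 0 ≤ B := (norm_nonneg _).trans (hT.grad_le 0)
  rw [← Real.norm_eq_abs]
  refine (norm_integral_le_of_norm_le (hi.const_mul B)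
    (Filter.Eventually.of_forall fun z => ?_)).trans ?_
  · rw [Real.norm_eq_abs]
    refine (test_lip hT _ _).trans (mul_le_mul_of_nonneg_left ?_ hB)
    unfold aMap phiMap
    rw [show z - ε • (gQuad Q g z + e) - (z - (1 * ε) • (gStar g z + e))
      = -(ε • (gQuad Q g z - gStar g z)) by rw [one_mul]; module, norm_neg, norm_smul,
      Real.norm_eq_abs, abs_of_pos c.pos]
    exact mul_le_of_le_one_left (norm_nonneg _) c.eps_le_one
  · rw [integral_const_mul]
    exact mul_le_mul_of_nonneg_left hle hB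

lemma endpoints (hI : Interp) (hTF : TiltFacts) (c : Ctx Q U g A ε Λ M)
    {DG : E d → E d →L[ℝ] E d} (hc : Continuous DG)
    (hDG : ∀ z, HasFDerivAt (gStar g) (DG z) z ∧ ‖DG z‖ ≤ 1 / 2) {h : E d → ℝ} {gr : E d → E d}
    {he : E d → E d →L[ℝ] E d} {B : ℝ} (hT : Test h gr he B) (e : E d) :
    (∫ z, h z ∂tilt U ε) - ∫ z, h (phiMap g e ε 1 z) ∂gam d
      = ∫ s in (0 : ℝ)..1, interpRate U g DG h gr e ε s := by
  obtain ⟨Cj, -, hj⟩ := hTF 0
  have := hI d U g DG c.pot hc hDG h gr he B hT e ε 0 c.pos.le le_rfl zero_le_one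
  simpa [(hj d U g c.pot).1] using this

/-- Expectations of a smoothed bounded function along both paths are bounded by its target
value. -/
lemma level (hGS : GaussShift) (hSB : SelfBound) (hP : Poincare) (hCM : CentralMoments)
    (hTF : TiltFacts) (hI : Interp) (hG : GibbsProb) (k : ℕ) (hk : 1 ≤ k) {A M : ℝ} (hA : 1 ≤ A)
    (hM : 1 ≤ M) :
    ∃ C : ℝ, 0 ≤ C ∧ ∀ d q : ℕ, ∀ Q : Quad q, ∀ U : E d → ℝ, ∀ g : E d → E d, ∀ ε Λ ζ : ℝ,
      Ctx Q U g A ε Λ M → QuadErr Q g ζ →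
      ∀ DG : E d → E d →L[ℝ] E d, Continuous DG →
      (∀ z, HasFDerivAt (gStar g) (DG z) z ∧ ‖DG z‖ ≤ 1 / 2) →
      ∀ Φ : E d → ℝ, ∀ τ : ℝ, Measurable Φ → (∀ x, 0 ≤ Φ x) → (∀ x, Φ x ≤ 1) → 1 / 4 ≤ τ → τ ≤ 4 →
        Continuous (sm τ Φ) ∧
        (∀ r ∈ Set.Icc (0 : ℝ) 1,
          ∫ z, ∫ x, sm τ Φ (aMap Q g ε (∫ y, corr Q g ε (blocks y) ∂noise d q) z
              + r • xi Q g ε (∫ y, corr Q g ε (blocks y) ∂noise d q) z x) ∂noise d q ∂gam d
            ≤ C * ((∫ z, sm τ Φ z ∂tilt U ε) + (ε ^ 2 * Λ) ^ k + ζ)) ∧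
        ∀ s ∈ Set.Icc (0 : ℝ) 1,
          ∫ z, sm τ Φ (phiMap g (∫ y, corr Q g ε (blocks y) ∂noise d q) ε (1 - s) z)
              ∂tilt U (s * ε)
            ≤ C * ((∫ z, sm τ Φ z ∂tilt U ε) + (ε ^ 2 * Λ) ^ k + ζ) := by
  obtain ⟨Cs, hCs0, hCs⟩ := hSB k hk
  obtain ⟨Cw, hCw0, hCw⟩ := integral_shifted_pow_le hG hTF k
  obtain ⟨Cp, hCp0, hCp⟩ := psi_moments hG hP hCM hTF k hk hM
  set E0 := A * (1 + 2 * M)
  have hE0 : 0 ≤ E0 := by positivity
  set D := (Cs * (E0 + M + 1) ^ k * Cw + Cp) * 8 ^ (k - 1) with hD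
  have hD0 : 0 ≤ D := by positivity
  set D' := Cs * (3 + 3 * A) ^ (2 * k) * 4 ^ (k - 1) with hD'
  have hD'0 : 0 ≤ D' := by positivity
  refine ⟨4 + 4 * D + 2 * D' + 4 * Cs, by positivity,
    fun d q Q U g ε Λ ζ c hz DG hc hDG Φ τ hΦm hΦ0 hΦ1 hτ1 hτ2 => ?_⟩
  obtain ⟨gr, he, hT, hself⟩ := hCs d Φ τ hΦm hΦ0 hΦ1 hτ1 hτ2
  have hFc := test_continuous hT
  set F := sm τ Φ with hF
  have hF01 : ∀ x, F x ∈ Set.Icc (0 : ℝ) 1 := sm_mem hΦ0 hΦ1
  set e := ∫ y, corr Q g ε (blocks y) ∂noise d q with he'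
  have hen : ‖e‖ ≤ ε * E0 * Λ := c.norm_corr_mean
  set δ := ε ^ 2 * Λ with hδ
  have hδ0 : 0 < δ := mul_pos (pow_pos c.pos 2) c.Λ_pos
  set ν := ∫ z, F z ∂tilt U ε with hν
  have hν0 : 0 ≤ ν := integral_nonneg fun z => (hF01 z).1
  have hFbound : ∀ x, ‖F x‖ ≤ 1 := fun x => by
    rw [Real.norm_eq_abs, abs_of_nonneg (hF01 x).1]; exact (hF01 x).2
  set m : ℝ → ℝ := fun s => ∫ z, F (phiMap g e ε (1 - s) z) ∂tilt U (s * ε) with hm
  have hm1 : ∀ s ∈ Set.Icc (0 : ℝ) 1, m s ≤ 1 := fun s hs => by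
    have := tilt_prob hG c.pot (c.sε_nonneg hs)
    exact (integral_mono_of_nonneg (Filter.Eventually.of_forall fun z => (hF01 _).1)
      (integrable_const 1) (Filter.Eventually.of_forall fun z => (hF01 _).2)).trans (by simp)
  set S := sSup (m '' Set.Icc (0 : ℝ) 1) with hS
  have hne : (m '' Set.Icc (0 : ℝ) 1).Nonempty := ⟨m 0, 0, ⟨le_rfl, zero_le_one⟩, rfl⟩
  have hbdd : BddAbove (m '' Set.Icc (0 : ℝ) 1) :=
    ⟨1, fun y hy => by obtain ⟨s, hs, rfl⟩ := hy; exact hm1 s hs⟩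
  have hmS : ∀ s ∈ Set.Icc (0 : ℝ) 1, m s ≤ S := fun s hs => le_csSup hbdd ⟨s, hs, rfl⟩
  have hrate : ∀ s ∈ Set.Icc (0 : ℝ) 1,
      |interpRate U g DG F gr e ε s| ≤ S / 4 + D * δ ^ k := by
    intro s hs
    have hμ := tilt_prob hG c.pot (c.sε_nonneg hs)
    refine (c.rate_le hG hc hDG hT hE0 hen hs).trans ?_
    set μ := tilt U (s * ε)
    set P := phiMap g e ε (1 - s)
    have hPc : Continuous P := c.continuous_phiMap hDG e _
    have hFi : Integrable (fun z => F (P z)) μ :=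
      integrable_tilt hG c.pot (c.sε_nonneg hs) 0 _ (hFc.comp hPc) 1 0 zero_le_one le_rfl fun z => by
        simpa using hFbound (P z)
    set W := fun z : E d => ε ^ 2 * ((E0 + M + 1) * (Λ + ‖z‖)) with hW
    have hW0 : ∀ z, 0 ≤ W z := fun z =>
      mul_nonneg (sq_nonneg ε) (mul_nonneg (by linarith) (by linarith [norm_nonneg z, c.Λ_pos]))
    have hWi : Integrable (fun z => W z ^ k) μ := by
      refine integrable_tilt hG c.pot (c.sε_nonneg hs) k _ (by fun_prop)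
        ((ε ^ 2 * (E0 + M + 1)) ^ k) Λ (by positivity) c.Λ_pos.le fun z => ?_
      rw [Real.norm_eq_abs, abs_of_nonneg (pow_nonneg (hW0 z) k), ← mul_pow, mul_assoc]
    have hWle : ∫ z, W z ^ k ∂μ ≤ (E0 + M + 1) ^ k * Cw * δ ^ k := by
      have : (fun z => W z ^ k) = fun z => (ε ^ 2 * (E0 + M + 1)) ^ k * (Λ + ‖z‖) ^ k :=
        funext fun z => by rw [← mul_pow, mul_assoc]
      rw [this, integral_const_mul]
      refine (mul_le_mul_of_nonneg_left (hCw d U g c.pot Λ _ c.one_le c.dim c.g0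
        (c.sε_nonneg hs) (c.sε_le_one hs)) (by positivity)).trans (le_of_eq ?_)
      rw [hδ, mul_pow, mul_pow]; ring
    obtain ⟨-, hψi, hψk⟩ := hCp d q Q U g A ε Λ c DG hc hDG (s * ε) (c.sε_nonneg hs)
      (c.sε_le_one hs)
    set ψ := fun z => ⟪g z, gStar g z⟫
    set mψ := ∫ u, ⟪g u, gStar g u⟫ ∂μ
    have hl : (0 : ℝ) < 1 / 8 := by norm_num
    have h1 : ∫ z, ‖gr (P z)‖ * W z ∂μ
        ≤ 1 / 8 * m s + Cs * 8 ^ (k - 1) * ∫ z, W z ^ k ∂μ := by
      rw [← integral_const_mul, ← integral_const_mul,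
        ← integral_add (hFi.const_mul _) (hWi.const_mul _)]
      refine integral_mono_of_nonneg (Filter.Eventually.of_forall fun z =>
        mul_nonneg (norm_nonneg _) (hW0 z)) ((hFi.const_mul _).add (hWi.const_mul _))
        (Filter.Eventually.of_forall fun z => ?_)
      have h := hself (P z) (W z) (1 / 8) (hW0 z) hl
      have h' : ‖gr (P z)‖ * W z ≤ W z * (‖gr (P z)‖ + frob (he (P z))) := by
        rw [mul_comm]; exact mul_le_mul_of_nonneg_left (le_add_of_nonneg_right (frob_nonneg _))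
          (hW0 z)
      rw [div_pow, one_pow, div_div_eq_mul_div, div_one] at h
      linarith
    have hψc : Continuous ψ := (continuous_g c.pot).inner (continuous_gStar fun z => (hDG z).1)
    have hFψ : Integrable (fun z => F (P z) * ψ z) μ :=
      integrable_tilt hG c.pot (c.sε_nonneg hs) 2 _ ((hFc.comp hPc).mul hψc) (1 + M) Λ
        (by linarith) c.Λ_pos.le fun z => by
          rw [norm_mul]
          exact (mul_le_of_le_one_left (norm_nonneg _) (hFbound _)).trans (c.psi_growth z)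
    have h2 : ε ^ 2 * |cov' μ (fun z => F (P z)) ψ|
        ≤ 1 / 8 * m s + 8 ^ (k - 1) * (ε ^ 2) ^ k * ∫ z, |ψ z - mψ| ^ k ∂μ := by
      have hR : ∫ z, (1 / 8 * F (P z) + 8 ^ (k - 1) * (ε ^ 2) ^ k * |ψ z - mψ| ^ k) ∂μ
          = 1 / 8 * m s + 8 ^ (k - 1) * (ε ^ 2) ^ k * ∫ z, |ψ z - mψ| ^ k ∂μ := by
        rw [integral_add (hFi.const_mul _) (hψi.const_mul _), integral_const_mul (1 / 8 : ℝ),
          integral_const_mul (8 ^ (k - 1) * (ε ^ 2) ^ k)]
      rw [← hR, cov_eq μ _ _ hFi hFψ]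
      have hL : ε ^ 2 * |∫ z, F (P z) * (ψ z - mψ) ∂μ|
          = ‖∫ z, ε ^ 2 * (F (P z) * (ψ z - mψ)) ∂μ‖ := by
        rw [integral_const_mul, norm_mul, Real.norm_eq_abs, Real.norm_eq_abs,
          abs_of_nonneg (sq_nonneg ε)]
      refine hL.le.trans (norm_integral_le_of_norm_le ((hFi.const_mul _).add (hψi.const_mul _))
        (Filter.Eventually.of_forall fun z => ?_))
      have h := mul_le_young hk (hF01 (P z)).1 (hF01 (P z)).2
        (mul_nonneg (sq_nonneg ε) (abs_nonneg (ψ z - mψ))) hl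
      rw [div_pow, one_pow, div_div_eq_mul_div, div_one, mul_pow] at h
      simp only [Real.norm_eq_abs, abs_mul, abs_of_nonneg (sq_nonneg ε),
        abs_of_nonneg (hF01 (P z)).1]
      linarith
    have h3 : 8 ^ (k - 1) * (ε ^ 2) ^ k * ∫ z, |ψ z - mψ| ^ k ∂μ
        ≤ 8 ^ (k - 1) * Cp * δ ^ k := by
      refine (mul_le_mul_of_nonneg_left hψk (by positivity)).trans (le_of_eq ?_)
      rw [hδ, mul_pow (ε ^ 2) Λ]; ring
    have h4 := mul_le_mul_of_nonneg_left hWle (by positivity : 0 ≤ Cs * 8 ^ (k - 1))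
    have hD2 : D * δ ^ k = Cs * 8 ^ (k - 1) * ((E0 + M + 1) ^ k * Cw * δ ^ k)
        + 8 ^ (k - 1) * Cp * δ ^ k := by rw [hD]; ring
    linarith [hmS s hs]
  have hSle : S ≤ ν + (S / 4 + D * δ ^ k) := by
    refine csSup_le hne fun y hy => ?_
    obtain ⟨s₀, hs₀, rfl⟩ := hy
    have hid := hI d U g DG c.pot hc hDG F gr he _ hT e ε s₀ c.pos.le hs₀.1 hs₀.2
    have hSnn : 0 ≤ S / 4 + D * δ ^ k := (abs_nonneg _).trans (hrate s₀ hs₀)
    have hb := intervalIntegral.norm_integral_le_of_norm_le_const (a := s₀) (b := 1)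
      (f := fun s => interpRate U g DG F gr e ε s) (C := S / 4 + D * δ ^ k) fun s hs => by
        rw [Set.uIoc_of_le hs₀.2] at hs
        exact hrate s ⟨hs₀.1.trans hs.1.le, hs.2⟩
    rw [Real.norm_eq_abs, abs_of_nonneg (by linarith [hs₀.2] : (0 : ℝ) ≤ 1 - s₀)] at hb
    have := (abs_le.1 hb).1
    have := mul_le_of_le_one_right hSnn (by linarith [hs₀.1] : 1 - s₀ ≤ 1)
    linarith
  have hS2 : S ≤ 2 * (ν + D * δ ^ k) := by linarith [mul_nonneg hD0 (pow_nonneg hδ0.le k)]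
  have hδk : 0 ≤ δ ^ k := pow_nonneg hδ0.le k
  have hζ : 0 ≤ ζ := hz.1
  refine ⟨hFc, fun r hr => ?_, fun s hs => ?_⟩
  · set a := aMap Q g ε e
    have hac : Continuous a := c.continuous_aMap e
    have hξc := c.continuous_xi (Q := Q) e
    set G := fun ρ : ℝ => ∫ z, ∫ x, F (a z + ρ • xi Q g ε e z x) ∂noise d q ∂gam d with hG'
    have hin : ∀ (ρ : ℝ) z, ‖∫ x, F (a z + ρ • xi Q g ε e z x) ∂noise d q‖ ≤ 1 := fun ρ z =>
      (norm_integral_le_of_norm_le (g := fun _ => (1 : ℝ)) (integrable_const _)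
        (Filter.Eventually.of_forall fun x => hFbound _)).trans (by simp)
    have hG1 : ∀ ρ, G ρ ≤ 1 := fun ρ => (le_abs_self _).trans
      ((norm_integral_le_of_norm_le (g := fun _ => (1 : ℝ)) (integrable_const _)
        (Filter.Eventually.of_forall (hin ρ))).trans (by simp))
    set X := sSup (G '' Set.Icc (0 : ℝ) 1)
    have hneX : (G '' Set.Icc (0 : ℝ) 1).Nonempty := ⟨G 0, 0, ⟨le_rfl, zero_le_one⟩, rfl⟩
    have hGX : ∀ ρ ∈ Set.Icc (0 : ℝ) 1, G ρ ≤ X := fun ρ hρ =>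
      le_csSup ⟨1, fun y hy => by obtain ⟨u, -, rfl⟩ := hy; exact hG1 u⟩ ⟨ρ, hρ, rfl⟩
    have hXle : X ≤ (∫ z, F (a z) ∂gam d) + (X / 4 + D' * δ ^ k) := by
      refine csSup_le hneX fun y hy => ?_
      obtain ⟨ρ, hρ, rfl⟩ := hy
      set b := (3 + 3 * A) ^ 2 * δ
      have hb : 0 < b := by positivity
      have hK : ∀ u ∈ Set.Icc (0 : ℝ) 1,
          ∫ z, ∫ x, frob (he (a z + u • ρ • xi Q g ε e z x)) ∂noise d q ∂gam d
            ≤ (X / 4 + D' * δ ^ k) / b := by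
        intro u hu
        rw [le_div_iff₀' hb, ← integral_const_mul]
        have hcz : Continuous fun p : E d × E ((2 * q + 4) * d) =>
            F (a p.1 + (u * ρ) • xi Q g ε e p.1 p.2) := by fun_prop
        have hiz : Integrable (fun z => ∫ x, F (a z + (u * ρ) • xi Q g ε e z x) ∂noise d q)
            (gam d) :=
          Integrable.of_bound
            (hcz.stronglyMeasurable.integral_prod_right' (ν := noise d q)).aestronglyMeasurable 1
            (Filter.Eventually.of_forall (hin _))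
        refine le_trans (integral_mono_of_nonneg (Filter.Eventually.of_forall fun z =>
          mul_nonneg hb.le (integral_nonneg fun x => frob_nonneg _))
          ((hiz.const_mul (1 / 4)).add (integrable_const (D' * δ ^ k)))
          (Filter.Eventually.of_forall fun z => ?_)) ?_
        · simp only [Pi.add_apply]
          have hix : Integrable (fun x => F (a z + (u * ρ) • xi Q g ε e z x)) (noise d q) :=
            Integrable.of_bound (Continuous.aestronglyMeasurable (by fun_prop)) 1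
              (Filter.Eventually.of_forall fun x => hFbound _)
          rw [← integral_const_mul, ← integral_const_mul]
          refine le_trans (integral_mono_of_nonneg (Filter.Eventually.of_forall fun x =>
            mul_nonneg hb.le (frob_nonneg _))
            ((hix.const_mul (1 / 4)).add (integrable_const (D' * δ ^ k)))
            (Filter.Eventually.of_forall fun x => ?_)) (le_of_eq ?_)
          · simp only [Pi.add_apply, smul_smul]
            have h := hself (a z + (u * ρ) • xi Q g ε e z x) b (1 / 4) hb.le (by norm_num)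
            rw [div_pow, one_pow, div_div_eq_mul_div, div_one] at h
            have h' : D' * δ ^ k = Cs * b ^ k * 4 ^ (k - 1) := by
              simp only [hD', b, mul_pow, ← pow_mul]; ring
            linarith [mul_nonneg hb.le (norm_nonneg (gr (a z + (u * ρ) • xi Q g ε e z x)))]
          · rw [integral_add' (hix.const_mul _) (integrable_const _), integral_const]
            simp
        · rw [integral_add' (hiz.const_mul _) (integrable_const _),
            integral_const_mul (1 / 4 : ℝ), integral_const]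
          have := hGX (u * ρ)
            ⟨mul_nonneg hu.1 hρ.1, mul_le_one₀ hu.2 hρ.1 hρ.2⟩
          simp only [probReal_univ, one_smul, hG'] at this ⊢
          linarith
      have hsh := shift hGS hT a hac (fun z x => ρ • xi Q g ε e z x)
        ((continuous_const_smul ρ).comp hξc) (ε * (3 + 3 * A))
        (mul_nonneg c.pos.le (by linarith)) (fun z x y => by
          rw [← smul_sub, norm_smul, Real.norm_eq_abs, abs_of_nonneg hρ.1]
          exact (mul_le_of_le_one_left (norm_nonneg _) hρ.2).trans (c.xi_lip e z x y))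
        (fun z => (c.contDiff_xi e z).const_smul ρ)
        (fun z => by
          have := c.integral_xi z
          rw [← he'] at this
          unfold noise at this
          rw [integral_smul, this, smul_zero])
        _ hK
      have hsh' : (ε * (3 + 3 * A)) ^ 2 * Real.sqrt d * ((X / 4 + D' * δ ^ k) / b)
          ≤ X / 4 + D' * δ ^ k := by
        have hK0 : 0 ≤ (X / 4 + D' * δ ^ k) / b :=
          (integral_nonneg fun z => integral_nonneg fun x => frob_nonneg _).trans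
            (hK 0 ⟨le_rfl, zero_le_one⟩)
        calc (ε * (3 + 3 * A)) ^ 2 * Real.sqrt d * ((X / 4 + D' * δ ^ k) / b)
            ≤ b * ((X / 4 + D' * δ ^ k) / b) := by
              refine mul_le_mul_of_nonneg_right ?_ hK0
              rw [mul_pow, mul_comm (ε ^ 2), mul_assoc]
              exact mul_le_mul_of_nonneg_left
                (mul_le_mul_of_nonneg_left c.dim (sq_nonneg ε)) (sq_nonneg _)
          _ = _ := mul_div_cancel₀ _ hb.ne'
      have hFa : Integrable (fun z => F (a z)) (gam d) :=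
        Integrable.of_bound (Continuous.aestronglyMeasurable (by fun_prop)) 1
          (Filter.Eventually.of_forall fun z => hFbound _)
      have hiρ : Integrable (fun z => ∫ x, F (a z + ρ • xi Q g ε e z x) ∂noise d q) (gam d) := by
        have hcz : Continuous fun p : E d × E ((2 * q + 4) * d) =>
            F (a p.1 + ρ • xi Q g ε e p.1 p.2) := by fun_prop
        exact Integrable.of_bound
          (hcz.stronglyMeasurable.integral_prod_right' (ν := noise d q)).aestronglyMeasurable 1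
          (Filter.Eventually.of_forall (hin _))
      rw [integral_sub (by exact hiρ) hFa] at hsh
      simp only [hG']
      have := (abs_le.1 (hsh.trans hsh')).2
      unfold noise at *
      linarith
    have hq := abs_le.1 (quad_shift c hG hTF (continuous_gStar fun z => (hDG z).1) hz hT e)
    have hi1 : Integrable (fun z => F (a z)) (gam d) :=
      Integrable.of_bound (Continuous.aestronglyMeasurable (by fun_prop)) 1
        (Filter.Eventually.of_forall fun z => hFbound _)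
    have hi2 : Integrable (fun z => F (phiMap g e ε 1 z)) (gam d) :=
      Integrable.of_bound
        ((hFc.comp (c.continuous_phiMap hDG e 1)).aestronglyMeasurable) 1
        (Filter.Eventually.of_forall fun z => hFbound _)
    rw [integral_sub hi1 hi2] at hq
    obtain ⟨Cj, -, hj⟩ := hTF 0
    have hm0 : m 0 = ∫ z, F (phiMap g e ε 1 z) ∂gam d := by
      simp [hm, (hj d U g c.pot).1]
    have hq0 := hmS 0 ⟨le_rfl, zero_le_one⟩
    rw [hm0] at hq0
    have hX2 : X ≤ 2 * ((2 * (ν + D * δ ^ k) + Cs * ζ) + D' * δ ^ k) := by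
      have : 0 ≤ X := le_trans (integral_nonneg fun z => integral_nonneg fun x => (hF01 _).1)
        (hGX 0 ⟨le_rfl, zero_le_one⟩)
      linarith [hq.2]
    refine (hGX r hr).trans (hX2.trans ?_)
    nlinarith [mul_nonneg hD0 hν0, mul_nonneg hD0 hζ, mul_nonneg hD'0 hν0, mul_nonneg hD'0 hζ,
      mul_nonneg hCs0 hν0, mul_nonneg hCs0 hδk]
  · refine (hmS s hs).trans (hS2.trans ?_)
    nlinarith [mul_nonneg hD0 hν0, mul_nonneg hD0 hζ, mul_nonneg hD'0 hν0, mul_nonneg hD'0 hζ,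
      mul_nonneg hD'0 hδk, mul_nonneg hCs0 hν0, mul_nonneg hCs0 hδk, mul_nonneg hCs0 hζ]

lemma norm_comp_le (c : Ctx Q U g A ε Λ M) {h : E d → ℝ} {gr : E d → E d}
    {he : E d → E d →L[ℝ] E d} (hT : Test h gr he 2) {f : E d → E d} {K : ℝ}
    (hf : ∀ z, ‖f z‖ ≤ K * (Λ + ‖z‖)) (z : E d) :
    ‖h (f z)‖ ≤ (|h 0| + 2 * K) * (Λ + ‖z‖) ^ 1 := by
  have h1 := test_lip hT (f z) 0
  rw [sub_zero] at h1
  have h2 := abs_sub_abs_le_abs_sub (h (f z)) (h 0)
  have h3 : |h 0| ≤ |h 0| * (Λ + ‖z‖) :=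
    le_mul_of_one_le_right (abs_nonneg _) (by linarith [norm_nonneg z, c.one_le])
  rw [Real.norm_eq_abs, pow_one]
  linarith [hf z]

lemma frob_avg {N : ℕ} {he : E d → E d →L[ℝ] E d} {F2 : E d → ℝ} (hF2c : Continuous F2)
    (hF2b : ∀ x, F2 x ∈ Set.Icc (0 : ℝ) 1) (hg2 : ∀ x, frob (he x) ^ 2 ≤ F2 x) {a : E d → E d}
    (hac : Continuous a) {ξ : E d → E N → E d} (hξc : Continuous fun p : E d × E N => ξ p.1 p.2)
    (r : ℝ) {σ : ℝ} (hσ : 0 < σ) (hX : ∫ z, ∫ x, F2 (a z + r • ξ z x) ∂gam N ∂gam d ≤ σ ^ 2) :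
    ∫ z, ∫ x, frob (he (a z + r • ξ z x)) ∂gam N ∂gam d ≤ σ := by
  have hcz : Continuous fun p : E d × E N =>
      F2 (a p.1 + r • ξ p.1 p.2) := by fun_prop
  have hb : ∀ z, ‖∫ x, F2 (a z + r • ξ z x) ∂gam N‖ ≤ 1 := fun z =>
    (norm_integral_le_of_norm_le (g := fun _ => (1 : ℝ)) (integrable_const _)
      (Filter.Eventually.of_forall fun x => by
        rw [Real.norm_eq_abs, abs_of_nonneg (hF2b _).1]; exact (hF2b _).2)).trans (by simp)
  have hiz : Integrable (fun z => ∫ x, F2 (a z + r • ξ z x) ∂gam N)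
      (gam d) :=
    Integrable.of_bound
      (hcz.stronglyMeasurable.integral_prod_right' (ν := gam N)).aestronglyMeasurable 1
      (Filter.Eventually.of_forall hb)
  refine le_trans (integral_mono_of_nonneg (Filter.Eventually.of_forall fun z =>
    integral_nonneg fun x => frob_nonneg _)
    ((hiz.const_mul (2 * σ)⁻¹).add (integrable_const (σ / 2)))
    (Filter.Eventually.of_forall fun z => ?_)) ?_
  · simp only [Pi.add_apply]
    have hix : Integrable (fun x => F2 (a z + r • ξ z x)) (gam N) :=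
      Integrable.of_bound (Continuous.aestronglyMeasurable (by fun_prop)) 1
        (Filter.Eventually.of_forall fun x => by
          rw [Real.norm_eq_abs, abs_of_nonneg (hF2b _).1]; exact (hF2b _).2)
    refine le_trans (integral_mono_of_nonneg (Filter.Eventually.of_forall fun x => frob_nonneg _)
      ((hix.const_mul (2 * σ)⁻¹).add (integrable_const (σ / 2)))
      (Filter.Eventually.of_forall fun x => ?_)) (le_of_eq ?_)
    · simp only [Pi.add_apply]
      have := le_amgm (frob_nonneg _) hσ (hg2 (a z + r • ξ z x))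
      rwa [div_eq_inv_mul] at this
    · rw [integral_add' (hix.const_mul _) (integrable_const _),
        integral_const_mul (2 * σ)⁻¹, integral_const]
      simp
  · rw [integral_add' (hiz.const_mul _) (integrable_const _), integral_const_mul (2 * σ)⁻¹,
      integral_const]
    simp only [probReal_univ, one_smul]
    calc (2 * σ)⁻¹ * ∫ z, ∫ x, F2 (a z + r • ξ z x) ∂gam N ∂gam d + σ / 2
        ≤ (2 * σ)⁻¹ * σ ^ 2 + σ / 2 := by
          gcongr
          
      _ = σ := by field_simp; ring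

/-- The rate of the interpolation against a test function with small gradient. -/
lemma rate_main (c : Ctx Q U g A ε Λ M) (hP : Poincare) (hG : GibbsProb)
    {DG : E d → E d →L[ℝ] E d} (hc : Continuous DG)
    (hDG : ∀ z, HasFDerivAt (gStar g) (DG z) z ∧ ‖DG z‖ ≤ 1 / 2) {h : E d → ℝ}
    {gr : E d → E d} {he : E d → E d →L[ℝ] E d} (hT : Test h gr he 2) {F1 : E d → ℝ}
    (hF1c : Continuous F1) (hF1b : ∀ x, F1 x ∈ Set.Icc (0 : ℝ) 1)
    (hg1 : ∀ x, ‖gr x‖ ^ 2 ≤ F1 x) {e : E d} {E0 : ℝ} (hE0 : 0 ≤ E0) (hen : ‖e‖ ≤ ε * E0 * Λ)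
    {s : ℝ} (hs : s ∈ Set.Icc (0 : ℝ) 1) {σ : ℝ} (hσ : 0 < σ)
    (hm : ∫ z, F1 (phiMap g e ε (1 - s) z) ∂tilt U (s * ε) ≤ σ ^ 2) {Cw Cp : ℝ}
    (hCw : ∫ z, (Λ + ‖z‖) ^ 2 ∂tilt U (s * ε) ≤ Cw * Λ ^ 2)
    (hψv : cov' (tilt U (s * ε)) (fun z => ⟪g z, gStar g z⟫) (fun z => ⟪g z, gStar g z⟫)
      ≤ Cp * Λ ^ 2) :
    |interpRate U g DG h gr e ε s|
      ≤ (1 / 2 + (E0 + M + 1) ^ 2 * Cw / 2 + (4 + Cp) / 2) * (ε ^ 2 * Λ) * σ := by
  have hμ := tilt_prob hG c.pot (c.sε_nonneg hs)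
  have hM := c.one_le_M
  have hgrow : ∀ (f : E d → E d) (K : ℝ), 0 ≤ K → (∀ z, ‖f z‖ ≤ K * (Λ + ‖z‖)) → ∀ z,
      ‖h (f z)‖ ≤ (|h 0| + 2 * K) * (Λ + ‖z‖) ^ 1 := fun f K _ hf => norm_comp_le c hT hf
  have hen' : ‖e‖ ≤ E0 * Λ :=
    hen.trans (mul_le_mul_of_nonneg_right (mul_le_of_le_one_left hE0 c.eps_le_one) c.Λ_pos.le)
  have hs' : 1 - s ∈ Set.Icc (0 : ℝ) 1 := ⟨by linarith [hs.2], by linarith [hs.1]⟩
  refine (c.rate_le hG hc hDG hT hE0 hen hs).trans ?_
  set δ := ε ^ 2 * Λ with hδ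
  have hδ0 : 0 < δ := mul_pos (pow_pos c.pos 2) c.Λ_pos
  set μ := tilt U (s * ε)
  set P := phiMap g e ε (1 - s) with hP'
  have hPc : Continuous P := c.continuous_phiMap hDG e _
  have hFi : Integrable (fun z => F1 (P z)) μ :=
    integrable_tilt hG c.pot (c.sε_nonneg hs) 0 _ (hF1c.comp hPc) 1 0 zero_le_one le_rfl fun z => by
      simpa [abs_of_nonneg (hF1b (P z)).1] using (hF1b (P z)).2
  set W := fun z : E d => ε ^ 2 * ((E0 + M + 1) * (Λ + ‖z‖)) with hW
  have hW2 : (fun z => W z ^ 2) = fun z => (ε ^ 2 * (E0 + M + 1)) ^ 2 * (Λ + ‖z‖) ^ 2 :=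
    funext fun z => by rw [← mul_pow, mul_assoc]
  have hWi : Integrable (fun z => W z ^ 2) μ := by
    refine integrable_tilt hG c.pot (c.sε_nonneg hs) 2 _ (by fun_prop)
      ((ε ^ 2 * (E0 + M + 1)) ^ 2) Λ (by positivity) c.Λ_pos.le fun z => ?_
    rw [Real.norm_eq_abs, abs_of_nonneg (sq_nonneg _), ← mul_pow, mul_assoc]
  have hWle : ∫ z, W z ^ 2 ∂μ ≤ (E0 + M + 1) ^ 2 * Cw * δ ^ 2 := by
    rw [hW2, integral_const_mul]
    refine (mul_le_mul_of_nonneg_left hCw (sq_nonneg _)).trans (le_of_eq ?_)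
    rw [hδ]; ring
  have h1 : ∫ z, ‖gr (P z)‖ * W z ∂μ
      ≤ (1 / 2 + (E0 + M + 1) ^ 2 * Cw / 2) * δ * σ := by
    refine (integral_mono_of_nonneg (Filter.Eventually.of_forall fun z =>
      mul_nonneg (norm_nonneg _) (mul_nonneg (sq_nonneg ε) (mul_nonneg (by linarith)
        (by linarith [norm_nonneg z, c.Λ_pos]))))
      ((hFi.const_mul (δ / (2 * σ))).add (hWi.const_mul (σ / (2 * δ))))
      (Filter.Eventually.of_forall fun z => mul_le_amgm hδ0 hσ (hg1 (P z)))).trans ?_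
    rw [integral_add' (hFi.const_mul _) (hWi.const_mul _), integral_const_mul, integral_const_mul]
    refine (add_le_add (mul_le_mul_of_nonneg_left hm (by positivity))
      (mul_le_mul_of_nonneg_left hWle (by positivity))).trans (le_of_eq ?_)
    field_simp
  set ψ := fun z => ⟪g z, gStar g z⟫
  set φ := fun z => h (P z)
  have hψc : Continuous ψ := (continuous_g c.pot).inner (continuous_gStar fun z => (hDG z).1)
  have hφc : Continuous φ := (test_continuous hT).comp hPc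
  have hφb := hgrow P (2 + M + E0) (by positivity) fun z => c.norm_phiMap_le hE0 hen' hs' z
  set Kφ := |h 0| + 2 * (2 + M + E0)
  have hKφ : 0 ≤ Kφ := by positivity
  have hnn : ∀ z : E d, 0 ≤ Λ + ‖z‖ := fun z => by linarith [norm_nonneg z, c.Λ_pos]
  have iφ : Integrable φ μ :=
    integrable_tilt hG c.pot (c.sε_nonneg hs) 1 _ hφc Kφ Λ hKφ c.Λ_pos.le hφb
  have iψ : Integrable ψ μ :=
    integrable_tilt hG c.pot (c.sε_nonneg hs) 2 _ hψc (1 + M) Λ (by linarith) c.Λ_pos.le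
      c.psi_growth
  have iφψ : Integrable (fun z => φ z * ψ z) μ :=
    integrable_tilt hG c.pot (c.sε_nonneg hs) 3 _ (hφc.mul hψc) (Kφ * (1 + M)) Λ
      (by positivity) c.Λ_pos.le fun z => by
        rw [norm_mul, show Kφ * (1 + M) * (Λ + ‖z‖) ^ 3
          = (Kφ * (Λ + ‖z‖) ^ 1) * ((1 + M) * (Λ + ‖z‖) ^ 2) by ring]
        exact mul_le_mul (hφb z) (c.psi_growth z) (norm_nonneg _)
          (mul_nonneg hKφ (pow_nonneg (hnn z) 1))
  have iφφ : Integrable (fun z => φ z * φ z) μ :=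
    integrable_tilt hG c.pot (c.sε_nonneg hs) 2 _ (hφc.mul hφc) (Kφ * Kφ) Λ
      (by positivity) c.Λ_pos.le fun z => by
        rw [norm_mul, show Kφ * Kφ * (Λ + ‖z‖) ^ 2
          = (Kφ * (Λ + ‖z‖) ^ 1) * (Kφ * (Λ + ‖z‖) ^ 1) by ring]
        exact mul_le_mul (hφb z) (hφb z) (norm_nonneg _)
          (mul_nonneg hKφ (pow_nonneg (hnn z) 1))
  have iψψ : Integrable (fun z => ψ z * ψ z) μ :=
    integrable_tilt hG c.pot (c.sε_nonneg hs) 4 _ (hψc.mul hψc) ((1 + M) * (1 + M)) Λ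
      (by positivity) c.Λ_pos.le fun z => by
        rw [norm_mul, show (1 + M) * (1 + M) * (Λ + ‖z‖) ^ 4
          = ((1 + M) * (Λ + ‖z‖) ^ 2) * ((1 + M) * (Λ + ‖z‖) ^ 2) by ring]
        exact mul_le_mul (c.psi_growth z) (c.psi_growth z) (norm_nonneg _)
          (mul_nonneg (by linarith) (pow_nonneg (hnn z) 2))
  have hφv : cov' μ φ φ ≤ 4 * σ ^ 2 := by
    set Lz := fun z : E d =>
      ((InnerProductSpace.toDual ℝ (E d)) (gr (P z))).comp
        (ContinuousLinearMap.id ℝ (E d) - ((1 - s) * ε) • DG z) with hLz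
    have hd : ∀ z, HasFDerivAt φ (Lz z) z := fun z =>
      (hT.grad (P z)).hasFDerivAt.comp z
        ((hasFDerivAt_id z).sub (((hDG z).1.add_const e).const_smul ((1 - s) * ε)))
    have hsm : Continuous fun z => ((1 - s) * ε) • DG z := hc.const_smul ((1 - s) * ε)
    have hgc : Continuous fun z => riesz d (Lz z) :=
      (riesz d).continuous.comp (((InnerProductSpace.toDual ℝ (E d)).continuous.comp
        ((test_continuous_gr hT).comp hPc)).clm_comp (continuous_const.sub hsm))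
    have hgd : ∀ z, HasGradientAt φ (riesz d (Lz z)) z := fun z => (hd z).hasGradientAt
    have hgn : ∀ z, ‖riesz d (Lz z)‖ ≤ 2 * ‖gr (P z)‖ := fun z => by
      rw [show riesz d (Lz z) = (InnerProductSpace.toDual ℝ (E d)).symm (Lz z) from rfl,
        LinearIsometryEquiv.norm_map]
      refine (ContinuousLinearMap.opNorm_comp_le _ _).trans ?_
      rw [LinearIsometryEquiv.norm_map, mul_comm 2]
      refine mul_le_mul_of_nonneg_left ((norm_sub_le _ _).trans ?_) (norm_nonneg _)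
      have h2 : ‖((1 - s) * ε) • DG z‖ ≤ 1 := by
        rw [norm_smul, Real.norm_eq_abs, abs_of_nonneg (mul_nonneg hs'.1 c.pos.le)]
        exact mul_le_one₀ (mul_le_one₀ hs'.2 c.pos.le c.eps_le_one) (norm_nonneg _)
          ((hDG z).2.trans (by norm_num))
      linarith [ContinuousLinearMap.norm_id_le (𝕜 := ℝ) (E := E d)]
    have hp := hP d _ _ 1 (c.pot.logConc (c.sε_nonneg hs)) φ _ hgc hgd 4 0 fun z => by
      rw [pow_zero, mul_one]; linarith [hgn z, hT.grad_le (P z)]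
    rw [div_one] at hp
    refine hp.trans ((integral_mono_of_nonneg (Filter.Eventually.of_forall fun z => sq_nonneg _)
      (hFi.const_mul 4) (Filter.Eventually.of_forall fun z => ?_)).trans ?_)
    · simp only
      have := pow_le_pow_left₀ (norm_nonneg _) (hgn z) 2
      rw [mul_pow] at this
      linarith [hg1 (P z)]
    · rw [integral_const_mul]
      linarith
  have hσ' : 0 < σ / Λ := div_pos hσ c.Λ_pos
  have hcov := abs_cov_le μ φ ψ hσ' iφ iψ iφψ iφφ iψψ
  have h2 : ε ^ 2 * |cov' μ φ ψ| ≤ (4 + Cp) / 2 * δ * σ := by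
    refine (mul_le_mul_of_nonneg_left (hcov.trans (div_le_div_of_nonneg_right
      (add_le_add (div_le_div_of_nonneg_right hφv hσ'.le)
        (mul_le_mul_of_nonneg_left hψv hσ'.le)) zero_le_two)) (sq_nonneg ε)).trans (le_of_eq ?_)
    have := c.Λ_pos
    rw [hδ]; field_simp
  refine (add_le_add h1 h2).trans (le_of_eq ?_)
  ring

/-- The step against the deterministic map. -/
lemma step_shift (hGS : GaussShift) (c : Ctx Q U g A ε Λ M) {h : E d → ℝ} {gr : E d → E d}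
    {he : E d → E d →L[ℝ] E d} (hT : Test h gr he 2) {σ : ℝ} (hσ : 0 ≤ σ)
    (hi2 : Integrable (fun z => h (aMap Q g ε (∫ y, corr Q g ε (blocks y) ∂noise d q) z)) (gam d))
    (hK : ∀ r ∈ Set.Icc (0 : ℝ) 1,
      ∫ z, ∫ x, frob (he (aMap Q g ε (∫ y, corr Q g ε (blocks y) ∂noise d q) z
        + r • xi Q g ε (∫ y, corr Q g ε (blocks y) ∂noise d q) z x)) ∂noise d q ∂gam d ≤ σ) :
    |(∫ x, h (xhat Q g ε (blocks x)) ∂noise d q)
        - ∫ z, h (aMap Q g ε (∫ y, corr Q g ε (blocks y) ∂noise d q) z) ∂gam d|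
      ≤ (3 + 3 * A) ^ 2 * (ε ^ 2 * Λ) * σ := by
  have hA := c.one_le_A
  set e := ∫ y, corr Q g ε (blocks y) ∂noise d q with he'
  have hac : Continuous (aMap Q g ε e) := c.continuous_aMap e
  have hξc := c.continuous_xi (Q := Q) e
  set δ := ε ^ 2 * Λ with hδ
  have hshift := shift hGS hT (aMap Q g ε e) hac (xi Q g ε e) hξc (ε * (3 + 3 * A))
    (mul_nonneg c.pos.le (by linarith)) (c.xi_lip e) (c.contDiff_xi e)
    (fun z => by have := c.integral_xi z; rw [← he'] at this; exact this) σ hK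
  have hshift' : (ε * (3 + 3 * A)) ^ 2 * Real.sqrt d * σ ≤ (3 + 3 * A) ^ 2 * δ * σ := by
    refine mul_le_mul_of_nonneg_right ?_ hσ
    rw [mul_pow, mul_comm (ε ^ 2), mul_assoc]
    exact mul_le_mul_of_nonneg_left (mul_le_mul_of_nonneg_left c.dim (sq_nonneg ε)) (sq_nonneg _)
  -- integrability and Fubini
  have hxl : ∀ x y, ‖h (xhat Q g ε (blocks x)) - h (xhat Q g ε (blocks y))‖
      ≤ 2 * (4 + 4 * A) * ‖x - y‖ := fun x y => by
    rw [Real.norm_eq_abs, mul_assoc]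
    exact (test_lip hT _ _).trans (mul_le_mul_of_nonneg_left (c.xhat_lip x y) zero_le_two)
  have hxi : Integrable (fun x => h (xhat Q g ε (blocks x))) (noise d q) := integrable_lip _ _ hxl
  have hxc : Continuous fun x => h (xhat Q g ε (blocks x)) :=
    (LipschitzWith.of_dist_le' fun x y => by simpa [dist_eq_norm] using hxl x y).continuous
  have hfub : ∫ x, h (xhat Q g ε (blocks x)) ∂noise d q
      = ∫ z, ∫ x, h (aMap Q g ε e z + xi Q g ε e z x) ∂noise d q ∂gam d := by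
    rw [BlockLaw.integral_repl (i0 q) _ hxc hxi]
    simp only [xhat_repl ε e]
  have hi1 : Integrable (fun z => ∫ x, h (aMap Q g ε e z + xi Q g ε e z x) ∂noise d q) (gam d) := by
    have hm := (BlockLaw.continuous_repl (d := d) (i0 q)).aemeasurable
      (μ := (gam d).prod (noise d q))
    have hh : Integrable (fun x => h (xhat Q g ε (blocks x)))
        (((gam d).prod (noise d q)).map fun p => BlockLaw.repl (i0 q) p.1 p.2) := by
      rwa [BlockLaw.map_repl]
    have := (hh.comp_aemeasurable hm).integral_prod_left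
    simpa only [Function.comp_def, xhat_repl ε e] using this
  rw [hfub, ← integral_sub hi1 hi2]
  exact hshift.trans hshift'

/-- Both ends are integrable. -/
lemma ends_integrable (hTF : TiltFacts) (hG : GibbsProb) (c : Ctx Q U g A ε Λ M)
    {DG : E d → E d →L[ℝ] E d} (hDG : ∀ z, HasFDerivAt (gStar g) (DG z) z ∧ ‖DG z‖ ≤ 1 / 2)
    {h : E d → ℝ} {gr : E d → E d} {he : E d → E d →L[ℝ] E d} (hT : Test h gr he 2) {e : E d}
    {E0 : ℝ} (hE0 : 0 ≤ E0) (hen : ‖e‖ ≤ ε * E0 * Λ) :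
    Integrable (fun z => h (aMap Q g ε e z)) (gam d) ∧
      Integrable (fun z => h (phiMap g e ε 1 z)) (gam d) := by
  have hM := c.one_le_M
  have hA := c.one_le_A
  have hac : Continuous (aMap Q g ε e) := c.continuous_aMap e
  obtain ⟨Cj, -, hj⟩ := hTF 0
  have h0 : tilt U 0 = gam d := (hj d U g c.pot).1
  have hgrow : ∀ (f : E d → E d) (K : ℝ), 0 ≤ K → (∀ z, ‖f z‖ ≤ K * (Λ + ‖z‖)) → ∀ z,
      ‖h (f z)‖ ≤ (|h 0| + 2 * K) * (Λ + ‖z‖) ^ 1 := fun f K _ hf => norm_comp_le c hT hf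
  have hi2 : Integrable (fun z => h (aMap Q g ε e z)) (gam d) := by
    rw [← h0]
    refine integrable_tilt hG c.pot le_rfl 1 _ ((test_continuous hT).comp hac) _ Λ ?_ c.Λ_pos.le
      (hgrow _ (1 + A * (1 + M) + E0) (by positivity) fun z => ?_)
    · positivity
    · unfold aMap
      refine (norm_sub_le _ _).trans ?_
      rw [norm_smul, Real.norm_eq_abs, abs_of_pos c.pos]
      refine (add_le_add le_rfl ((mul_le_of_le_one_left (norm_nonneg _) c.eps_le_one).trans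
        ((norm_add_le _ _).trans (add_le_add (c.norm_gQuad z)
          (hen.trans (mul_le_mul_of_nonneg_right (mul_le_of_le_one_left hE0 c.eps_le_one)
            c.Λ_pos.le)))))).trans ?_
      nlinarith [norm_nonneg z, c.Λ_pos, mul_nonneg hE0 (norm_nonneg z)]
  have hen' : ‖e‖ ≤ E0 * Λ :=
    hen.trans (mul_le_mul_of_nonneg_right (mul_le_of_le_one_left hE0 c.eps_le_one) c.Λ_pos.le)
  have hi3 : Integrable (fun z => h (phiMap g e ε 1 z)) (gam d) := by
    rw [← h0]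
    exact integrable_tilt hG c.pot le_rfl 1 _
      ((test_continuous hT).comp (c.continuous_phiMap hDG e 1)) _ Λ (by positivity) c.Λ_pos.le
      (hgrow _ (2 + M + E0) (by positivity) fun z =>
        c.norm_phiMap_le hE0 hen' ⟨zero_le_one, le_rfl⟩ z)
  exact ⟨hi2, hi3⟩

/-- One step against a test function with small first and second derivatives. -/
lemma main_bound (hGS : GaussShift) (hSB : SelfBound) (hP : Poincare) (hCM : CentralMoments)
    (hTF : TiltFacts) (hI : Interp) (hG : GibbsProb) (k : ℕ) (hk : 1 ≤ k) {A M : ℝ} (hA : 1 ≤ A)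
    (hM : 1 ≤ M) :
    ∃ C : ℝ, 0 ≤ C ∧ ∀ d q : ℕ, ∀ Q : Quad q, ∀ U : E d → ℝ, ∀ g : E d → E d, ∀ ε Λ ζ : ℝ,
      Ctx Q U g A ε Λ M → QuadErr Q g ζ →
      ∀ DG : E d → E d →L[ℝ] E d, Continuous DG →
      (∀ z, HasFDerivAt (gStar g) (DG z) z ∧ ‖DG z‖ ≤ 1 / 2) →
      ∀ h gr he, Test h gr he 2 →
      ∀ Φ₁ Φ₂ : E d → ℝ, ∀ τ : ℝ, Measurable Φ₁ → Measurable Φ₂ →
        (∀ x, 0 ≤ Φ₁ x) → (∀ x, Φ₁ x ≤ 1) → (∀ x, 0 ≤ Φ₂ x) → (∀ x, Φ₂ x ≤ 1) →
        1 / 4 ≤ τ → τ ≤ 4 →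
        (∀ x, ‖gr x‖ ^ 2 ≤ sm τ Φ₁ x) → (∀ x, frob (he x) ^ 2 ≤ sm τ Φ₂ x) →
        |(∫ x, h (xhat Q g ε (blocks x)) ∂noise d q) - ∫ z, h z ∂tilt U ε|
          ≤ C * (ε ^ 2 * Λ) * Real.sqrt ((∫ z, sm τ Φ₁ z ∂tilt U ε) + (∫ z, sm τ Φ₂ z ∂tilt U ε)
                + (ε ^ 2 * Λ) ^ k + ζ)
            + C * ζ := by
  obtain ⟨C0, hC00, hC0⟩ := level hGS hSB hP hCM hTF hI hG k hk hA hM
  obtain ⟨Cw, hCw0, hCw⟩ := integral_shifted_pow_le hG hTF 2
  obtain ⟨Cp, hCp0, hCp⟩ := psi_moments hG hP hCM hTF k hk hM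
  set E0 := A * (1 + 2 * M)
  have hE0 : 0 ≤ E0 := by positivity
  set K1 := 1 / 2 + (E0 + M + 1) ^ 2 * Cw / 2 + (4 + Cp) / 2 with hK1
  have hK10 : 0 ≤ K1 := by positivity
  refine ⟨((3 + 3 * A) ^ 2 + K1) * Real.sqrt (2 * C0 + 1) + 2, by positivity,
    fun d q Q U g ε Λ ζ c hz DG hc hDG h gr he hT Φ₁ Φ₂ τ hm1 hm2 h10 h11 h20 h21 hτ1 hτ2 hg1 hg2
      => ?_⟩
  obtain ⟨hF1c, -, hS1⟩ := hC0 d q Q U g ε Λ ζ c hz DG hc hDG Φ₁ τ hm1 h10 h11 hτ1 hτ2
  obtain ⟨hF2c, hX2, -⟩ := hC0 d q Q U g ε Λ ζ c hz DG hc hDG Φ₂ τ hm2 h20 h21 hτ1 hτ2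
  set F1 := sm τ Φ₁
  set F2 := sm τ Φ₂
  have hF1b : ∀ x, F1 x ∈ Set.Icc (0 : ℝ) 1 := sm_mem h10 h11
  have hF2b : ∀ x, F2 x ∈ Set.Icc (0 : ℝ) 1 := sm_mem h20 h21
  set e := ∫ y, corr Q g ε (blocks y) ∂noise d q with he'
  have hen : ‖e‖ ≤ ε * E0 * Λ := c.norm_corr_mean
  set δ := ε ^ 2 * Λ with hδ
  have hδ0 : 0 < δ := mul_pos (pow_pos c.pos 2) c.Λ_pos
  have hn1 : 0 ≤ ∫ z, F1 z ∂tilt U ε := integral_nonneg fun z => (hF1b z).1
  have hn2 : 0 ≤ ∫ z, F2 z ∂tilt U ε := integral_nonneg fun z => (hF2b z).1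
  have hδk : 0 < δ ^ k := pow_pos hδ0 k
  set T := (∫ z, F1 z ∂tilt U ε) + (∫ z, F2 z ∂tilt U ε) + δ ^ k + ζ with hTd
  have hT0 : 0 < T := by linarith [hz.1]
  set σ := Real.sqrt ((2 * C0 + 1) * T) with hσd
  have hσ : 0 < σ := Real.sqrt_pos.2 (by positivity)
  have hσsq : σ ^ 2 = (2 * C0 + 1) * T := Real.sq_sqrt (by positivity)
  have hX1 : C0 * ((∫ z, F1 z ∂tilt U ε) + δ ^ k + ζ) ≤ σ ^ 2 := by
    rw [hσsq]; nlinarith [hz.1]
  have hX2' : C0 * ((∫ z, F2 z ∂tilt U ε) + δ ^ k + ζ) ≤ σ ^ 2 := by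
    rw [hσsq]; nlinarith [hz.1]
  have hac : Continuous (aMap Q g ε e) := c.continuous_aMap e
  have hξc := c.continuous_xi (Q := Q) e
  -- the random shift
  have hK : ∀ r ∈ Set.Icc (0 : ℝ) 1,
      ∫ z, ∫ x, frob (he (aMap Q g ε e z + r • xi Q g ε e z x)) ∂noise d q ∂gam d ≤ σ :=
    fun r hr => frob_avg hF2c hF2b hg2 hac hξc r hσ ((hX2 r hr).trans hX2')
  obtain ⟨hi2, hi3⟩ := ends_integrable hTF hG c hDG hT hE0 hen
  -- the rate
  have hrate : ∀ s ∈ Set.Icc (0 : ℝ) 1, |interpRate U g DG h gr e ε s| ≤ K1 * δ * σ := fun s hs =>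
    rate_main c hP hG hc hDG hT hF1c hF1b hg1 hE0 hen hs hσ ((hS1 s hs).trans hX1)
      (hCw d U g c.pot Λ _ c.one_le c.dim c.g0 (c.sε_nonneg hs) (c.sε_le_one hs))
      (hCp d q Q U g A ε Λ c DG hc hDG (s * ε) (c.sε_nonneg hs) (c.sε_le_one hs)).1
  have hend := endpoints hI hTF c hc hDG hT e
  have hint : |∫ s in (0 : ℝ)..1, interpRate U g DG h gr e ε s| ≤ K1 * δ * σ := by
    have := intervalIntegral.norm_integral_le_of_norm_le_const (a := (0 : ℝ)) (b := 1)
      (f := fun s => interpRate U g DG h gr e ε s) (C := K1 * δ * σ) fun s hs => by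
        rw [Set.uIoc_of_le zero_le_one] at hs
        exact hrate s ⟨hs.1.le, hs.2⟩
    simpa using this
  have hquad := quad_shift c hG hTF (continuous_gStar fun z => (hDG z).1) hz hT e
  rw [integral_sub hi2 hi3] at hquad
  have hsh := step_shift hGS c hT hσ.le hi2 hK
  rw [← hend] at hint
  have hσeq : σ = Real.sqrt (2 * C0 + 1) * Real.sqrt T := Real.sqrt_mul (by positivity) _
  refine (show |(∫ x, h (xhat Q g ε (blocks x)) ∂noise d q) - ∫ z, h z ∂tilt U ε|
      ≤ ((3 + 3 * A) ^ 2 + K1) * δ * σ + 2 * ζ by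
    rw [abs_le] at hint hquad hsh ⊢
    constructor <;> linarith [hint.1, hint.2, hquad.1, hquad.2, hsh.1, hsh.2]).trans ?_
  rw [hσeq]
  have hS := mul_nonneg (mul_nonneg (add_nonneg (sq_nonneg (3 + 3 * A)) hK10)
    (Real.sqrt_nonneg (2 * C0 + 1))) hz.1
  have hT' := mul_nonneg (mul_nonneg zero_le_two hδ0.le) (Real.sqrt_nonneg T)
  nlinarith

end Step

/-- One step against a smoothed test function, the linear part left apart. -/
theorem stepBound (hSD : StarDeriv) (hGS : GaussShift) (hSB : SelfBound) (hP : Poincare)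
    (hCM : CentralMoments) (hTF : TiltFacts) (hI : Interp) (hG : GibbsProb) : StepBound := by
  intro k hk A hA
  obtain ⟨M, hM, hM'⟩ := Step.integral_norm_gam_le hTF
  obtain ⟨C, hC, hC'⟩ := Step.main_bound hGS hSB hP hCM hTF hI hG k hk hA hM
  refine ⟨1, C, one_pos, hC, ?_⟩
  intro d q Q hQ U g hU ε Λ ζ hε hε1 hΛ hd hg0 _ hz h gr he hT c hc Φ₁ Φ₂ τ hm1 hm2 h10 h11 h20
    h21 hτ1 hτ2 hg1 hg2
  have ctx : Step.Ctx Q U g A ε Λ M :=
    ⟨hU, hQ, hA, hε, hε1, hΛ, hd, hg0, hM, hM' d U g hU Λ hΛ hd hg0⟩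
  obtain ⟨DG, hDc, hDG⟩ := hSD d U g hU
  have hT' : Test (fun x => h x - ⟪c, x⟫) (fun x => gr x - c) he 2 := by
    refine ⟨fun x => ?_, fun x => (hT.hess x).sub_const c, hT.hess_cont,
      fun x => (norm_sub_le _ _).trans (by linarith [hT.grad_le x]),
      fun x => (hT.hess_le x).trans one_le_two⟩
    rw [hasGradientAt_iff_hasFDerivAt, map_sub]
    exact (hT.grad x).hasFDerivAt.sub (innerSL ℝ c).hasFDerivAt
  have key := hC' d q Q U g ε Λ ζ ctx hz DG hDc hDG _ _ he hT' Φ₁ Φ₂ τ hm1 hm2 h10 h11 h20 h21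
    hτ1 hτ2 hg1 hg2
  have := Step.noise_isProb d q
  have := Step.tilt_prob hG hU hε.le
  have i1 : Integrable (fun x => h (xhat Q g ε (blocks x))) (noise d q) :=
    Step.integrable_lip _ (1 * (4 + 4 * A)) fun x y => by
      rw [Real.norm_eq_abs, mul_assoc]
      exact (Step.test_lip hT _ _).trans
        (mul_le_mul_of_nonneg_left (ctx.xhat_lip x y) zero_le_one)
  have i2 : Integrable (fun x => xhat Q g ε (blocks x)) (noise d q) :=
    Step.integrable_lip _ _ ctx.xhat_lip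
  have i3 : Integrable h (tilt U ε) := by
    refine Step.integrable_tilt hG hU hε.le 1 _ (Step.test_continuous hT) (|h 0| + 1) Λ
      (by positivity) ctx.Λ_pos.le fun z => ?_
    have h1 := Step.test_lip hT z 0
    rw [sub_zero] at h1
    have h2 := abs_sub_abs_le_abs_sub (h z) (h 0)
    rw [Real.norm_eq_abs, pow_one]
    nlinarith [norm_nonneg z, abs_nonneg (h 0)]
  have i4 : Integrable (fun z : E d => z) (tilt U ε) :=
    Step.integrable_tilt hG hU hε.le 1 _ continuous_id 1 Λ zero_le_one ctx.Λ_pos.le fun z => by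
      rw [pow_one, one_mul]; exact le_add_of_nonneg_left ctx.Λ_pos.le
  rw [integral_sub i1 (i2.const_inner c), integral_sub i3 (i4.const_inner c),
    integral_inner i2, integral_inner i4] at key
  rwa [inner_sub_right, ← sub_sub_sub_comm]

end Vale.Agent.P347
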