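import Vale.Agent.P347.Assembly
import Vale.Agent.P347.AlgoRun
import Vale.Agent.P347.Quadrature
import Vale.Agent.P347.Phase1
import Vale.Agent.P347.ChainError
import Vale.Agent.P347.Step
import Vale.Agent.P347.Mean
import Vale.Agent.P347.GaussCov
import Vale.Agent.P347.GaussShift
import Vale.Agent.P347.Tilt
import Vale.Agent.P347.Smooth
import Vale.Agent.P347.Final
import Vale.Agent.P347.ProxLip

/-!
P347: a sampler of one proximal step with `d^κ` queries for every `κ > 0` gives `γ* = 0`.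
-/

namespace Vale.Agent.P347

open MeasureTheory ProbabilityTheory Filter

/-- One proximal step with subpolynomially many queries, within `1/d` after smoothing, for
centres in the ball of radius `d`. -/
def InnerSampler : Prop :=
  ∀ ι κ : ℝ, 0 < ι → 0 < κ → ∀ᶠ d : ℕ in atTop,
    ∀ η : ℝ, ((d : ℝ) ^ 3)⁻¹ ≤ η → η ≤ (d : ℝ) ^ (-ι) →
      ∃ N : ℕ, (N : ℝ) ≤ (d : ℝ) ^ κ ∧
        ∃ T : (E d → ℝ) → (E d → ℝ) → E d → ℝ, AlgoRun.Impl d N T ∧
          ∀ V, Admissible d V → ∀ f : E d → ℝ, Measurable f → (∀ x, |f x| ≤ 1) →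
            ∀ y : E d, ‖y‖ ≤ d → |T V f y - mop V η f y| ≤ 1 / d

namespace Zero

open AlgoRun

variable {d N : ℕ} {V : E d → ℝ} {η : ℝ} {T : (E d → ℝ) → (E d → ℝ) → E d → ℝ}

lemma impl_good (h : Impl d N T) (hV : Admissible d V) {f : E d → ℝ} (hf : Measurable f)
    (hb : ∀ x, |f x| ≤ 1) : Measurable (T V f) ∧ ∀ y, |T V f y| ≤ 1 := by
  obtain ⟨Ω, _, μ, _, F, -, hF, e⟩ := h
  rw [show T V f = fun y => ∫ ω, f (F V (ω, y)) ∂μ from funext (e V hV f hf hb)]
  exact ⟨((hf.comp (hF.measurable hV)).stronglyMeasurable.comp_measurable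
      measurable_swap).integral_prod_right'.measurable,
    fun y => Final.abs_integral_le_of_bound _ fun ω => hb _⟩

/-- Halfway between the point and the start. -/
lemma impl_shift (h : Impl d N T) :
    Impl d N fun V f y => T V (fun u => f ((2 : ℝ)⁻¹ • (u + y))) y := by
  obtain ⟨Ω, _, μ, _, F, hG, hF, e⟩ := h
  refine ⟨Ω, inferInstance, μ, inferInstance,
    fun V p => (2 : ℝ)⁻¹ • (F V p + p.2), hG, ?_, fun V hV f hf hb y => ?_⟩
  · exact ((hF.carry (W := E d)).precomp (g := fun p : Ω × E d => (p, p.2)) (by fun_prop)).postcomp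
      (g := fun x : E d × E d => (2 : ℝ)⁻¹ • (x.2 + x.1)) (by fun_prop)
  · exact e V hV (fun u => f ((2 : ℝ)⁻¹ • (u + y))) (hf.comp (by fun_prop)) (fun x => hb _) y

/-- Iterating a step. -/
lemma impl_iter (h : Impl d N T) {k : ℕ} {R : (E d → ℝ) → (E d → ℝ) → E d → ℝ}
    (hR : Impl d k R) : ∀ n : ℕ, Impl d (n * N + k) fun V f => (T V)^[n] (R V f)
  | 0 => by simpa using hR
  | n + 1 => by
    rw [show (n + 1) * N + k = N + (n * N + k) by ring]
    simpa only [Function.iterate_succ_apply'] using impl_comp h (impl_iter h hR n)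

/-- A Lipschitz majorant of the indicator of the outside of the ball of radius `d`. -/
noncomputable def φ (d : ℕ) (y : E d) : ℝ := max 0 (min 1 (2 * ‖y‖ / d - 1))

lemma phi_nonneg (y : E d) : 0 ≤ φ d y := le_max_left _ _

lemma phi_le_one (y : E d) : φ d y ≤ 1 := max_le zero_le_one (min_le_left _ _)

lemma abs_phi (y : E d) : |φ d y| ≤ 1 := by
  rw [abs_of_nonneg (phi_nonneg y)]; exact phi_le_one y

lemma continuous_phi : Continuous (φ d) := by unfold φ; fun_prop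

lemma phi_le (y : E d) : φ d y ≤ 2 * ‖y‖ / d :=
  max_le (by positivity) ((min_le_right _ _).trans (by linarith))

lemma phi_eq_one (hd : 1 ≤ d) {y : E d} (hy : (d : ℝ) < ‖y‖) : φ d y = 1 := by
  have hd0 : (0 : ℝ) < d := by exact_mod_cast hd
  have : 1 ≤ 2 * ‖y‖ / d - 1 := by
    rw [le_sub_iff_add_le, le_div_iff₀ hd0]; linarith
  simp [φ, min_eq_left this]

lemma phi_lip (a b : E d) : |φ d a - φ d b| ≤ 2 / d * ‖a - b‖ := by
  unfold φ
  refine ((abs_max_sub_max_le_max _ _ _ _).trans (max_le (by simp) le_rfl)).trans ?_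
  refine ((abs_min_sub_min_le_max _ _ _ _).trans (max_le (by simp) le_rfl)).trans ?_
  rw [show 2 * ‖a‖ / (d : ℝ) - 1 - (2 * ‖b‖ / d - 1) = 2 / d * (‖a‖ - ‖b‖) by ring, abs_mul,
    abs_of_nonneg (show (0 : ℝ) ≤ 2 / d by positivity)]
  exact mul_le_mul_of_nonneg_left (abs_norm_sub_norm_le a b) (by positivity)

/-- The error of one step, everywhere. -/
lemma step_error (hd : 1 ≤ d) (hT : Impl d N T) (hV : Admissible d V) (hη : 0 < η)
    (hη1 : η ≤ 1)
    (herr : ∀ f : E d → ℝ, Measurable f → (∀ x, |f x| ≤ 1) → ∀ y : E d, ‖y‖ ≤ d →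
      |T V f y - mop V η f y| ≤ 1 / d)
    {f : E d → ℝ} (hf : Measurable f) (hb : ∀ x, |f x| ≤ 1) (y : E d) :
    |T V f y - mop V η f y| ≤ 1 / d + 2 * φ d y := by
  rcases le_or_gt ‖y‖ (d : ℝ) with h | h
  · linarith [herr f hf hb y h, phi_nonneg y]
  · have h1 := (impl_good hT hV hf hb).2 y
    have h2 := (((mopFacts gibbsProb) d V hV η hη hη1).2.1 f hf hb).2.1 y
    rw [phi_eq_one hd h]
    have : (0 : ℝ) ≤ 1 / d := by positivity
    linarith [abs_sub (T V f y) (mop V η f y)]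

lemma mop_mono (hV : Admissible d V) (hη : 0 < η) {u w : E d → ℝ} (hu : u ∈ Phase1.bdd d)
    (hw : w ∈ Phase1.bdd d) (h : ∀ x, |u x| ≤ w x) (y : E d) :
    |mop V η u y| ≤ mop V η w y := by
  have := Phase1.isProb_prox gibbsProb hV hη y
  have hi : ∀ x, Integrable (fun z => w (x + Real.sqrt η • z)) (gam d) := fun x =>
    Phase1.integrable_of_bdd ⟨hw.1.comp (by fun_prop), hw.2.choose, fun z => hw.2.choose_spec _⟩
  have hs : ∀ x, |sm η u x| ≤ sm η w x := fun x =>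
    abs_integral_le_integral_abs.trans (integral_mono_of_nonneg
      (Eventually.of_forall fun z => abs_nonneg _) (hi x) (Eventually.of_forall fun z => h _))
  exact abs_integral_le_integral_abs.trans (integral_mono_of_nonneg
    (Eventually.of_forall fun x => abs_nonneg _) (Phase1.integrable_of_bdd (Phase1.sm_mem η hw))
    (Eventually.of_forall hs))

lemma mop_const (hV : Admissible d V) (hη : 0 < η) (c : ℝ) (y : E d) :
    mop V η (fun _ => c) y = c := by
  have := Phase1.isProb_prox gibbsProb hV hη y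
  simp [mop, sm]

/-- The iterates of a bounded function. -/
lemma iter_mem (hV : Admissible d V) (hη : 0 < η) (hη1 : η ≤ 1) {f : E d → ℝ}
    (hf : Measurable f) (hb : ∀ x, |f x| ≤ 1) :
    ∀ n, Measurable ((mop V η)^[n] f) ∧ ∀ x, |(mop V η)^[n] f x| ≤ 1
  | 0 => ⟨hf, hb⟩
  | n + 1 => by
    obtain ⟨h1, h2⟩ := iter_mem hV hη hη1 hf hb n
    rw [Function.iterate_succ_apply']
    obtain ⟨a, b, -⟩ := ((mopFacts gibbsProb) d V hV η hη hη1).2.1 _ h1 h2
    exact ⟨a, b⟩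

lemma iter_integral (hV : Admissible d V) (hη : 0 < η) (hη1 : η ≤ 1) {f : E d → ℝ}
    (hf : Measurable f) (hb : ∀ x, |f x| ≤ 1) :
    ∀ n, ∫ y, (mop V η)^[n] f y ∂pLaw V η = ∫ y, f y ∂pLaw V η
  | 0 => rfl
  | n + 1 => by
    obtain ⟨h1, h2⟩ := iter_mem hV hη hη1 hf hb n
    rw [Function.iterate_succ_apply',
      (((mopFacts gibbsProb) d V hV η hη hη1).2.1 _ h1 h2).2.2.2.2.2,
      iter_integral hV hη hη1 hf hb n]

lemma iter_lip (hV : Admissible d V) (hη : 0 < η) (hη1 : η ≤ 1) {f : E d → ℝ}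
    (hf : Measurable f) (hb : ∀ x, |f x| ≤ 1) {L : ℝ} (hL : 0 ≤ L)
    (hlip : ∀ a b, |f a - f b| ≤ L * ‖a - b‖) :
    ∀ n a b, |(mop V η)^[n] f a - (mop V η)^[n] f b| ≤ L * ((1 + η) ^ n)⁻¹ * ‖a - b‖
  | 0, a, b => by simpa using hlip a b
  | n + 1, a, b => by
    obtain ⟨h1, h2⟩ := iter_mem hV hη hη1 hf hb n
    have hL' : 0 ≤ L * ((1 + η) ^ n)⁻¹ := by positivity
    rw [Function.iterate_succ_apply']
    refine (ProxLip.mop_lip hV hη h1 h2 hL'
      (Contraction.sm_lip_of_lip h2 hL' (iter_lip hV hη hη1 hf hb hL hlip n)) a b).trans (le_of_eq ?_)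
    rw [pow_succ]
    field_simp

lemma norm_mean (hV : Admissible d V) (hd : 1 ≤ d) {C : ℝ}
    (hmom : Integrable (fun y : E d => ‖y‖ ^ (2 * 1)) (pLaw V η) ∧
      ∫ y, ‖y‖ ^ (2 * 1) ∂pLaw V η ≤ C * (d : ℝ) ^ 1) :
    Integrable (fun y : E d => ‖y‖) (pLaw V η) ∧
      ∫ y, ‖y‖ ∂pLaw V η ≤ (C + 1) * Real.sqrt d := by
  have := isProb_pLaw gibbsProb hV η
  obtain ⟨hi, hle⟩ := hmom
  simp only [mul_one, pow_one] at hi hle
  have hs : 0 < Real.sqrt d := Real.sqrt_pos.2 (by exact_mod_cast hd)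
  have hp : ∀ y : E d, ‖y‖ ≤ Real.sqrt d + (Real.sqrt d)⁻¹ * ‖y‖ ^ 2 := fun y => by
    rw [inv_mul_eq_div, ← sub_le_iff_le_add', le_div_iff₀ hs]
    nlinarith [sq_nonneg (‖y‖ - Real.sqrt d), norm_nonneg y]
  have i2 := (integrable_const (Real.sqrt d)).add (hi.const_mul (Real.sqrt d)⁻¹)
  have hn : Integrable (fun y : E d => ‖y‖) (pLaw V η) :=
    i2.mono' continuous_norm.aestronglyMeasurable
      (Eventually.of_forall fun y => by rw [norm_norm]; exact hp y)
  refine ⟨hn, (integral_mono hn i2 hp).trans ?_⟩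
  rw [integral_add' (integrable_const _) (hi.const_mul _), integral_const, integral_const_mul,
    probReal_univ, one_smul]
  refine (add_le_add le_rfl (mul_le_mul_of_nonneg_left hle (inv_nonneg.2 hs.le))).trans (le_of_eq ?_)
  field_simp
  rw [Real.sq_sqrt (Nat.cast_nonneg d)]
  ring

/-- The chain of approximate steps against the exact one. -/
lemma chain_error (hd : 1 ≤ d) (hT : Impl d N T) (hV : Admissible d V) (hη : 0 < η)
    (hη1 : η ≤ 1)
    (herr : ∀ f : E d → ℝ, Measurable f → (∀ x, |f x| ≤ 1) → ∀ y : E d, ‖y‖ ≤ d →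
      |T V f y - mop V η f y| ≤ 1 / d)
    {g : E d → ℝ} (hg : Measurable g) (hb : ∀ x, |g x| ≤ 1) :
    ∀ n : ℕ, (Measurable ((T V)^[n] g) ∧ ∀ x, |(T V)^[n] g x| ≤ 1) ∧
      ∀ y, |(T V)^[n] g y - (mop V η)^[n] g y|
        ≤ n / d + 2 * ∑ i ∈ Finset.range n, (mop V η)^[i] (φ d) y
  | 0 => ⟨⟨hg, hb⟩, fun y => by simp⟩
  | n + 1 => by
    obtain ⟨⟨hm, hbd⟩, ih⟩ := chain_error hd hT hV hη hη1 herr hg hb n
    refine ⟨by rw [Function.iterate_succ_apply']; exact impl_good hT hV hm hbd, fun y => ?_⟩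
    obtain ⟨hm', hbd'⟩ := iter_mem hV hη hη1 hg hb n
    have hφ := iter_mem hV hη hη1 (f := φ d) continuous_phi.measurable abs_phi
    have hMφ : ∀ i, (mop V η)^[i] (φ d) ∈ Phase1.bdd d := fun i => ⟨(hφ i).1, 1, (hφ i).2⟩
    have hu : (T V)^[n] g ∈ Phase1.bdd d := ⟨hm, 1, hbd⟩
    have hv : (mop V η)^[n] g ∈ Phase1.bdd d := ⟨hm', 1, hbd'⟩
    have hS : (∑ i ∈ Finset.range n, (mop V η)^[i] (φ d)) ∈ Phase1.bdd d :=
      Submodule.sum_mem _ fun i _ => hMφ i
    let M := Phase1.opM gibbsProb (mopFacts gibbsProb) hV hη hη1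
    have hc : (fun _ : E d => (1 : ℝ)) ∈ Phase1.bdd d := ⟨measurable_const, 1, fun _ => by simp⟩
    set w := ((n : ℝ) / d) • (⟨_, hc⟩ : Phase1.bdd d)
      + (2 : ℝ) • ∑ i ∈ Finset.range n, (⟨_, hMφ i⟩ : Phase1.bdd d) with hw
    have hmono := mop_mono hV hη (u := fun x => (T V)^[n] g x - (mop V η)^[n] g x) (w := w.1)
      (Submodule.sub_mem _ hu hv) w.2
      (fun x => (ih x).trans_eq (by simp [hw, Finset.sum_apply])) y
    have e1 : mop V η (fun x => (T V)^[n] g x - (mop V η)^[n] g x) y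
        = mop V η ((T V)^[n] g) y - mop V η ((mop V η)^[n] g) y :=
      congrFun (congrArg Subtype.val
        (map_sub M (⟨(T V)^[n] g, hu⟩ : Phase1.bdd d) ⟨(mop V η)^[n] g, hv⟩)) y
    have e2 : mop V η w.1 y
        = n / d + 2 * ∑ i ∈ Finset.range n, (mop V η)^[i + 1] (φ d) y := by
      have := congrFun (congrArg Subtype.val (show M w = _ by rw [hw, map_add, map_smul, map_smul, map_sum])) y
      refine this.trans ?_
      simp [M, Phase1.opM, Finset.sum_apply, mop_const hV hη, ← Function.iterate_succ_apply']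
    rw [e1, e2] at hmono
    have h1 := step_error hd hT hV hη hη1 herr hm hbd y
    rw [Function.iterate_succ_apply', Function.iterate_succ_apply', Finset.sum_range_succ',
      Function.iterate_zero, id_eq]
    have h2 := abs_sub_le (T V ((T V)^[n] g) y) (mop V η ((T V)^[n] g) y)
      (mop V η ((mop V η)^[n] g) y)
    push_cast
    rw [add_div]
    linarith

/-- The chain from `0` is close to the law of `y`. -/
lemma chain_start (hd : 1 ≤ d) (hT : Impl d N T) (hV : Admissible d V) (hη : 0 < η)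
    (hη1 : η ≤ 1)
    (herr : ∀ f : E d → ℝ, Measurable f → (∀ x, |f x| ≤ 1) → ∀ y : E d, ‖y‖ ≤ d →
      |T V f y - mop V η f y| ≤ 1 / d)
    {C : ℝ} (hC : 0 ≤ C)
    (hmom : Integrable (fun y : E d => ‖y‖ ^ (2 * 1)) (pLaw V η) ∧
      ∫ y, ‖y‖ ^ (2 * 1) ∂pLaw V η ≤ C * (d : ℝ) ^ 1)
    {g : E d → ℝ} (hg : Measurable g) (hb : ∀ x, |g x| ≤ 1) (n : ℕ) :
    |(T V)^[n + 1] g 0 - ∫ y, g y ∂pLaw V η|
      ≤ 9 * ((C + 1) * ((n + 1 : ℕ) / Real.sqrt d))
        + 1 / Real.sqrt η * ((1 + η) ^ (n + 1))⁻¹ * ((C + 1) * Real.sqrt d) := by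
  have := isProb_pLaw gibbsProb hV η
  obtain ⟨hn, hnle⟩ := norm_mean hV hd hmom
  have hd0 : (0 : ℝ) < d := by exact_mod_cast hd
  have hs : 0 < Real.sqrt d := Real.sqrt_pos.2 hd0
  have hsd : Real.sqrt d / d = (Real.sqrt d)⁻¹ := by rw [Real.sqrt_div_self', one_div]
  have key : ∀ {f : E d → ℝ}, Measurable f → (∀ x, |f x| ≤ 1) → ∀ {L : ℝ}, 0 ≤ L →
      (∀ a b, |f a - f b| ≤ L * ‖a - b‖) →
      |f 0 - ∫ y, f y ∂pLaw V η| ≤ L * ((C + 1) * Real.sqrt d) := by
    intro f hf hb L hL hlip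
    have hi : Integrable f (pLaw V η) := Phase1.integrable_of_bdd ⟨hf, 1, hb⟩
    rw [show f 0 - ∫ y, f y ∂pLaw V η = ∫ y, (f 0 - f y) ∂pLaw V η by
      rw [integral_sub (integrable_const _) hi, integral_const, probReal_univ, one_smul]]
    refine abs_integral_le_integral_abs.trans ((integral_mono ((integrable_const _).sub hi).abs
      (hn.const_mul L) fun y => by simpa using hlip 0 y).trans ?_)
    rw [integral_const_mul]
    exact mul_le_mul_of_nonneg_left hnle hL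
  have hφ : ∀ i, (mop V η)^[i] (φ d) 0 ≤ 4 * (C + 1) / Real.sqrt d := fun i => by
    obtain ⟨hm, hbd⟩ := iter_mem hV hη hη1 (f := φ d) continuous_phi.measurable abs_phi i
    have h1 := key hm hbd (L := 2 / d) (by positivity) fun a b =>
      (iter_lip hV hη hη1 continuous_phi.measurable abs_phi (by positivity) phi_lip i a b).trans
        (mul_le_mul_of_nonneg_right (mul_le_of_le_one_right (by positivity)
          (inv_le_one_of_one_le₀ (one_le_pow₀ (by linarith)))) (norm_nonneg _))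
    rw [iter_integral hV hη hη1 continuous_phi.measurable abs_phi i] at h1
    have h2 : ∫ y, φ d y ∂pLaw V η ≤ 2 / d * ((C + 1) * Real.sqrt d) := by
      refine (integral_mono (Phase1.integrable_of_bdd ⟨continuous_phi.measurable, 1, abs_phi⟩)
        (hn.const_mul (2 / (d : ℝ))) fun y => (phi_le y).trans_eq (by ring)).trans ?_
      rw [integral_const_mul]
      exact mul_le_mul_of_nonneg_left hnle (by positivity)
    have h3 : 2 / (d : ℝ) * ((C + 1) * Real.sqrt d) = 2 * (C + 1) / Real.sqrt d := by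
      rw [div_eq_mul_inv (2 * (C + 1)), ← hsd]; ring
    rw [h3] at h1 h2
    rw [show 4 * (C + 1) / Real.sqrt d = 2 * (C + 1) / Real.sqrt d + 2 * (C + 1) / Real.sqrt d by
      ring]
    linarith [(abs_le.1 h1).2]
  obtain ⟨-, herrN⟩ := chain_error hd hT hV hη hη1 herr hg hb (n + 1)
  obtain ⟨hm1, hb1⟩ := iter_mem hV hη hη1 hg hb 1
  have hlip1 : ∀ a b, |(mop V η)^[1] g a - (mop V η)^[1] g b|
      ≤ 1 / Real.sqrt η / (1 + η) * ‖a - b‖ :=
    ProxLip.mop_lip hV hη hg hb (by positivity) (Contraction.sm_lip_of_bounded smoothFacts hη hg hb)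
  have hM : |(mop V η)^[n + 1] g 0 - ∫ y, g y ∂pLaw V η|
      ≤ 1 / Real.sqrt η * ((1 + η) ^ (n + 1))⁻¹ * ((C + 1) * Real.sqrt d) := by
    obtain ⟨hm, hbd⟩ := iter_mem hV hη hη1 hm1 hb1 n
    have h := key hm hbd (L := 1 / Real.sqrt η / (1 + η) * ((1 + η) ^ n)⁻¹) (by positivity)
      (iter_lip hV hη hη1 hm1 hb1 (by positivity) hlip1 n)
    rw [iter_integral hV hη hη1 hm1 hb1 n, iter_integral hV hη hη1 hg hb 1,
      ← Function.iterate_add_apply] at h
    refine h.trans (le_of_eq ?_)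
    rw [pow_succ]
    field_simp
  have hsum : ∑ i ∈ Finset.range (n + 1), (mop V η)^[i] (φ d) 0
      ≤ (n + 1 : ℕ) * (4 * (C + 1) / Real.sqrt d) := by
    refine (Finset.sum_le_sum fun i _ => hφ i).trans (le_of_eq ?_)
    rw [Finset.sum_const, Finset.card_range, nsmul_eq_mul]
  have hdd : ((n + 1 : ℕ) : ℝ) / d ≤ (C + 1) * ((n + 1 : ℕ) / Real.sqrt d) := by
    have h1 : Real.sqrt d ≤ d := Real.sqrt_le_iff.2 ⟨hd0.le, by
      nlinarith [(show (1 : ℝ) ≤ d by exact_mod_cast hd)]⟩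
    refine (div_le_div_of_nonneg_left (Nat.cast_nonneg _) hs h1).trans ?_
    exact le_mul_of_one_le_left (by positivity) (by linarith)
  refine (abs_sub_le _ ((mop V η)^[n + 1] g 0) _).trans (add_le_add ((herrN 0).trans ?_) hM)
  have e : ((n + 1 : ℕ) : ℝ) * (4 * (C + 1) / Real.sqrt d)
      = 4 * ((C + 1) * ((n + 1 : ℕ) / Real.sqrt d)) := by ring
  linarith

/-- One halving stage. -/
lemma stage_error (hd : 1 ≤ d) (hT : Impl d N T) (hV : Admissible d V) (hη : 0 < η)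
    (hη1 : η ≤ 1)
    (herr : ∀ f : E d → ℝ, Measurable f → (∀ x, |f x| ≤ 1) → ∀ y : E d, ‖y‖ ≤ d →
      |T V f y - mop V η f y| ≤ 1 / d)
    {C : ℝ} (hC : 0 ≤ C)
    (hmom : Integrable (fun y : E d => ‖y‖ ^ (2 * 1)) (pLaw V η) ∧
      ∫ y, ‖y‖ ^ (2 * 1) ∂pLaw V η ≤ C * (d : ℝ) ^ 1)
    {f : E d → ℝ} (hf : Measurable f) (hb : ∀ x, |f x| ≤ 1) :
    |(∫ y, T V (fun u => f ((2 : ℝ)⁻¹ • (u + y))) y ∂pLaw V η) - ∫ y, f y ∂pLaw V (η / 2)|
      ≤ 5 * ((C + 1) / Real.sqrt d) := by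
  have := isProb_pLaw gibbsProb hV η
  obtain ⟨hn, hnle⟩ := norm_mean hV hd hmom
  obtain ⟨hSm, hSb⟩ := impl_good (impl_shift hT) hV hf hb
  rw [← Final.integral_mid gibbsProb hV hη hf hb]
  set P := fun y => ∫ x, Final.mid η f x y ∂prox V η y
  have hPm : Measurable P :=
    Joint.measurable_prox_integral hV.1.continuous.measurable η (Final.measurable_mid η hf)
  have hPb : ∀ y, |P y| ≤ 1 := fun y => by
    have := Final.isProb_prox gibbsProb hV hη y
    exact Final.abs_integral_le_of_bound _ fun x => Final.abs_mid_le η hb x y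
  have iS := Phase1.integrable_of_bdd (μ := pLaw V η) ⟨hSm, 1, hSb⟩
  have iP := Phase1.integrable_of_bdd (μ := pLaw V η) ⟨hPm, 1, hPb⟩
  rw [← integral_sub iS iP]
  have i2 := (integrable_const (μ := pLaw V η) (1 / (d : ℝ))).add (hn.const_mul (4 / (d : ℝ)))
  refine abs_integral_le_integral_abs.trans ((integral_mono (iS.sub iP).abs i2 fun y => ?_).trans ?_)
  · have h : |T V (fun u => f ((2 : ℝ)⁻¹ • (u + y))) y - P y| ≤ 1 / d + 2 * φ d y :=
      step_error hd hT hV hη hη1 herr (hf.comp (by fun_prop)) (fun x => hb _) y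
    refine h.trans ?_
    have h2 := phi_le y
    have e : 4 / (d : ℝ) * ‖y‖ = 2 * (2 * ‖y‖ / d) := by ring
    simp only [Pi.add_apply]
    linarith
  · rw [integral_add' (integrable_const _) (hn.const_mul _), integral_const, integral_const_mul,
      probReal_univ, one_smul]
    have hd0 : (0 : ℝ) < d := by exact_mod_cast hd
    have hs : 0 < Real.sqrt d := Real.sqrt_pos.2 hd0
    have h1 : 1 / (d : ℝ) ≤ (C + 1) / Real.sqrt d := by
      refine div_le_div₀ (by linarith) (by linarith) hs (Real.sqrt_le_iff.2 ⟨hd0.le, ?_⟩)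
      nlinarith [(show (1 : ℝ) ≤ d by exact_mod_cast hd)]
    have h2 : 4 / (d : ℝ) * ((C + 1) * Real.sqrt d) = 4 * ((C + 1) / Real.sqrt d) := by
      rw [div_eq_mul_inv (C + 1), ← one_div, ← Real.sqrt_div_self']; ring
    have h3 := mul_le_mul_of_nonneg_left hnle (show (0 : ℝ) ≤ 4 / d by positivity)
    linarith

/-- Halving stages and the last draw, as one implemented operator. -/
lemma tail {b Bd C C₁ : ℝ} (hd : 1 ≤ d) (hC : 0 ≤ C)
    (hmom : ∀ V : E d → ℝ, Admissible d V → ∀ η : ℝ, 0 ≤ η → η ≤ 1 →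
      Integrable (fun y : E d => ‖y‖ ^ (2 * 1)) (pLaw V η) ∧
        ∫ y, ‖y‖ ^ (2 * 1) ∂pLaw V η ≤ C * (d : ℝ) ^ 1)
    (hIn : ∀ η : ℝ, b ≤ η → η ≤ Bd →
      ∃ N : ℕ, (N : ℝ) ≤ C₁ ∧ ∃ T : (E d → ℝ) → (E d → ℝ) → E d → ℝ, Impl d N T ∧
        ∀ V, Admissible d V → ∀ f : E d → ℝ, Measurable f → (∀ x, |f x| ≤ 1) →
          ∀ y : E d, ‖y‖ ≤ d → |T V f y - mop V η f y| ≤ 1 / d)
    {η₀ C₂ : ℝ} (hlast : ∀ V : E d → ℝ, Admissible d V → ∀ g : E d → ℝ, Measurable g →
      (∀ x, |g x| ≤ 1) → ∀ η₁, 0 < η₁ → η₁ ≤ η₀ →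
      |(∫ y, lastDraw V η₁ g y ∂pLaw V η₁) - ∫ x, g x ∂gibbs V| ≤ C₂ * (η₁ * Real.sqrt d)) :
    ∀ (m : ℕ) (η : ℝ), 0 < η → η ≤ 1 → η ≤ Bd → b ≤ η / 2 ^ m → η / 2 ^ m ≤ η₀ →
      ∃ k : ℕ, (k : ℝ) ≤ m * C₁ + 1 ∧ ∃ R : (E d → ℝ) → (E d → ℝ) → E d → ℝ, Impl d k R ∧
        ∀ V, Admissible d V → ∀ f : E d → ℝ, Measurable f → (∀ x, |f x| ≤ 1) →
          |(∫ y, R V f y ∂pLaw V η) - ∫ x, f x ∂gibbs V|
            ≤ m * (5 * ((C + 1) / Real.sqrt d)) + C₂ * (η / 2 ^ m * Real.sqrt d)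
  | 0, η, h0, h1, hB, hlow, hhigh => ⟨1, by simp, _, impl_lastDraw η, fun V hV f hf hb => by
      simpa using hlast V hV f hf hb η h0 (by simpa using hhigh)⟩
  | m + 1, η, h0, h1, hB, hlow, hhigh => by
    have e : η / 2 ^ (m + 1) = η / 2 / 2 ^ m := by rw [pow_succ]; field_simp
    rw [e] at hlow hhigh ⊢
    have hbη : b ≤ η := hlow.trans ((div_le_self (by linarith)
      (one_le_pow₀ one_le_two)).trans (by linarith))
    obtain ⟨N, hN, T, hT, herr⟩ := hIn η hbη hB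
    obtain ⟨k, hk, R, hR, hRe⟩ := tail hd hC hmom hIn hlast m (η / 2) (by linarith) (by linarith)
      (by linarith) hlow hhigh
    refine ⟨N + k, by push_cast; linarith, _, impl_comp (impl_shift hT) hR,
      fun V hV f hf hb => ?_⟩
    obtain ⟨hRm, hRb⟩ := impl_good hR hV hf hb
    have h := stage_error hd hT hV h0 h1 (herr V hV) hC (hmom V hV η h0.le h1) hRm hRb
    refine (abs_sub_le _ (∫ y, R V f y ∂pLaw V (η / 2)) _).trans ?_
    have := hRe V hV f hf hb
    push_cast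
    linarith

/-- The exact chain has forgotten its start. -/
lemma decay (hd : (3 : ℝ) ≤ d) {C X : ℝ} (hC : 0 ≤ C) (hη : 0 < η) (hη1 : η ≤ 1)
    (hlow : (d : ℝ)⁻¹ ≤ η) (hX : 1 ≤ X) {n : ℕ} (hn : 8 * Real.log d / η ≤ n) :
    1 / Real.sqrt η * ((1 + η) ^ (n + 1))⁻¹ * ((C + 1) * Real.sqrt d)
      ≤ (C + 1) * (X / Real.sqrt d) := by
  have hd0 : (0 : ℝ) < d := by linarith
  have hexp : ((1 + η) ^ (n + 1))⁻¹ ≤ ((d : ℝ) ^ 4)⁻¹ := by
    refine inv_anti₀ (by positivity) ?_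
    have hlog : η / 2 ≤ Real.log (1 + η) := by
      have := Real.one_sub_inv_le_log_of_pos (show (0 : ℝ) < 1 + η by linarith)
      have : η / 2 ≤ 1 - (1 + η)⁻¹ := by
        rw [show 1 - (1 + η)⁻¹ = η / (1 + η) by field_simp; ring]
        gcongr; linarith
      linarith
    rw [← Real.log_le_log_iff (by positivity) (by positivity), Real.log_pow, Real.log_pow]
    push_cast
    rw [div_le_iff₀ hη] at hn
    have h0 := Real.log_nonneg (show (1 : ℝ) ≤ d by linarith)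
    have h1 := mul_le_mul_of_nonneg_left hlog (show (0 : ℝ) ≤ (n : ℝ) + 1 by positivity)
    linarith
  have hsη : 1 / Real.sqrt η ≤ (d : ℝ) := by
    rw [div_le_iff₀ (Real.sqrt_pos.2 hη)]
    have h' : η ≤ Real.sqrt η := Real.le_sqrt_of_sq_le (by nlinarith)
    calc (1 : ℝ) = d * (d : ℝ)⁻¹ := by field_simp
      _ ≤ d * Real.sqrt η := by gcongr; linarith
  have h3 : Real.sqrt d ≤ d := Real.sqrt_le_iff.2 ⟨hd0.le, by nlinarith⟩
  have hs : 0 < Real.sqrt d := Real.sqrt_pos.2 hd0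
  calc _ ≤ (d : ℝ) * ((d : ℝ) ^ 4)⁻¹ * ((C + 1) * d) := by gcongr
    _ = (C + 1) * (((d : ℝ) * d)⁻¹) := by field_simp
    _ ≤ (C + 1) * (X / Real.sqrt d) := by
        refine mul_le_mul_of_nonneg_left ?_ (by linarith)
        rw [inv_eq_one_div]
        exact div_le_div₀ (by linarith) hX hs (h3.trans (le_mul_of_one_le_left hd0.le (by linarith)))

/-- About `2 log₂ d` halvings. -/
lemma stages {d : ℕ} (hd : 3 ≤ d) :
    ∃ m : ℕ, ((d : ℝ) ^ 2 ≤ 2 ^ m ∧ (2 : ℝ) ^ m ≤ 4 * (d : ℝ) ^ 2) ∧ (m : ℝ) ≤ 6 * Real.log d := by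
  have hdR : (3 : ℝ) ≤ d := by exact_mod_cast hd
  refine ⟨2 * (Nat.log 2 d + 1), ?_, ?_⟩
  · have h1 : (d : ℝ) ≤ 2 ^ (Nat.log 2 d + 1) := by
      exact_mod_cast (Nat.lt_pow_succ_log_self one_lt_two d).le
    have h2 : (2 : ℝ) ^ Nat.log 2 d ≤ d := by exact_mod_cast Nat.pow_log_le_self 2 (by omega)
    rw [mul_comm 2 (Nat.log 2 d + 1), pow_mul]
    refine ⟨pow_le_pow_left₀ (by positivity) h1 2, ?_⟩
    rw [pow_succ (2 : ℝ), show (4 : ℝ) * (d : ℝ) ^ 2 = ((d : ℝ) * 2) ^ 2 by ring]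
    exact pow_le_pow_left₀ (by positivity) (mul_le_mul_of_nonneg_right h2 (by norm_num)) 2
  · have h2 : (2 : ℝ) ^ Nat.log 2 d ≤ d := by exact_mod_cast Nat.pow_log_le_self 2 (by omega)
    have h := Real.log_le_log (by positivity) h2
    rw [Real.log_pow] at h
    have hL1 : 1 ≤ Real.log d := by
      rw [Real.le_log_iff_exp_le (by linarith)]; linarith [Real.exp_one_lt_d9]
    have := Real.log_two_gt_d9
    push_cast
    nlinarith [(Nat.cast_nonneg (Nat.log 2 d) : (0 : ℝ) ≤ _)]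

/-- The last level is at least `d⁻³`. -/
lemma low_level (hd : (3 : ℝ) ≤ d) {ι η : ℝ} (hη0 : 0 < η) (hι : ι ≤ 1 / 4)
    (hη : (d : ℝ) ^ (-ι) ≤ η) {m : ℕ} (h2m : (2 : ℝ) ^ m ≤ 4 * (d : ℝ) ^ 2)
    (hL : 1 ≤ Real.log d) (hsmall : Real.log d * (d : ℝ) ^ (-(1 / 4 : ℝ)) ≤ 1 / 4) :
    ((d : ℝ) ^ 3)⁻¹ ≤ η / 2 ^ m := by
  have hd0 : (0 : ℝ) < d := by linarith
  have hs : 0 < Real.sqrt d := Real.sqrt_pos.2 hd0
  have hη' : (Real.sqrt d)⁻¹ ≤ η := by
    refine le_trans ?_ hη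
    rw [Real.sqrt_eq_rpow, ← Real.rpow_neg hd0.le]
    exact Real.rpow_le_rpow_of_exponent_le (by linarith) (by linarith)
  have h4 : (d : ℝ) ^ (-(1 / 4 : ℝ)) ≤ 1 / 4 :=
    (le_mul_of_one_le_left (by positivity) hL).trans hsmall
  have h256 : (4 : ℝ) ≤ (d : ℝ) ^ (1 / 4 : ℝ) := by
    rw [Real.rpow_neg hd0.le, one_div (4 : ℝ), inv_le_inv₀ (by positivity) (by norm_num)] at h4
    simpa using h4
  have hs4 : 4 * Real.sqrt d ≤ (d : ℝ) := by
    calc 4 * Real.sqrt d ≤ (d : ℝ) ^ (1 / 4 : ℝ) * Real.sqrt d := by gcongr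
      _ ≤ Real.sqrt d * Real.sqrt d := by
          gcongr
          rw [Real.sqrt_eq_rpow]
          exact Real.rpow_le_rpow_of_exponent_le (by linarith) (by norm_num)
      _ = d := Real.mul_self_sqrt hd0.le
  calc ((d : ℝ) ^ 3)⁻¹ ≤ (4 * Real.sqrt d * (d : ℝ) ^ 2)⁻¹ := by
        refine inv_anti₀ (by positivity) ?_
        rw [show (d : ℝ) ^ 3 = d * d ^ 2 by ring]
        gcongr
    _ = (Real.sqrt d)⁻¹ / (4 * (d : ℝ) ^ 2) := by field_simp
    _ ≤ η / 2 ^ m := div_le_div₀ hη0.le hη' (by positivity) h2m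

/-- The number of queries. -/
lemma count (hd : (3 : ℝ) ≤ d) {a ι : ℝ} (hι : 0 < ι) (hιa : ι ≤ a / 4)
    (hL : 1 ≤ Real.log d) (hcost : Real.log d * (d : ℝ) ^ (-(2 * ι)) ≤ 1 / 100)
    {n N k m : ℕ} (hn : (n : ℝ) + 1 ≤ 10 * Real.log d * (d : ℝ) ^ ι)
    (hN : (N : ℝ) ≤ (d : ℝ) ^ ι) (hm : (m : ℝ) ≤ 6 * Real.log d)
    (hk : (k : ℝ) ≤ m * (d : ℝ) ^ ι + 1) :
    ((n : ℝ) + 1) * N + k ≤ (d : ℝ) ^ a := by
  have hd0 : (0 : ℝ) < d := by linarith
  set L := Real.log (d : ℝ)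
  set P := (d : ℝ) ^ ι with hP
  have hP1 : 1 ≤ P := Real.one_le_rpow (by linarith) hι.le
  have h1 : L ≤ (1 / 100) * (P * P) := by
    have e : (d : ℝ) ^ (-(2 * ι)) * (P * P) = 1 := by
      rw [hP, ← Real.rpow_add hd0, ← Real.rpow_add hd0,
        show -(2 * ι) + (ι + ι) = 0 by ring, Real.rpow_zero]
    calc L = L * (d : ℝ) ^ (-(2 * ι)) * (P * P) := by rw [mul_assoc, e, mul_one]
      _ ≤ _ := mul_le_mul_of_nonneg_right hcost (by positivity)
  calc ((n : ℝ) + 1) * N + k ≤ (10 * L * P) * P + (6 * L * P + 1) := by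
        refine add_le_add (mul_le_mul hn hN (Nat.cast_nonneg _) (by positivity)) (hk.trans ?_)
        gcongr
    _ ≤ 17 * L * (P * P) := by
        have : L * P ≤ L * (P * P) := mul_le_mul_of_nonneg_left
          (le_mul_of_one_le_left (by linarith) hP1) (by linarith)
        have : 1 ≤ L * (P * P) := one_le_mul_of_one_le_of_one_le hL
          (one_le_mul_of_one_le_of_one_le hP1 hP1)
        linarith
    _ ≤ P * P * (P * P) := by
        refine mul_le_mul_of_nonneg_right ?_ (by positivity)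
        linarith [mul_nonneg (zero_le_one.trans hP1) (zero_le_one.trans hP1)]
    _ = (d : ℝ) ^ (4 * ι) := by simp only [hP, ← Real.rpow_add hd0]; ring_nf
    _ ≤ (d : ℝ) ^ a := Real.rpow_le_rpow_of_exponent_le (by linarith) (by linarith)

lemma small_eventually {a : ℝ} (ha : 0 < a) :
    Tendsto (fun d : ℕ => Real.log d * (d : ℝ) ^ (-a)) atTop (nhds 0) := by
  refine (((isLittleO_log_rpow_atTop ha).tendsto_div_nhds_zero).comp
    tendsto_natCast_atTop_atTop).congr fun d => ?_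
  simp only [Function.comp_apply]
  rw [Real.rpow_neg (Nat.cast_nonneg d), div_eq_mul_inv]

end Zero

open Zero AlgoRun in
/-- The reduction: for every `a > 0` and all large `d`, at most `d^a` queries suffice. -/
theorem queryBound_of_inner (hI : InnerSampler) (a : ℝ) (ha : 0 < a) :
    ∀ᶠ d : ℕ in atTop, ∃ N : ℕ, (N : ℝ) ≤ (d : ℝ) ^ a ∧
      ∃ G : Algo d N, UsesReals G ∧ Succeeds G := by
  obtain ⟨C, hC, hmom⟩ := pLaw_moment gibbsProb tiltFacts 1
  have hPP : PerPoint := perPoint (stepBound starDeriv (gaussShift gaussCov)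
    (selfBound centralMoments tiltFacts) poincare centralMoments tiltFacts (interp gaussCov)
    gibbsProb) (meanBound gaussCov starDeriv (gaussShift gaussCov) (interp gaussCov) tiltFacts)
    smoothFacts gibbsProb
  obtain ⟨K, hF⟩ := finalPhase hPP smoothFacts poincare gibbsProb tiltFacts (1 / 20) (by norm_num)
    le_rfl
  obtain ⟨A, hA, D₀, hQ⟩ := quadExists (1 / 20) (by norm_num) K
  obtain ⟨D₁, C₂, hC₂, hF⟩ := hF A hA
  set ι := min (a / 4) (1 / 4) with hι'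
  have hι : 0 < ι := lt_min (by linarith) (by norm_num)
  have hι4 : ι ≤ 1 / 4 := min_le_right _ _
  have hιa : ι ≤ a / 4 := min_le_left _ _
  have t0 : Tendsto (fun d : ℕ => Real.log d * (d : ℝ) ^ (-(1 / 4 : ℝ))) atTop (nhds 0) :=
    small_eventually (by norm_num)
  have t1 : Tendsto (fun d : ℕ => Real.log d * (d : ℝ) ^ (-(2 * ι))) atTop (nhds 0) :=
    small_eventually (by linarith)
  filter_upwards [hI ι ι hι hι, eventually_ge_atTop (max (max D₀ D₁) 3),
    t0.eventually_le_const (show (0 : ℝ) < 1 / (10000 * (C + C₂ + 1)) by positivity),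
    t1.eventually_le_const (show (0 : ℝ) < 1 / 100 by norm_num)] with d hIn hd hsmall hcost
  simp only [max_le_iff] at hd
  obtain ⟨⟨hd0', hd1'⟩, hd3⟩ := hd
  obtain ⟨q, Q, -, hgood⟩ := hQ d hd0'
  have hd1 : 1 ≤ d := by omega
  have hdR : (3 : ℝ) ≤ d := by exact_mod_cast hd3
  have hdpos : (0 : ℝ) < d := by linarith
  set L := Real.log (d : ℝ) with hL
  have hL1 : 1 ≤ L := by
    rw [hL, Real.le_log_iff_exp_le hdpos]; linarith [Real.exp_one_lt_d9]
  set η := (d : ℝ) ^ (-ι) with hη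
  have hη0 : 0 < η := Real.rpow_pos_of_pos hdpos _
  have hη1 : η ≤ 1 := Real.rpow_le_one_of_one_le_of_nonpos (by linarith) (by linarith)
  obtain ⟨m, h2m, hmL⟩ := stages hd3
  have hlow : ((d : ℝ) ^ 3)⁻¹ ≤ η / 2 ^ m := low_level hdR hη0 hι4 hη.ge h2m.2 hL1 (by
    refine hsmall.trans (one_div_le_one_div_of_le (by norm_num) ?_)
    linarith)
  have hhigh : η / 2 ^ m ≤ (d : ℝ) ^ (-(1 / 4 + 1 / 20 : ℝ)) := by
    refine (div_le_div₀ zero_le_one hη1 (by positivity) h2m.1).trans ?_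
    rw [one_div, ← Real.rpow_natCast, ← Real.rpow_neg hdpos.le]
    exact Real.rpow_le_rpow_of_exponent_le (by linarith) (by norm_num)
  obtain ⟨k, hk, R, hR, hRe⟩ := tail (b := ((d : ℝ) ^ 3)⁻¹) (Bd := η) (C₁ := (d : ℝ) ^ ι)
    (η₀ := (d : ℝ) ^ (-(1 / 4 + 1 / 20 : ℝ))) (C₂ := C₂) hd1 hC
    (fun V hV η' h0 h1 => hmom d V hV η' h0 h1)
    (fun η' h1 h2 => hIn η' h1 h2)
    (fun V hV g hg hgb η₁ h0 h1 => (hF d q hd1' Q hgood V hV g hg hgb η₁ h0 h1).2)
    m η hη0 hη1 le_rfl hlow hhigh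
  obtain ⟨N, hN, T, hT, herr⟩ := hIn η (hlow.trans (div_le_self hη0.le (one_le_pow₀ one_le_two))) le_rfl
  set n := ⌈8 * L / η⌉₊ with hn
  obtain ⟨Ω, _, μ, _, F, hG, hF', e⟩ := impl_iter hT hR (n + 1)
  obtain ⟨G, hGr, hGl⟩ := exists_algo μ
    (hF'.precomp (measurable_id.prodMk (measurable_const (a := (0 : E d)))))
  have hinv : η⁻¹ = (d : ℝ) ^ ι := by rw [hη, ← Real.rpow_neg hdpos.le, neg_neg]
  set P := (d : ℝ) ^ ι with hP
  have hP1 : 1 ≤ P := Real.one_le_rpow (by linarith) hι.le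
  have hn' : ((n + 1 : ℕ) : ℝ) ≤ 10 * L * P := by
    have h := (Nat.ceil_lt_add_one (show 0 ≤ 8 * L / η by positivity)).le
    rw [← hn, div_eq_mul_inv, hinv] at h
    have : 1 ≤ L * P := one_le_mul_of_one_le_of_one_le hL1 hP1
    push_cast
    linarith
  refine ⟨(n + 1) * N + k, ?_, G, hGr hG, fun V hV B hB => ?_⟩
  · push_cast at hn' ⊢
    exact count hdR hι hιa hL1 hcost hn' hN hmL hk
  · set f : E d → ℝ := B.indicator fun _ => 1 with hf
    have hfm : Measurable f := measurable_const.indicator hB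
    have hfb : ∀ x, |f x| ≤ 1 := fun x => by by_cases hx : x ∈ B <;> simp [hf, hx]
    have hmset : MeasurableSet {ω | F V (ω, (0 : E d)) ∈ B} :=
      ((hF'.measurable hV).comp (measurable_id.prodMk measurable_const)) hB
    have hlaw : (G.law {s | run G V s ∈ B}).toReal = (T V)^[n + 1] (R V f) 0 := by
      have e' := e V hV f hfm hfb 0
      dsimp only at e'
      rw [hGl V hV B, e', hf,
        show (fun ω => B.indicator (fun _ => (1 : ℝ)) (F V (ω, 0)))
          = {ω | F V (ω, (0 : E d)) ∈ B}.indicator fun _ => (1 : ℝ) from rfl,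
        integral_indicator_const _ hmset]
      simp [Measure.real]
    have hint : ∫ x, f x ∂gibbs V = (gibbs V B).toReal := by
      rw [hf, integral_indicator_const _ hB]; simp [measureReal_def]
    rw [hlaw, ← hint]
    obtain ⟨hRm, hRb⟩ := impl_good hR hV hfm hfb
    have h1 := chain_start hd1 hT hV hη0 hη1 (herr V hV) hC (hmom d V hV η hη0.le hη1) hRm hRb n
    have h2 := hRe V hV f hfm hfb
    have hs : 0 < Real.sqrt d := Real.sqrt_pos.2 hdpos
    have hC' : 0 ≤ C₂ := hC₂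
    -- the powers of `d`
    have hPs : P / Real.sqrt d ≤ (d : ℝ) ^ (-(1 / 4 : ℝ)) := by
      rw [hP, Real.sqrt_eq_rpow, ← Real.rpow_sub hdpos]
      exact Real.rpow_le_rpow_of_exponent_le (by linarith) (by linarith)
    have hLP : L * P / Real.sqrt d ≤ 1 / (10000 * (C + C₂ + 1)) :=
      le_trans (by rw [mul_div_assoc]; exact mul_le_mul_of_nonneg_left hPs (by linarith)) hsmall
    have hX : (C + 1) * (L * P / Real.sqrt d) ≤ 1 / 10000 := by
      refine (mul_le_mul_of_nonneg_left hLP (by linarith)).trans ?_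
      rw [mul_one_div, div_le_div_iff₀ (by positivity) (by norm_num)]
      linarith
    have hY : C₂ * (1 / Real.sqrt d) ≤ 1 / 10000 := by
      have : 1 / Real.sqrt d ≤ L * P / Real.sqrt d :=
        div_le_div_of_nonneg_right (one_le_mul_of_one_le_of_one_le hL1 hP1) hs.le
      refine (mul_le_mul_of_nonneg_left (this.trans hLP) hC').trans ?_
      rw [mul_one_div, div_le_div_iff₀ (by positivity) (by norm_num)]
      linarith
    have a1 : (C + 1) * (((n + 1 : ℕ) : ℝ) / Real.sqrt d) ≤ 10 * (1 / 10000) := by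
      refine le_trans ?_ (mul_le_mul_of_nonneg_left hX (by norm_num : (0 : ℝ) ≤ 10))
      calc _ ≤ (C + 1) * (10 * L * P / Real.sqrt d) := by gcongr
        _ = _ := by ring
    have a2 : (m : ℝ) * (5 * ((C + 1) / Real.sqrt d)) ≤ 30 * (1 / 10000) := by
      refine le_trans ?_ (mul_le_mul_of_nonneg_left hX (by norm_num : (0 : ℝ) ≤ 30))
      calc _ ≤ 6 * L * (5 * ((C + 1) / Real.sqrt d)) := by gcongr
        _ ≤ 6 * (L * P) * (5 * ((C + 1) / Real.sqrt d)) := by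
            gcongr; exact le_mul_of_one_le_right (by linarith) hP1
        _ = _ := by ring
    have a3 : C₂ * (η / 2 ^ m * Real.sqrt d) ≤ 1 / 10000 := by
      refine le_trans (mul_le_mul_of_nonneg_left ?_ hC') hY
      calc η / 2 ^ m * Real.sqrt d ≤ 1 / (d : ℝ) * Real.sqrt d := by
            gcongr
            exact le_trans (by nlinarith) h2m.1
        _ = 1 / Real.sqrt d := by rw [div_mul_eq_mul_div, one_mul, Real.sqrt_div_self']
    have a4 : 1 / Real.sqrt η * ((1 + η) ^ (n + 1))⁻¹ * ((C + 1) * Real.sqrt d) ≤ 1 / 10000 :=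
      (decay hdR hC hη0 hη1 (by
        rw [hη, ← Real.rpow_neg_one]
        exact Real.rpow_le_rpow_of_exponent_le (by linarith) (by linarith))
        (one_le_mul_of_one_le_of_one_le hL1 hP1) (Nat.le_ceil _)).trans hX
    refine (abs_sub_le _ (∫ y, R V f y ∂pLaw V η) _).trans ?_
    linarith

/-- The reduction of `γ* = 0` to the inner sampler. -/
theorem exponent_zero_of_inner (hI : InnerSampler) :
    limsup (fun d : ℕ => Real.log (queryComplexity d) / Real.log d) atTop = 0 := by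
  have hnn : ∀ d : ℕ, 0 ≤ Real.log (queryComplexity d) / Real.log d := fun d =>
    div_nonneg (Real.log_natCast_nonneg _) (Real.log_natCast_nonneg _)
  have hev : ∀ a : ℝ, 0 < a →
      ∀ᶠ d : ℕ in atTop, Real.log (queryComplexity d) / Real.log d ≤ a := by
    intro a ha
    filter_upwards [queryBound_of_inner hI a ha, eventually_ge_atTop 2] with d hd hd2
    obtain ⟨N, hN, G, -, hG⟩ := hd
    have hle : queryComplexity d ≤ N := Nat.sInf_le ⟨G, hG⟩
    have hlog : 0 < Real.log d := Real.log_pos (by exact_mod_cast hd2)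
    rw [div_le_iff₀ hlog]
    rcases Nat.eq_zero_or_pos (queryComplexity d) with h0 | h0
    · rw [h0]; simp; positivity
    · have h1 : (queryComplexity d : ℝ) ≤ (d : ℝ) ^ a := (Nat.cast_le.2 hle).trans hN
      have h2 := Real.log_le_log (by exact_mod_cast h0) h1
      rwa [Real.log_rpow (by positivity)] at h2
  refine le_antisymm (le_of_forall_gt_imp_ge_of_dense fun a ha => limsup_le_of_le
    (IsCoboundedUnder.of_frequently_ge (a := 0) (Frequently.of_forall hnn)) (hev a ha)) ?_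
  exact le_limsup_of_frequently_le (Frequently.of_forall hnn)
    ⟨1, eventually_map.2 (hev 1 one_pos)⟩

end Vale.Agent.P347
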