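import Vale.Agent.P347.Interface

/-!
P347: the statement of the first phase (the chain at a fixed step).
-/

namespace Vale.Agent.P347

open MeasureTheory

/-- The step size used for dimension `d`. -/
noncomputable def etaOf (ι : ℝ) (d : ℕ) : ℝ := (d : ℝ) ^ (-(1 / 4 + ι))

/-- The number of steps used for dimension `d`. -/
noncomputable def stepsOf (ι : ℝ) (d : ℕ) : ℕ := ⌈12 * Real.log d / etaOf ι d⌉₊

/-- After `stepsOf ι d` steps from `0` the chain is close to the law of `y`. -/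
def ChainPhase : Prop :=
  ∀ ι : ℝ, 0 < ι → ι ≤ 1 / 20 → ∃ K : ℕ, ∀ A : ℝ, 1 ≤ A → ∃ D : ℕ,
    ∀ d q : ℕ, D ≤ d → ∀ Q : Quad q, QuadGood d Q A K →
    ∀ V : E d → ℝ, Admissible d V → ∀ φ : E d → ℝ, Measurable φ → (∀ x, |φ x| ≤ 1) →
      |(mhat V Q (etaOf ι d))^[stepsOf ι d] φ 0 - ∫ y, φ y ∂pLaw V (etaOf ι d)| ≤ 1 / 40

end Vale.Agent.P347
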