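import Vale.Agent.P347.Neumann

/-!
P347: few powers of a symmetric positive contraction replace a long block of them, by Lagrange
interpolation in the exponent.
-/

namespace Vale.Agent.P347.QuadOp

open Finset Neumann Polynomial

variable {H : Type*} [AddCommGroup H] [Module ℝ H]
variable {B : H →ₗ[ℝ] H →ₗ[ℝ] ℝ} {M : H →ₗ[ℝ] H}

lemma diff_pow (hM : Good B M) (p q : ℕ) (x : H) :
    ((q : ℝ) + 1) ^ p * nrm B (((M - 1) ^ p * M ^ (p * q)) x) ≤ nrm B x := by
  induction p with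
  | zero => simp
  | succ p ih =>
    have hc : Commute (M ^ q) ((M - 1) ^ p) :=
      ((Commute.refl M).sub_right (Commute.one_right M)).pow_pow q p
    have e : (M - 1) ^ (p + 1) * M ^ ((p + 1) * q)
        = (M - 1) * M ^ q * ((M - 1) ^ p * M ^ (p * q)) := by
      rw [pow_succ', add_mul, one_mul, add_comm, pow_add, mul_assoc, mul_assoc (M - 1),
        ← mul_assoc (M ^ q), hc.eq, mul_assoc ((M - 1) ^ p)]
    obtain ⟨y, hy⟩ : ∃ y, y = ((M - 1) ^ p * M ^ (p * q)) x := ⟨_, rfl⟩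
    rw [e, Module.End.mul_apply, ← hy]
    rw [← hy] at ih
    have h1 : nrm B (((M - 1) * M ^ q) y) = nrm B ((M ^ q) y - (M ^ (q + 1)) y) := by
      rw [sub_mul, one_mul, ← pow_succ', LinearMap.sub_apply, ← nrm_neg, neg_sub]
    rw [h1, pow_succ, mul_assoc]
    calc ((q : ℝ) + 1) ^ p * (((q : ℝ) + 1) * nrm B ((M ^ q) y - (M ^ (q + 1)) y))
        ≤ ((q : ℝ) + 1) ^ p * nrm B y :=
          mul_le_mul_of_nonneg_left (nrm_diff_pow hM q y) (by positivity)
      _ ≤ nrm B x := ih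

lemma diff_le (hM : Good B M) {p q s : ℕ} (h : p * q ≤ s) (x : H) :
    nrm B (((M - 1) ^ p) ((M ^ s) x)) ≤ nrm B x / ((q : ℝ) + 1) ^ p := by
  rw [le_div_iff₀ (by positivity), mul_comm]
  obtain ⟨t, rfl⟩ := Nat.exists_eq_add_of_le h
  rw [pow_add, Module.End.mul_apply, ← Module.End.mul_apply ((M - 1) ^ p)]
  exact (diff_pow hM p q _).trans (nrm_pow hM t x)

/-- The remainder of Newton's expansion of a power. -/
noncomputable def rem (M : H →ₗ[ℝ] H) (p i : ℕ) : H →ₗ[ℝ] H :=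
  M ^ i - ∑ k ∈ range p, (i.choose k : ℝ) • (M - 1) ^ k

lemma rem_zero (p : ℕ) : rem M (p + 1) 0 = 0 := by
  simp [rem, sum_range_succ']

lemma rem_succ (p i : ℕ) :
    rem M (p + 1) (i + 1) = M * rem M (p + 1) i + (i.choose p : ℝ) • (M - 1) ^ (p + 1) := by
  have e1 : ∀ k, M * (M - 1) ^ k = (M - 1) ^ (k + 1) + (M - 1) ^ k := fun k => by
    rw [pow_succ', sub_mul, one_mul, sub_add_cancel]
  simp only [rem, mul_sub, mul_sum, mul_smul_comm, e1, smul_add, sum_add_distrib, ← pow_succ']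
  rw [sum_range_succ (fun k => (i.choose k : ℝ) • (M - 1) ^ (k + 1))]
  rw [sum_range_succ' (fun k => ((i + 1).choose k : ℝ) • (M - 1) ^ k),
    sum_range_succ' (fun k => (i.choose k : ℝ) • (M - 1) ^ k)]
  simp only [Nat.choose_succ_succ, Nat.cast_add, add_smul, sum_add_distrib, Nat.choose_zero_right]
  abel

lemma rem_le (hM : Good B M) (p i : ℕ) (y : H) :
    nrm B (rem M (p + 1) i y)
      ≤ (i : ℝ) ^ (p + 1) * nrm B (((M - 1) ^ (p + 1)) y) := by
  induction i with
  | zero => simp [rem_zero, nrm_zero]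
  | succ i ih =>
    rw [rem_succ, LinearMap.add_apply, Module.End.mul_apply, LinearMap.smul_apply]
    refine (nrm_add hM _ _).trans ?_
    rw [nrm_smul, Nat.abs_cast]
    have h1 := (nrm_map hM _).trans ih
    have h2 : (i.choose p : ℝ) ≤ (i : ℝ) ^ p := by exact_mod_cast Nat.choose_le_pow i p
    have h3 : (i : ℝ) ^ (p + 1) + (i : ℝ) ^ p ≤ ((i : ℝ) + 1) ^ (p + 1) := by
      rw [pow_succ, pow_succ, ← mul_add_one]
      gcongr
      linarith
    push_cast
    calc nrm B (M (rem M (p + 1) i y)) + (i.choose p : ℝ) * nrm B (((M - 1) ^ (p + 1)) y)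
        ≤ ((i : ℝ) ^ (p + 1) + (i : ℝ) ^ p) * nrm B (((M - 1) ^ (p + 1)) y) := by
          rw [add_mul]
          exact add_le_add h1 (mul_le_mul_of_nonneg_right h2 (nrm_nonneg _))
      _ ≤ _ := mul_le_mul_of_nonneg_right h3 (nrm_nonneg _)

/-- The interpolation nodes. -/
def node (p u : ℕ) (j : Fin p) : ℝ := ((j : ℕ) * u : ℕ)

/-- The Lagrange weight of node `j` at `i`. -/
noncomputable def lag (p u i : ℕ) (j : Fin p) : ℝ :=
  (Lagrange.basis univ (node p u) j).eval (i : ℝ)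

/-- The weight of node `j` for a part. -/
noncomputable def W (p u : ℕ) (j : Fin p) : ℝ := ∑ i ∈ range (p * u), lag p u i j

lemma node_injOn {p u : ℕ} (hu : 0 < u) : Set.InjOn (node p u) (univ : Finset (Fin p)) := by
  intro a _ b _ h
  simp only [node, Nat.cast_inj] at h
  exact Fin.ext (Nat.eq_of_mul_eq_mul_right hu h)

lemma lag_sum {p u k : ℕ} (hu : 0 < u) (hk : k < p) (i : ℕ) :
    ∑ j : Fin p, lag p u i j * ((((j : ℕ) * u).choose k : ℕ) : ℝ) = (i.choose k : ℝ) := by
  set P : ℝ[X] := Polynomial.C ((k.factorial : ℝ)⁻¹) * descPochhammer ℝ k with hP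
  have hev : ∀ n : ℕ, P.eval (n : ℝ) = (n.choose k : ℝ) := fun n => by
    rw [hP, eval_mul, eval_C, descPochhammer_eval_eq_descFactorial,
      Nat.descFactorial_eq_factorial_mul_choose, Nat.cast_mul, inv_mul_cancel_left₀]
    exact_mod_cast k.factorial_ne_zero
  have hdeg : P.degree < (univ : Finset (Fin p)).card := by
    refine lt_of_le_of_lt (degree_le_natDegree) ?_
    rw [hP, natDegree_C_mul (by exact_mod_cast inv_ne_zero (Nat.cast_ne_zero.2 k.factorial_ne_zero)),
      descPochhammer_natDegree, Finset.card_univ, Fintype.card_fin]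
    exact_mod_cast hk
  have h := congrArg (eval (i : ℝ)) (Lagrange.eq_interpolate (node_injOn hu) hdeg)
  rw [hev, Lagrange.interpolate_apply, eval_finsetSum] at h
  rw [h]
  refine sum_congr rfl fun j _ => ?_
  rw [eval_mul, eval_C, node, hev, lag, mul_comm]

lemma lag_le {p u i : ℕ} (hu : 0 < u) (hi : i ≤ p * u) (j : Fin p) :
    |lag p u i j| ≤ (p : ℝ) ^ p := by
  have hp : (1 : ℝ) ≤ p := by exact_mod_cast (show 1 ≤ p from (Nat.succ_le_of_lt j.pos))
  have hu' : (0 : ℝ) < u := by exact_mod_cast hu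
  rw [lag, Lagrange.basis, eval_prod, Finset.abs_prod]
  calc ∏ l ∈ univ.erase j, |eval (i : ℝ) (Lagrange.basisDivisor (node p u j) (node p u l))|
      ≤ ∏ _l ∈ univ.erase j, (p : ℝ) := by
        refine Finset.prod_le_prod (fun _ _ => abs_nonneg _) fun l hl => ?_
        rw [Lagrange.basisDivisor, eval_mul, eval_C, eval_sub, eval_X, eval_C, abs_mul, abs_inv,
          ← div_eq_inv_mul]
        have hne : (j : ℕ) ≠ l := fun h => (Finset.ne_of_mem_erase hl) (Fin.ext h.symm)
        have h1 : (u : ℝ) ≤ |node p u j - node p u l| := by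
          simp only [node]
          push_cast
          rw [← sub_mul, abs_mul, Nat.abs_cast]
          refine le_mul_of_one_le_left hu'.le ?_
          rcases Nat.lt_or_gt_of_ne hne with h | h
          · have : ((j : ℕ) : ℝ) + 1 ≤ (l : ℕ) := by exact_mod_cast h
            rw [abs_of_neg] <;> linarith
          · have : ((l : ℕ) : ℝ) + 1 ≤ (j : ℕ) := by exact_mod_cast h
            rw [abs_of_pos] <;> linarith
        have h2 : |(i : ℝ) - node p u l| ≤ p * u := by
          have a : (i : ℝ) ≤ p * u := by exact_mod_cast hi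
          have b : node p u l ≤ p * u := by
            simp only [node]; exact_mod_cast Nat.mul_le_mul_right u l.isLt.le
          have c : 0 ≤ node p u l := Nat.cast_nonneg _
          rw [abs_le]
          constructor <;> linarith [(i.cast_nonneg : (0 : ℝ) ≤ i)]
        rw [div_le_iff₀ (hu'.trans_le h1)]
        exact h2.trans (mul_le_mul_of_nonneg_left h1 (by positivity))
    _ ≤ (p : ℝ) ^ p := by
        rw [Finset.prod_const]
        refine pow_le_pow_right₀ hp ?_
        simp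

lemma W_le (p u : ℕ) (hu : 0 < u) (j : Fin p) : |W p u j| ≤ (p * u : ℕ) * (p : ℝ) ^ p := by
  refine (abs_sum_le_sum_abs _ _).trans ?_
  refine (sum_le_sum fun i hi => lag_le hu (by simp at hi; omega) j).trans ?_
  simp

/-- A part of `p u` consecutive powers is `p` powers up to a small error. -/
lemma part_le (hM : Good B M) (p : ℕ) {u m s : ℕ} (hu : 0 < u) (hm : 0 < m)
    (hs : m * ((p + 1) * u) ≤ s) (x : H) :
    nrm B (∑ i ∈ range ((p + 1) * u), (M ^ (s + i)) x
        - ∑ j : Fin (p + 1), W (p + 1) u j • (M ^ (s + (j : ℕ) * u)) x)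
      ≤ (((p + 1) * u : ℕ) : ℝ) * ((1 + (p + 1 : ℕ) * ((p + 1 : ℕ) : ℝ) ^ (p + 1))
          * (((p + 1 : ℕ) : ℝ) / m) ^ (p + 1) * nrm B x) := by
  obtain ⟨y, hy⟩ : ∃ y, y = (M ^ s) x := ⟨_, rfl⟩
  have e : ∀ t, (M ^ (s + t)) x = (M ^ t) y := fun t => by
    rw [hy, add_comm, pow_add, Module.End.mul_apply]
  have eN : ∀ t, (M ^ t) y
      = (∑ k ∈ range (p + 1), (t.choose k : ℝ) • ((M - 1) ^ k) y) + rem M (p + 1) t y := fun t => by
    simp [rem, LinearMap.sum_apply]
  have ei : ∀ i, (M ^ i) y - ∑ j : Fin (p + 1), lag (p + 1) u i j • (M ^ ((j : ℕ) * u)) y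
      = rem M (p + 1) i y
        - ∑ j : Fin (p + 1), lag (p + 1) u i j • rem M (p + 1) ((j : ℕ) * u) y := fun i => by
    simp only [eN, smul_add, sum_add_distrib, smul_sum, smul_smul]
    rw [sum_comm, sum_congr rfl fun k hk => ?_]
    · abel
    · rw [← sum_smul, lag_sum hu (mem_range.1 hk)]
  have eW : ∑ j : Fin (p + 1), W (p + 1) u j • (M ^ (s + (j : ℕ) * u)) x
      = ∑ i ∈ range ((p + 1) * u),
          ∑ j : Fin (p + 1), lag (p + 1) u i j • (M ^ ((j : ℕ) * u)) y := by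
    simp only [W, sum_smul, e]
    exact sum_comm
  rw [eW]
  simp only [e]
  rw [← sum_sub_distrib]
  refine (nrm_sum hM _ _).trans ?_
  obtain ⟨ε, hε⟩ : ∃ ε, ε = nrm B (((M - 1) ^ (p + 1)) y) := ⟨_, rfl⟩
  have hε0 : 0 ≤ ε := hε ▸ nrm_nonneg _
  have h2 : (((p + 1) * u : ℕ) : ℝ) ^ (p + 1) * ε
      ≤ (((p + 1 : ℕ) : ℝ) / m) ^ (p + 1) * nrm B x := by
    have h := diff_le (q := m * u) hM
      (show (p + 1) * (m * u) ≤ s by rw [← mul_left_comm]; exact hs) x
    rw [← hy, ← hε] at h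
    calc (((p + 1) * u : ℕ) : ℝ) ^ (p + 1) * ε
        ≤ (((p + 1) * u : ℕ) : ℝ) ^ (p + 1) * (nrm B x / (((m * u : ℕ) : ℝ) + 1) ^ (p + 1)) := by
          gcongr
      _ = ((((p + 1) * u : ℕ) : ℝ) / (((m * u : ℕ) : ℝ) + 1)) ^ (p + 1) * nrm B x := by
          rw [div_pow]; ring
      _ ≤ _ := by
          refine mul_le_mul_of_nonneg_right (pow_le_pow_left₀ (by positivity) ?_ _) (nrm_nonneg _)
          have hm' : (0 : ℝ) < m := by exact_mod_cast hm
          rw [div_le_div_iff₀ (by positivity) hm']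
          push_cast
          nlinarith
  have hr : ∀ t, t ≤ (p + 1) * u →
      nrm B (rem M (p + 1) t y) ≤ (((p + 1 : ℕ) : ℝ) / m) ^ (p + 1) * nrm B x := fun t ht => by
    refine ((rem_le hM p t y).trans ?_).trans h2
    rw [← hε]
    gcongr
  refine (sum_le_sum (g := fun _ => (1 + (p + 1 : ℕ) * ((p + 1 : ℕ) : ℝ) ^ (p + 1))
      * (((p + 1 : ℕ) : ℝ) / m) ^ (p + 1) * nrm B x) fun i hi => ?_).trans (le_of_eq (by simp))
  simp only [mem_range] at hi
  rw [ei]
  refine (nrm_sub hM _ _).trans ?_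
  refine (add_le_add (hr i hi.le) ((nrm_sum hM _ _).trans (sum_le_sum
    (g := fun _ => ((p + 1 : ℕ) : ℝ) ^ (p + 1)
      * ((((p + 1 : ℕ) : ℝ) / m) ^ (p + 1) * nrm B x)) fun j _ => ?_))).trans (le_of_eq ?_)
  · rw [nrm_smul]
    exact mul_le_mul (lag_le hu hi.le j) (hr _ (Nat.mul_le_mul_right u j.isLt.le))
      (nrm_nonneg _) (by positivity)
  · simp only [sum_const, Finset.card_univ, Fintype.card_fin, nsmul_eq_mul]
    ring

/-- The exponent of a node of the compressed sum. -/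
def texp (p m b k j : ℕ) : ℕ := (m + k) * (p * 2 ^ b) + j * 2 ^ b

lemma sum_parts {A : Type*} [AddCommMonoid A] (f : ℕ → A) (c l : ℕ) (m : ℕ) :
    ∑ k ∈ range m, ∑ i ∈ range l, f (c + k * l + i) = ∑ i ∈ range (m * l), f (c + i) := by
  induction m with
  | zero => simp
  | succ m ih =>
    rw [sum_range_succ, ih, add_mul, one_mul, sum_range_add]
    simp only [add_assoc]

lemma sum_blocks {A : Type*} [AddCommMonoid A] (f : ℕ → A) (p m n : ℕ) :
    ∑ b ∈ range n, ∑ k ∈ range m, ∑ i ∈ range (p * 2 ^ b), f ((m + k) * (p * 2 ^ b) + i)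
      = ∑ i ∈ Ico (m * p) (m * p * 2 ^ n), f i := by
  induction n with
  | zero => simp
  | succ n ih =>
    have h1 : m * p ≤ m * p * 2 ^ n := Nat.le_mul_of_pos_right _ (by positivity)
    have h2 : m * p * 2 ^ n ≤ m * p * 2 ^ (n + 1) :=
      Nat.mul_le_mul_left _ (Nat.pow_le_pow_right (by norm_num) (by omega))
    rw [sum_range_succ, ih, ← sum_Ico_consecutive f h1 h2]
    congr 1
    rw [sum_Ico_eq_sum_range, show m * p * 2 ^ (n + 1) - m * p * 2 ^ n = m * (p * 2 ^ n) by
      rw [pow_succ, ← mul_assoc (m * p), mul_two, Nat.add_sub_cancel, mul_assoc]]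
    rw [← sum_parts]
    exact sum_congr rfl fun k _ => sum_congr rfl fun i _ => by congr 1; ring

/-- A long block of powers is few powers up to a small error. -/
lemma compress (hM : Good B M) (p : ℕ) {m : ℕ} (hm : 0 < m) (n : ℕ) (x : H) :
    nrm B (∑ i ∈ Ico (m * (p + 1)) (m * (p + 1) * 2 ^ n), (M ^ i) x
        - ∑ b ∈ range n, ∑ k ∈ range m, ∑ j : Fin (p + 1),
            W (p + 1) (2 ^ b) j • (M ^ texp (p + 1) m b k j) x)
      ≤ ((m * (p + 1) * 2 ^ n : ℕ) : ℝ) * ((1 + (p + 1 : ℕ) * ((p + 1 : ℕ) : ℝ) ^ (p + 1))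
          * (((p + 1 : ℕ) : ℝ) / m) ^ (p + 1) * nrm B x) := by
  rw [← sum_blocks (fun i => (M ^ i) x), ← sum_sub_distrib]
  refine (nrm_sum hM _ _).trans ?_
  simp only [← sum_sub_distrib]
  refine (sum_le_sum fun b _ => (nrm_sum hM _ _).trans (sum_le_sum fun k _ =>
    part_le hM p (u := 2 ^ b) (by positivity) hm ?_ x)).trans ?_
  · exact Nat.mul_le_mul_right _ (Nat.le_add_right m k)
  simp only [← sum_mul]
  refine mul_le_mul_of_nonneg_right ?_ (by have := nrm_nonneg (B := B) x; positivity)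
  have h := sum_blocks (fun _ : ℕ => (1 : ℝ)) (p + 1) m n
  simp only [sum_const, card_range, nsmul_eq_mul, mul_one, Nat.card_Ico] at h
  simp only [sum_const, card_range, nsmul_eq_mul]
  rw [h]
  exact_mod_cast Nat.sub_le _ _

lemma sum_doubling (x : ℝ) (_hx : 0 ≤ x) (n : ℕ) :
    ∑ b ∈ range n, x * 2 ^ b * Real.exp (-(x * 2 ^ b))
      ≤ 2 * (Real.exp (-(x / 2)) - Real.exp (-(x * 2 ^ n / 2))) := by
  induction n with
  | zero => simp
  | succ n ih =>
    rw [sum_range_succ]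
    obtain ⟨y, hy⟩ : ∃ y, y = x * 2 ^ n := ⟨_, rfl⟩
    rw [show x * 2 ^ (n + 1) / 2 = y by rw [hy, pow_succ]; ring, ← hy]
    rw [← hy] at ih
    have h1 : Real.exp (-(y / 2)) = Real.exp (-y) * Real.exp (y / 2) := by
      rw [← Real.exp_add]; ring_nf
    nlinarith [mul_le_mul_of_nonneg_left (Real.add_one_le_exp (y / 2)) (Real.exp_nonneg (-y))]

/-- The total weight of the nodes. -/
lemma weight_le (p m n : ℕ) {h : ℝ} (hh : 0 ≤ h) :
    ∑ b ∈ range n, ∑ k ∈ range m, ∑ j : Fin (p + 1),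
        |h * W (p + 1) (2 ^ b) j * Real.exp (-(h * texp (p + 1) m b k j))|
      ≤ 2 * ((p + 1 : ℕ) : ℝ) ^ (p + 2) := by
  set P : ℝ := ((p + 1 : ℕ) : ℝ) with hP
  set x : ℝ := h * m * P with hx
  calc ∑ b ∈ range n, ∑ k ∈ range m, ∑ j : Fin (p + 1),
        |h * W (p + 1) (2 ^ b) j * Real.exp (-(h * texp (p + 1) m b k j))|
      ≤ ∑ b ∈ range n, ∑ k ∈ range m, ∑ _j : Fin (p + 1),
          h * (P * 2 ^ b * P ^ (p + 1)) * Real.exp (-(x * 2 ^ b)) := by
        refine sum_le_sum fun b _ => sum_le_sum fun k _ => sum_le_sum fun j _ => ?_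
        rw [abs_mul, abs_mul, abs_of_nonneg hh, Real.abs_exp]
        refine mul_le_mul (mul_le_mul_of_nonneg_left ?_ hh) ?_ (Real.exp_nonneg _) (by positivity)
        · refine (W_le (p + 1) (2 ^ b) (by positivity) j).trans_eq ?_
          push_cast [hP]
          ring
        · refine Real.exp_le_exp.2 (neg_le_neg ?_)
          have : m * ((p + 1) * 2 ^ b) ≤ texp (p + 1) m b k j :=
            le_add_of_le_of_nonneg (Nat.mul_le_mul_right _ (Nat.le_add_right m k)) (Nat.zero_le _)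
          rw [hx, mul_assoc, mul_assoc h, hP]
          exact mul_le_mul_of_nonneg_left (by exact_mod_cast this) hh
    _ = P ^ (p + 2) * ∑ b ∈ range n, x * 2 ^ b * Real.exp (-(x * 2 ^ b)) := by
        rw [mul_sum]
        refine sum_congr rfl fun b _ => ?_
        simp only [sum_const, card_range, Finset.card_univ, Fintype.card_fin, nsmul_eq_mul, ← hP]
        rw [hx]
        ring
    _ ≤ P ^ (p + 2) * 2 := by
        refine mul_le_mul_of_nonneg_left ((sum_doubling x (by positivity) n).trans ?_) (by positivity)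
        have h1 : Real.exp (-(x / 2)) ≤ 1 := Real.exp_le_one_iff.2 (by
          have : 0 ≤ x := by positivity
          linarith)
        linarith [Real.exp_nonneg (-(x * 2 ^ n / 2))]
    _ = 2 * P ^ (p + 2) := mul_comm _ _

end Vale.Agent.P347.QuadOp
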