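import Vale.Agent.P347.SmoothGauss
import Vale.Agent.P166W.Ibp

/-!
P347 seat A2: Gaussian moments up to order four and the Bessel inequality for two Hermite levels.
-/

namespace Vale.Agent.P347.Smooth

open MeasureTheory ProbabilityTheory Filter Function

variable {d : ℕ}

/-- Kronecker's delta. -/
noncomputable def kd (i j : Fin d) : ℝ := if i = j then 1 else 0

lemma kd_comm (i j : Fin d) : kd i j = kd j i := by simp [kd, eq_comm]

lemma iadd {α : Type*} [MeasurableSpace α] {μ : Measure α} {u v : α → ℝ} (hu : Integrable u μ)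
    (hv : Integrable v μ) : Integrable (fun w => u w + v w) μ := hu.add hv

lemma isub {α : Type*} [MeasurableSpace α] {μ : Measure α} {u v : α → ℝ} (hu : Integrable u μ)
    (hv : Integrable v μ) : Integrable (fun w => u w - v w) μ := hu.sub hv

/-! ### moments on `Fin d → ℝ` -/

lemma pg_coord (j : Fin d) : P166W.PolyGrowth fun g : Fin d → ℝ => g j := by
  refine ⟨1, 1, fun g => ?_⟩
  have := Finset.single_le_sum (f := fun q => |g q|) (fun q _ => abs_nonneg _) (Finset.mem_univ j)
  simp only [one_mul, pow_one]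
  linarith

lemma pg_const (c : ℝ) : P166W.PolyGrowth fun _ : Fin d → ℝ => c := ⟨|c|, 0, fun g => by simp⟩

lemma pg_mul {F G : (Fin d → ℝ) → ℝ} (hF : P166W.PolyGrowth F) (hG : P166W.PolyGrowth G) :
    P166W.PolyGrowth fun g => F g * G g := by
  obtain ⟨A, m, hA⟩ := hF
  obtain ⟨B, n, hB⟩ := hG
  refine ⟨A * B, m + n, fun g => ?_⟩
  rw [abs_mul, pow_add]
  calc |F g| * |G g| ≤ (A * (1 + ∑ q, |g q|) ^ m) * (B * (1 + ∑ q, |g q|) ^ n) :=
        mul_le_mul (hA g) (hB g) (abs_nonneg _) ((abs_nonneg _).trans (hA g))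
    _ = _ := by ring

lemma pg_add {F G : (Fin d → ℝ) → ℝ} (hF : P166W.PolyGrowth F) (hG : P166W.PolyGrowth G) :
    P166W.PolyGrowth fun g => F g + G g := by
  obtain ⟨A, m, hA⟩ := hF
  obtain ⟨B, n, hB⟩ := hG
  refine ⟨|A| + |B|, m + n, fun g => ?_⟩
  have h1 : (1 : ℝ) ≤ 1 + ∑ q, |g q| :=
    le_add_of_nonneg_right (Finset.sum_nonneg fun q _ => abs_nonneg _)
  calc |F g + G g| ≤ |F g| + |G g| := abs_add_le _ _
    _ ≤ |A| * (1 + ∑ q, |g q|) ^ (m + n) + |B| * (1 + ∑ q, |g q|) ^ (m + n) := by
        refine add_le_add ((hA g).trans ?_) ((hB g).trans ?_) <;>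
          refine mul_le_mul (le_abs_self _) (pow_le_pow_right₀ h1 (by omega)) (by positivity)
            (abs_nonneg _)
    _ = _ := by ring

lemma deriv_coord (g : Fin d → ℝ) (p j : Fin d) :
    HasDerivAt (fun s => update g p s j) (kd p j) (g p) := by
  by_cases h : j = p
  · subst h
    simp only [update_self, kd, if_true]
    exact hasDerivAt_id _
  · simpa [update_of_ne h, kd, Ne.symm h] using hasDerivAt_const (g p) (g j)

lemma gm1 (p : Fin d) : ∫ g, g p ∂P166W.gauss (Fin d) = 0 := by
  have h := P166W.gauss_ibp p (F := fun _ => (1 : ℝ)) (G := fun _ => 0) continuous_const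
    continuous_const (fun g => hasDerivAt_const _ _) (pg_const 1) (pg_const 0)
  simpa using h

lemma gm2 (p j : Fin d) : ∫ g, g p * g j ∂P166W.gauss (Fin d) = kd p j := by
  have h := P166W.gauss_ibp p (F := fun g => g j) (G := fun _ => kd p j) (continuous_apply j)
    continuous_const (fun g => deriv_coord g p j) (pg_coord j) (pg_const _)
  simpa using h

lemma gm3 (p j k : Fin d) : ∫ g, g p * (g j * g k) ∂P166W.gauss (Fin d) = 0 := by
  have h := P166W.gauss_ibp p (F := fun g => g j * g k)
    (G := fun g => kd p j * g k + g j * kd p k) (by fun_prop) (by fun_prop)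
    (fun g => ((deriv_coord g p j).mul (deriv_coord g p k)).congr_deriv (by simp))
    (pg_mul (pg_coord j) (pg_coord k))
    (pg_add (pg_mul (pg_const _) (pg_coord k)) (pg_mul (pg_coord j) (pg_const _)))
  rw [h, integral_add ((pg_mul (pg_const _) (pg_coord k)).integrable (by fun_prop))
    ((pg_mul (pg_coord j) (pg_const _)).integrable (by fun_prop)), integral_const_mul,
    integral_mul_const, gm1, gm1]
  simp

lemma gm4 (p j k l : Fin d) : ∫ g, g p * (g j * g k * g l) ∂P166W.gauss (Fin d)
    = kd p j * kd k l + kd p k * kd j l + kd p l * kd j k := by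
  have i1 : P166W.PolyGrowth fun g : Fin d → ℝ => kd p j * (g k * g l) :=
    pg_mul (pg_const _) (pg_mul (pg_coord k) (pg_coord l))
  have i2 : P166W.PolyGrowth fun g : Fin d → ℝ => kd p k * (g j * g l) :=
    pg_mul (pg_const _) (pg_mul (pg_coord j) (pg_coord l))
  have i3 : P166W.PolyGrowth fun g : Fin d → ℝ => kd p l * (g j * g k) :=
    pg_mul (pg_const _) (pg_mul (pg_coord j) (pg_coord k))
  have h := P166W.gauss_ibp p (F := fun g => g j * g k * g l)
    (G := fun g => kd p j * (g k * g l) + kd p k * (g j * g l) + kd p l * (g j * g k))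
    (by fun_prop) (by fun_prop)
    (fun g => (((deriv_coord g p j).mul (deriv_coord g p k)).mul (deriv_coord g p l)).congr_deriv
      (by simp; ring))
    (pg_mul (pg_mul (pg_coord j) (pg_coord k)) (pg_coord l)) (pg_add (pg_add i1 i2) i3)
  rw [h, integral_add (iadd (i1.integrable (by fun_prop)) (i2.integrable (by fun_prop)))
    (i3.integrable (by fun_prop)), integral_add (i1.integrable (by fun_prop))
    (i2.integrable (by fun_prop)), integral_const_mul, integral_const_mul, integral_const_mul,
    gm2, gm2, gm2]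

lemma integral_gam_gauss {φ : E d → ℝ} (hφ : Continuous φ) :
    ∫ w, φ w ∂gam d = ∫ g, φ (WithLp.toLp 2 g) ∂P166W.gauss (Fin d) := by
  rw [gam_eq, ← map_pi_eq_stdGaussian]
  exact integral_map (by fun_prop) hφ.aestronglyMeasurable

/-! ### functions of exponential growth -/

/-- Exponential growth. -/
def EG (φ : E d → ℝ) : Prop :=
  Continuous φ ∧ ∃ C c : ℝ, 0 ≤ C ∧ 0 ≤ c ∧ ∀ w, |φ w| ≤ C * Real.exp (c * ‖w‖)

lemma EG.cont {φ : E d → ℝ} (h : EG φ) : Continuous φ := h.1

lemma EG.integrable {φ : E d → ℝ} (h : EG φ) : Integrable φ (gam d) := by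
  obtain ⟨hc, C, c, -, -, hb⟩ := h
  exact Integrable.mono' ((integrable_exp_norm c).const_mul C) hc.aestronglyMeasurable
    (Eventually.of_forall hb)

lemma eg_const (c : ℝ) : EG fun _ : E d => c :=
  ⟨continuous_const, |c|, 0, abs_nonneg c, le_rfl, fun w => by simp⟩

lemma eg_coord (i : Fin d) : EG fun w : E d => w i := by
  refine ⟨by fun_prop, 1, 1, zero_le_one, zero_le_one, fun w => ?_⟩
  have h1 : |w i| ≤ ‖w‖ := by simpa using PiLp.norm_apply_le w i
  linarith [Real.add_one_le_exp (1 * ‖w‖)]

lemma EG.mul {φ ψ : E d → ℝ} (h1 : EG φ) (h2 : EG ψ) : EG fun w => φ w * ψ w := by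
  obtain ⟨hc, C, c, hC, hc0, hb⟩ := h1
  obtain ⟨hc', C', c', hC', hc0', hb'⟩ := h2
  refine ⟨hc.mul hc', C * C', c + c', by positivity, by positivity, fun w => ?_⟩
  rw [abs_mul, add_mul, Real.exp_add]
  calc |φ w| * |ψ w| ≤ (C * Real.exp (c * ‖w‖)) * (C' * Real.exp (c' * ‖w‖)) :=
        mul_le_mul (hb w) (hb' w) (abs_nonneg _) (by positivity)
    _ = _ := by ring

lemma EG.add {φ ψ : E d → ℝ} (h1 : EG φ) (h2 : EG ψ) : EG fun w => φ w + ψ w := by
  obtain ⟨hc, C, c, hC, hc0, hb⟩ := h1
  obtain ⟨hc', C', c', hC', hc0', hb'⟩ := h2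
  refine ⟨hc.add hc', C + C', c + c', by positivity, by positivity, fun w => ?_⟩
  have e1 : Real.exp (c * ‖w‖) ≤ Real.exp ((c + c') * ‖w‖) :=
    Real.exp_le_exp.2 (mul_le_mul_of_nonneg_right (by linarith) (norm_nonneg _))
  have e2 : Real.exp (c' * ‖w‖) ≤ Real.exp ((c + c') * ‖w‖) :=
    Real.exp_le_exp.2 (mul_le_mul_of_nonneg_right (by linarith) (norm_nonneg _))
  calc |φ w + ψ w| ≤ |φ w| + |ψ w| := abs_add_le _ _
    _ ≤ C * Real.exp ((c + c') * ‖w‖) + C' * Real.exp ((c + c') * ‖w‖) :=
        add_le_add ((hb w).trans (by gcongr)) ((hb' w).trans (by gcongr))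
    _ = _ := by ring

lemma eg_sum {ι : Type*} (s : Finset ι) {φ : ι → E d → ℝ} (h : ∀ i, EG (φ i)) :
    EG fun w => ∑ i ∈ s, φ i w := by
  classical
  induction s using Finset.induction_on with
  | empty => simpa using eg_const (d := d) 0
  | insert a s ha ih => simpa [Finset.sum_insert ha] using (h a).add ih

/-- Second Hermite functions. -/
noncomputable def herm (i j : Fin d) (w : E d) : ℝ := w i * w j - kd i j

lemma eg_herm (i j : Fin d) : EG (herm i j) := by
  have h := ((eg_coord i).mul (eg_coord j)).add (eg_const (-kd i j))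
  exact h

/-- A linear form. -/
noncomputable def lin (a : Fin d → ℝ) (w : E d) : ℝ := ∑ i, a i * w i

/-- A centred quadratic form. -/
noncomputable def chaos (A : Fin d → Fin d → ℝ) (w : E d) : ℝ := ∑ i, ∑ j, A i j * herm i j w

lemma eg_lin (a : Fin d → ℝ) : EG (lin a) :=
  eg_sum _ fun i => (eg_const (a i)).mul (eg_coord i)

lemma eg_chaos (A : Fin d → Fin d → ℝ) : EG (chaos A) :=
  eg_sum _ fun i => eg_sum _ fun j => (eg_const (A i j)).mul (eg_herm i j)

lemma m1 (i : Fin d) : ∫ w, w i ∂gam d = 0 := by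
  rw [integral_gam_gauss (eg_coord i).cont]; exact gm1 i

lemma m2 (i j : Fin d) : ∫ w, w i * w j ∂gam d = kd i j := by
  rw [integral_gam_gauss ((eg_coord i).mul (eg_coord j)).cont]; exact gm2 i j

lemma herm_zero (i j : Fin d) : ∫ w, herm i j w ∂gam d = 0 := by
  unfold herm
  rw [integral_sub ((eg_coord i).mul (eg_coord j)).integrable (eg_const _).integrable, m2]
  simp

lemma coord_herm (k i j : Fin d) : ∫ w, w k * herm i j w ∂gam d = 0 := by
  simp only [herm, mul_sub]
  rw [integral_sub ((eg_coord k).mul ((eg_coord i).mul (eg_coord j))).integrable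
    ((eg_coord k).mul (eg_const _)).integrable, integral_mul_const, m1,
    integral_gam_gauss ((eg_coord k).mul ((eg_coord i).mul (eg_coord j))).cont, gm3]
  simp

lemma herm_herm (i j k l : Fin d) :
    ∫ w, herm i j w * herm k l w ∂gam d = kd i k * kd j l + kd i l * kd j k := by
  have e : ∀ w : E d, herm i j w * herm k l w
      = w i * (w j * w k * w l) - kd k l * (w i * w j) - kd i j * herm k l w := by
    intro w; simp only [herm]; ring
  simp only [e]
  have i1 := (eg_coord i).mul (((eg_coord j).mul (eg_coord k)).mul (eg_coord l))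
  have i2 := (eg_const (kd k l)).mul ((eg_coord i).mul (eg_coord j))
  have i3 := (eg_const (kd i j)).mul (eg_herm k l)
  rw [integral_sub (isub i1.integrable i2.integrable) i3.integrable,
    integral_sub i1.integrable i2.integrable, integral_const_mul, integral_const_mul, m2,
    herm_zero, integral_gam_gauss i1.cont, gm4]
  ring

variable {f : E d → ℝ} {M : ℝ}

lemma int_f_mul (hf : Measurable f) (hM : ∀ x, |f x| ≤ M) {φ : E d → ℝ} (hφ : EG φ) :
    Integrable (fun w => f w * φ w) (gam d) :=
  hφ.integrable.bdd_mul hf.aestronglyMeasurable (c := M) (Eventually.of_forall fun x => hM x)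

lemma int_lin_left {φ : E d → ℝ} (a : Fin d → ℝ)
    (hi : ∀ i, Integrable (fun w => φ w * w i) (gam d)) :
    ∫ w, φ w * lin a w ∂gam d = ∑ i, a i * ∫ w, φ w * w i ∂gam d := by
  simp only [lin, Finset.mul_sum]
  rw [integral_finsetSum]
  · refine Finset.sum_congr rfl fun i _ => ?_
    rw [← integral_const_mul]
    exact integral_congr_ae (Eventually.of_forall fun w => by ring)
  · intro i _
    exact ((hi i).const_mul (a i)).congr (Eventually.of_forall fun w => by ring)

lemma int_chaos_left {φ : E d → ℝ} (A : Fin d → Fin d → ℝ)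
    (hi : ∀ i j, Integrable (fun w => φ w * herm i j w) (gam d)) :
    ∫ w, φ w * chaos A w ∂gam d = ∑ i, ∑ j, A i j * ∫ w, φ w * herm i j w ∂gam d := by
  simp only [chaos, Finset.mul_sum]
  have hh : ∀ i j, Integrable (fun w => φ w * (A i j * herm i j w)) (gam d) := fun i j =>
    ((hi i j).const_mul (A i j)).congr (Eventually.of_forall fun w => by ring)
  rw [integral_finsetSum _ fun i _ => integrable_finsetSum _ fun j _ => hh i j]
  refine Finset.sum_congr rfl fun i _ => ?_
  rw [integral_finsetSum _ fun j _ => hh i j]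
  refine Finset.sum_congr rfl fun j _ => ?_
  rw [← integral_const_mul]
  exact integral_congr_ae (Eventually.of_forall fun w => by ring)

lemma lin_zero (a : Fin d → ℝ) : ∫ w, lin a w ∂gam d = 0 := by
  have h := int_lin_left (φ := fun _ : E d => (1 : ℝ)) a
    (fun i => ((eg_const 1).mul (eg_coord i)).integrable)
  simpa [m1] using h

lemma chaos_zero (A : Fin d → Fin d → ℝ) : ∫ w, chaos A w ∂gam d = 0 := by
  have h := int_chaos_left (φ := fun _ : E d => (1 : ℝ)) A
    (fun i j => ((eg_const 1).mul (eg_herm i j)).integrable)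
  simpa [herm_zero] using h

lemma lin_lin (a : Fin d → ℝ) : ∫ w, lin a w * lin a w ∂gam d = ∑ i, a i ^ 2 := by
  rw [int_lin_left a fun i => ((eg_lin a).mul (eg_coord i)).integrable]
  refine Finset.sum_congr rfl fun i _ => ?_
  have h : ∫ w, lin a w * w i ∂gam d = a i := by
    have e := int_lin_left (φ := fun w : E d => w i) a
      (fun j => ((eg_coord i).mul (eg_coord j)).integrable)
    rw [integral_congr_ae (Eventually.of_forall fun w => mul_comm (lin a w) (w i)), e]
    simp [m2, kd]
  rw [h]; ring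

lemma lin_chaos (a : Fin d → ℝ) (A : Fin d → Fin d → ℝ) :
    ∫ w, lin a w * chaos A w ∂gam d = 0 := by
  rw [int_chaos_left A fun i j => ((eg_lin a).mul (eg_herm i j)).integrable]
  refine Finset.sum_eq_zero fun i _ => Finset.sum_eq_zero fun j _ => ?_
  have e := int_lin_left (φ := herm i j) a (fun k => ((eg_herm i j).mul (eg_coord k)).integrable)
  rw [integral_congr_ae (Eventually.of_forall fun w => mul_comm (lin a w) (herm i j w)), e]
  have z : ∀ k, ∫ w, herm i j w * w k ∂gam d = 0 := fun k => by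
    rw [integral_congr_ae (Eventually.of_forall fun w => mul_comm (herm i j w) (w k)), coord_herm]
  simp [z]

lemma chaos_chaos (A : Fin d → Fin d → ℝ) (hA : ∀ i j, A i j = A j i) :
    ∫ w, chaos A w * chaos A w ∂gam d = 2 * ∑ i, ∑ j, A i j ^ 2 := by
  rw [int_chaos_left A fun i j => ((eg_chaos A).mul (eg_herm i j)).integrable, Finset.mul_sum]
  refine Finset.sum_congr rfl fun i _ => ?_
  rw [Finset.mul_sum]
  refine Finset.sum_congr rfl fun j _ => ?_
  have h : ∫ w, chaos A w * herm i j w ∂gam d = A i j + A j i := by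
    have e := int_chaos_left (φ := herm i j) A
      (fun k l => ((eg_herm i j).mul (eg_herm k l)).integrable)
    rw [integral_congr_ae (Eventually.of_forall fun w => mul_comm (chaos A w) (herm i j w)), e]
    simp [herm_herm, kd, mul_add, Finset.sum_add_distrib]
  rw [h, ← hA i j]; ring

lemma integrable_smul_id (hf : Measurable f) (hM : ∀ x, |f x| ≤ M) :
    Integrable (fun w : E d => f w • w) (gam d) := by
  refine Integrable.mono' ((integrable_exp_norm (d := d) 1).const_mul M)
    (hf.aestronglyMeasurable.smul continuous_id.aestronglyMeasurable)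
    (Eventually.of_forall fun w => ?_)
  rw [norm_smul, Real.norm_eq_abs, one_mul]
  exact mul_le_mul (hM w) (by linarith [Real.add_one_le_exp ‖w‖]) (norm_nonneg _)
    ((abs_nonneg _).trans (hM w))

lemma coord_integral {u : E d → E d} (hu : Integrable u (gam d)) (i : Fin d) :
    (∫ w, u w ∂gam d) i = ∫ w, u w i ∂gam d :=
  ((EuclideanSpace.proj (𝕜 := ℝ) i).integral_comp_comm hu).symm

lemma norm_int_sq (hf : Measurable f) (hM : ∀ x, |f x| ≤ M) :
    ‖∫ w, f w • w ∂gam d‖ ^ 2 = ∑ i, (∫ w, f w * w i ∂gam d) ^ 2 := by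
  rw [EuclideanSpace.norm_sq_eq]
  refine Finset.sum_congr rfl fun i _ => ?_
  rw [coord_integral (integrable_smul_id hf hM), Real.norm_eq_abs, sq_abs]
  simp

theorem bessel (hf : Measurable f) (hM : ∀ x, |f x| ≤ M) :
    (∑ i, (∫ w, f w * w i ∂gam d) ^ 2) + (∑ i, ∑ j, (∫ w, f w * herm i j w ∂gam d) ^ 2) / 2
      ≤ (∫ w, f w * f w ∂gam d) - (∫ w, f w ∂gam d) * ∫ w, f w ∂gam d := by
  set m := ∫ w, f w ∂gam d with hm
  set a := fun i => ∫ w, f w * w i ∂gam d with ha
  set A := fun i j => ∫ w, f w * herm i j w ∂gam d with hA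
  have hsymm : ∀ i j, A i j = A j i := fun i j =>
    integral_congr_ae (Eventually.of_forall fun w => by simp [herm, kd_comm i j, mul_comm (w i)])
  have hfi : Integrable f (gam d) :=
    Integrable.of_bound hf.aestronglyMeasurable M (Eventually.of_forall fun x => hM x)
  have hff : Integrable (fun w => f w * f w) (gam d) :=
    hfi.bdd_mul hf.aestronglyMeasurable (c := M) (Eventually.of_forall fun x => hM x)
  set p := fun w => m + lin a w + (1 / 2) * chaos A w with hp
  have hfL := int_f_mul hf hM (eg_lin a)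
  have hfQ := int_f_mul hf hM (eg_chaos A)
  have hLL := ((eg_lin a).mul (eg_lin a)).integrable
  have hLQ := ((eg_lin a).mul (eg_chaos A)).integrable
  have hQQ := ((eg_chaos A).mul (eg_chaos A)).integrable
  have e1 : ∫ w, f w * p w ∂gam d = m * m + (∑ i, a i ^ 2) + (1 / 2) * ∑ i, ∑ j, A i j ^ 2 := by
    have e : ∀ w, f w * p w = m * f w + f w * lin a w + (1 / 2) * (f w * chaos A w) := fun w => by
      simp only [hp]; ring
    simp only [e]
    rw [integral_add (iadd (hfi.const_mul m) hfL) (hfQ.const_mul _), integral_add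
      (hfi.const_mul m) hfL, integral_const_mul, integral_const_mul,
      int_lin_left a fun i => int_f_mul hf hM (eg_coord i),
      int_chaos_left A fun i j => int_f_mul hf hM (eg_herm i j)]
    simp only [ha, hA, hm, sq]
  have e2 : ∫ w, p w * p w ∂gam d = m * m + (∑ i, a i ^ 2) + (1 / 2) * ∑ i, ∑ j, A i j ^ 2 := by
    have e : ∀ w, p w * p w = m * m + 2 * m * lin a w + m * chaos A w + lin a w * lin a w
        + lin a w * chaos A w + (1 / 4) * (chaos A w * chaos A w) := fun w => by
      simp only [hp]; ring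
    simp only [e]
    have j1 : Integrable (fun _ : E d => m * m) (gam d) := integrable_const _
    have j2 := (eg_lin a).integrable.const_mul (2 * m)
    have j3 := (eg_chaos A).integrable.const_mul m
    rw [integral_add (iadd (iadd (iadd (iadd j1 j2) j3) hLL) hLQ) (hQQ.const_mul _),
      integral_add (iadd (iadd (iadd j1 j2) j3) hLL) hLQ,
      integral_add (iadd (iadd j1 j2) j3) hLL, integral_add (iadd j1 j2) j3, integral_add j1 j2]
    simp only [integral_const_mul, lin_zero, chaos_zero, lin_lin, lin_chaos, chaos_chaos A hsymm]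
    simp; ring
  have hp_eg : EG p := ((eg_const m).add (eg_lin a)).add ((eg_const (1 / 2)).mul (eg_chaos A))
  have hfp := int_f_mul hf hM hp_eg
  have h0 : 0 ≤ ∫ w, (f w - p w) * (f w - p w) ∂gam d :=
    integral_nonneg fun w => mul_self_nonneg _
  have e3 : ∀ w, (f w - p w) * (f w - p w) = f w * f w - 2 * (f w * p w) + p w * p w := fun w => by
    ring
  simp only [e3] at h0
  rw [integral_add (isub hff (hfp.const_mul 2)) (hp_eg.mul hp_eg).integrable,
    integral_sub hff (hfp.const_mul 2), integral_const_mul, e1, e2] at h0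
  linarith

end Vale.Agent.P347.Smooth

namespace Vale.Agent.P347

open MeasureTheory

theorem gaussBessel : GaussBessel := by
  intro d f M hf hM
  have h := Smooth.bessel hf hM
  rw [← Smooth.norm_int_sq hf hM] at h
  exact h

end Vale.Agent.P347
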