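import Vale.Agent.P347.Interface
import Vale.Agent.P157.Gauss
import Vale.Agent.P226.Gauss

/-!
P347 seat A2: translation formula and derivatives of Gaussian averages.
-/

namespace Vale.Agent.P347.Smooth

open MeasureTheory ProbabilityTheory Filter Topology
open scoped RealInnerProductSpace

variable {d : ℕ}

lemma gam_eq (d : ℕ) : gam d = stdGaussian (E d) := rfl

instance instProb (d : ℕ) : IsProbabilityMeasure (gam d) :=
  inferInstanceAs (IsProbabilityMeasure (stdGaussian (E d)))

lemma integrable_exp_norm (c : ℝ) : Integrable (fun w : E d => Real.exp (c * ‖w‖)) (gam d) := by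
  rw [gam_eq]
  obtain ⟨C, hC, hi⟩ := IsGaussian.exists_integrable_exp_sq (stdGaussian (E d))
  refine Integrable.mono' (hi.const_mul (Real.exp (c ^ 2 / (4 * C))))
    (Continuous.aestronglyMeasurable (by fun_prop)) (Eventually.of_forall fun g => ?_)
  rw [Real.norm_eq_abs, Real.abs_exp, ← Real.exp_add, Real.exp_le_exp]
  have : 0 ≤ (c - 2 * C * ‖g‖) ^ 2 / (4 * C) := by positivity
  have e : (c - 2 * C * ‖g‖) ^ 2 / (4 * C) = c ^ 2 / (4 * C) - c * ‖g‖ + C * ‖g‖ ^ 2 := by
    field_simp; ring
  linarith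

lemma one_add_le_exp (r : ℝ) : 1 + r ≤ Real.exp r := by linarith [Real.add_one_le_exp r]

/-- Exponential weights of a translation. -/
noncomputable def tw (a w : E d) : ℝ := Real.exp (⟪a, w⟫ - ‖a‖ ^ 2 / 2)

lemma tw_nonneg (a w : E d) : 0 ≤ tw a w := (Real.exp_pos _).le

@[fun_prop]
lemma continuous_tw (a : E d) : Continuous (tw a) := by unfold tw; fun_prop

lemma tw_zero (w : E d) : tw 0 w = 1 := by simp [tw]

lemma tw_le {a w : E d} (ha : ‖a‖ ≤ 1) : tw a w ≤ Real.exp ‖w‖ := by
  refine Real.exp_le_exp.2 ?_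
  have h1 := real_inner_le_norm a w
  have h2 : ‖a‖ * ‖w‖ ≤ ‖w‖ := mul_le_of_le_one_left (norm_nonneg _) ha
  have : 0 ≤ ‖a‖ ^ 2 / 2 := by positivity
  linarith

lemma integrable_tw (a : E d) : Integrable (tw a) (gam d) := by
  refine Integrable.mono' (integrable_exp_norm ‖a‖) (continuous_tw a).aestronglyMeasurable
    (Eventually.of_forall fun w => ?_)
  rw [Real.norm_eq_abs, tw, Real.abs_exp, Real.exp_le_exp]
  have h1 := real_inner_le_norm a w
  have : 0 ≤ ‖a‖ ^ 2 / 2 := by positivity
  linarith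

lemma map_shift (a : E d) :
    (gam d).map (fun w => w + a) = (gam d).withDensity (fun w => ENNReal.ofReal (tw a w)) := by
  ext s hs
  rw [Measure.map_apply (measurable_add_const a) hs, withDensity_apply _ hs,
    ← ofReal_integral_eq_lintegral_ofReal (integrable_tw a).integrableOn
      (Eventually.of_forall fun w => tw_nonneg a w), ← integral_indicator hs,
    ← ofReal_measureReal (measure_ne_top _ _)]
  congr 1
  have hp : MeasurableSet ((fun w : E d => w + a) ⁻¹' s) := measurable_add_const a hs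
  have h := P226.gam_integral_shift a (s.indicator fun _ => (1 : ℝ))
    (measurable_const.indicator hs) 1 (fun x => by by_cases hx : x ∈ s <;> simp [hx])
  rw [← integral_indicator_one hp]
  calc ∫ w, ((fun w : E d => w + a) ⁻¹' s).indicator 1 w ∂gam d
      = ∫ w, s.indicator (fun _ => (1 : ℝ)) (w + a) ∂gam d :=
        integral_congr_ae (Eventually.of_forall fun w => by
          by_cases hw : w + a ∈ s <;> simp [hw])
    _ = ∫ w, s.indicator (fun _ => (1 : ℝ)) w * Real.exp (⟪a, w⟫ - ‖a‖ ^ 2 / 2) ∂gam d := h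
    _ = ∫ w, s.indicator (tw a) w ∂gam d :=
        integral_congr_ae (Eventually.of_forall fun w => by
          by_cases hw : w ∈ s <;> simp [hw, tw])

/-- Translation formula, for an arbitrary integrand. -/
lemma integral_shift {X : Type*} [NormedAddCommGroup X] [NormedSpace ℝ X] (Φ : E d → X) (a : E d) :
    ∫ w, Φ (w + a) ∂gam d = ∫ w, tw a w • Φ w ∂gam d := by
  have he : MeasurableEmbedding (fun w : E d => w + a) :=
    (MeasurableEquiv.addRight a).measurableEmbedding
  rw [← he.integral_map, map_shift, integral_withDensity_eq_integral_toReal_smul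
    (by fun_prop) (Eventually.of_forall fun w => ENNReal.ofReal_lt_top)]
  simp [ENNReal.toReal_ofReal, tw_nonneg]

/-! ### derivatives in the shift -/

/-- The operator `v ↦ ⟪w, v⟫ w - v`. -/
noncomputable def aop (w : E d) : E d →L[ℝ] E d :=
  (innerSL ℝ w).smulRight w - ContinuousLinearMap.id ℝ (E d)

lemma aop_apply (w v : E d) : aop w v = ⟪w, v⟫ • w - v := by
  simp [aop]

@[fun_prop]
lemma continuous_aop : Continuous (aop (d := d)) := by
  unfold aop
  exact (((ContinuousLinearMap.smulRightL ℝ (E d) (E d)).continuous₂.comp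
    (((innerSL ℝ (E := E d)).continuous).prodMk continuous_id))).sub continuous_const

lemma norm_aop_le (w : E d) : ‖aop w‖ ≤ ‖w‖ ^ 2 + 1 := by
  refine (norm_sub_le _ _).trans (add_le_add ?_ ContinuousLinearMap.norm_id_le)
  rw [ContinuousLinearMap.norm_smulRight_apply, innerSL_apply_norm, sq]

lemma hasFDerivAt_tw (a w : E d) :
    HasFDerivAt (fun b => tw b w) (tw a w • innerSL ℝ (w - a)) a := by
  have h1 : HasFDerivAt (fun b : E d => ⟪b, w⟫) (innerSL ℝ w) a := by
    refine ((innerSL ℝ w).hasFDerivAt).congr_of_eventuallyEq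
      (Eventually.of_forall fun b => ?_)
    simp [real_inner_comm]
  have h2 : HasFDerivAt (fun b : E d => ‖b‖ ^ 2 / 2) (innerSL ℝ a) a := by
    have := ((hasFDerivAt_id a).norm_sq).const_mul (1 / 2 : ℝ)
    refine (this.congr_of_eventuallyEq (Eventually.of_forall fun b => ?_)).congr_fderiv ?_
    · simp; ring
    · ext v; simp
  refine (h1.sub h2).exp.congr_fderiv ?_
  ext v
  simp [tw, inner_sub_left]

lemma bound_le {a w : E d} (ha : ‖a‖ ≤ 1) :
    ‖w - a‖ ≤ 1 + ‖w‖ ∧ (1 + ‖w‖) ^ 2 + 1 ≤ 2 * Real.exp (2 * ‖w‖) := by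
  refine ⟨(norm_sub_le _ _).trans (by linarith), ?_⟩
  have h0 := norm_nonneg w
  have h1 := one_add_le_exp ‖w‖
  have h2 : Real.exp (2 * ‖w‖) = Real.exp ‖w‖ ^ 2 := by rw [← Real.exp_nat_mul]; norm_num
  have h3 : (1 + ‖w‖) ^ 2 ≤ Real.exp ‖w‖ ^ 2 := pow_le_pow_left₀ (by linarith) h1 2
  have h4 : 1 ≤ Real.exp (2 * ‖w‖) := Real.one_le_exp (by linarith)
  linarith

/-- Derivative of the zeroth weight at `0`. -/
lemma hasFDerivAt_level0 {F : E d → ℝ} {M : ℝ} (hF : Measurable F) (hM : ∀ w, |F w| ≤ M) :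
    HasFDerivAt (fun a => ∫ w, tw a w * F w ∂gam d) (∫ w, F w • innerSL ℝ w ∂gam d) 0 := by
  have hM0 : 0 ≤ M := (abs_nonneg _).trans (hM 0)
  have h := hasFDerivAt_integral_of_dominated_of_fderiv_le (𝕜 := ℝ) (μ := gam d)
    (s := Metric.ball (0 : E d) 1) (F := fun a w => tw a w * F w)
    (F' := fun a w => (tw a w * F w) • innerSL ℝ (w - a)) (x₀ := 0)
    (bound := fun w => M * (2 * Real.exp (3 * ‖w‖)))
    (Metric.ball_mem_nhds _ one_pos)
    (Eventually.of_forall fun a => ((continuous_tw a).measurable.mul hF).aestronglyMeasurable)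
    ?_ ?_ ?_ (((integrable_exp_norm 3).const_mul 2).const_mul M) ?_
  · simpa [tw_zero] using h
  · refine Integrable.of_bound ((continuous_tw 0).measurable.mul hF).aestronglyMeasurable M
      (Eventually.of_forall fun w => ?_)
    simpa [tw_zero] using hM w
  · exact (((continuous_tw 0).measurable.mul hF).aestronglyMeasurable).smul
      (by fun_prop : Continuous fun w : E d => innerSL ℝ (w - 0)).aestronglyMeasurable
  · refine Eventually.of_forall fun w a ha => ?_
    have ha' : ‖a‖ ≤ 1 := by simpa using (mem_ball_zero_iff.1 ha).le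
    obtain ⟨b1, b2⟩ := bound_le (w := w) ha'
    have b3 : ‖w - a‖ ≤ 2 * Real.exp (2 * ‖w‖) := by
      nlinarith [norm_nonneg w, Real.one_le_exp (show 0 ≤ 2 * ‖w‖ by positivity)]
    rw [norm_smul, innerSL_apply_norm, Real.norm_eq_abs, abs_mul, abs_of_nonneg (tw_nonneg a w),
      show (3 : ℝ) * ‖w‖ = ‖w‖ + 2 * ‖w‖ by ring, Real.exp_add]
    calc tw a w * |F w| * ‖w - a‖ ≤ Real.exp ‖w‖ * M * (2 * Real.exp (2 * ‖w‖)) := by
          gcongr
          exacts [tw_le ha', hM w]
      _ = _ := by ring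
  · refine Eventually.of_forall fun w a _ => ?_
    refine ((hasFDerivAt_tw a w).mul_const (F w)).congr_fderiv ?_
    ext v
    simp
    ring

/-- Derivative of the first weight at `0`. -/
lemma hasFDerivAt_level1 {F : E d → ℝ} {M : ℝ} (hF : Measurable F) (hM : ∀ w, |F w| ≤ M) :
    HasFDerivAt (fun a => ∫ w, (tw a w * F w) • (w - a) ∂gam d) (∫ w, F w • aop w ∂gam d) 0 := by
  have hM0 : 0 ≤ M := (abs_nonneg _).trans (hM 0)
  have h := hasFDerivAt_integral_of_dominated_of_fderiv_le (𝕜 := ℝ) (μ := gam d)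
    (s := Metric.ball (0 : E d) 1) (F := fun a w => (tw a w * F w) • (w - a))
    (F' := fun a w => (tw a w * F w) • aop (w - a)) (x₀ := 0)
    (bound := fun w => M * (2 * Real.exp (3 * ‖w‖)))
    (Metric.ball_mem_nhds _ one_pos)
    (Eventually.of_forall fun a => (((continuous_tw a).measurable.mul hF).aestronglyMeasurable).smul
      (by fun_prop : Continuous fun w : E d => w - a).aestronglyMeasurable)
    ?_ ?_ ?_ (((integrable_exp_norm 3).const_mul 2).const_mul M) ?_
  · simpa [tw_zero] using h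
  · refine Integrable.mono' ((integrable_exp_norm (d := d) 1).const_mul M)
      ((((continuous_tw 0).measurable.mul hF).aestronglyMeasurable).smul
        (by fun_prop : Continuous fun w : E d => w - 0).aestronglyMeasurable)
      (Eventually.of_forall fun w => ?_)
    rw [tw_zero, one_mul, sub_zero, norm_smul, one_mul, Real.norm_eq_abs]
    refine mul_le_mul (hM w) ?_ (norm_nonneg _) hM0
    linarith [Real.add_one_le_exp ‖w‖]
  · exact (((continuous_tw 0).measurable.mul hF).aestronglyMeasurable).smul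
      (by fun_prop : Continuous fun w : E d => aop (w - 0)).aestronglyMeasurable
  · refine Eventually.of_forall fun w a ha => ?_
    have ha' : ‖a‖ ≤ 1 := by simpa using (mem_ball_zero_iff.1 ha).le
    obtain ⟨b1, b2⟩ := bound_le (w := w) ha'
    have b3 : ‖aop (w - a)‖ ≤ 2 * Real.exp (2 * ‖w‖) := by
      refine (norm_aop_le _).trans ?_
      have := pow_le_pow_left₀ (norm_nonneg _) b1 2
      linarith
    rw [norm_smul, Real.norm_eq_abs, abs_mul, abs_of_nonneg (tw_nonneg a w),
      show (3 : ℝ) * ‖w‖ = ‖w‖ + 2 * ‖w‖ by ring, Real.exp_add]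
    calc tw a w * |F w| * ‖aop (w - a)‖ ≤ Real.exp ‖w‖ * M * (2 * Real.exp (2 * ‖w‖)) := by
          gcongr
          exacts [tw_le ha', hM w]
      _ = _ := by ring
  · refine Eventually.of_forall fun w a _ => ?_
    refine (((hasFDerivAt_tw a w).mul_const (F w)).smul
      ((hasFDerivAt_id a).const_sub w)).congr_fderiv ?_
    ext1 v
    simp only [ContinuousLinearMap.add_apply, ContinuousLinearMap.smul_apply,
      ContinuousLinearMap.smulRight_apply, ContinuousLinearMap.neg_apply,
      ContinuousLinearMap.id_apply, innerSL_apply_apply, aop_apply, smul_eq_mul, id_eq, smul_sub,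
      smul_neg, smul_smul]
    module

/-! ### the smoothing -/

variable {f : E d → ℝ} {M τ : ℝ}

/-- The Hessian of `sm τ f`, as an operator. -/
noncomputable def smHessOp (τ : ℝ) (f : E d → ℝ) (x : E d) : E d →L[ℝ] E d :=
  τ⁻¹ • ∫ w, f (x + Real.sqrt τ • w) • aop w ∂gam d

lemma measurable_line (hf : Measurable f) (x : E d) (s : ℝ) :
    Measurable fun w : E d => f (x + s • w) := hf.comp (by fun_prop)

lemma sm_shift (hτ : 0 < τ) (x x' : E d) :
    sm τ f x' = ∫ w, tw ((Real.sqrt τ)⁻¹ • (x' - x)) w * f (x + Real.sqrt τ • w) ∂gam d := by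
  have hs : Real.sqrt τ ≠ 0 := (Real.sqrt_pos.2 hτ).ne'
  rw [sm]
  refine Eq.trans ?_ (integral_shift (fun w => f (x + Real.sqrt τ • w))
    ((Real.sqrt τ)⁻¹ • (x' - x)))
  refine integral_congr_ae (Eventually.of_forall fun w => congrArg f ?_)
  rw [smul_add, smul_inv_smul₀ hs]
  abel

lemma smGrad_shift (hτ : 0 < τ) (x x' : E d) :
    smGrad τ f x' = (Real.sqrt τ)⁻¹ • ∫ w, (tw ((Real.sqrt τ)⁻¹ • (x' - x)) w *
      f (x + Real.sqrt τ • w)) • (w - (Real.sqrt τ)⁻¹ • (x' - x)) ∂gam d := by
  have hs : Real.sqrt τ ≠ 0 := (Real.sqrt_pos.2 hτ).ne'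
  rw [smGrad]
  congr 1
  refine Eq.trans ?_ (Eq.trans (integral_shift
    (fun w => f (x + Real.sqrt τ • w) • (w - (Real.sqrt τ)⁻¹ • (x' - x)))
    ((Real.sqrt τ)⁻¹ • (x' - x))) (integral_congr_ae (Eventually.of_forall fun w => by
      simp [smul_smul])))
  refine integral_congr_ae (Eventually.of_forall fun w => ?_)
  simp only [smul_add, smul_inv_smul₀ hs, add_sub_cancel_right]
  congr 2
  abel

lemma hasGradientAt_sm (hf : Measurable f) (hM : ∀ x, |f x| ≤ M) (hτ : 0 < τ) (x : E d) :
    HasGradientAt (sm τ f) (smGrad τ f x) x := by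
  have hs : Real.sqrt τ ≠ 0 := (Real.sqrt_pos.2 hτ).ne'
  have h0 := hasFDerivAt_level0 (measurable_line hf x (Real.sqrt τ)) (fun w => hM _)
  have haff : HasFDerivAt (fun x' : E d => (Real.sqrt τ)⁻¹ • (x' - x))
      ((Real.sqrt τ)⁻¹ • ContinuousLinearMap.id ℝ (E d)) x :=
    ((hasFDerivAt_id x).sub_const x).fun_const_smul _
  have h1 := (HasFDerivAt.comp x (by simpa using h0) haff).congr_of_eventuallyEq
    (f₁ := sm τ f) (Eventually.of_forall fun x' => sm_shift hτ x x')
  refine (hasGradientAt_iff_hasFDerivAt).2 (h1.congr_fderiv ?_)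
  have hint : Integrable (fun w : E d => f (x + Real.sqrt τ • w) • innerSL ℝ w) (gam d) := by
    refine Integrable.mono' ((integrable_exp_norm (d := d) 1).const_mul M)
      ((measurable_line hf x _).aestronglyMeasurable.smul (by fun_prop : Continuous fun w : E d =>
        innerSL ℝ w).aestronglyMeasurable) (Eventually.of_forall fun w => ?_)
    rw [norm_smul, innerSL_apply_norm, Real.norm_eq_abs, one_mul]
    exact mul_le_mul (hM _) (by linarith [Real.add_one_le_exp ‖w‖]) (norm_nonneg _)
      ((abs_nonneg _).trans (hM x))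
  have hint2 : Integrable (fun w : E d => f (x + Real.sqrt τ • w) • w) (gam d) := by
    refine Integrable.mono' ((integrable_exp_norm (d := d) 1).const_mul M)
      ((measurable_line hf x _).aestronglyMeasurable.smul continuous_id.aestronglyMeasurable)
      (Eventually.of_forall fun w => ?_)
    rw [norm_smul, Real.norm_eq_abs, one_mul]
    exact mul_le_mul (hM _) (by linarith [Real.add_one_le_exp ‖w‖]) (norm_nonneg _)
      ((abs_nonneg _).trans (hM x))
  ext v
  simp only [ContinuousLinearMap.comp_apply, ContinuousLinearMap.smul_apply,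
    ContinuousLinearMap.id_apply, InnerProductSpace.toDual_apply_apply]
  rw [ContinuousLinearMap.integral_apply hint, smGrad, real_inner_comm, real_inner_smul_right,
    ← integral_inner hint2 v, ← integral_const_mul]
  refine integral_congr_ae (Eventually.of_forall fun w => ?_)
  simp [real_inner_smul_right, real_inner_comm w v]

lemma hasFDerivAt_smGrad (hf : Measurable f) (hM : ∀ x, |f x| ≤ M) (hτ : 0 < τ) (x : E d) :
    HasFDerivAt (smGrad τ f) (smHessOp τ f x) x := by
  have hs : Real.sqrt τ ≠ 0 := (Real.sqrt_pos.2 hτ).ne'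
  have h0 := hasFDerivAt_level1 (measurable_line hf x (Real.sqrt τ)) (fun w => hM _)
  have haff : HasFDerivAt (fun x' : E d => (Real.sqrt τ)⁻¹ • (x' - x))
      ((Real.sqrt τ)⁻¹ • ContinuousLinearMap.id ℝ (E d)) x :=
    ((hasFDerivAt_id x).sub_const x).fun_const_smul _
  have h1 := ((HasFDerivAt.comp x (by simpa using h0) haff).fun_const_smul
    (Real.sqrt τ)⁻¹).congr_of_eventuallyEq
    (f₁ := smGrad τ f) (Eventually.of_forall fun x' => smGrad_shift hτ x x')
  refine h1.congr_fderiv ?_
  ext1 v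
  simp only [smHessOp, ContinuousLinearMap.smul_apply, ContinuousLinearMap.comp_apply,
    ContinuousLinearMap.id_apply, map_smul, smul_smul]
  congr 1
  rw [← mul_inv, Real.mul_self_sqrt hτ.le]

lemma continuous_smHessOp (hf : Measurable f) (hM : ∀ x, |f x| ≤ M) (hτ : 0 < τ) :
    Continuous (smHessOp τ f) := by
  have hs : Real.sqrt τ ≠ 0 := (Real.sqrt_pos.2 hτ).ne'
  have hM0 : 0 ≤ M := (abs_nonneg _).trans (hM 0)
  unfold smHessOp
  refine (continuous_iff_continuousAt.2 ?_ : Continuous fun x => ∫ w, f (x + Real.sqrt τ • w) • aop w ∂gam d).const_smul τ⁻¹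
  intro x
  have heq : ∀ x' : E d, ∫ w, f (x' + Real.sqrt τ • w) • aop w ∂gam d
      = ∫ w, (tw ((Real.sqrt τ)⁻¹ • (x' - x)) w * f (x + Real.sqrt τ • w)) •
          aop (w - (Real.sqrt τ)⁻¹ • (x' - x)) ∂gam d := by
    intro x'
    refine Eq.trans ?_ (Eq.trans (integral_shift
      (fun w => f (x + Real.sqrt τ • w) • aop (w - (Real.sqrt τ)⁻¹ • (x' - x)))
      ((Real.sqrt τ)⁻¹ • (x' - x))) (integral_congr_ae (Eventually.of_forall fun w => by
        simp [smul_smul])))
    refine integral_congr_ae (Eventually.of_forall fun w => ?_)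
    simp only [smul_add, smul_inv_smul₀ hs, add_sub_cancel_right]
    congr 2
    abel
  rw [show (fun x' => ∫ w, f (x' + Real.sqrt τ • w) • aop w ∂gam d) = _ from funext heq]
  have hnear : ∀ᶠ x' in 𝓝 x, ‖(Real.sqrt τ)⁻¹ • (x' - x)‖ ≤ 1 := by
    have h : Tendsto (fun x' : E d => ‖(Real.sqrt τ)⁻¹ • (x' - x)‖) (𝓝 x) (𝓝 0) := by
      have : Continuous fun x' : E d => ‖(Real.sqrt τ)⁻¹ • (x' - x)‖ := by fun_prop
      simpa using this.tendsto x
    exact h.eventually (eventually_le_nhds one_pos)
  refine continuousAt_of_dominated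
    (bound := fun w => M * (2 * Real.exp (3 * ‖w‖))) ?_ ?_
    (((integrable_exp_norm 3).const_mul 2).const_mul M) ?_
  · exact Eventually.of_forall fun x' =>
      ((((continuous_tw _).measurable.mul (measurable_line hf x _))).aestronglyMeasurable).smul
        (by fun_prop : Continuous fun w : E d =>
          aop (w - (Real.sqrt τ)⁻¹ • (x' - x))).aestronglyMeasurable
  · filter_upwards [hnear] with x' hx'
    refine Eventually.of_forall fun w => ?_
    obtain ⟨b1, b2⟩ := bound_le (w := w) hx'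
    rw [norm_smul, Real.norm_eq_abs, abs_mul, abs_of_nonneg (tw_nonneg _ w),
      show (3 : ℝ) * ‖w‖ = ‖w‖ + 2 * ‖w‖ by ring, Real.exp_add]
    calc _ ≤ Real.exp ‖w‖ * M * (2 * Real.exp (2 * ‖w‖)) := by
          gcongr
          · exact tw_le hx'
          · exact hM _
          · refine (norm_aop_le _).trans ?_
            have := pow_le_pow_left₀ (norm_nonneg _) b1 2
            linarith
      _ = _ := by ring
  · refine Eventually.of_forall fun w => Continuous.continuousAt ?_
    unfold tw
    fun_prop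

end Vale.Agent.P347.Smooth
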