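import Vale.Agent.P347.StepTools

/-!
P347, seat E1: the two paths (random shift, interpolation) and their rates.
-/

namespace Vale.Agent.P347

open MeasureTheory ProbabilityTheory
open scoped RealInnerProductSpace NNReal

namespace Step

attribute [local instance] gam_isProb noise_isProb

variable {d q : ℕ} {U : E d → ℝ} {g : E d → E d} {Q : Quad q} {A ε Λ M : ℝ}

/-- The place of `z` among the inner coordinates. -/
def i0 (q : ℕ) : Fin (2 * q + 4) := ⟨0, by omega⟩

/-- The deterministic part of a step. -/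
noncomputable def aMap (Q : Quad q) (g : E d → E d) (ε : ℝ) (e : E d) (z : E d) : E d :=
  z - ε • (gQuad Q g z + e)

/-- The centred random part of a step. -/
noncomputable def xi (Q : Quad q) (g : E d → E d) (ε : ℝ) (e : E d) (z : E d)
    (x : E ((2 * q + 4) * d)) : E d :=
  -(ε • ((drift Q g z (blocks x).w - gQuad Q g z) + (corr Q g ε (blocks x) - e)))

/-- The standing hypotheses of a step. -/
structure Ctx (Q : Quad q) (U : E d → ℝ) (g : E d → E d) (A ε Λ M : ℝ) : Prop where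
  pot : Pot U g
  wt : Q.wt ≤ A
  one_le_A : 1 ≤ A
  pos : 0 < ε
  half : ε ≤ 1 / 2
  one_le : 1 ≤ Λ
  dim : Real.sqrt d ≤ Λ
  g0 : ‖g 0‖ ≤ Λ
  one_le_M : 1 ≤ M
  norm_gam : ∫ w, ‖w‖ ∂gam d ≤ M * Λ

lemma xhat_repl (ε : ℝ) (e z : E d) (x : E ((2 * q + 4) * d)) :
    xhat Q g ε (blocks (BlockLaw.repl (i0 q) z x)) = aMap Q g ε e z + xi Q g ε e z x := by
  have h1 : (blocks (BlockLaw.repl (i0 q) z x)).z = z := by
    simp [blocks, i0, BlockLaw.blk_repl]
  have h2 : (blocks (BlockLaw.repl (i0 q) z x)).w = (blocks x).w := by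
    funext i; simp [blocks, i0, BlockLaw.blk_repl]
  have h3 : corr Q g ε (blocks (BlockLaw.repl (i0 q) z x)) = corr Q g ε (blocks x) := by
    simp [corr, blocks, i0, BlockLaw.blk_repl]
  unfold xhat aMap xi
  rw [h1, h2, h3]
  module

namespace Ctx

variable (c : Ctx Q U g A ε Λ M)
include c

lemma wt_nonneg : 0 ≤ Q.wt := Finset.sum_nonneg fun _ _ => abs_nonneg _

lemma eps_le_one : ε ≤ 1 := by linarith [c.half]

lemma Λ_pos : 0 < Λ := by linarith [c.one_le]

lemma norm_g (z : E d) : ‖g z‖ ≤ Λ + ‖z‖ := (norm_g_le c.pot z).trans (by linarith [c.g0])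

lemma norm_gStar (z : E d) : ‖gStar g z‖ ≤ (1 + M) * (Λ + ‖z‖) := by
  refine (norm_gStar_le c.pot z).trans ?_
  nlinarith [c.g0, c.norm_gam, norm_nonneg z, c.one_le_M]

lemma norm_gQuad (z : E d) : ‖gQuad Q g z‖ ≤ A * ((1 + M) * (Λ + ‖z‖)) := by
  have h : ‖g 0‖ + ‖z‖ + ∫ w, ‖w‖ ∂gam d ≤ (1 + M) * (Λ + ‖z‖) := by
    nlinarith [c.g0, c.norm_gam, norm_nonneg z, c.one_le_M]
  exact (norm_gQuad_le c.pot Q z).trans ((mul_le_mul_of_nonneg_left h c.wt_nonneg).trans
    (mul_le_mul_of_nonneg_right c.wt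
      (mul_nonneg (by linarith [c.one_le_M]) (by linarith [norm_nonneg z, c.Λ_pos]))))

lemma drift_blocks_lip (z : E d) (x y : E ((2 * q + 4) * d)) :
    ‖drift Q g z (blocks x).w - drift Q g z (blocks y).w‖ ≤ A * ‖x - y‖ := by
  refine (drift_lip c.pot Q z z _ _ ‖x - y‖ fun i => ?_).trans
    (mul_le_mul_of_nonneg_right c.wt (norm_nonneg _))
  rw [sub_self, norm_zero, zero_add]
  simp only [blocks]
  rw [← BlockLaw.blk_sub]
  exact BlockLaw.norm_blk_le _ _

lemma corr_lip (x y : E ((2 * q + 4) * d)) :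
    ‖corr Q g ε (blocks x) - corr Q g ε (blocks y)‖ ≤ (3 + 2 * A) * ‖x - y‖ := by
  set b := ‖x - y‖ with hb
  have hblk : ∀ i, ‖blk x i - blk y i‖ ≤ b := fun i => by
    rw [← BlockLaw.blk_sub]; exact BlockLaw.norm_blk_le _ _
  unfold corr
  simp only [blocks]
  set u := drift Q g (blk x ⟨1, by omega⟩) fun i => blk x ⟨4 + q + i, by omega⟩
  set v := drift Q g (blk y ⟨1, by omega⟩) fun i => blk y ⟨4 + q + i, by omega⟩
  set p := blk x ⟨1, by omega⟩
  set p' := blk y ⟨1, by omega⟩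
  have hd : ‖u - v‖ ≤ A * (2 * b) :=
    (drift_lip c.pot Q _ _ _ _ (2 * b) fun i => by
      linarith [hblk ⟨1, by omega⟩, hblk ⟨4 + q + i, by omega⟩]).trans
      (mul_le_mul_of_nonneg_right c.wt (by positivity))
  have hin : ‖(p - ε • u) - (p' - ε • v)‖ ≤ b + A * (2 * b) := by
    rw [show (p - ε • u) - (p' - ε • v) = (p - p') - ε • (u - v) by module]
    refine (norm_sub_le _ _).trans (add_le_add (hblk _) ?_)
    rw [norm_smul, Real.norm_eq_abs, abs_of_pos c.pos]
    exact (mul_le_of_le_one_left (norm_nonneg _) c.eps_le_one).trans hd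
  rw [sub_sub_sub_comm]
  refine (norm_sub_le _ _).trans ?_
  have h1 := (g_lip c.pot (ouPt ε (p - ε • u) (blk x ⟨2, by omega⟩))
    (ouPt ε (p' - ε • v) (blk y ⟨2, by omega⟩))).trans (ouPt_lip c.pos.le _ _ _ _)
  have h2 := g_lip c.pot (blk x ⟨3, by omega⟩) (blk y ⟨3, by omega⟩)
  linarith [hblk ⟨2, by omega⟩, hblk ⟨3, by omega⟩]

lemma xhat_lip (x y : E ((2 * q + 4) * d)) :
    ‖xhat Q g ε (blocks x) - xhat Q g ε (blocks y)‖ ≤ (4 + 4 * A) * ‖x - y‖ := by
  have hblk : ∀ i, ‖blk x i - blk y i‖ ≤ ‖x - y‖ := fun i => by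
    rw [← BlockLaw.blk_sub]; exact BlockLaw.norm_blk_le _ _
  have hd : ‖drift Q g (blocks x).z (blocks x).w - drift Q g (blocks y).z (blocks y).w‖
      ≤ A * (2 * ‖x - y‖) :=
    (drift_lip c.pot Q _ _ _ _ (2 * ‖x - y‖) fun i => by
      simp only [blocks]
      linarith [hblk ⟨0, by omega⟩, hblk ⟨4 + i, by omega⟩]).trans
      (mul_le_mul_of_nonneg_right c.wt (by positivity))
  have hc := c.corr_lip x y
  unfold xhat
  rw [show (blocks x).z - ε • (drift Q g (blocks x).z (blocks x).w + corr Q g ε (blocks x))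
      - ((blocks y).z - ε • (drift Q g (blocks y).z (blocks y).w + corr Q g ε (blocks y)))
    = ((blocks x).z - (blocks y).z) - ε • ((drift Q g (blocks x).z (blocks x).w
      - drift Q g (blocks y).z (blocks y).w) + (corr Q g ε (blocks x) - corr Q g ε (blocks y))) by
      module]
  refine (norm_sub_le _ _).trans ?_
  rw [norm_smul, Real.norm_eq_abs, abs_of_pos c.pos]
  have h0 : ‖(blocks x).z - (blocks y).z‖ ≤ ‖x - y‖ := hblk _
  refine (add_le_add h0 ((mul_le_of_le_one_left (norm_nonneg _) c.eps_le_one).trans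
    ((norm_add_le _ _).trans (add_le_add hd hc)))).trans ?_
  linarith

lemma xi_lip (e z : E d) (x y : E ((2 * q + 4) * d)) :
    ‖xi Q g ε e z x - xi Q g ε e z y‖ ≤ ε * (3 + 3 * A) * ‖x - y‖ := by
  unfold xi
  rw [show -(ε • ((drift Q g z (blocks x).w - gQuad Q g z) + (corr Q g ε (blocks x) - e)))
      - -(ε • ((drift Q g z (blocks y).w - gQuad Q g z) + (corr Q g ε (blocks y) - e)))
    = -(ε • ((drift Q g z (blocks x).w - drift Q g z (blocks y).w)
      + (corr Q g ε (blocks x) - corr Q g ε (blocks y)))) by module]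
  rw [norm_neg, norm_smul, Real.norm_eq_abs, abs_of_pos c.pos, mul_assoc]
  refine mul_le_mul_of_nonneg_left ((norm_add_le _ _).trans
    ((add_le_add (c.drift_blocks_lip z x y) (c.corr_lip x y)).trans (le_of_eq ?_))) c.pos.le
  ring

lemma integrable_drift (z : E d) :
    Integrable (fun x => drift Q g z (blocks x).w) (noise d q) :=
  integrable_lip _ A (c.drift_blocks_lip z)

lemma integrable_corr : Integrable (fun x => corr Q g ε (blocks x)) (noise d q) :=
  integrable_lip _ (3 + 2 * A) c.corr_lip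

lemma integral_drift (z : E d) : ∫ x, drift Q g z (blocks x).w ∂noise d q = gQuad Q g z := by
  unfold drift gQuad ou
  have hc : ∀ i, Continuous fun w : E d => g (ouPt (Q.r i) z w) := fun i => by
    unfold ouPt; exact (continuous_g c.pot).comp (by fun_prop)
  have hi : ∀ i, Integrable (fun x => g (ouPt (Q.r i) z ((blocks x).w i))) (noise d q) := fun i =>
    integrable_lip _ 1 fun x y => by
      have h1 := (g_lip c.pot _ _).trans
        (ouPt_lip (Q.r_nonneg i) z z ((blocks x).w i) ((blocks y).w i))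
      have h2 : ‖(blocks x).w i - (blocks y).w i‖ ≤ ‖x - y‖ := by
        simp only [blocks]
        rw [← BlockLaw.blk_sub]; exact BlockLaw.norm_blk_le _ _
      rw [sub_self, norm_zero, zero_add] at h1
      linarith
  rw [integral_finsetSum _ fun i _ => by exact (hi i).smul (Q.a i)]
  refine Finset.sum_congr rfl fun i _ => ?_
  rw [integral_smul]
  congr 1
  exact BlockLaw.integral_blk _ _ (hc i)

lemma integral_xi (z : E d) :
    ∫ x, xi Q g ε (∫ y, corr Q g ε (blocks y) ∂noise d q) z x ∂noise d q = 0 := by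
  unfold xi
  have h1 := (c.integrable_drift z).sub (integrable_const (gQuad Q g z))
  have h2 := c.integrable_corr.sub (integrable_const (∫ y, corr Q g ε (blocks y) ∂noise d q))
  rw [integral_neg, integral_smul]
  have h3 : ∫ x, ((drift Q g z (blocks x).w - gQuad Q g z)
      + (corr Q g ε (blocks x) - ∫ y, corr Q g ε (blocks y) ∂noise d q)) ∂noise d q = 0 := by
    rw [integral_add (by exact h1) (by exact h2),
      integral_sub (c.integrable_drift z) (integrable_const _),
      integral_sub c.integrable_corr (integrable_const _), c.integral_drift z]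
    simp
  rw [h3, smul_zero, neg_zero]

lemma norm_corr_mean :
    ‖∫ x, corr Q g ε (blocks x) ∂noise d q‖ ≤ ε * (A * (1 + 2 * M)) * Λ := by
  set i1 : Fin (2 * q + 4) := ⟨1, by omega⟩
  set i2 : Fin (2 * q + 4) := ⟨2, by omega⟩
  set i3 : Fin (2 * q + 4) := ⟨3, by omega⟩
  have hblk : ∀ i (x y : E ((2 * q + 4) * d)), ‖blk x i - blk y i‖ ≤ ‖x - y‖ := fun i x y => by
    rw [← BlockLaw.blk_sub]; exact BlockLaw.norm_blk_le _ _
  have hA : Integrable (fun x => g (ouPt ε (blk x i1) (blk x i2))) (noise d q) :=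
    integrable_lip _ 2 fun x y => by
      have h := (g_lip c.pot _ _).trans
        (ouPt_lip c.pos.le (blk x i1) (blk y i1) (blk x i2) (blk y i2))
      linarith [hblk i1 x y, hblk i2 x y]
  have hB : Integrable (fun x => g (blk x i3)) (noise d q) :=
    integrable_lip _ 1 fun x y => by
      have h := g_lip c.pot (blk x i3) (blk y i3)
      linarith [hblk i3 x y]
  have hzero : ∫ x, (g (ouPt ε (blk x i1) (blk x i2)) - g (blk x i3)) ∂noise d q = 0 := by
    have he : Real.exp (-(2 * ε)) ≤ 1 := by rw [Real.exp_le_one_iff]; linarith [c.pos]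
    have hab : Real.exp (-ε) ^ 2 + Real.sqrt (1 - Real.exp (-(2 * ε))) ^ 2 = 1 := by
      rw [Real.sq_sqrt (by linarith), sq, ← Real.exp_add]; ring_nf
    rw [integral_sub hA hB, BlockLaw.integral_blk i3 g (continuous_g c.pot)]
    unfold ouPt
    rw [BlockLaw.integral_blk_comb (i := i1) (i' := i2) (by simp [i1, i2, Fin.ext_iff]) hab g
      (continuous_g c.pot), sub_self]
  have hR : ‖∫ x, corr Q g ε (blocks x) ∂noise d q‖ ≤ ∫ x, ε * ∑ i, |Q.a i| *
      (‖g 0‖ + ‖blk x i1‖ + ‖blk x ⟨4 + q + i, by omega⟩‖) ∂noise d q := by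
    have hsplit : ∫ x, corr Q g ε (blocks x) ∂noise d q = ∫ x, (corr Q g ε (blocks x)
        - (g (ouPt ε (blk x i1) (blk x i2)) - g (blk x i3))) ∂noise d q := by
      rw [integral_sub c.integrable_corr (by exact hA.sub hB), hzero, sub_zero]
    rw [hsplit]
    refine norm_integral_le_of_norm_le ?_ (Filter.Eventually.of_forall fun x => ?_)
    · refine (integrable_finsetSum _ fun i _ => ?_).const_mul ε
      refine (((integrable_const _).add ?_).add ?_).const_mul _ <;>
        exact integrable_norm_gam.mono' (Continuous.aestronglyMeasurable (by fun_prop))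
          (Filter.Eventually.of_forall fun x => by
            rw [norm_norm]; exact BlockLaw.norm_blk_le _ _)
    · simp only [corr, blocks]
      rw [sub_sub_sub_cancel_right]
      refine (g_lip c.pot _ _).trans ((ouPt_lip c.pos.le _ _ _ _).trans ?_)
      rw [sub_sub_cancel_left, norm_neg, sub_self, norm_zero, add_zero, norm_smul,
        Real.norm_eq_abs, abs_of_pos c.pos]
      refine mul_le_mul_of_nonneg_left ((norm_sum_le _ _).trans
        (Finset.sum_le_sum fun i _ => ?_)) c.pos.le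
      rw [norm_smul, Real.norm_eq_abs]
      exact mul_le_mul_of_nonneg_left (norm_g_ouPt_le c.pot (Q.r_nonneg i) _ _) (abs_nonneg _)
  refine hR.trans ?_
  have hn : ∀ i : Fin (2 * q + 4), Integrable (fun x => ‖blk x i‖) (noise d q) := fun i =>
    integrable_lip _ 1 fun x y => by
      have := abs_norm_sub_norm_le (blk x i) (blk y i)
      rw [Real.norm_eq_abs, one_mul]
      exact this.trans (hblk i x y)
  rw [integral_const_mul, mul_assoc ε]
  refine mul_le_mul_of_nonneg_left ?_ c.pos.le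
  rw [integral_finsetSum _ fun i _ => by
    exact (((integrable_const _).add (hn _)).add (hn _)).const_mul _]
  calc ∑ i, ∫ x, |Q.a i| * (‖g 0‖ + ‖blk x i1‖ + ‖blk x ⟨4 + q + i, by omega⟩‖) ∂noise d q
      ≤ ∑ i, |Q.a i| * ((1 + 2 * M) * Λ) := by
        refine Finset.sum_le_sum fun i _ => ?_
        rw [integral_const_mul]
        refine mul_le_mul_of_nonneg_left ?_ (abs_nonneg _)
        rw [integral_add (by exact (integrable_const _).add (hn _)) (hn _),
          integral_add (integrable_const _) (hn _), integral_const,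
          BlockLaw.integral_blk i1 (fun z => ‖z‖) continuous_norm,
          BlockLaw.integral_blk _ (fun z => ‖z‖) continuous_norm]
        simp
        linarith [c.g0, c.norm_gam]
    _ ≤ A * (1 + 2 * M) * Λ := by
        rw [← Finset.sum_mul, mul_assoc]
        exact mul_le_mul_of_nonneg_right c.wt (by nlinarith [c.one_le_M, c.Λ_pos])

lemma contDiff_xi (e z : E d) : ContDiff ℝ 1 (xi Q g ε e z) := by
  have hb : ∀ i : Fin (2 * q + 4), ContDiff ℝ 1 fun x : E ((2 * q + 4) * d) => blk x i :=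
    fun i => (BlockLaw.blkL i).contDiff
  have hg := contDiff_g c.pot
  unfold xi corr drift
  simp only [blocks, ouPt]
  fun_prop

lemma continuous_xi (e : E d) :
    Continuous fun p : E d × E ((2 * q + 4) * d) => xi Q g ε e p.1 p.2 := by
  have hg := continuous_g c.pot
  have hq : Continuous (gQuad Q g) :=
    (LipschitzWith.of_dist_le' (K := Q.wt) fun x y => by
      simpa [dist_eq_norm] using gQuad_lip c.pot Q x y).continuous
  unfold xi corr drift
  simp only [blocks, ouPt]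
  fun_prop

lemma continuous_aMap (e : E d) : Continuous (aMap Q g ε e) := by
  have hq : Continuous (gQuad Q g) :=
    (LipschitzWith.of_dist_le' (K := Q.wt) fun x y => by
      simpa [dist_eq_norm] using gQuad_lip c.pot Q x y).continuous
  unfold aMap; fun_prop

end Ctx

/-! ### The random shift -/

lemma shift {N : ℕ} (hGS : GaussShift) {h : E d → ℝ} {gr : E d → E d}
    {he : E d → E d →L[ℝ] E d} {B : ℝ} (hT : Test h gr he B) (a : E d → E d) (ha : Continuous a)
    (ξ : E d → E N → E d) (hξ : Continuous fun p : E d × E N => ξ p.1 p.2) (L : ℝ) (hL : 0 ≤ L)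
    (hlip : ∀ z x y, ‖ξ z x - ξ z y‖ ≤ L * ‖x - y‖) (hC : ∀ z, ContDiff ℝ 1 (ξ z))
    (h0 : ∀ z, ∫ x, ξ z x ∂gam N = 0) (K : ℝ)
    (hK : ∀ r ∈ Set.Icc (0 : ℝ) 1, ∫ z, ∫ x, frob (he (a z + r • ξ z x)) ∂gam N ∂gam d ≤ K) :
    |∫ z, ((∫ x, h (a z + ξ z x) ∂gam N) - h (a z)) ∂gam d| ≤ L ^ 2 * Real.sqrt d * K := by
  have : IsFiniteMeasure (volume.restrict (Set.Icc (0 : ℝ) 1)) := ⟨by simp⟩
  set F : ℝ → E d → ℝ := fun r z => ∫ x, frob (he (a z + r • ξ z x)) ∂gam N
  have hB : ∀ r z, ‖F r z‖ ≤ B := fun r z => by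
    refine (norm_integral_le_of_norm_le (g := fun _ => B) (integrable_const _)
      (Filter.Eventually.of_forall fun x => ?_)).trans (by simp)
    rw [Real.norm_eq_abs, abs_of_nonneg (frob_nonneg _)]
    exact hT.hess_le _
  have hcont : Continuous fun p : (ℝ × E d) × E N => frob (he (a p.1.2 + p.1.1 • ξ p.1.2 p.2)) :=
    continuous_frob.comp (hT.hess_cont.comp ((ha.comp (continuous_snd.comp continuous_fst)).add
      ((continuous_fst.comp continuous_fst).smul
        (hξ.comp ((continuous_snd.comp continuous_fst).prodMk continuous_snd)))))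
  have hm : StronglyMeasurable fun p : ℝ × E d => F p.1 p.2 :=
    hcont.stronglyMeasurable.integral_prod_right' (ν := gam N)
  have hi : Integrable (Function.uncurry F) ((volume.restrict (Set.Icc (0 : ℝ) 1)).prod (gam d)) :=
    Integrable.of_bound hm.aestronglyMeasurable B
      (Filter.Eventually.of_forall fun p => hB p.1 p.2)
  have hpt : ∀ z, ‖(∫ x, h (a z + ξ z x) ∂gam N) - h (a z)‖
      ≤ L ^ 2 * Real.sqrt d * ∫ r in Set.Icc (0 : ℝ) 1, F r z := fun z => by
    have hl : LipschitzWith L.toNNReal (ξ z) :=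
      LipschitzWith.of_dist_le' fun x y => by simpa [dist_eq_norm] using hlip z x y
    have := hGS d N (ξ z) L.toNNReal (hC z) hl (h0 z) h gr he B hT (a z)
    rwa [Real.coe_toNNReal _ hL] at this
  have hi' : Integrable (fun z => ∫ r in Set.Icc (0 : ℝ) 1, F r z) (gam d) :=
    hi.integral_prod_right
  have h1 := norm_integral_le_of_norm_le (hi'.const_mul (L ^ 2 * Real.sqrt d))
    (Filter.Eventually.of_forall hpt)
  rw [Real.norm_eq_abs, integral_const_mul, ← integral_integral_swap hi] at h1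
  refine h1.trans (mul_le_mul_of_nonneg_left ?_ (by positivity))
  calc ∫ r in Set.Icc (0 : ℝ) 1, ∫ z, F r z ∂gam d ≤ ∫ _ in Set.Icc (0 : ℝ) 1, K :=
        setIntegral_mono_on hi.integral_prod_left (integrableOn_const (hs := by simp))
          measurableSet_Icc hK
    _ = K := by simp

/-! ### The interpolation rate -/

namespace Ctx

variable (c : Ctx Q U g A ε Λ M)
include c

lemma sε_nonneg {s : ℝ} (hs : s ∈ Set.Icc (0 : ℝ) 1) : 0 ≤ s * ε := mul_nonneg hs.1 c.pos.le

lemma sε_le_one {s : ℝ} (hs : s ∈ Set.Icc (0 : ℝ) 1) : s * ε ≤ 1 :=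
  (mul_le_of_le_one_left c.pos.le hs.2).trans c.eps_le_one

lemma continuous_phiMap {DG : E d → E d →L[ℝ] E d}
    (hDG : ∀ z, HasFDerivAt (gStar g) (DG z) z ∧ ‖DG z‖ ≤ 1 / 2) (e : E d) (v : ℝ) :
    Continuous (phiMap g e ε v) := by
  have := continuous_gStar fun z => (hDG z).1
  unfold phiMap; fun_prop

lemma norm_phiMap_le {e : E d} {E0 : ℝ} (hE : 0 ≤ E0) (hen : ‖e‖ ≤ E0 * Λ) {v : ℝ}
    (hv : v ∈ Set.Icc (0 : ℝ) 1) (z : E d) :
    ‖phiMap g e ε v z‖ ≤ (2 + M + E0) * (Λ + ‖z‖) := by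
  unfold phiMap
  refine (norm_sub_le _ _).trans ?_
  rw [norm_smul, Real.norm_eq_abs, abs_of_nonneg (mul_nonneg hv.1 c.pos.le)]
  have h1 : v * ε * ‖gStar g z + e‖ ≤ (1 + M) * (Λ + ‖z‖) + E0 * Λ :=
    (mul_le_of_le_one_left (norm_nonneg _) (mul_le_one₀ hv.2 c.pos.le c.eps_le_one)).trans
      ((norm_add_le _ _).trans (add_le_add (c.norm_gStar z) hen))
  nlinarith [norm_nonneg z, c.Λ_pos]

/-- The integrand of the covariance term. -/
lemma psi_facts {DG : E d → E d →L[ℝ] E d} (hc : Continuous DG)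
    (hDG : ∀ z, HasFDerivAt (gStar g) (DG z) z ∧ ‖DG z‖ ≤ 1 / 2) :
    ∃ gψ : E d → E d, Continuous gψ ∧
      (∀ z, HasGradientAt (fun z => ⟪g z, gStar g z⟫) (gψ z) z) ∧
      ∀ z, ‖gψ z‖ ≤ (2 + M) * (Λ + ‖z‖) := by
  have hs : ContDiff ℝ 1 (gStar g) :=
    contDiff_one_iff_hasFDerivAt.2 ⟨DG, hc, fun z => (hDG z).1⟩
  have hψ : ContDiff ℝ 1 fun z => ⟪g z, gStar g z⟫ := (contDiff_g c.pot).inner ℝ hs
  refine ⟨fun z => riesz d (fderiv ℝ (fun z => ⟪g z, gStar g z⟫) z),
    (riesz d).continuous.comp (hψ.continuous_fderiv one_ne_zero),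
    fun z => ((hψ.differentiable one_ne_zero) z).hasGradientAt, fun z => ?_⟩
  simp only
  rw [show riesz d (fderiv ℝ (fun z => ⟪g z, gStar g z⟫) z)
    = (InnerProductSpace.toDual ℝ (E d)).symm (fderiv ℝ (fun z => ⟪g z, gStar g z⟫) z) from rfl,
    LinearIsometryEquiv.norm_map]
  refine ContinuousLinearMap.opNorm_le_bound _ (mul_nonneg (by linarith [c.one_le_M])
    (by linarith [norm_nonneg z, c.Λ_pos])) fun v => ?_
  rw [fderiv_inner_apply ℝ (((contDiff_g c.pot).differentiable one_ne_zero) z)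
    ((hs.differentiable one_ne_zero) z), (hDG z).1.fderiv]
  refine (norm_add_le _ _).trans ?_
  have h1 : ‖⟪g z, DG z v⟫‖ ≤ (Λ + ‖z‖) * ‖v‖ :=
    (norm_inner_le_norm _ _).trans (mul_le_mul (c.norm_g z)
      (((DG z).le_opNorm v).trans (mul_le_of_le_one_left (norm_nonneg v)
        ((hDG z).2.trans (by norm_num)))) (norm_nonneg _) (by linarith [norm_nonneg z, c.Λ_pos]))
  have h2 : ‖⟪fderiv ℝ g z v, gStar g z⟫‖ ≤ ‖v‖ * ((1 + M) * (Λ + ‖z‖)) :=
    (norm_inner_le_norm _ _).trans (mul_le_mul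
      (((fderiv ℝ g z).le_opNorm v).trans (mul_le_of_le_one_left (norm_nonneg v)
        (norm_fderiv_g_le c.pot z))) (c.norm_gStar z) (norm_nonneg _) (norm_nonneg v))
  refine (add_le_add h1 h2).trans (le_of_eq ?_)
  ring

lemma psi_growth (z : E d) : ‖⟪g z, gStar g z⟫‖ ≤ (1 + M) * (Λ + ‖z‖) ^ 2 := by
  refine (norm_inner_le_norm _ _).trans ?_
  refine (mul_le_mul (c.norm_g z) (c.norm_gStar z) (norm_nonneg _)
    (by linarith [norm_nonneg z, c.Λ_pos])).trans (le_of_eq ?_)
  ring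

lemma rate_le (hG : GibbsProb) {DG : E d → E d →L[ℝ] E d} (hc : Continuous DG)
    (hDG : ∀ z, HasFDerivAt (gStar g) (DG z) z ∧ ‖DG z‖ ≤ 1 / 2) {h : E d → ℝ}
    {gr : E d → E d} {he : E d → E d →L[ℝ] E d} {B : ℝ} (hT : Test h gr he B) {e : E d} {E0 : ℝ}
    (hE : 0 ≤ E0) (hen : ‖e‖ ≤ ε * E0 * Λ) {s : ℝ} (hs : s ∈ Set.Icc (0 : ℝ) 1) :
    |interpRate U g DG h gr e ε s|
      ≤ (∫ z, ‖gr (phiMap g e ε (1 - s) z)‖ * (ε ^ 2 * ((E0 + M + 1) * (Λ + ‖z‖)))
            ∂tilt U (s * ε))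
        + ε ^ 2 * |cov' (tilt U (s * ε)) (fun z => h (phiMap g e ε (1 - s) z))
            (fun z => ⟪g z, gStar g z⟫)| := by
  have := tilt_prob hG c.pot (c.sε_nonneg hs)
  set μ := tilt U (s * ε)
  set P := phiMap g e ε (1 - s)
  have hP : Continuous P := c.continuous_phiMap hDG e _
  have hgr : Continuous fun z => gr (P z) := (test_continuous_gr hT).comp hP
  have hs1 : 0 ≤ 1 - s := by linarith [hs.2]
  have hB : 0 ≤ B := (norm_nonneg _).trans (hT.grad_le 0)
  have hi1 : Integrable (fun z => ⟪gr (P z), e⟫) μ :=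
    integrable_tilt hG c.pot (c.sε_nonneg hs) 0 _ (hgr.inner continuous_const) (B * ‖e‖) 0
      (mul_nonneg hB (norm_nonneg e)) le_rfl fun z => by
        simpa using (norm_inner_le_norm (𝕜 := ℝ) _ _).trans
          (mul_le_mul_of_nonneg_right (hT.grad_le (P z)) (norm_nonneg e))
  have hcs := continuous_gStar fun z => (hDG z).1
  have hi2 : Integrable (fun z => ⟪gr (P z), DG z (gStar g z)⟫) μ :=
    integrable_tilt hG c.pot (c.sε_nonneg hs) 1 _ (hgr.inner (hc.clm_apply hcs))
      (B * (1 + M)) Λ (mul_nonneg hB (by linarith [c.one_le_M])) c.Λ_pos.le fun z => by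
        rw [pow_one, mul_assoc]
        refine (norm_inner_le_norm _ _).trans (mul_le_mul (hT.grad_le _) ?_ (norm_nonneg _) hB)
        exact (((DG z).le_opNorm _).trans (mul_le_of_le_one_left (norm_nonneg _)
          ((hDG z).2.trans (by norm_num)))).trans (c.norm_gStar z)
  have hmain : |ε * (∫ z, ⟪gr (P z), e⟫ ∂μ)
        + (1 - s) * ε ^ 2 * (∫ z, ⟪gr (P z), DG z (gStar g z)⟫ ∂μ)|
      ≤ ∫ z, ‖gr (P z)‖ * (ε ^ 2 * ((E0 + M + 1) * (Λ + ‖z‖))) ∂μ := by
    rw [← integral_const_mul, ← integral_const_mul, ← integral_add (hi1.const_mul _)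
      (hi2.const_mul _), ← Real.norm_eq_abs]
    refine norm_integral_le_of_norm_le ?_ (Filter.Eventually.of_forall fun z => ?_)
    · refine integrable_tilt hG c.pot (c.sε_nonneg hs) 1 _
        (hgr.norm.mul (continuous_const.mul (continuous_const.mul
          (continuous_const.add continuous_norm)))) (B * (ε ^ 2 * (E0 + M + 1))) Λ
        (mul_nonneg hB (mul_nonneg (sq_nonneg ε) (by linarith [c.one_le_M]))) c.Λ_pos.le fun z => ?_
      have hw : 0 ≤ ε ^ 2 * ((E0 + M + 1) * (Λ + ‖z‖)) :=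
        mul_nonneg (sq_nonneg ε) (mul_nonneg (by linarith [c.one_le_M])
          (by linarith [norm_nonneg z, c.Λ_pos]))
      rw [pow_one, Real.norm_eq_abs, abs_of_nonneg (mul_nonneg (norm_nonneg _) hw)]
      exact (mul_le_mul_of_nonneg_right (hT.grad_le _) hw).trans (le_of_eq (by ring))
    · rw [Real.norm_eq_abs]
      refine (abs_add_le _ _).trans ?_
      rw [abs_mul, abs_mul, abs_of_pos c.pos, abs_of_nonneg (by positivity : 0 ≤ (1 - s) * ε ^ 2)]
      have h1 : |⟪gr (P z), e⟫| ≤ ‖gr (P z)‖ * (ε * E0 * (Λ + ‖z‖)) :=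
        (abs_real_inner_le_norm _ _).trans (mul_le_mul_of_nonneg_left (hen.trans
          (mul_le_mul_of_nonneg_left (by linarith [norm_nonneg z])
            (mul_nonneg c.pos.le hE))) (norm_nonneg _))
      have h2 : |⟪gr (P z), DG z (gStar g z)⟫| ≤ ‖gr (P z)‖ * ((1 + M) * (Λ + ‖z‖)) :=
        (abs_real_inner_le_norm _ _).trans (mul_le_mul_of_nonneg_left
          ((((DG z).le_opNorm _).trans (mul_le_of_le_one_left (norm_nonneg _)
            ((hDG z).2.trans (by norm_num)))).trans (c.norm_gStar z)) (norm_nonneg _))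
      have h3 : (1 - s) * ε ^ 2 ≤ ε ^ 2 :=
        mul_le_of_le_one_left (sq_nonneg ε) (by linarith [hs.1])
      refine (add_le_add (mul_le_mul_of_nonneg_left h1 c.pos.le)
        (mul_le_mul h3 h2 (abs_nonneg _) (sq_nonneg ε))).trans (le_of_eq ?_)
      ring
  unfold interpRate
  refine (abs_add_le _ _).trans (add_le_add hmain ?_)
  rw [abs_mul, abs_of_nonneg (mul_nonneg hs.1 (sq_nonneg ε))]
  exact mul_le_mul_of_nonneg_right (mul_le_of_le_one_left (sq_nonneg ε) hs.2) (abs_nonneg _)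

end Ctx

end Step

end Vale.Agent.P347
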