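import Vale.Agent.P347.Basic
import Vale.Agent.P347.BlockLaw

/-!
P347, seat E1: growth, integrability and moment facts used in the comparison of one step.
-/

namespace Vale.Agent.P347

open MeasureTheory ProbabilityTheory
open scoped RealInnerProductSpace NNReal

namespace Step

variable {d q N : ℕ} {U : E d → ℝ} {g : E d → E d}

lemma gam_isProb (n : ℕ) : IsProbabilityMeasure (gam n) := by unfold gam; infer_instance

lemma noise_isProb (d q : ℕ) : IsProbabilityMeasure (noise d q) := gam_isProb _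

attribute [local instance] gam_isProb noise_isProb

/-! ### Scalar inequalities -/

lemma mul_le_young {F b l : ℝ} {k : ℕ} (hk : 1 ≤ k) (hF0 : 0 ≤ F) (hF1 : F ≤ 1) (hb : 0 ≤ b)
    (hl : 0 < l) : F * b ≤ l * F + b ^ k / l ^ (k - 1) := by
  rcases le_or_gt b l with h | h
  · have : F * b ≤ l * F := by nlinarith
    linarith [div_nonneg (pow_nonneg hb k) (pow_nonneg hl.le (k - 1))]
  · have h1 : F * b ≤ b := mul_le_of_le_one_left hb hF1
    have h2 : b ≤ b ^ k / l ^ (k - 1) := by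
      rw [le_div_iff₀ (pow_pos hl _)]
      calc b * l ^ (k - 1) ≤ b * b ^ (k - 1) :=
            mul_le_mul_of_nonneg_left (pow_le_pow_left₀ hl.le h.le _) hb
        _ = b ^ k := by rw [← pow_succ', Nat.sub_add_cancel hk]
    linarith [mul_nonneg hl.le hF0]

lemma pow_le_base_add (k : ℕ) {Λ x : ℝ} (hΛ : 0 < Λ) (hx : 0 ≤ x) :
    x ^ k ≤ Λ ^ k + x ^ (2 * k) / Λ ^ k := by
  rcases le_or_gt x Λ with h | h
  · linarith [pow_le_pow_left₀ hx h k, div_nonneg (pow_nonneg hx (2 * k)) (pow_nonneg hΛ.le k)]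
  · have : x ^ k ≤ x ^ (2 * k) / Λ ^ k := by
      rw [le_div_iff₀ (pow_pos hΛ _), two_mul, pow_add]
      exact mul_le_mul_of_nonneg_left (pow_le_pow_left₀ hΛ.le h.le k) (pow_nonneg hx k)
    linarith [pow_nonneg hΛ.le k]

lemma le_amgm {u F σ : ℝ} (hu : 0 ≤ u) (hσ : 0 < σ) (h : u ^ 2 ≤ F) :
    u ≤ F / (2 * σ) + σ / 2 := by
  have h1 : u ≤ u ^ 2 / (2 * σ) + σ / 2 := by
    rw [show u ^ 2 / (2 * σ) + σ / 2 = (u ^ 2 + σ ^ 2) / (2 * σ) by field_simp,
      le_div_iff₀ (by positivity)]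
    nlinarith [sq_nonneg (u - σ)]
  linarith [div_le_div_of_nonneg_right h (by positivity : (0 : ℝ) ≤ 2 * σ)]

lemma mul_le_amgm {u W F δ σ : ℝ} (hδ : 0 < δ) (hσ : 0 < σ) (h : u ^ 2 ≤ F) :
    u * W ≤ δ / (2 * σ) * F + σ / (2 * δ) * W ^ 2 := by
  have h1 : u * W ≤ δ / (2 * σ) * u ^ 2 + σ / (2 * δ) * W ^ 2 := by
    rw [show δ / (2 * σ) * u ^ 2 + σ / (2 * δ) * W ^ 2
      = ((δ * u) ^ 2 + (σ * W) ^ 2) / (2 * σ * δ) by field_simp, le_div_iff₀ (by positivity)]
    nlinarith [sq_nonneg (δ * u - σ * W)]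
  have h2 : δ / (2 * σ) * u ^ 2 ≤ δ / (2 * σ) * F :=
    mul_le_mul_of_nonneg_left h (by positivity)
  linarith

/-! ### The drift -/

lemma continuous_g (hU : Pot U g) : Continuous g := hU.lip.continuous

lemma contDiff_g (hU : Pot U g) : ContDiff ℝ 1 g := by
  have h : g = fun x => riesz d (fderiv ℝ U x) := funext fun x => by
    rw [(hU.grad x).hasFDerivAt.fderiv]
    exact ((InnerProductSpace.toDual ℝ (E d)).symm_apply_apply (g x)).symm
  rw [h]
  exact (riesz d).contDiff.comp (hU.contDiff.fderiv_right (by norm_num))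

lemma g_lip (hU : Pot U g) (x y : E d) : ‖g x - g y‖ ≤ ‖x - y‖ := by
  simpa [dist_eq_norm] using hU.lip.dist_le_mul x y

lemma norm_g_le (hU : Pot U g) (x : E d) : ‖g x‖ ≤ ‖g 0‖ + ‖x‖ := by
  have h1 := norm_le_norm_add_norm_sub' (g x) (g 0)
  have h2 := g_lip hU x 0
  rw [sub_zero] at h2
  linarith

lemma norm_fderiv_g_le (hU : Pot U g) (x : E d) : ‖fderiv ℝ g x‖ ≤ 1 := by
  simpa using norm_fderiv_le_of_lipschitz ℝ (x₀ := x) hU.lip

lemma ouPt_sub (r : ℝ) (z z' w w' : E d) :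
    ouPt r z w - ouPt r z' w'
      = Real.exp (-r) • (z - z') + Real.sqrt (1 - Real.exp (-(2 * r))) • (w - w') := by
  unfold ouPt; module

lemma ouPt_lip {r : ℝ} (hr : 0 ≤ r) (z z' w w' : E d) :
    ‖ouPt r z w - ouPt r z' w'‖ ≤ ‖z - z'‖ + ‖w - w'‖ := by
  rw [ouPt_sub]
  refine (norm_add_le _ _).trans ?_
  rw [norm_smul, norm_smul, Real.norm_eq_abs, Real.norm_eq_abs, Real.abs_exp,
    abs_of_nonneg (Real.sqrt_nonneg _)]
  have h1 : Real.exp (-r) ≤ 1 := by rw [Real.exp_le_one_iff]; linarith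
  have h2 : Real.sqrt (1 - Real.exp (-(2 * r))) ≤ 1 := by
    rw [Real.sqrt_le_one]; linarith [Real.exp_pos (-(2 * r))]
  exact add_le_add (mul_le_of_le_one_left (norm_nonneg _) h1)
    (mul_le_of_le_one_left (norm_nonneg _) h2)

lemma norm_g_ouPt_le (hU : Pot U g) {r : ℝ} (hr : 0 ≤ r) (z w : E d) :
    ‖g (ouPt r z w)‖ ≤ ‖g 0‖ + ‖z‖ + ‖w‖ := by
  have h1 := norm_g_le hU (ouPt r z w)
  have h2 := ouPt_lip hr z 0 w 0
  simp only [ouPt, smul_zero, add_zero, sub_zero] at h2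
  rw [ouPt] at h1 ⊢
  linarith

/-! ### Integrability -/

lemma integrable_pow_gam (k : ℕ) : Integrable (fun w : E N => ‖w‖ ^ k) (gam N) :=
  P157.integrable_norm_pow k

lemma integrable_norm_gam : Integrable (fun w : E N => ‖w‖) (gam N) := by
  simpa using integrable_pow_gam (N := N) 1

lemma integrable_lip {X : Type*} [NormedAddCommGroup X] [SecondCountableTopology X]
    [MeasurableSpace X] [BorelSpace X] (f : E N → X) (b : ℝ)
    (h : ∀ x y, ‖f x - f y‖ ≤ b * ‖x - y‖) : Integrable f (gam N) := by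
  have hc : Continuous f :=
    (LipschitzWith.of_dist_le' (K := b) fun x y => by simpa [dist_eq_norm] using h x y).continuous
  refine Integrable.mono' (g := fun x => ‖f 0‖ + b * ‖x‖) ?_ hc.aestronglyMeasurable
    (Filter.Eventually.of_forall fun x => ?_)
  · exact (integrable_const _).add (integrable_norm_gam.const_mul b)
  · have h1 := norm_le_norm_add_norm_sub' (f x) (f 0)
    have h2 := h x 0
    rw [sub_zero] at h2
    linarith

lemma integrable_g_ouPt (hU : Pot U g) {r : ℝ} (hr : 0 ≤ r) (z : E d) :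
    Integrable (fun w => g (ouPt r z w)) (gam d) :=
  integrable_lip _ 1 fun w w' => by
    have h1 := g_lip hU (ouPt r z w) (ouPt r z w')
    have h2 := ouPt_lip hr z z w w'
    rw [sub_self, norm_zero, zero_add] at h2
    linarith

lemma ou_lip (hU : Pot U g) {r : ℝ} (hr : 0 ≤ r) (z z' : E d) :
    ‖ou r g z - ou r g z'‖ ≤ ‖z - z'‖ := by
  unfold ou
  rw [← integral_sub (integrable_g_ouPt hU hr z) (integrable_g_ouPt hU hr z')]
  refine (norm_integral_le_of_norm_le (g := fun _ => ‖z - z'‖) (integrable_const _)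
    (Filter.Eventually.of_forall fun w => ?_)).trans (by simp)
  have h1 := g_lip hU (ouPt r z w) (ouPt r z' w)
  have h2 := ouPt_lip hr z z' w w
  rw [sub_self, norm_zero, add_zero] at h2
  linarith

lemma norm_ou_le (hU : Pot U g) {r : ℝ} (hr : 0 ≤ r) (z : E d) :
    ‖ou r g z‖ ≤ ‖g 0‖ + ‖z‖ + ∫ w, ‖w‖ ∂gam d := by
  have hn : Integrable (fun w : E d => ‖w‖) (gam d) := integrable_norm_gam
  unfold ou
  refine (norm_integral_le_of_norm_le (g := fun w => ‖g 0‖ + ‖z‖ + ‖w‖)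
    ((integrable_const _).add hn)
    (Filter.Eventually.of_forall fun w => norm_g_ouPt_le hU hr z w)).trans ?_
  rw [integral_add (integrable_const _) hn, integral_const]
  simp

lemma norm_gStar_le (hU : Pot U g) (z : E d) :
    ‖gStar g z‖ ≤ ‖g 0‖ + ‖z‖ + ∫ w, ‖w‖ ∂gam d := by
  unfold gStar
  set B := ‖g 0‖ + ‖z‖ + ∫ w, ‖w‖ ∂gam d
  refine (norm_integral_le_of_norm_le (g := fun r => Real.exp (-r) * B) ?_ ?_).trans ?_
  · exact (integrableOn_exp_neg_Ioi 0).mul_const B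
  · refine ae_restrict_of_forall_mem measurableSet_Ioi fun r hr => ?_
    rw [norm_smul, Real.norm_eq_abs, Real.abs_exp]
    exact mul_le_mul_of_nonneg_left (norm_ou_le hU (le_of_lt hr) z) (Real.exp_pos _).le
  · rw [integral_mul_const, integral_exp_neg_Ioi_zero, one_mul]

lemma continuous_gStar {DG : E d → E d →L[ℝ] E d}
    (h : ∀ z, HasFDerivAt (gStar g) (DG z) z) : Continuous (gStar g) :=
  continuous_iff_continuousAt.2 fun z => (h z).continuousAt

lemma gQuad_lip (hU : Pot U g) (Q : Quad q) (z z' : E d) :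
    ‖gQuad Q g z - gQuad Q g z'‖ ≤ Q.wt * ‖z - z'‖ := by
  unfold gQuad Quad.wt
  rw [← Finset.sum_sub_distrib, Finset.sum_mul]
  refine (norm_sum_le _ _).trans (Finset.sum_le_sum fun i _ => ?_)
  rw [← smul_sub, norm_smul, Real.norm_eq_abs]
  exact mul_le_mul_of_nonneg_left (ou_lip hU (Q.r_nonneg i) z z') (abs_nonneg _)

lemma norm_gQuad_le (hU : Pot U g) (Q : Quad q) (z : E d) :
    ‖gQuad Q g z‖ ≤ Q.wt * (‖g 0‖ + ‖z‖ + ∫ w, ‖w‖ ∂gam d) := by
  unfold gQuad Quad.wt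
  rw [Finset.sum_mul]
  refine (norm_sum_le _ _).trans (Finset.sum_le_sum fun i _ => ?_)
  rw [norm_smul, Real.norm_eq_abs]
  exact mul_le_mul_of_nonneg_left (norm_ou_le hU (Q.r_nonneg i) z) (abs_nonneg _)

lemma drift_lip (hU : Pot U g) (Q : Quad q) (z z' : E d) (w w' : Fin q → E d) (b : ℝ)
    (hb : ∀ i, ‖z - z'‖ + ‖w i - w' i‖ ≤ b) :
    ‖drift Q g z w - drift Q g z' w'‖ ≤ Q.wt * b := by
  unfold drift Quad.wt
  rw [← Finset.sum_sub_distrib, Finset.sum_mul]
  refine (norm_sum_le _ _).trans (Finset.sum_le_sum fun i _ => ?_)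
  rw [← smul_sub, norm_smul, Real.norm_eq_abs]
  exact mul_le_mul_of_nonneg_left
    ((g_lip hU _ _).trans ((ouPt_lip (Q.r_nonneg i) z z' (w i) (w' i)).trans (hb i))) (abs_nonneg _)

/-! ### Test functions -/

lemma test_lip {h : E d → ℝ} {gr : E d → E d} {he : E d → E d →L[ℝ] E d} {B : ℝ}
    (hT : Test h gr he B) (x y : E d) : |h x - h y| ≤ B * ‖x - y‖ := by
  have := convex_univ.norm_image_sub_le_of_norm_hasFDerivWithin_le (f := h)
    (f' := fun u => InnerProductSpace.toDual ℝ (E d) (gr u)) (C := B)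
    (fun u _ => (hT.grad u).hasFDerivAt.hasFDerivWithinAt)
    (fun u _ => by rw [LinearIsometryEquiv.norm_map]; exact hT.grad_le u)
    (Set.mem_univ y) (Set.mem_univ x)
  simpa using this

lemma test_continuous {h : E d → ℝ} {gr : E d → E d} {he : E d → E d →L[ℝ] E d} {B : ℝ}
    (hT : Test h gr he B) : Continuous h :=
  continuous_iff_continuousAt.2 fun x => (hT.grad x).hasFDerivAt.continuousAt

lemma test_continuous_gr {h : E d → ℝ} {gr : E d → E d} {he : E d → E d →L[ℝ] E d} {B : ℝ}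
    (hT : Test h gr he B) : Continuous gr :=
  continuous_iff_continuousAt.2 fun x => (hT.hess x).continuousAt

lemma continuous_frob : Continuous (frob (d := d)) := by unfold frob; fun_prop

lemma frob_nonneg (T : E d →L[ℝ] E d) : 0 ≤ frob T := Real.sqrt_nonneg _

/-! ### The tilted laws -/

lemma tilt_prob (hG : GibbsProb) (hU : Pot U g) {t : ℝ} (ht : 0 ≤ t) :
    IsProbabilityMeasure (tilt U t) :=
  (hG d _ _ 1 (hU.logConc ht)).1

lemma integrable_tilt (hG : GibbsProb) (hU : Pot U g) {t : ℝ} (ht : 0 ≤ t) (n : ℕ)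
    {X : Type*} [NormedAddCommGroup X] [SecondCountableTopology X]
    [MeasurableSpace X] [BorelSpace X] (f : E d → X) (hf : Continuous f) (K Λ : ℝ) (hK : 0 ≤ K)
    (hΛ : 0 ≤ Λ) (h : ∀ z, ‖f z‖ ≤ K * (Λ + ‖z‖) ^ n) : Integrable f (tilt U t) := by
  refine Integrable.mono' (((hG d _ _ 1 (hU.logConc ht)).2 n).const_mul (K * (Λ + 1) ^ n))
    hf.aestronglyMeasurable (Filter.Eventually.of_forall fun z => (h z).trans ?_)
  rw [mul_assoc, ← mul_pow]
  refine mul_le_mul_of_nonneg_left (pow_le_pow_left₀ (by positivity) ?_ n) hK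
  nlinarith [norm_nonneg z]

lemma integral_shifted_pow_le (hG : GibbsProb) (hTF : TiltFacts) (k : ℕ) :
    ∃ C : ℝ, 0 ≤ C ∧ ∀ d : ℕ, ∀ U : E d → ℝ, ∀ g : E d → E d, Pot U g → ∀ Λ t : ℝ, 1 ≤ Λ →
      Real.sqrt d ≤ Λ → ‖g 0‖ ≤ Λ → 0 ≤ t → t ≤ 1 →
        ∫ z, (Λ + ‖z‖) ^ k ∂tilt U t ≤ C * Λ ^ k := by
  obtain ⟨C, hC, hC'⟩ := hTF k
  refine ⟨2 ^ k * (2 + C), by positivity, fun d U g hU Λ t h1 hd hg ht ht1 => ?_⟩
  have hΛ : 0 < Λ := by linarith
  have := tilt_prob hG hU ht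
  have hi : Integrable (fun z : E d => ‖z‖ ^ (2 * k)) (tilt U t) :=
    integrable_tilt hG hU ht (2 * k) _ (by fun_prop) 1 0 zero_le_one le_rfl fun z => by simp
  calc ∫ z, (Λ + ‖z‖) ^ k ∂tilt U t
      ≤ ∫ z, (2 ^ k * (2 * Λ ^ k) + 2 ^ k / Λ ^ k * ‖z‖ ^ (2 * k)) ∂tilt U t := by
        refine integral_mono
          (integrable_tilt hG hU ht k _ (by fun_prop) 1 Λ zero_le_one hΛ.le fun z => by
            rw [Real.norm_eq_abs, abs_of_nonneg (by positivity)]; simp)
          ((integrable_const _).add (hi.const_mul _)) fun z => ?_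
        have h2 : (Λ + ‖z‖) ^ k ≤ 2 ^ k * (Λ ^ k + ‖z‖ ^ k) := by
          rcases le_total Λ ‖z‖ with h | h
          · calc (Λ + ‖z‖) ^ k ≤ (2 * ‖z‖) ^ k :=
                  pow_le_pow_left₀ (by positivity) (by linarith) k
              _ ≤ _ := by
                  rw [mul_pow]; gcongr; linarith [pow_nonneg hΛ.le k]
          · calc (Λ + ‖z‖) ^ k ≤ (2 * Λ) ^ k := pow_le_pow_left₀ (by positivity) (by linarith) k
              _ ≤ _ := by
                  rw [mul_pow]; gcongr; linarith [pow_nonneg (norm_nonneg z) k]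
        have h3 := mul_le_mul_of_nonneg_left (pow_le_base_add k hΛ (norm_nonneg z))
          (by positivity : (0 : ℝ) ≤ 2 ^ k)
        rw [mul_add] at h2 h3
        rw [div_mul_eq_mul_div, ← mul_div_assoc] at *
        linarith
    _ = 2 ^ k * (2 * Λ ^ k) + 2 ^ k / Λ ^ k * ∫ z, ‖z‖ ^ (2 * k) ∂tilt U t := by
        rw [integral_add (integrable_const _) (hi.const_mul _),
          integral_const_mul (2 ^ k / Λ ^ k), integral_const]
        simp
    _ ≤ 2 ^ k * (2 * Λ ^ k) + 2 ^ k / Λ ^ k * (C * Λ ^ (2 * k)) := by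
        gcongr
        exact (hC' d U g hU).2.1 Λ t hd hg ht ht1
    _ = 2 ^ k * (2 + C) * Λ ^ k := by
        rw [two_mul k, pow_add]; field_simp

lemma integral_norm_gam_le (hTF : TiltFacts) :
    ∃ M : ℝ, 1 ≤ M ∧ ∀ d : ℕ, ∀ U : E d → ℝ, ∀ g : E d → E d, Pot U g → ∀ Λ : ℝ, 1 ≤ Λ →
      Real.sqrt d ≤ Λ → ‖g 0‖ ≤ Λ → ∫ w, ‖w‖ ∂gam d ≤ M * Λ := by
  obtain ⟨C, hC, hC'⟩ := hTF 1
  refine ⟨1 + C, by linarith, fun d U g hU Λ h1 hd hg => ?_⟩
  have hΛ : 0 < Λ := by linarith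
  have h2 := (hC' d U g hU).2.1 Λ 0 hd hg le_rfl zero_le_one
  rw [(hC' d U g hU).1] at h2
  have hi := integrable_pow_gam (N := d) 2
  have hn : Integrable (fun w : E d => ‖w‖) (gam d) := integrable_norm_gam
  calc ∫ w, ‖w‖ ∂gam d ≤ ∫ w, (Λ + Λ⁻¹ * ‖w‖ ^ 2) ∂gam d := by
        refine integral_mono hn ((integrable_const _).add (hi.const_mul _)) fun w => ?_
        have := pow_le_base_add 1 hΛ (norm_nonneg w)
        simpa [div_eq_inv_mul] using this
    _ = Λ + Λ⁻¹ * ∫ w, ‖w‖ ^ 2 ∂gam d := by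
        rw [integral_add (integrable_const _) (hi.const_mul _), integral_const_mul Λ⁻¹,
          integral_const]
        simp
    _ ≤ Λ + Λ⁻¹ * (C * Λ ^ 2) := by
        gcongr
    _ = (1 + C) * Λ := by field_simp

lemma cov_eq (μ : Measure (E d)) [IsProbabilityMeasure μ] (φ ψ : E d → ℝ) (h1 : Integrable φ μ)
    (h3 : Integrable (fun x => φ x * ψ x) μ) :
    cov' μ φ ψ = ∫ x, φ x * (ψ x - ∫ u, ψ u ∂μ) ∂μ := by
  unfold cov'
  simp only [mul_sub]
  rw [integral_sub h3 (h1.mul_const _), integral_mul_const]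

lemma abs_cov_le (μ : Measure (E d)) [IsProbabilityMeasure μ] (φ ψ : E d → ℝ) {σ : ℝ} (hσ : 0 < σ)
    (h1 : Integrable φ μ) (h2 : Integrable ψ μ) (h3 : Integrable (fun x => φ x * ψ x) μ)
    (h4 : Integrable (fun x => φ x * φ x) μ) (h5 : Integrable (fun x => ψ x * ψ x) μ) :
    |cov' μ φ ψ| ≤ (cov' μ φ φ / σ + σ * cov' μ ψ ψ) / 2 := by
  set a := ∫ x, φ x ∂μ
  set b := ∫ x, ψ x ∂μ
  have key : ∀ s : ℝ, 0 ≤ cov' μ φ φ + 2 * s * cov' μ φ ψ + s ^ 2 * cov' μ ψ ψ := by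
    intro s
    have hnn : 0 ≤ ∫ x, ((φ x - a) + s * (ψ x - b)) ^ 2 ∂μ :=
      integral_nonneg fun x => sq_nonneg _
    have he : (fun x => ((φ x - a) + s * (ψ x - b)) ^ 2) = fun x =>
        (φ x * φ x + (2 * s) * (φ x * ψ x) + s ^ 2 * (ψ x * ψ x))
          + ((-2 * a - 2 * s * b) * φ x + (-2 * s * a - 2 * s ^ 2 * b) * ψ x
            + (a + s * b) ^ 2) := funext fun x => by ring
    rw [he, integral_add ((h4.fun_add (h3.const_mul _)).fun_add (h5.const_mul _))
        (((h1.const_mul _).fun_add (h2.const_mul _)).fun_add (integrable_const _)),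
      integral_add (h4.fun_add (h3.const_mul _)) (h5.const_mul _),
      integral_add h4 (h3.const_mul _),
      integral_add ((h1.const_mul _).fun_add (h2.const_mul _)) (integrable_const _),
      integral_add (h1.const_mul _) (h2.const_mul _)] at hnn
    simp only [integral_const_mul, integral_const, probReal_univ, one_smul] at hnn
    refine hnn.trans (le_of_eq ?_)
    unfold cov'
    ring
  have hp := key σ
  have hm := key (-σ)
  rw [abs_le]
  constructor <;>
    · rw [show (cov' μ φ φ / σ + σ * cov' μ ψ ψ) / 2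
        = (cov' μ φ φ + σ ^ 2 * cov' μ ψ ψ) / (2 * σ) by field_simp]
      first
        | (rw [le_div_iff₀ (by positivity)]; nlinarith)
        | (rw [← neg_div, div_le_iff₀ (by positivity)]; nlinarith)

end Step

end Vale.Agent.P347
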